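import Claimed.Agent.R286.Defs.GhBasic

/-!
# Row 286 (S0533), Fd/NuApi : RAW API of the positive tree law `ghNu` of `Defs/Gh.lean`      (helper140; prefix `gh_n_`; sorry free)

Everything is stated for the raw representative maps `rep : ℕ → Fin q → Fin q`, so it serves `GhTree.nu` (`Defs/Plc`) and `trNu` (`Defs/Tr`).
NO measurability / integrability hypothesis on the tests.

* `gh_n_pi_marg`   integrating out the coordinates of a finite product outside the range of an injection
* `gh_n_level`, `gh_n_level_sum`   one revelation: only the classes matter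
* `gh_n_const` (N)  `ν[c] = c`;   `gh_n_nonneg`  `P ≥ 0 ⟹ ν[P] ≥ 0`;   `gh_n_abs_le`  `|P| ≤ C ⟹ |ν[P]| ≤ C`
* **`gh_n_inv`** (M) + (R) + (C): for ANY map of labels `e : Fin q' → Fin q` with `rep' t a = rep' t b ↔ rep t (e a) = rep t (e b)`:
  `ghNu B ls rep G (P ∘ e) = ghNu B ls rep' (G ∘ e) P`
  (restriction to a subfamily = marginalisation, relabelling, independence of the choice of the representatives, doubling of a label by a coinciding one).
-/

set_option autoImplicit false

namespace Claimed.Agent.R286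

open MeasureTheory ProbabilityTheory
open scoped ENNReal NNReal

/-- integrating out the coordinates outside the range of an injection -/
theorem gh_n_pi_marg {X : Type} [MeasurableSpace X] (μ : Measure X) [SigmaFinite μ] {α β : Type} [Fintype α] [Fintype β]
    (e : β → α) (he : Function.Injective e) (f : α → X → ℝ) (hf : ∀ a, a ∉ Set.range e → ∫ x, f a x ∂μ = 1)
    (H : (β → X) → ℝ) :
    ∫ W : α → X, (∏ a, f a (W a)) * H (fun b => W (e b)) ∂(Measure.pi fun _ => μ)
      = ∫ W : β → X, (∏ b, f (e b) (W b)) * H W ∂(Measure.pi fun _ => μ) := by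
  classical
  let φ : β ⊕ ↥(Set.range e)ᶜ ≃ α :=
    (Equiv.sumCongr (Equiv.ofInjective e he) (Equiv.refl _)).trans (Equiv.Set.sumCompl (Set.range e))
  have hφl : ∀ b, φ (Sum.inl b) = e b := fun b => by simp [φ]
  have hφr : ∀ c, φ (Sum.inr c) = c.1 := fun c => by simp [φ]
  have h1 := (measurePreserving_arrowCongr' (fun _ : β ⊕ ↥(Set.range e)ᶜ => μ) (fun _ : α => μ) φ
    (MeasurableEquiv.refl X) (fun _ => MeasurePreserving.id μ)).integral_comp'
    (fun W : α → X => (∏ a, f a (W a)) * H (fun b => W (e b)))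
  rw [← h1]
  have h2 := (measurePreserving_sumPiEquivProdPi_symm (fun _ : β ⊕ ↥(Set.range e)ᶜ => μ)).integral_comp'
    (fun W' : β ⊕ ↥(Set.range e)ᶜ → X =>
      (fun W : α → X => (∏ a, f a (W a)) * H (fun b => W (e b)))
        ((MeasurableEquiv.arrowCongr' φ (MeasurableEquiv.refl X)) W'))
  rw [← h2]
  have h3 : ∀ p : (β → X) × (↥(Set.range e)ᶜ → X),
      (fun W : α → X => (∏ a, f a (W a)) * H (fun b => W (e b)))
        ((MeasurableEquiv.arrowCongr' φ (MeasurableEquiv.refl X))
          ((MeasurableEquiv.sumPiEquivProdPi fun _ : β ⊕ ↥(Set.range e)ᶜ => X).symm p))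
      = ((∏ b, f (e b) (p.1 b)) * H p.1) * ∏ c : ↥(Set.range e)ᶜ, f c.1 (p.2 c) := by
    intro p
    have hW : ∀ x : β ⊕ ↥(Set.range e)ᶜ, ((MeasurableEquiv.arrowCongr' φ (MeasurableEquiv.refl X))
          ((MeasurableEquiv.sumPiEquivProdPi fun _ : β ⊕ ↥(Set.range e)ᶜ => X).symm p)) (φ x)
        = Sum.elim p.1 p.2 x := by
      intro x
      simp only [MeasurableEquiv.arrowCongr', Equiv.arrowCongr', MeasurableEquiv.coe_mk]
      cases x <;> simp [MeasurableEquiv.sumPiEquivProdPi, Equiv.sumPiEquivProdPi]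
    have hWl : ∀ b, ((MeasurableEquiv.arrowCongr' φ (MeasurableEquiv.refl X))
          ((MeasurableEquiv.sumPiEquivProdPi fun _ : β ⊕ ↥(Set.range e)ᶜ => X).symm p)) (e b) = p.1 b := by
      intro b; rw [← hφl, hW]; rfl
    have hWr : ∀ c : ↥(Set.range e)ᶜ, ((MeasurableEquiv.arrowCongr' φ (MeasurableEquiv.refl X))
          ((MeasurableEquiv.sumPiEquivProdPi fun _ : β ⊕ ↥(Set.range e)ᶜ => X).symm p)) c.1 = p.2 c := by
      intro c; rw [← hφr, hW]; rfl
    simp only
    rw [← φ.prod_comp, Fintype.prod_sum_type]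
    simp only [hφl, hφr, hWl, hWr]
    ring
  simp_rw [h3]
  rw [integral_prod_mul (fun u : β → X => (∏ b, f (e b) (u b)) * H u)
    (fun v : ↥(Set.range e)ᶜ → X => ∏ c : ↥(Set.range e)ᶜ, f c.1 (v c)),
    integral_fintype_prod_eq_prod (fun (c : ↥(Set.range e)ᶜ) x => f c.1 x)]
  rw [Finset.prod_eq_one (fun c _ => hf c.1 c.2), mul_one]

/-- one level: change of representatives and pull-back of the labels -/
theorem gh_n_level {X : Type} [MeasurableSpace X] (μ : Measure X) [SigmaFinite μ] {q q' : ℕ}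
    (e : Fin q' → Fin q) (r : Fin q → Fin q) (r' : Fin q' → Fin q')
    (hr' : ∀ a, r' (r' a) = r' a) (hcls : ∀ a b, r' a = r' b ↔ r (e a) = r (e b))
    (f : Fin q → X → ℝ) (f' : Fin q' → X → ℝ) (hf : ∀ a, ∫ x, f a x ∂μ = 1) (hf' : ∀ a, ∫ x, f' a x ∂μ = 1)
    (hff : ∀ c, r' c = c → f (r (e c)) = f' c) (Φ : (Fin q' → X) → ℝ) :
    ∫ W : Fin q → X, (∏ a, f a (W a)) * Φ (fun a => W (r (e a))) ∂(Measure.pi fun _ => μ)
      = ∫ W : Fin q' → X, (∏ a, f' a (W a)) * Φ (fun a => W (r' a)) ∂(Measure.pi fun _ => μ) := by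
  classical
  let κ : {c : Fin q' // r' c = c} → Fin q := fun c => r (e c.1)
  have hκ : Function.Injective κ := by
    intro c c' h
    have h1 : r' c.1 = r' c'.1 := (hcls c.1 c'.1).2 h
    rw [c.2, c'.2] at h1
    exact Subtype.ext h1
  have L := gh_n_pi_marg μ κ hκ f (fun a _ => hf a) (fun V => Φ (fun a => V ⟨r' a, hr' a⟩))
  have R := gh_n_pi_marg μ (Subtype.val : {c : Fin q' // r' c = c} → Fin q') Subtype.val_injective f'
    (fun a _ => hf' a) (fun V => Φ (fun a => V ⟨r' a, hr' a⟩))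
  have h1 : ∀ a, κ ⟨r' a, hr' a⟩ = r (e a) := fun a => (hcls (r' a) a).1 (hr' a)
  simp only [h1] at L
  rw [L, R]
  refine integral_congr_ae (Filter.Eventually.of_forall fun V => ?_)
  simp only
  congr 1
  exact Finset.prod_congr rfl fun c _ => by rw [← hff c.1 c.2]

variable {S ι : Type} [Fintype S] [Fintype ι]

theorem gh_n_int_count {q : ℕ} (g : (Fin q → S) → ℝ) :
    letI : MeasurableSpace S := ⊤
    ∫ σ, g σ ∂(Measure.pi fun _ : Fin q => (Measure.count : Measure S)) = ∑ σ, g σ := by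
  let _ : MeasurableSpace S := ⊤
  have : MeasurableSingletonClass S := ⟨fun _ => trivial⟩
  rw [integral_fintype Integrable.of_finite]
  refine Finset.sum_congr rfl fun σ _ => ?_
  simp [Measure.real]

/-- the discrete form of `gh_n_level` -/
theorem gh_n_level_sum {q q' : ℕ}
    (e : Fin q' → Fin q) (r : Fin q → Fin q) (r' : Fin q' → Fin q')
    (hr' : ∀ a, r' (r' a) = r' a) (hcls : ∀ a b, r' a = r' b ↔ r (e a) = r (e b))
    (f : Fin q → S → ℝ) (f' : Fin q' → S → ℝ) (hf : ∀ a, ∑ x, f a x = 1) (hf' : ∀ a, ∑ x, f' a x = 1)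
    (hff : ∀ c, r' c = c → f (r (e c)) = f' c) (Φ : (Fin q' → S) → ℝ) :
    ∑ W : Fin q → S, (∏ a, f a (W a)) * Φ (fun a => W (r (e a)))
      = ∑ W : Fin q' → S, (∏ a, f' a (W a)) * Φ (fun a => W (r' a)) := by
  let _ : MeasurableSpace S := ⊤
  have : MeasurableSingletonClass S := ⟨fun _ => trivial⟩
  have hc : ∀ g : S → ℝ, ∫ x, g x ∂(Measure.count : Measure S) = ∑ x, g x := by
    intro g
    rw [integral_fintype Integrable.of_finite]
    simp [Measure.real]
  have := gh_n_level (Measure.count : Measure S) e r r' hr' hcls f f'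
    (fun a => by rw [hc]; exact hf a) (fun a => by rw [hc]; exact hf' a) hff Φ
  rw [gh_n_int_count, gh_n_int_count] at this
  exact this

theorem gh_n_DT_nonneg (B : GhB S) {q : ℕ} (l : GhLv S ι) (ls : List (GhLv S ι)) (r : Fin q → Fin q)
    (G : Fin q → S → ℝ) (W : Fin q → ι → ℝ) : 0 ≤ ghDT B l ls r G W := by
  unfold ghDT
  refine Finset.prod_nonneg fun a _ => ?_
  split_ifs
  · exact (gh_b_D_pos B l ls _ _).le
  · exact zero_le_one

theorem gh_n_DT_pos (B : GhB S) {q : ℕ} (l : GhLv S ι) (ls : List (GhLv S ι)) (r : Fin q → Fin q)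
    (G : Fin q → S → ℝ) (W : Fin q → ι → ℝ) : 0 < ghDT B l ls r G W := by
  unfold ghDT
  refine Finset.prod_pos fun a _ => ?_
  split_ifs
  · exact gh_b_D_pos B l ls _ _
  · exact zero_lt_one

theorem gh_n_Dif_integral (B : GhB S) (hB : B.Ok) (l : GhLv S ι) (ls : List (GhLv S ι)) (h : GhNn (l :: ls))
    (p : Prop) [Decidable p] (z : S → ℝ) : ∫ x, (if p then ghD B l ls z x else 1) ∂ghStd ι = 1 := by
  split_ifs
  · exact gh_b_D_integral hB h.tail l z
  · simp

theorem gh_n_Dif_integrable (B : GhB S) (hB : B.Ok) (l : GhLv S ι) (ls : List (GhLv S ι)) (h : GhNn (l :: ls))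
    (p : Prop) [Decidable p] (z : S → ℝ) : Integrable (fun x => if p then ghD B l ls z x else 1) (ghStd ι) := by
  split_ifs
  · exact gh_b_D_integrable hB h.tail l z
  · exact integrable_const _

theorem gh_n_DT_integrable (B : GhB S) (hB : B.Ok) {q : ℕ} (l : GhLv S ι) (ls : List (GhLv S ι))
    (h : GhNn (l :: ls)) (r : Fin q → Fin q) (G : Fin q → S → ℝ) :
    Integrable (ghDT B l ls r G) (Measure.pi fun _ : Fin q => ghStd ι) := by
  unfold ghDT
  exact Integrable.fintype_prod (μ := fun _ : Fin q => ghStd ι)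
    (f := fun a x => if r a = a then ghD B l ls (G a) x else 1)
    (fun a => gh_n_Dif_integrable B hB l ls h _ _)

theorem gh_n_DT_integral (B : GhB S) (hB : B.Ok) {q : ℕ} (l : GhLv S ι) (ls : List (GhLv S ι))
    (h : GhNn (l :: ls)) (r : Fin q → Fin q) (G : Fin q → S → ℝ) :
    ∫ W, ghDT B l ls r G W ∂(Measure.pi fun _ : Fin q => ghStd ι) = 1 := by
  unfold ghDT
  rw [integral_fintype_prod_eq_prod (μ := fun _ : Fin q => ghStd ι)
    (fun a x => if r a = a then ghD B l ls (G a) x else 1)]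
  exact Finset.prod_eq_one fun a _ => gh_n_Dif_integral B hB l ls h _ _

theorem gh_n_Gw_prod_sum (B : GhB S) (hB : B.Ok) {q : ℕ} (G : Fin q → S → ℝ) :
    ∑ σ : Fin q → S, ∏ a, ghGw B (G a) (σ a) = 1 := by
  classical
  have := Finset.prod_univ_sum (fun _ : Fin q => (Finset.univ : Finset S)) (fun a s => ghGw B (G a) s)
  rw [Fintype.piFinset_univ] at this
  rw [← this]
  exact Finset.prod_eq_one fun a _ => gh_b_Gw_sum hB _

/-- (N) normalisation -/
theorem gh_n_const (B : GhB S) (hB : B.Ok) (c : ℝ) : ∀ (ls : List (GhLv S ι)), GhNn ls → ∀ {q : ℕ}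
    (rep : ℕ → Fin q → Fin q) (G : Fin q → S → ℝ), ghNu B ls rep G (fun _ _ => c) = c
  | [], _, q, rep, G => by
      simp only [ghNu]
      rw [← Finset.sum_mul, gh_n_Gw_prod_sum B hB, one_mul]
  | l :: ls, h, q, rep, G => by
      simp only [ghNu]
      simp_rw [gh_n_const B hB c ls h.tail]
      rw [integral_mul_const, gh_n_DT_integral B hB l ls h, one_mul]

/-- positivity -/
theorem gh_n_nonneg (B : GhB S) (hB : B.Ok) : ∀ (ls : List (GhLv S ι)) {q : ℕ}
    (rep : ℕ → Fin q → Fin q) (G : Fin q → S → ℝ) (P : (ℕ → Fin q → ι → ℝ) → (Fin q → S) → ℝ),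
    (∀ η σ, 0 ≤ P η σ) → 0 ≤ ghNu B ls rep G P
  | [], q, rep, G, P, hP => by
      simp only [ghNu]
      exact Finset.sum_nonneg fun σ _ => mul_nonneg
        (Finset.prod_nonneg fun a _ => gh_b_Gw_nonneg hB _ _) (hP _ _)
  | l :: ls, q, rep, G, P, hP => by
      simp only [ghNu]
      exact integral_nonneg fun W => mul_nonneg (gh_n_DT_nonneg B l ls _ _ _)
        (gh_n_nonneg B hB ls _ _ _ fun η σ => hP _ _)

/-- sup bound -/
theorem gh_n_abs_le (B : GhB S) (hB : B.Ok) (C : ℝ) : ∀ (ls : List (GhLv S ι)), GhNn ls → ∀ {q : ℕ}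
    (rep : ℕ → Fin q → Fin q) (G : Fin q → S → ℝ) (P : (ℕ → Fin q → ι → ℝ) → (Fin q → S) → ℝ),
    (∀ η σ, |P η σ| ≤ C) → |ghNu B ls rep G P| ≤ C
  | [], _, q, rep, G, P, hP => by
      simp only [ghNu]
      calc |∑ σ : Fin q → S, (∏ a, ghGw B (G a) (σ a)) * P (fun _ _ _ => 0) fun a => σ (rep 0 a)|
          ≤ ∑ σ : Fin q → S, |(∏ a, ghGw B (G a) (σ a)) * P (fun _ _ _ => 0) fun a => σ (rep 0 a)| :=
            Finset.abs_sum_le_sum_abs _ _
        _ ≤ ∑ σ : Fin q → S, (∏ a, ghGw B (G a) (σ a)) * C := by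
            refine Finset.sum_le_sum fun σ _ => ?_
            rw [abs_mul, abs_of_nonneg (Finset.prod_nonneg fun a _ => gh_b_Gw_nonneg hB _ _)]
            exact mul_le_mul_of_nonneg_left (hP _ _) (Finset.prod_nonneg fun a _ => gh_b_Gw_nonneg hB _ _)
        _ = C := by rw [← Finset.sum_mul, gh_n_Gw_prod_sum B hB, one_mul]
  | l :: ls, h, q, rep, G, P, hP => by
      simp only [ghNu]
      have h1 := norm_integral_le_of_norm_le (μ := Measure.pi fun _ : Fin q => ghStd ι)
        (f := fun W => ghDT B l ls (rep 0) G W *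
          ghNu B ls (fun t => rep (t + 1)) (fun a => G a + l.inc (W (rep 0 a)))
            (fun η σ => P (ghCons (fun a => W (rep 0 a)) η) σ))
        ((gh_n_DT_integrable B hB l ls h (rep 0) G).mul_const C)
        (Filter.Eventually.of_forall fun W => by
          rw [Real.norm_eq_abs, abs_mul, abs_of_nonneg (gh_n_DT_nonneg B l ls _ _ _)]
          exact mul_le_mul_of_nonneg_left (gh_n_abs_le B hB C ls h.tail _ _ _ fun η σ => hP _ _)
            (gh_n_DT_nonneg B l ls _ _ _))
      rw [integral_mul_const, gh_n_DT_integral B hB l ls h, one_mul, Real.norm_eq_abs] at h1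
      exact h1

theorem GhRepOk.shift {q : ℕ} {rep : ℕ → Fin q → Fin q} (h : GhRepOk rep) : GhRepOk fun t => rep (t + 1) :=
  ⟨fun t a => h.idem (t + 1) a, fun t a b => h.mono (t + 1) a b⟩

theorem gh_n_cons_comp {α β γ : Type} (e : β → α) (x : α → γ) (η : ℕ → α → γ) :
    (fun t a => ghCons x η t (e a)) = ghCons (fun a => x (e a)) (fun t a => η t (e a)) := by
  funext t a
  cases t <;> rfl

/-- **(M), (R), (C)**: the tree law depends only on the classes; pull-back of the labels along any map `e` which is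
compatible with the classes (restriction to a subfamily, relabelling, change of the representatives, doubling of a label) -/
theorem gh_n_inv (B : GhB S) (hB : B.Ok) : ∀ (ls : List (GhLv S ι)), GhNn ls → ∀ {q q' : ℕ} (e : Fin q' → Fin q)
    (rep : ℕ → Fin q → Fin q) (rep' : ℕ → Fin q' → Fin q'), GhRepOk rep → GhRepOk rep' →
    (∀ t a b, rep' t a = rep' t b ↔ rep t (e a) = rep t (e b)) →
    ∀ (G : Fin q → S → ℝ), (∀ a b, rep 0 a = rep 0 b → G a = G b) →
    ∀ (P : (ℕ → Fin q' → ι → ℝ) → (Fin q' → S) → ℝ),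
    ghNu B ls rep G (fun η σ => P (fun t a => η t (e a)) (fun a => σ (e a))) = ghNu B ls rep' (fun a => G (e a)) P
  | [], _, q, q', e, rep, rep', hr, hr', hcls, G, hG, P => by
      simp only [ghNu]
      exact gh_n_level_sum e (rep 0) (rep' 0) (hr'.idem 0) (hcls 0) (fun a => ghGw B (G a))
        (fun a => ghGw B (G (e a))) (fun a => gh_b_Gw_sum hB _) (fun a => gh_b_Gw_sum hB _)
        (fun c _ => by rw [hG _ _ (hr.idem 0 (e c))]) (fun τ => P (fun _ _ _ => 0) τ)
  | l :: ls, h, q, q', e, rep, rep', hr, hr', hcls, G, hG, P => by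
      simp only [ghNu]
      have hin : ∀ W : Fin q → ι → ℝ,
          ghNu B ls (fun t => rep (t + 1)) (fun a => G a + l.inc (W (rep 0 a)))
            (fun η σ => P (fun t a => ghCons (fun a => W (rep 0 a)) η t (e a)) fun a => σ (e a))
          = ghNu B ls (fun t => rep' (t + 1)) (fun a => G (e a) + l.inc (W (rep 0 (e a))))
            (fun η σ => P (ghCons (fun a => W (rep 0 (e a))) η) σ) := by
        intro W
        simp_rw [gh_n_cons_comp e]
        exact gh_n_inv B hB ls h.tail e (fun t => rep (t + 1)) (fun t => rep' (t + 1)) hr.shift hr'.shift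
          (fun t => hcls (t + 1)) (fun a => G a + l.inc (W (rep 0 a)))
          (fun a b hab => by rw [hG a b (hr.mono 0 a b hab), hr.mono 0 a b hab])
          (fun η σ => P (ghCons (fun a => W (rep 0 (e a))) η) σ)
      simp_rw [hin]
      exact gh_n_level (ghStd ι) e (rep 0) (rep' 0) (hr'.idem 0) (hcls 0)
        (fun a x => if rep 0 a = a then ghD B l ls (G a) x else 1)
        (fun a x => if rep' 0 a = a then ghD B l ls (G (e a)) x else 1)
        (fun a => gh_n_Dif_integral B hB l ls h _ _) (fun a => gh_n_Dif_integral B hB l ls h _ _)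
        (fun c hc => by
          funext x
          rw [if_pos (hr.idem 0 (e c)), if_pos hc, hG _ _ (hr.idem 0 (e c))])
        (fun V => ghNu B ls (fun t => rep' (t + 1)) (fun a => G (e a) + l.inc (V a))
            (fun η σ => P (ghCons V η) σ))

end Claimed.Agent.R286
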