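import Claimed.Agent.R286.Fd.TrB1
import Claimed.Agent.R286.Fd.NuApi

/-!
# Row 286 (S0533), Fd/TrB2 : MARGINALS: pull-back along any map of labels; pruning, relabelling, deletion, coincidence (raw ghNu version: helper140, Fd/NuApi `gh_n_inv`)
architect helper150;  OWNER / PROVER of this file: helper105.
-/

set_option autoImplicit false
set_option linter.unusedSectionVars false

namespace Claimed.Agent.R286

open MeasureTheory ProbabilityTheory

/-! ### the representatives of a tree with natural labels -/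

theorem tb2_rep_rel (q : ℕ) (τ : ℕ → ℕ → ℕ) (j : ℕ) (a : Fin q) :
    trRep q τ j a = a ∨ j < τ a.1 (trRep q τ j a).1 := by
  unfold trRep
  cases h : (List.finRange q).find? fun b : Fin q => decide (j < τ a.1 b.1) with
  | none => left; rfl
  | some c =>
    right
    have := List.find?_some h
    simpa using this

theorem tb2_lt_trans {N q : ℕ} {τ : ℕ → ℕ → ℕ} (hτ : IsTr N q τ) {j : ℕ} {a b c : Fin q}
    (h1 : j < τ a.1 b.1) (h2 : j < τ b.1 c.1) : j < τ a.1 c.1 :=
  lt_of_lt_of_le (lt_min h1 h2) (hτ.ultra _ _ _ a.2 b.2 c.2)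

theorem tb2_rep_eq_of {N q : ℕ} {τ : ℕ → ℕ → ℕ} (hτ : IsTr N q τ) {j : ℕ} {a b : Fin q} (h : j < τ a.1 b.1) :
    trRep q τ j a = trRep q τ j b := by
  have h' : j < τ b.1 a.1 := by rwa [hτ.symm _ _ b.2 a.2]
  have hp : (fun c : Fin q => decide (j < τ a.1 c.1)) = fun c : Fin q => decide (j < τ b.1 c.1) := by
    funext c
    exact decide_eq_decide.2 ⟨fun hc => tb2_lt_trans hτ h' hc, fun hc => tb2_lt_trans hτ h hc⟩
  unfold trRep
  rw [hp]
  have hs : ((List.finRange q).find? fun c : Fin q => decide (j < τ b.1 c.1)).isSome := by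
    rw [List.find?_isSome]
    exact ⟨a, List.mem_finRange a, by simpa using h'⟩
  obtain ⟨c, hc⟩ := Option.isSome_iff_exists.1 hs
  rw [hc]
  rfl

theorem tb2_rep_iff {N q : ℕ} {τ : ℕ → ℕ → ℕ} (hτ : IsTr N q τ) (j : ℕ) (a b : Fin q) :
    trRep q τ j a = trRep q τ j b ↔ (a = b ∨ j < τ a.1 b.1) := by
  constructor
  · intro h
    rcases tb2_rep_rel q τ j a with ha | ha <;> rcases tb2_rep_rel q τ j b with hb | hb
    · left; rw [← ha, h, hb]
    · right
      rw [← h, ha] at hb
      rwa [hτ.symm _ _ a.2 b.2]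
    · right
      rwa [h, hb] at ha
    · right
      rw [← h] at hb
      rw [hτ.symm _ _ b.2 (trRep q τ j a).2] at hb
      exact tb2_lt_trans hτ ha hb
  · rintro (rfl | h)
    · rfl
    · exact tb2_rep_eq_of hτ h

theorem tb2_rep_idem {N q : ℕ} {τ : ℕ → ℕ → ℕ} (hτ : IsTr N q τ) (j : ℕ) (a : Fin q) :
    trRep q τ j (trRep q τ j a) = trRep q τ j a := by
  rw [tb2_rep_iff hτ]
  rcases tb2_rep_rel q τ j a with ha | ha
  · left; exact ha
  · right; rwa [hτ.symm _ _ (trRep q τ j a).2 a.2]

/-- the representative maps of a tree are valid -/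
theorem tb2_repOk {N q : ℕ} {τ : ℕ → ℕ → ℕ} (hτ : IsTr N q τ) : GhRepOk fun t => trRep q τ t where
  idem := fun t a => tb2_rep_idem hτ t a
  mono := fun t a b h => by
    rw [tb2_rep_iff hτ] at h ⊢
    rcases h with h | h
    · left; exact h
    · right; omega

/-- the representative maps frozen after the terminal draw -/
theorem tb2_repOk_min {N q : ℕ} {τ : ℕ → ℕ → ℕ} (hτ : IsTr N q τ) : GhRepOk fun t => trRep q τ (min t N) where
  idem := fun t a => tb2_rep_idem hτ _ a
  mono := fun t a b h => by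
    rw [tb2_rep_iff hτ] at h ⊢
    rcases h with h | h
    · left; exact h
    · right
      have : min t N ≤ min (t + 1) N := min_le_min (Nat.le_succ t) le_rfl
      omega

section
variable {S ι : Type} [Fintype S] [Fintype ι]

/-- `ghNu` reads the representatives of the revelations `0 .. length` only -/
theorem tb2_nu_rep_congr (B : GhB S) : ∀ (ls : List (GhLv S ι)) {q : ℕ} (rep rep' : ℕ → Fin q → Fin q),
    (∀ t, t ≤ ls.length → rep t = rep' t) → ∀ (G : Fin q → S → ℝ) (P : (ℕ → Fin q → ι → ℝ) → (Fin q → S) → ℝ),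
    ghNu B ls rep G P = ghNu B ls rep' G P
  | [], q, rep, rep', h, G, P => by
      simp only [ghNu]
      rw [h 0 le_rfl]
  | l :: ls, q, rep, rep', h, G, P => by
      simp only [ghNu]
      rw [h 0 (Nat.zero_le _)]
      refine integral_congr_ae (Filter.Eventually.of_forall fun W => ?_)
      simp only
      rw [tb2_nu_rep_congr B ls (fun t => rep (t + 1)) (fun t => rep' (t + 1))
        (fun t ht => h (t + 1) (by simpa using ht))]

end

section
variable {S ι : Type} [Fintype S] [Fintype ι] [Inhabited S]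

/-- MASTER MARGINAL LEMMA: the law of `(σ (f x))_{x < p}` is the tree law of the pulled back tree, for ANY map of labels `f`
(pruning, relabelling, deletion; equal images = coincident labels).  `tr_nu_prune, tr_nu_perm, tr_nu_del, tr_nu_coinc` are corollaries. -/
theorem tr_nu_comap {B : GhB S} (hB : B.Ok) {ls : List (GhLv S ι)} (hls : GhAdm B 0 ls) {q p : ℕ} {τ : ℕ → ℕ → ℕ}
    (hτ : IsTr ls.length q τ) (z : S → ℝ) (f : ℕ → ℕ) (hf : ∀ x, x < p → f x < q) (P : (ℕ → S) → ℝ) (hP : TrUses p P) :
    trNu B ls q τ z (fun σ => P fun x => σ (f x)) = trNu B ls p (fun x y => τ (f x) (f y)) z P := by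
  have hτ' : IsTr ls.length p fun x y => τ (f x) (f y) := tr_comap_isTr hτ f hf
  let e : Fin p → Fin q := fun a => ⟨f a.1, hf a.1 a.2⟩
  unfold trNu
  rw [tb2_nu_rep_congr B ls (fun t => trRep q τ t) (fun t => trRep q τ (min t ls.length))
      (fun t ht => by rw [min_eq_left ht]),
    tb2_nu_rep_congr B ls (fun t => trRep p (fun x y => τ (f x) (f y)) t)
      (fun t => trRep p (fun x y => τ (f x) (f y)) (min t ls.length)) (fun t ht => by rw [min_eq_left ht])]
  have key := gh_n_inv B hB ls (hls.ghNn le_rfl) e (fun t => trRep q τ (min t ls.length))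
    (fun t => trRep p (fun x y => τ (f x) (f y)) (min t ls.length)) (tb2_repOk_min hτ) (tb2_repOk_min hτ')
    (fun t a b => by
      rw [tb2_rep_iff hτ, tb2_rep_iff hτ']
      constructor
      · rintro (h | h)
        · left; rw [h]
        · right; exact h
      · rintro (h | h)
        · right
          have h1 : f a.1 = f b.1 := congrArg Fin.val h
          rw [h1, hτ.diag _ (hf b.1 b.2)]
          exact Nat.lt_succ_of_le (min_le_right _ _)
        · right; exact h)
    (fun _ => z) (fun _ _ _ => rfl) (fun _ σ => P (trExt σ))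
  rw [← key]
  congr 1
  funext _ σ
  refine hP _ _ fun i hi => ?_
  simp only [trExt, hi, hf i hi, dif_pos, e]

/-- marginalisation of the last leaf -/
theorem tr_nu_prune {B : GhB S} (hB : B.Ok) {ls : List (GhLv S ι)} (hls : GhAdm B 0 ls) {q : ℕ} {τ : ℕ → ℕ → ℕ}
    (hτ : IsTr ls.length (q + 1) τ) (z : S → ℝ) {P : (ℕ → S) → ℝ} (hP : TrUses q P) :
    trNu B ls (q + 1) τ z P = trNu B ls q τ z P :=
  tr_nu_comap hB hls hτ z (fun x => x) (fun _ hx => Nat.lt_succ_of_lt hx) P hP

theorem tb2_perm_lt {q : ℕ} (e : Equiv.Perm ℕ) (he : ∀ x, q ≤ x → e x = x) {x : ℕ} (hx : x < q) : e x < q := by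
  by_contra h
  have h1 : e (e x) = e x := he _ (not_lt.1 h)
  have h2 : e x = x := e.injective h1
  omega

/-- relabelling -/
theorem tr_nu_perm {B : GhB S} (hB : B.Ok) {ls : List (GhLv S ι)} (hls : GhAdm B 0 ls) {q : ℕ} {τ : ℕ → ℕ → ℕ}
    (hτ : IsTr ls.length q τ) (z : S → ℝ) (P : (ℕ → S) → ℝ) (hP : TrUses q P) (e : Equiv.Perm ℕ) (he : ∀ x, q ≤ x → e x = x) :
    trNu B ls q (fun x y => τ (e x) (e y)) z (fun σ => P fun i => σ (e.symm i)) = trNu B ls q τ z P := by
  have he' : ∀ x, q ≤ x → e.symm x = x := fun x hx => by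
    rw [Equiv.symm_apply_eq, he x hx]
  have hτ' : IsTr ls.length q fun x y => τ (e x) (e y) := tr_comap_isTr hτ e fun x hx => tb2_perm_lt e he hx
  rw [tr_nu_comap hB hls hτ' z e.symm (fun x hx => tb2_perm_lt e.symm he' hx) P hP]
  simp only [Equiv.apply_symm_apply]

/-- marginalisation of the leaf `q` among `q + 1 + k` leaves -/
theorem tr_nu_del {B : GhB S} (hB : B.Ok) {ls : List (GhLv S ι)} (hls : GhAdm B 0 ls) {q k : ℕ} {τ : ℕ → ℕ → ℕ}
    (hτ : IsTr ls.length (q + 1 + k) τ) (z : S → ℝ) (P : (ℕ → S) → ℝ) (hP : TrUses (q + k) P) :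
    trNu B ls (q + 1 + k) τ z (fun σ => P fun i => σ (if i < q then i else i + 1)) = trNu B ls (q + k) (trDel q τ) z P :=
  tr_nu_comap hB hls hτ z (fun i => if i < q then i else i + 1) (fun x hx => by split_ifs <;> omega) P hP

/-- coincident leaves carry the same configuration -/
theorem tr_nu_coinc {B : GhB S} (hB : B.Ok) {ls : List (GhLv S ι)} (hls : GhAdm B 0 ls) {q : ℕ} {τ : ℕ → ℕ → ℕ}
    (hτ : IsTr ls.length q τ) (z : S → ℝ) (P : (ℕ → S) → ℝ) {x y : ℕ} (hx : x < q) (hy : y < q)
    (hxy : τ x y = ls.length + 1) :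
    trNu B ls q τ z P = trNu B ls q τ z fun σ => P (Function.update σ y (σ x)) := by
  let P₀ : (ℕ → S) → ℝ := fun σ => P fun i => if i < q then σ i else default
  have hP₀ : TrUses q P₀ := by
    intro σ σ' h
    simp only [P₀]
    congr 1
    funext i
    split_ifs with hi
    · exact h i hi
    · rfl
  have hext : ∀ σ : Fin q → S, (fun i => if i < q then trExt σ i else default) = trExt σ := by
    intro σ
    funext i
    split_ifs with hi
    · rfl
    · simp [trExt, hi]
  let f : ℕ → ℕ := fun i => if i = y then x else i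
  have hf : ∀ i, i < q → f i < q := fun i hi => by simp only [f]; split_ifs <;> omega
  have h1 : trNu B ls q τ z P = trNu B ls q τ z P₀ := by
    unfold trNu
    congr 1
    funext _ σ
    simp only [P₀, hext]
  have h2 : (trNu B ls q τ z fun σ => P (Function.update σ y (σ x))) = trNu B ls q τ z fun σ => P₀ fun i => σ (f i) := by
    unfold trNu
    congr 1
    funext _ σ
    simp only [P₀]
    congr 1
    funext i
    by_cases hiy : i = y
    · subst hiy
      simp [f, hy]
    · by_cases hi : i < q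
      · simp [f, hiy, hi]
      · simp [hiy, hi, trExt]
  rw [h1, h2, tr_nu_comap hB hls hτ z f hf P₀ hP₀]
  refine tr_nu_congr B ls (fun a b ha hb => ?_) z P₀
  have hyx : τ y x = ls.length + 1 := by rw [hτ.symm _ _ hy hx, hxy]
  have key : ∀ c, c < q → τ x c = τ y c := by
    intro c hc
    apply le_antisymm
    · have := hτ.ultra y x c hy hx hc
      rw [hyx, min_eq_right (hτ.le _ _ hx hc)] at this
      exact this
    · have := hτ.ultra x y c hx hy hc
      rw [hxy, min_eq_right (hτ.le _ _ hy hc)] at this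
      exact this
  have key' : ∀ c, c < q → τ c x = τ c y := fun c hc => by
    rw [hτ.symm _ _ hc hx, hτ.symm _ _ hc hy, key c hc]
  simp only [f]
  split_ifs with h1 h2 h2
  · subst h1; subst h2
    rw [hτ.diag _ hx, hτ.diag _ hy]
  · subst h1
    exact (key b hb).symm
  · subst h2
    exact (key' a ha).symm
  · rfl

end

end Claimed.Agent.R286
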