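import Claimed.Agent.R286.Fd.TrB2
import Claimed.Agent.R286.Fd.NuApi

/-!
# Row 286 (S0533), Fd/TrB3 : Markov property at a cut, conditional independence      (PROVED, sorry free)
architect helper150;  OWNER / PROVER of this file: helper125.   Helper lemmas: prefix `tr_b3_`.
* `tr_b3_pi_split`, `tr_b3_level`, `tr_b3_level_sum` : a finite product measure splits along a predicate on the labels
* `tr_b3_indep_raw` : independence for the RAW `ghNu` (tests may read the drivers; the fields may be changed outside the group which is read: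
  with `Q = 1` this is the LOCALITY of `ghNu`)
* `tr_b3_step` : one stage shared by all the leaves;  `tr_b3_fld_const`, `tr_b3_nu_zero`, `tr_b3_rep_succ`, `tr_b3_rep_spec`
* exits: `tr_nu_cut`, `tr_nu_indep` (statements of helper150, unchanged)
-/

set_option autoImplicit false

namespace Claimed.Agent.R286

open MeasureTheory ProbabilityTheory

/-! ### product measures: splitting along a predicate -/

/-- a finite product measure splits along a predicate on the index set -/
theorem tr_b3_pi_split {X : Type} [MeasurableSpace X] (μ : Measure X) [SigmaFinite μ] {α : Type} [Fintype α]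
    (A : α → Prop) [DecidablePred A] (f : α → X → ℝ) (H₁ : ({a // A a} → X) → ℝ) (H₂ : ({a // ¬ A a} → X) → ℝ) :
    ∫ W : α → X, (∏ a, f a (W a)) * (H₁ (fun b => W b.1) * H₂ (fun b => W b.1)) ∂(Measure.pi fun _ => μ)
      = (∫ V : {a // A a} → X, (∏ b, f b.1 (V b)) * H₁ V ∂(Measure.pi fun _ => μ))
        * ∫ V : {a // ¬ A a} → X, (∏ b, f b.1 (V b)) * H₂ V ∂(Measure.pi fun _ => μ) := by
  have h := (measurePreserving_piEquivPiSubtypeProd (fun _ : α => μ) A).integral_comp'
    (g := fun p : ({a // A a} → X) × ({a // ¬ A a} → X) =>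
      ((∏ b, f b.1 (p.1 b)) * H₁ p.1) * ((∏ b, f b.1 (p.2 b)) * H₂ p.2))
  rw [integral_prod_mul (fun V : {a // A a} → X => (∏ b, f b.1 (V b)) * H₁ V)
    (fun V : {a // ¬ A a} → X => (∏ b, f b.1 (V b)) * H₂ V)] at h
  rw [← h]
  refine integral_congr_ae (Filter.Eventually.of_forall fun W => ?_)
  have h1 : ((MeasurableEquiv.piEquivPiSubtypeProd (fun _ : α => X) A) W).1 = fun b => W b.1 := rfl
  have h2 : ((MeasurableEquiv.piEquivPiSubtypeProd (fun _ : α => X) A) W).2 = fun b => W b.1 := rfl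
  simp only [h1, h2]
  rw [← Fintype.prod_subtype_mul_prod_subtype A fun a => f a (W a)]
  ring

/-- one level: two groups of coordinates are independent -/
theorem tr_b3_level {X : Type} [MeasurableSpace X] [Inhabited X] (μ : Measure X) [SigmaFinite μ] {α : Type} [Fintype α]
    (A : α → Prop) (f f₁ f₂ : α → X → ℝ) (h₁ : ∀ a, ∫ x, f₁ a x ∂μ = 1) (h₂ : ∀ a, ∫ x, f₂ a x ∂μ = 1)
    (hf₁ : ∀ a, A a → f a = f₁ a) (hf₂ : ∀ a, ¬ A a → f a = f₂ a) (p p' : (α → X) → ℝ)
    (hp : ∀ W W' : α → X, (∀ a, A a → W a = W' a) → p W = p W')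
    (hp' : ∀ W W' : α → X, (∀ a, ¬ A a → W a = W' a) → p' W = p' W') :
    ∫ W : α → X, (∏ a, f a (W a)) * (p W * p' W) ∂(Measure.pi fun _ => μ)
      = (∫ W : α → X, (∏ a, f₁ a (W a)) * p W ∂(Measure.pi fun _ => μ))
        * ∫ W : α → X, (∏ a, f₂ a (W a)) * p' W ∂(Measure.pi fun _ => μ) := by
  classical
  let H₁ : ({a // A a} → X) → ℝ := fun V => p fun a => if h : A a then V ⟨a, h⟩ else default
  let H₂ : ({a // ¬ A a} → X) → ℝ := fun V => p' fun a => if h : ¬ A a then V ⟨a, h⟩ else default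
  have e₁ : ∀ W : α → X, p W = H₁ fun b => W b.1 := fun W => hp _ _ fun a ha => by simp [ha]
  have e₂ : ∀ W : α → X, p' W = H₂ fun b => W b.1 := fun W => hp' _ _ fun a ha => by simp [ha]
  simp_rw [e₁, e₂]
  rw [tr_b3_pi_split μ A f H₁ H₂,
    gh_n_pi_marg μ (Subtype.val : {a // A a} → α) Subtype.val_injective f₁ (fun a _ => h₁ a) H₁,
    gh_n_pi_marg μ (Subtype.val : {a // ¬ A a} → α) Subtype.val_injective f₂ (fun a _ => h₂ a) H₂]
  congr 1
  · refine integral_congr_ae (Filter.Eventually.of_forall fun V => ?_)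
    simp only
    congr 1
    exact Finset.prod_congr rfl fun b _ => by rw [hf₁ b.1 b.2]
  · refine integral_congr_ae (Filter.Eventually.of_forall fun V => ?_)
    simp only
    congr 1
    exact Finset.prod_congr rfl fun b _ => by rw [hf₂ b.1 b.2]

section raw
variable {S ι : Type} [Fintype S] [Fintype ι]

/-- the discrete form of `tr_b3_level` -/
theorem tr_b3_level_sum [Inhabited S] {q : ℕ}
    (A : Fin q → Prop) (f f₁ f₂ : Fin q → S → ℝ) (h₁ : ∀ a, ∑ x, f₁ a x = 1) (h₂ : ∀ a, ∑ x, f₂ a x = 1)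
    (hf₁ : ∀ a, A a → f a = f₁ a) (hf₂ : ∀ a, ¬ A a → f a = f₂ a) (p p' : (Fin q → S) → ℝ)
    (hp : ∀ W W' : Fin q → S, (∀ a, A a → W a = W' a) → p W = p W')
    (hp' : ∀ W W' : Fin q → S, (∀ a, ¬ A a → W a = W' a) → p' W = p' W') :
    ∑ W : Fin q → S, (∏ a, f a (W a)) * (p W * p' W)
      = (∑ W : Fin q → S, (∏ a, f₁ a (W a)) * p W) * ∑ W : Fin q → S, (∏ a, f₂ a (W a)) * p' W := by
  let _ : MeasurableSpace S := ⊤
  have : MeasurableSingletonClass S := ⟨fun _ => trivial⟩
  have hc : ∀ g : S → ℝ, ∫ x, g x ∂(Measure.count : Measure S) = ∑ x, g x := by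
    intro g
    rw [integral_fintype Integrable.of_finite]
    simp [Measure.real]
  have := tr_b3_level (Measure.count : Measure S) A f f₁ f₂
    (fun a => by rw [hc]; exact h₁ a) (fun a => by rw [hc]; exact h₂ a) hf₁ hf₂ p p' hp hp'
  rw [gh_n_int_count, gh_n_int_count, gh_n_int_count] at this
  exact this

/-- **independence, raw form**: the classes never mix the two groups of labels `A`, `¬ A`; the fields may be changed outside the group which is read -/
theorem tr_b3_indep_raw [Inhabited S] (B : GhB S) (hB : B.Ok) : ∀ (ls : List (GhLv S ι)), GhNn ls → ∀ {q : ℕ}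
    (rep : ℕ → Fin q → Fin q) (A : Fin q → Prop), (∀ t a, A (rep t a) ↔ A a) →
    ∀ (G G₁ G₂ : Fin q → S → ℝ), (∀ a, A a → G a = G₁ a) → (∀ a, ¬ A a → G a = G₂ a) →
    ∀ (P Q : (ℕ → Fin q → ι → ℝ) → (Fin q → S) → ℝ),
    (∀ η η' σ σ', (∀ t a, A a → η t a = η' t a) → (∀ a, A a → σ a = σ' a) → P η σ = P η' σ') →
    (∀ η η' σ σ', (∀ t a, ¬ A a → η t a = η' t a) → (∀ a, ¬ A a → σ a = σ' a) → Q η σ = Q η' σ') →
    ghNu B ls rep G (fun η σ => P η σ * Q η σ) = ghNu B ls rep G₁ P * ghNu B ls rep G₂ Q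
  | [], _, q, rep, A, hrep, G, G₁, G₂, hG₁, hG₂, P, Q, hP, hQ => by
      simp only [ghNu]
      exact tr_b3_level_sum A (fun a => ghGw B (G a)) (fun a => ghGw B (G₁ a)) (fun a => ghGw B (G₂ a))
        (fun a => gh_b_Gw_sum hB _) (fun a => gh_b_Gw_sum hB _)
        (fun a ha => by rw [hG₁ a ha]) (fun a ha => by rw [hG₂ a ha])
        (fun σ => P (fun _ _ _ => 0) fun a => σ (rep 0 a)) (fun σ => Q (fun _ _ _ => 0) fun a => σ (rep 0 a))
        (fun W W' h => hP _ _ _ _ (fun _ _ _ => rfl) fun a ha => h _ ((hrep 0 a).2 ha))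
        (fun W W' h => hQ _ _ _ _ (fun _ _ _ => rfl) fun a ha => h _ (fun h' => ha ((hrep 0 a).1 h')))
  | l :: ls, h, q, rep, A, hrep, G, G₁, G₂, hG₁, hG₂, P, Q, hP, hQ => by
      simp only [ghNu]
      have hPc : ∀ (W W' : Fin q → ι → ℝ), (∀ a, A a → W a = W' a) → ∀ η η' σ σ',
          (∀ t a, A a → η t a = η' t a) → (∀ a, A a → σ a = σ' a) →
          P (ghCons (fun a => W (rep 0 a)) η) σ = P (ghCons (fun a => W' (rep 0 a)) η') σ' := by
        intro W W' hW η η' σ σ' hη hσ
        refine hP _ _ _ _ (fun t a ha => ?_) hσ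
        cases t with
        | zero => exact hW _ ((hrep 0 a).2 ha)
        | succ t => exact hη t a ha
      have hQc : ∀ (W W' : Fin q → ι → ℝ), (∀ a, ¬ A a → W a = W' a) → ∀ η η' σ σ',
          (∀ t a, ¬ A a → η t a = η' t a) → (∀ a, ¬ A a → σ a = σ' a) →
          Q (ghCons (fun a => W (rep 0 a)) η) σ = Q (ghCons (fun a => W' (rep 0 a)) η') σ' := by
        intro W W' hW η η' σ σ' hη hσ
        refine hQ _ _ _ _ (fun t a ha => ?_) hσ
        cases t with
        | zero => exact hW _ (fun h' => ha ((hrep 0 a).1 h'))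
        | succ t => exact hη t a ha
      have hin : ∀ W : Fin q → ι → ℝ,
          ghNu B ls (fun t => rep (t + 1)) (fun a => G a + l.inc (W (rep 0 a)))
            (fun η σ => P (ghCons (fun a => W (rep 0 a)) η) σ * Q (ghCons (fun a => W (rep 0 a)) η) σ)
          = ghNu B ls (fun t => rep (t + 1)) (fun a => G₁ a + l.inc (W (rep 0 a)))
              (fun η σ => P (ghCons (fun a => W (rep 0 a)) η) σ)
            * ghNu B ls (fun t => rep (t + 1)) (fun a => G₂ a + l.inc (W (rep 0 a)))
              (fun η σ => Q (ghCons (fun a => W (rep 0 a)) η) σ) := by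
        intro W
        exact tr_b3_indep_raw B hB ls h.tail (fun t => rep (t + 1)) A (fun t => hrep (t + 1)) _ _ _
          (fun a ha => by rw [hG₁ a ha]) (fun a ha => by rw [hG₂ a ha]) _ _
          (hPc W W fun _ _ => rfl) (hQc W W fun _ _ => rfl)
      simp_rw [hin]
      refine tr_b3_level (ghStd ι) A
        (fun a x => if rep 0 a = a then ghD B l ls (G a) x else 1)
        (fun a x => if rep 0 a = a then ghD B l ls (G₁ a) x else 1)
        (fun a x => if rep 0 a = a then ghD B l ls (G₂ a) x else 1)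
        (fun a => gh_n_Dif_integral B hB l ls h _ _) (fun a => gh_n_Dif_integral B hB l ls h _ _)
        (fun a ha => by rw [hG₁ a ha]) (fun a ha => by rw [hG₂ a ha])
        (fun W => ghNu B ls (fun t => rep (t + 1)) (fun a => G₁ a + l.inc (W (rep 0 a)))
              (fun η σ => P (ghCons (fun a => W (rep 0 a)) η) σ))
        (fun W => ghNu B ls (fun t => rep (t + 1)) (fun a => G₂ a + l.inc (W (rep 0 a)))
              (fun η σ => Q (ghCons (fun a => W (rep 0 a)) η) σ)) ?_ ?_
      · intro W W' hW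
        have e1 := tr_b3_indep_raw B hB ls h.tail (fun t => rep (t + 1)) A (fun t => hrep (t + 1))
          (fun a => G₁ a + l.inc (W (rep 0 a))) (fun a => G₁ a + l.inc (W' (rep 0 a)))
          (fun a => G₁ a + l.inc (W (rep 0 a)))
          (fun a ha => by rw [hW _ ((hrep 0 a).2 ha)]) (fun a _ => rfl)
          (fun η σ => P (ghCons (fun a => W (rep 0 a)) η) σ) (fun _ _ => 1)
          (hPc W W fun _ _ => rfl) (fun _ _ _ _ _ _ => rfl)
        rw [gh_n_const B hB 1 ls h.tail, mul_one] at e1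
        simp only [mul_one] at e1
        rw [e1]
        congr 1
        funext η σ
        exact hPc W W' hW η η σ σ (fun _ _ _ => rfl) (fun _ _ => rfl)
      · intro W W' hW
        have e1 := tr_b3_indep_raw B hB ls h.tail (fun t => rep (t + 1)) A (fun t => hrep (t + 1))
          (fun a => G₂ a + l.inc (W (rep 0 a))) (fun a => G₂ a + l.inc (W (rep 0 a)))
          (fun a => G₂ a + l.inc (W' (rep 0 a)))
          (fun a _ => rfl) (fun a ha => by rw [hW _ (fun h' => ha ((hrep 0 a).1 h'))])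
          (fun _ _ => 1) (fun η σ => Q (ghCons (fun a => W (rep 0 a)) η) σ)
          (fun _ _ _ _ _ _ => rfl) (hQc W W fun _ _ => rfl)
        rw [gh_n_const B hB 1 ls h.tail, one_mul] at e1
        simp only [one_mul] at e1
        rw [e1]
        congr 1
        funext η σ
        exact hQc W W' hW η η σ σ (fun _ _ _ => rfl) (fun _ _ => rfl)

end raw

section
variable {S ι : Type} [Fintype S] [Fintype ι] [Inhabited S]

/-- the representative of `a` is `a` itself or shares the stage `j` with `a` -/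
theorem tr_b3_rep_spec (q : ℕ) (τ : ℕ → ℕ → ℕ) (j : ℕ) (a : Fin q) :
    trRep q τ j a = a ∨ j < τ a.1 (trRep q τ j a).1 := by
  unfold trRep
  cases hf : (List.finRange q).find? fun b : Fin q => decide (j < τ a.1 b.1) with
  | none => left; rfl
  | some b =>
      right
      have := List.find?_some hf
      simpa using this

/-- conditional independence of the continuations: groups of leaves which split at the root are independent -/
theorem tr_nu_indep {B : GhB S} (hB : B.Ok) {ls : List (GhLv S ι)} (hls : GhAdm B 0 ls) {q : ℕ} {τ : ℕ → ℕ → ℕ}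
    (hτ : IsTr ls.length q τ) (z : S → ℝ) (A : ℕ → Prop) (hA : ∀ x y, x < q → y < q → A x → ¬ A y → τ x y = 0)
    (P Q : (ℕ → S) → ℝ) (hP : ∀ σ σ' : ℕ → S, (∀ x, x < q → A x → σ x = σ' x) → P σ = P σ')
    (hQ : ∀ σ σ' : ℕ → S, (∀ x, x < q → ¬ A x → σ x = σ' x) → Q σ = Q σ') :
    trNu B ls q τ z (fun σ => P σ * Q σ) = trNu B ls q τ z P * trNu B ls q τ z Q := by
  unfold trNu
  refine tr_b3_indep_raw B hB ls (hls.ghNn le_rfl) (fun t => trRep q τ t) (fun a => A a.1) ?_ _ _ _
    (fun _ _ => rfl) (fun _ _ => rfl) (fun _ σ => P (trExt σ)) (fun _ σ => Q (trExt σ)) ?_ ?_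
  · intro t a
    rcases tr_b3_rep_spec q τ t a with h | h
    · rw [h]
    · constructor
      · intro h1
        by_contra h2
        have := hA _ _ (trRep q τ t a).2 a.2 h1 h2
        rw [hτ.symm _ _ (trRep q τ t a).2 a.2] at this
        omega
      · intro h1
        by_contra h2
        have := hA _ _ a.2 (trRep q τ t a).2 h1 h2
        omega
  · intro _ _ σ σ' _ hσ
    refine hP _ _ fun x hx hAx => ?_
    simp only [trExt, hx, dif_pos]
    exact hσ ⟨x, hx⟩ hAx
  · intro _ _ σ σ' _ hσ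
    refine hQ _ _ fun x hx hAx => ?_
    simp only [trExt, hx, dif_pos]
    exact hσ ⟨x, hx⟩ hAx

/-! ### the cut -/

omit [Inhabited S] in
theorem tr_b3_fld_const {B : GhB S} (hB : B.Ok) (c : ℝ) : ∀ (ls : List (GhLv S ι)), GhNn ls → ∀ (t : ℕ) (z : S → ℝ),
    trFld B ls t z (fun _ => c) = c
  | [], _, _, _ => by simp [trFld]
  | _ :: _, _, 0, _ => by simp [trFld]
  | l :: ls, h, t + 1, z => by
      simp only [trFld]
      simp_rw [tr_b3_fld_const hB c ls h.tail]
      rw [integral_mul_const, gh_b_D_integral hB h.tail l z, one_mul]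

theorem tr_b3_rep_succ (q : ℕ) (τ : ℕ → ℕ → ℕ) (j : ℕ) :
    trRep q τ (j + 1) = trRep q (fun x y => τ x y - 1) j := by
  funext a
  unfold trRep
  congr 2
  funext b
  simp only [decide_eq_decide]
  omega

/-- no leaf: the tree number is the value of the test -/
theorem tr_b3_nu_zero {B : GhB S} (hB : B.Ok) {ls : List (GhLv S ι)} (h : GhNn ls) (τ : ℕ → ℕ → ℕ) (z : S → ℝ)
    (P : (ℕ → S) → ℝ) : trNu B ls 0 τ z P = P fun _ => default := by
  unfold trNu
  have : (fun (_ : ℕ → Fin 0 → ι → ℝ) (σ : Fin 0 → S) => P (trExt σ)) = fun _ _ => P fun _ => default := by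
    funext _ σ
    congr 1
  rw [this, gh_n_const B hB _ ls h]

/-- one stage shared by all the leaves -/
theorem tr_b3_step {B : GhB S} (hB : B.Ok) {l : GhLv S ι} {ls : List (GhLv S ι)} (h : GhNn (l :: ls)) {q : ℕ}
    {τ : ℕ → ℕ → ℕ} (z : S → ℝ) (P : (ℕ → S) → ℝ) (hsh : ∀ x y, x < q → y < q → 1 ≤ τ x y) :
    trNu B (l :: ls) q τ z P
      = ∫ ξ, ghD B l ls z ξ * trNu B ls q (fun x y => τ x y - 1) (z + l.inc ξ) P ∂ghStd ι := by
  rcases Nat.eq_zero_or_pos q with rfl | hq
  · simp_rw [tr_b3_nu_zero hB h, tr_b3_nu_zero hB h.tail]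
    rw [integral_mul_const, gh_b_D_integral hB h.tail l z, one_mul]
  · have hrep : ∀ a : Fin q, trRep q τ 0 a = ⟨0, hq⟩ := by
      intro a
      unfold trRep
      obtain ⟨q', rfl⟩ : ∃ q', q = q' + 1 := ⟨q - 1, by omega⟩
      rw [List.finRange_succ, List.find?_cons_of_pos]
      · rfl
      · have := hsh a.1 0 a.2 hq
        exact decide_eq_true (by omega : 0 < τ a.1 0)
    unfold trNu
    simp only [ghNu, hrep, tr_b3_rep_succ]
    have key := gh_n_pi_marg (ghStd ι) (fun _ : Unit => (⟨0, hq⟩ : Fin q)) (fun _ _ _ => rfl)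
      (fun a x => if (⟨0, hq⟩ : Fin q) = a then ghD B l ls z x else 1)
      (fun a _ => gh_n_Dif_integral B hB l ls h _ _)
      (fun V => ghNu B ls (fun t => trRep q (fun x y => τ x y - 1) t) (fun _ => z + l.inc (V ()))
        fun _ σ => P (trExt σ))
    unfold ghDT
    simp only [hrep]
    rw [key]
    have h2 := (measurePreserving_funUnique (ghStd ι) Unit).integral_comp'
      (g := fun ξ => ghD B l ls z ξ * ghNu B ls (fun t => trRep q (fun x y => τ x y - 1) t) (fun _ => z + l.inc ξ)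
        fun _ σ => P (trExt σ))
    rw [← h2]
    refine integral_congr_ae (Filter.Eventually.of_forall fun V => ?_)
    simp [MeasurableEquiv.funUnique]

theorem tr_b3_cut {B : GhB S} (hB : B.Ok) (P : (ℕ → S) → ℝ) {q : ℕ} : ∀ (t : ℕ) (ls : List (GhLv S ι)), GhNn ls →
    ∀ (τ : ℕ → ℕ → ℕ) (z : S → ℝ), t ≤ ls.length → (∀ x y, x < q → y < q → t ≤ τ x y) →
    trNu B ls q τ z P = trFld B ls t z fun G => trNu B (ls.drop t) q (fun x y => τ x y - t) G P
  | 0, [], _, τ, z, _, _ => by simp [trFld]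
  | 0, _ :: _, _, τ, z, _, _ => by simp [trFld]
  | t + 1, [], _, τ, z, ht, _ => by simp at ht
  | t + 1, l :: ls, h, τ, z, ht, hsh => by
      rw [tr_b3_step hB h z P fun x y hx hy => le_trans (by omega) (hsh x y hx hy)]
      simp only [trFld, List.drop_succ_cons]
      refine integral_congr_ae (Filter.Eventually.of_forall fun ξ => ?_)
      simp only
      rw [tr_b3_cut hB P t ls h.tail (fun x y => τ x y - 1) (z + l.inc ξ) (by simpa using ht)
        (fun x y hx hy => by have := hsh x y hx hy; omega)]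
      simp only [Nat.sub_sub, Nat.add_comm 1 t]

/-- Markov property at a cut shared by all the leaves -/
theorem tr_nu_cut {B : GhB S} (hB : B.Ok) {ls : List (GhLv S ι)} (hls : GhAdm B 0 ls) {q : ℕ} {τ : ℕ → ℕ → ℕ}
    (hτ : IsTr ls.length q τ) (z : S → ℝ) (P : (ℕ → S) → ℝ) {t : ℕ} (ht : t ≤ ls.length)
    (hsh : ∀ x y, x < q → y < q → t ≤ τ x y) :
    trNu B ls q τ z P = trFld B ls t z fun G => trNu B (ls.drop t) q (fun x y => τ x y - t) G P := by
  have _h := hτ
  exact tr_b3_cut hB P t ls (hls.ghNn le_rfl) τ z ht hsh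

end

end Claimed.Agent.R286
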