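import Claimed.Agent.R286.Defs.Gh

/-!
# Row 286, Fd/RegA : the ZERO LAYER of `Defs/Gh.lean`      (owner helper144; prefix `gh_ra_`)

No hypothesis on the masses (any real `m`), only `B.Ok`.
* Gaussian integrability: `gh_ra_int_exp_norm`, `gh_ra_int_pow_exp`, class `GhSubE` (`|f ξ| ≤ D e^{C‖ξ‖}`), `gh_ra_int_of_sub`
* `ghF`: monotone, commutes with constants, `1`-Lipschitz in the sup norm, continuous, measurable
* integrability of `exp (c * ghF (z + inc ξ))`, `∫ ghD = 1`, uniform bound `ghD ≤ D e^{C‖ξ‖}`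
-/

set_option autoImplicit false

namespace Claimed.Agent.R286

open MeasureTheory ProbabilityTheory
open scoped ENNReal NNReal

variable {S ι : Type} [Fintype S] [Fintype ι]

instance gh_ra_prob : IsProbabilityMeasure (ghStd ι) := by
  unfold ghStd; infer_instance

/-! ### Gaussian integrability -/

theorem gh_ra_int_exp_abs (C : ℝ) : Integrable (fun x : ℝ => Real.exp (C * |x|)) (gaussianReal 0 1) :=
  integrable_exp_mul_abs (X := fun x : ℝ => x) (integrable_exp_mul_gaussianReal C)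
    (integrable_exp_mul_gaussianReal (-C))

theorem gh_ra_norm_le_sum (ξ : ι → ℝ) : ‖ξ‖ ≤ ∑ i, |ξ i| := by
  refine (pi_norm_le_iff_of_nonneg (Finset.sum_nonneg fun i _ => abs_nonneg _)).2 fun i => ?_
  rw [Real.norm_eq_abs]
  exact Finset.single_le_sum (f := fun i => |ξ i|) (fun i _ => abs_nonneg _) (Finset.mem_univ i)

theorem gh_ra_int_exp_norm (C : ℝ) : Integrable (fun ξ : ι → ℝ => Real.exp (C * ‖ξ‖)) (ghStd ι) := by
  have h1 : Integrable (fun ξ : ι → ℝ => ∏ i, Real.exp (|C| * |ξ i|)) (ghStd ι) :=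
    Integrable.fintype_prod (fun _ => gh_ra_int_exp_abs |C|)
  refine h1.mono' (by fun_prop) (Filter.Eventually.of_forall fun ξ => ?_)
  rw [Real.norm_eq_abs, abs_of_pos (Real.exp_pos _), ← Real.exp_sum, ← Finset.mul_sum]
  refine Real.exp_le_exp.2 ?_
  calc C * ‖ξ‖ ≤ |C| * ‖ξ‖ := mul_le_mul_of_nonneg_right (le_abs_self C) (norm_nonneg _)
    _ ≤ |C| * ∑ i, |ξ i| := mul_le_mul_of_nonneg_left (gh_ra_norm_le_sum ξ) (abs_nonneg _)

/-- at most exponential growth in the sup norm of the driver -/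
def GhSubE (f : (ι → ℝ) → ℝ) : Prop := ∃ C D : ℝ, ∀ ξ, |f ξ| ≤ D * Real.exp (C * ‖ξ‖)

theorem gh_ra_int_of_sub {f : (ι → ℝ) → ℝ} (hm : AEStronglyMeasurable f (ghStd ι)) (h : GhSubE f) :
    Integrable f (ghStd ι) := by
  obtain ⟨C, D, h⟩ := h
  exact ((gh_ra_int_exp_norm C).const_mul D).mono' hm (Filter.Eventually.of_forall fun ξ => by
    rw [Real.norm_eq_abs]; exact h ξ)

theorem GhSubE.mul {f g : (ι → ℝ) → ℝ} (hf : GhSubE f) (hg : GhSubE g) : GhSubE fun ξ => f ξ * g ξ := by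
  obtain ⟨C, D, hf⟩ := hf
  obtain ⟨C', D', hg⟩ := hg
  refine ⟨C + C', D * D', fun ξ => ?_⟩
  rw [abs_mul, add_mul, Real.exp_add]
  calc |f ξ| * |g ξ| ≤ (D * Real.exp (C * ‖ξ‖)) * (D' * Real.exp (C' * ‖ξ‖)) :=
        mul_le_mul (hf ξ) (hg ξ) (abs_nonneg _) ((abs_nonneg _).trans (hf ξ))
    _ = _ := by ring

theorem gh_ra_sub_mono {C C' D D' x : ℝ} (hx : 0 ≤ x) (hC : C ≤ C') (hD : D ≤ D') (hD0 : 0 ≤ D') :
    D * Real.exp (C * x) ≤ D' * Real.exp (C' * x) :=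
  calc D * Real.exp (C * x) ≤ D' * Real.exp (C * x) := mul_le_mul_of_nonneg_right hD (Real.exp_pos _).le
    _ ≤ D' * Real.exp (C' * x) :=
        mul_le_mul_of_nonneg_left (Real.exp_le_exp.2 (mul_le_mul_of_nonneg_right hC hx)) hD0

theorem GhSubE.add {f g : (ι → ℝ) → ℝ} (hf : GhSubE f) (hg : GhSubE g) : GhSubE fun ξ => f ξ + g ξ := by
  obtain ⟨C, D, hf⟩ := hf
  obtain ⟨C', D', hg⟩ := hg
  refine ⟨max C C', |D| + |D'|, fun ξ => ?_⟩
  have h1 := gh_ra_sub_mono (norm_nonneg ξ) (le_max_left C C') (le_abs_self D) (abs_nonneg D)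
  have h2 := gh_ra_sub_mono (norm_nonneg ξ) (le_max_right C C') (le_abs_self D') (abs_nonneg D')
  calc |f ξ + g ξ| ≤ |f ξ| + |g ξ| := abs_add_le _ _
    _ ≤ |D| * Real.exp (max C C' * ‖ξ‖) + |D'| * Real.exp (max C C' * ‖ξ‖) :=
        add_le_add ((hf ξ).trans h1) ((hg ξ).trans h2)
    _ = _ := by ring

theorem gh_ra_sub_const (c : ℝ) : GhSubE fun _ : ι → ℝ => c :=
  ⟨0, |c|, fun ξ => by simp⟩

theorem gh_ra_sub_of_bdd {f : (ι → ℝ) → ℝ} {M : ℝ} (h : ∀ ξ, |f ξ| ≤ M) : GhSubE f :=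
  ⟨0, M, fun ξ => by simpa using h ξ⟩

theorem gh_ra_sub_norm : GhSubE fun ξ : ι → ℝ => ‖ξ‖ :=
  ⟨1, 1, fun ξ => by
    rw [abs_of_nonneg (norm_nonneg _), one_mul, one_mul]
    linarith [Real.add_one_le_exp ‖ξ‖]⟩

theorem GhSubE.pow {f : (ι → ℝ) → ℝ} (hf : GhSubE f) (k : ℕ) : GhSubE fun ξ => f ξ ^ k := by
  induction k with
  | zero => simpa using gh_ra_sub_const (ι := ι) 1
  | succ k ih => simpa [pow_succ] using ih.mul hf

theorem GhSubE.of_le {f g : (ι → ℝ) → ℝ} (hg : GhSubE g) (h : ∀ ξ, |f ξ| ≤ |g ξ|) : GhSubE f := by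
  obtain ⟨C, D, hg⟩ := hg
  exact ⟨C, D, fun ξ => (h ξ).trans (hg ξ)⟩

theorem gh_ra_sub_exp {f : (ι → ℝ) → ℝ} {a b : ℝ} (h : ∀ ξ, f ξ ≤ a + b * ‖ξ‖) :
    GhSubE fun ξ => Real.exp (f ξ) :=
  ⟨b, Real.exp a, fun ξ => by
    rw [abs_of_pos (Real.exp_pos _), ← Real.exp_add]; exact Real.exp_le_exp.2 (h ξ)⟩

theorem gh_ra_int_pow_exp (k : ℕ) (C : ℝ) :
    Integrable (fun ξ : ι → ℝ => ‖ξ‖ ^ k * Real.exp (C * ‖ξ‖)) (ghStd ι) :=
  gh_ra_int_of_sub (by fun_prop)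
    ((gh_ra_sub_norm.pow k).mul (gh_ra_sub_exp (a := 0) (b := C) fun ξ => by simp))

/-! ### increments -/

/-- a Lipschitz constant of the increment map -/
def GhLv.K (l : GhLv S ι) : ℝ := ∑ s, ∑ i, |l.A s i|

theorem gh_ra_K_nonneg (l : GhLv S ι) : 0 ≤ l.K :=
  Finset.sum_nonneg fun _ _ => Finset.sum_nonneg fun _ _ => abs_nonneg _

theorem gh_ra_inc_le (l : GhLv S ι) (ξ : ι → ℝ) : ‖l.inc ξ‖ ≤ l.K * ‖ξ‖ := by
  refine (pi_norm_le_iff_of_nonneg (mul_nonneg (gh_ra_K_nonneg l) (norm_nonneg _))).2 fun s => ?_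
  rw [Real.norm_eq_abs, GhLv.inc, GhLv.K, Finset.sum_mul]
  calc |∑ i, l.A s i * ξ i| ≤ ∑ i, |l.A s i * ξ i| := Finset.abs_sum_le_sum_abs _ _
    _ ≤ ∑ i, |l.A s i| * ‖ξ‖ := Finset.sum_le_sum fun i _ => by
        rw [abs_mul]
        exact mul_le_mul_of_nonneg_left (by simpa using norm_le_pi_norm ξ i) (abs_nonneg _)
    _ = (∑ i, |l.A s i|) * ‖ξ‖ := by rw [Finset.sum_mul]
    _ ≤ ∑ s, (∑ i, |l.A s i|) * ‖ξ‖ :=
        Finset.single_le_sum (f := fun s => (∑ i, |l.A s i|) * ‖ξ‖)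
          (fun s _ => mul_nonneg (Finset.sum_nonneg fun _ _ => abs_nonneg _) (norm_nonneg _)) (Finset.mem_univ s)

theorem gh_ra_inc_cont (l : GhLv S ι) : Continuous (l.inc : (ι → ℝ) → S → ℝ) := by
  unfold GhLv.inc; fun_prop

theorem gh_ra_inc_add (l : GhLv S ι) (ξ η : ι → ℝ) : l.inc (ξ + η) = l.inc ξ + l.inc η := by
  funext s; simp [GhLv.inc, mul_add, Finset.sum_add_distrib]

theorem gh_ra_inc_smul (l : GhLv S ι) (c : ℝ) (ξ : ι → ℝ) : l.inc (c • ξ) = c • l.inc ξ := by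
  funext s; simp [GhLv.inc, Finset.mul_sum]; refine Finset.sum_congr rfl fun i _ => by ring

/-! ### the operation `T_m` on a probability space -/

section T
variable {Ω : Type} [MeasurableSpace Ω] {μ : Measure Ω} [IsProbabilityMeasure μ]

theorem gh_ra_T_mono {m : ℝ} {f g : Ω → ℝ} (hf : Integrable f μ) (hg : Integrable g μ)
    (hf' : Integrable (fun ω => Real.exp (m * f ω)) μ) (hg' : Integrable (fun ω => Real.exp (m * g ω)) μ)
    (h : ∀ ω, f ω ≤ g ω) : ghT μ m f ≤ ghT μ m g := by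
  unfold ghT
  split_ifs with h0
  · exact integral_mono hf hg h
  · rcases lt_or_gt_of_ne h0 with hm | hm
    · have h1 : ∫ ω, Real.exp (m * g ω) ∂μ ≤ ∫ ω, Real.exp (m * f ω) ∂μ :=
        integral_mono hg' hf' fun ω => Real.exp_le_exp.2 (mul_le_mul_of_nonpos_left (h ω) hm.le)
      have h2 := Real.log_le_log (integral_exp_pos hg') h1
      exact mul_le_mul_of_nonpos_left h2 (inv_nonpos.2 hm.le)
    · have h1 : ∫ ω, Real.exp (m * f ω) ∂μ ≤ ∫ ω, Real.exp (m * g ω) ∂μ :=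
        integral_mono hf' hg' fun ω => Real.exp_le_exp.2 (mul_le_mul_of_nonneg_left (h ω) hm.le)
      have h2 := Real.log_le_log (integral_exp_pos hf') h1
      exact mul_le_mul_of_nonneg_left h2 (inv_nonneg.2 hm.le)

theorem gh_ra_T_add {m : ℝ} {f : Ω → ℝ} (hf : Integrable f μ)
    (hf' : Integrable (fun ω => Real.exp (m * f ω)) μ) (c : ℝ) :
    ghT μ m (fun ω => f ω + c) = ghT μ m f + c := by
  unfold ghT
  split_ifs with h0
  · rw [integral_add hf (integrable_const c)]; simp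
  · have h1 : (fun ω => Real.exp (m * (f ω + c))) = fun ω => Real.exp (m * f ω) * Real.exp (m * c) := by
      funext ω; rw [mul_add, Real.exp_add]
    rw [h1, integral_mul_const, Real.log_mul (integral_exp_pos hf').ne' (Real.exp_pos _).ne', Real.log_exp]
    field_simp

theorem gh_ra_T_const (m c : ℝ) : ghT μ m (fun _ => c) = c := by
  unfold ghT
  split_ifs with h0
  · simp
  · simp; field_simp

end T

/-! ### monotone functions which commute with constants -/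

/-- monotone and commuting with the addition of constants -/
structure GhMS (F : (S → ℝ) → ℝ) : Prop where
  mono : ∀ z z', z ≤ z' → F z ≤ F z'
  shift : ∀ (z : S → ℝ) (c : ℝ), F (fun s => z s + c) = F z + c

theorem GhMS.le_add {F : (S → ℝ) → ℝ} (h : GhMS F) (z z' : S → ℝ) : F z ≤ F z' + ‖z - z'‖ := by
  rw [← h.shift]
  refine h.mono _ _ fun s => ?_
  have := norm_le_pi_norm (z - z') s
  rw [Real.norm_eq_abs, Pi.sub_apply] at this
  linarith [le_abs_self (z s - z' s)]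

theorem GhMS.lip {F : (S → ℝ) → ℝ} (h : GhMS F) (z z' : S → ℝ) : |F z - F z'| ≤ ‖z - z'‖ := by
  have h1 := h.le_add z z'
  have h2 := h.le_add z' z
  rw [norm_sub_rev] at h2
  exact abs_le.2 ⟨by linarith, by linarith⟩

theorem GhMS.lipschitz {F : (S → ℝ) → ℝ} (h : GhMS F) : LipschitzWith 1 F :=
  LipschitzWith.of_dist_le_mul fun z z' => by
    rw [Real.dist_eq, dist_eq_norm]; simpa using h.lip z z'

theorem GhMS.cont {F : (S → ℝ) → ℝ} (h : GhMS F) : Continuous F := h.lipschitz.continuous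

theorem GhMS.inc_le {F : (S → ℝ) → ℝ} (h : GhMS F) (l : GhLv S ι) (z : S → ℝ) (ξ : ι → ℝ) :
    |F (z + l.inc ξ) - F z| ≤ l.K * ‖ξ‖ := by
  refine (h.lip _ _).trans ?_
  rw [add_sub_cancel_left]; exact gh_ra_inc_le l ξ

theorem GhMS.cont_inc {F : (S → ℝ) → ℝ} (h : GhMS F) (l : GhLv S ι) (z : S → ℝ) :
    Continuous fun ξ => F (z + l.inc ξ) :=
  h.cont.comp (continuous_const.add (gh_ra_inc_cont l))

theorem GhMS.sub_inc {F : (S → ℝ) → ℝ} (h : GhMS F) (l : GhLv S ι) (z : S → ℝ) :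
    GhSubE fun ξ => F (z + l.inc ξ) := by
  have h1 : GhSubE fun ξ : ι → ℝ => |F z| + l.K * ‖ξ‖ :=
    (gh_ra_sub_const _).add ((gh_ra_sub_const _).mul gh_ra_sub_norm)
  refine h1.of_le fun ξ => ?_
  have h2 := h.inc_le l z ξ
  have h3 : 0 ≤ l.K * ‖ξ‖ := mul_nonneg (gh_ra_K_nonneg l) (norm_nonneg _)
  rw [abs_of_nonneg (add_nonneg (abs_nonneg _) h3)]
  calc |F (z + l.inc ξ)| = |F z + (F (z + l.inc ξ) - F z)| := by ring_nf
    _ ≤ |F z| + |F (z + l.inc ξ) - F z| := abs_add_le _ _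
    _ ≤ _ := by linarith

theorem GhMS.int_inc {F : (S → ℝ) → ℝ} (h : GhMS F) (l : GhLv S ι) (z : S → ℝ) :
    Integrable (fun ξ => F (z + l.inc ξ)) (ghStd ι) :=
  gh_ra_int_of_sub (h.cont_inc l z).aestronglyMeasurable (h.sub_inc l z)

theorem GhMS.sub_exp_inc {F : (S → ℝ) → ℝ} (h : GhMS F) (l : GhLv S ι) (z : S → ℝ) (c : ℝ) :
    GhSubE fun ξ => Real.exp (c * F (z + l.inc ξ)) := by
  refine gh_ra_sub_exp (a := c * F z) (b := |c| * l.K) fun ξ => ?_
  have h2 := h.inc_le l z ξ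
  have h3 : c * (F (z + l.inc ξ) - F z) ≤ |c| * (l.K * ‖ξ‖) :=
    calc c * (F (z + l.inc ξ) - F z) ≤ |c * (F (z + l.inc ξ) - F z)| := le_abs_self _
      _ = |c| * |F (z + l.inc ξ) - F z| := abs_mul _ _
      _ ≤ _ := mul_le_mul_of_nonneg_left h2 (abs_nonneg _)
  nlinarith [h3]

theorem GhMS.int_exp_inc {F : (S → ℝ) → ℝ} (h : GhMS F) (l : GhLv S ι) (z : S → ℝ) (c : ℝ) :
    Integrable (fun ξ => Real.exp (c * F (z + l.inc ξ))) (ghStd ι) :=
  gh_ra_int_of_sub (Real.continuous_exp.comp (continuous_const.mul (h.cont_inc l z))).aestronglyMeasurable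
    (h.sub_exp_inc l z c)

theorem GhMS.step {F : (S → ℝ) → ℝ} (h : GhMS F) (l : GhLv S ι) :
    GhMS fun z => ghT (ghStd ι) l.m fun ξ => F (z + l.inc ξ) where
  mono z z' hz := gh_ra_T_mono (h.int_inc l z) (h.int_inc l z') (h.int_exp_inc l z _) (h.int_exp_inc l z' _)
    fun ξ => h.mono _ _ (add_le_add_left hz _)
  shift z c := by
    have h1 : (fun ξ => F ((fun s => z s + c) + l.inc ξ)) = fun ξ => F (z + l.inc ξ) + c := by
      funext ξ
      rw [← h.shift]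
      congr 1; funext s; simp only [Pi.add_apply]; ring
    rw [h1]
    exact gh_ra_T_add (h.int_inc l z) (h.int_exp_inc l z _) c

/-! ### the continuation -/

theorem gh_ra_Z_pos {B : GhB S} (hB : B.Ok) (z : S → ℝ) : 0 < ∑ s, B.w s * Real.exp (B.a * z s) := by
  have h0 : ∀ s ∈ Finset.univ, 0 ≤ B.w s * Real.exp (B.a * z s) :=
    fun s _ => mul_nonneg (hB.nonneg s) (Real.exp_pos _).le
  rcases (Finset.sum_nonneg h0).lt_or_eq with h | h
  · exact h
  · exfalso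
    have h1 := (Finset.sum_eq_zero_iff_of_nonneg h0).1 h.symm
    have h2 : ∑ s, B.w s = 0 := Finset.sum_eq_zero fun s hs => by
      have := h1 s hs
      rcases mul_eq_zero.1 this with h3 | h3
      · exact h3
      · exact absurd h3 (Real.exp_pos _).ne'
    rw [hB.sum] at h2; exact one_ne_zero h2

theorem gh_ra_F0_ms {B : GhB S} (hB : B.Ok) : GhMS (ghF0 B) where
  mono z z' hz := by
    unfold ghF0
    refine mul_le_mul_of_nonneg_left (Real.log_le_log (gh_ra_Z_pos hB z) ?_) (inv_nonneg.2 hB.pos.le)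
    exact Finset.sum_le_sum fun s _ => mul_le_mul_of_nonneg_left
      (Real.exp_le_exp.2 (mul_le_mul_of_nonneg_left (hz s) hB.pos.le)) (hB.nonneg s)
  shift z c := by
    unfold ghF0
    have h1 : ∑ s, B.w s * Real.exp (B.a * (z s + c)) = (∑ s, B.w s * Real.exp (B.a * z s)) * Real.exp (B.a * c) := by
      rw [Finset.sum_mul]; refine Finset.sum_congr rfl fun s _ => ?_
      rw [mul_add, Real.exp_add]; ring
    rw [h1, Real.log_mul (gh_ra_Z_pos hB z).ne' (Real.exp_pos _).ne', Real.log_exp]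
    have := hB.pos.ne'
    field_simp

theorem gh_ra_F_ms {B : GhB S} (hB : B.Ok) (ls : List (GhLv S ι)) : GhMS (ghF B ls) := by
  induction ls with
  | nil => exact gh_ra_F0_ms hB
  | cons l ls ih => exact ih.step l

theorem gh_ra_F_lip {B : GhB S} (hB : B.Ok) (ls : List (GhLv S ι)) (z z' : S → ℝ) :
    |ghF B ls z - ghF B ls z'| ≤ ‖z - z'‖ := (gh_ra_F_ms hB ls).lip z z'

theorem gh_ra_F_cont {B : GhB S} (hB : B.Ok) (ls : List (GhLv S ι)) : Continuous (ghF B ls) :=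
  (gh_ra_F_ms hB ls).cont

theorem gh_ra_F_shift {B : GhB S} (hB : B.Ok) (ls : List (GhLv S ι)) (z : S → ℝ) (c : ℝ) :
    ghF B ls (fun s => z s + c) = ghF B ls z + c := (gh_ra_F_ms hB ls).shift z c

theorem gh_ra_F_mono {B : GhB S} (hB : B.Ok) (ls : List (GhLv S ι)) {z z' : S → ℝ} (h : z ≤ z') :
    ghF B ls z ≤ ghF B ls z' := (gh_ra_F_ms hB ls).mono z z' h

theorem gh_ra_F_int {B : GhB S} (hB : B.Ok) (l : GhLv S ι) (ls : List (GhLv S ι)) (z : S → ℝ) :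
    Integrable (fun ξ => ghF B ls (z + l.inc ξ)) (ghStd ι) := (gh_ra_F_ms hB ls).int_inc l z

theorem gh_ra_F_int_exp {B : GhB S} (hB : B.Ok) (l : GhLv S ι) (ls : List (GhLv S ι)) (z : S → ℝ) (c : ℝ) :
    Integrable (fun ξ => Real.exp (c * ghF B ls (z + l.inc ξ))) (ghStd ι) :=
  (gh_ra_F_ms hB ls).int_exp_inc l z c

/-- one step changes the continuation by a bounded amount, uniformly in the field -/
theorem gh_ra_F_step_bdd {B : GhB S} (hB : B.Ok) (l : GhLv S ι) (ls : List (GhLv S ι)) :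
    ∃ κ : ℝ, ∀ z, |ghF B (l :: ls) z - ghF B ls z| ≤ κ := by
  have hms := gh_ra_F_ms hB ls
  have hi : ∀ c : ℝ, Integrable (fun ξ : ι → ℝ => c * ‖ξ‖) (ghStd ι) := fun c =>
    gh_ra_int_of_sub (by fun_prop) ((gh_ra_sub_const c).mul gh_ra_sub_norm)
  have hi' : ∀ c : ℝ, Integrable (fun ξ : ι → ℝ => Real.exp (l.m * (c * ‖ξ‖))) (ghStd ι) := fun c => by
    simpa [mul_assoc] using gh_ra_int_exp_norm (ι := ι) (l.m * c)
  refine ⟨max |ghT (ghStd ι) l.m fun ξ => l.K * ‖ξ‖| |ghT (ghStd ι) l.m fun ξ => -l.K * ‖ξ‖|, fun z => ?_⟩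
  have e1 : ghF B (l :: ls) z - ghF B ls z
      = ghT (ghStd ι) l.m fun ξ => ghF B ls (z + l.inc ξ) + -ghF B ls z := by
    rw [gh_ra_T_add (hms.int_inc l z) (hms.int_exp_inc l z _)]; rfl
  have hI : Integrable (fun ξ => ghF B ls (z + l.inc ξ) + -ghF B ls z) (ghStd ι) :=
    (hms.int_inc l z).add (integrable_const _)
  have hI' : Integrable (fun ξ => Real.exp (l.m * (ghF B ls (z + l.inc ξ) + -ghF B ls z))) (ghStd ι) := by
    have : (fun ξ => Real.exp (l.m * (ghF B ls (z + l.inc ξ) + -ghF B ls z)))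
        = fun ξ => Real.exp (l.m * ghF B ls (z + l.inc ξ)) * Real.exp (l.m * -ghF B ls z) := by
      funext ξ; rw [mul_add, Real.exp_add]
    rw [this]; exact (hms.int_exp_inc l z _).mul_const _
  have hu := gh_ra_T_mono hI (hi l.K) hI' (hi' l.K) fun ξ => by
    have := (abs_le.1 (hms.inc_le l z ξ)).2; linarith
  have hl := gh_ra_T_mono (hi (-l.K)) hI (hi' (-l.K)) hI' fun ξ => by
    have := (abs_le.1 (hms.inc_le l z ξ)).1; linarith
  rw [e1]
  refine abs_le.2 ⟨?_, ?_⟩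
  · have := neg_abs_le (ghT (ghStd ι) l.m fun ξ => -l.K * ‖ξ‖)
    have h2 := le_max_right |ghT (ghStd ι) l.m fun ξ => l.K * ‖ξ‖| |ghT (ghStd ι) l.m fun ξ => -l.K * ‖ξ‖|
    linarith
  · have := le_abs_self (ghT (ghStd ι) l.m fun ξ => l.K * ‖ξ‖)
    have h2 := le_max_left |ghT (ghStd ι) l.m fun ξ => l.K * ‖ξ‖| |ghT (ghStd ι) l.m fun ξ => -l.K * ‖ξ‖|
    linarith

/-! ### the transition density -/

theorem gh_ra_D_pos (B : GhB S) (l : GhLv S ι) (ls : List (GhLv S ι)) (z : S → ℝ) (ξ : ι → ℝ) :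
    0 < ghD B l ls z ξ := Real.exp_pos _

/-- jointly continuous -/
theorem gh_ra_D_cont {B : GhB S} (hB : B.Ok) (l : GhLv S ι) (ls : List (GhLv S ι)) :
    Continuous fun p : (S → ℝ) × (ι → ℝ) => ghD B l ls p.1 p.2 := by
  unfold ghD
  have h1 := gh_ra_F_cont hB ls
  have h2 := gh_ra_F_cont hB (l :: ls)
  have h3 := gh_ra_inc_cont l
  fun_prop

/-- uniform (in the field) exponential bound -/
theorem gh_ra_D_le {B : GhB S} (hB : B.Ok) (l : GhLv S ι) (ls : List (GhLv S ι)) :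
    ∃ D : ℝ, 0 < D ∧ ∀ z ξ, ghD B l ls z ξ ≤ D * Real.exp (|l.m| * l.K * ‖ξ‖) := by
  obtain ⟨κ, hκ⟩ := gh_ra_F_step_bdd hB l ls
  refine ⟨Real.exp (|l.m| * κ), Real.exp_pos _, fun z ξ => ?_⟩
  unfold ghD
  rw [← Real.exp_add]
  refine Real.exp_le_exp.2 ?_
  have h1 := (gh_ra_F_ms hB ls).inc_le l z ξ
  have h2 := hκ z
  have h3 : |ghF B ls (z + l.inc ξ) - ghF B (l :: ls) z| ≤ κ + l.K * ‖ξ‖ := by
    have : ghF B ls (z + l.inc ξ) - ghF B (l :: ls) z
        = (ghF B ls (z + l.inc ξ) - ghF B ls z) - (ghF B (l :: ls) z - ghF B ls z) := by ring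
    rw [this]
    refine (abs_sub _ _).trans ?_
    linarith
  calc l.m * (ghF B ls (z + l.inc ξ) - ghF B (l :: ls) z)
      ≤ |l.m * (ghF B ls (z + l.inc ξ) - ghF B (l :: ls) z)| := le_abs_self _
    _ = |l.m| * |ghF B ls (z + l.inc ξ) - ghF B (l :: ls) z| := abs_mul _ _
    _ ≤ |l.m| * (κ + l.K * ‖ξ‖) := mul_le_mul_of_nonneg_left h3 (abs_nonneg _)
    _ = _ := by ring

theorem gh_ra_D_sub {B : GhB S} (hB : B.Ok) (l : GhLv S ι) (ls : List (GhLv S ι)) (z : S → ℝ) :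
    GhSubE (ghD B l ls z) := by
  obtain ⟨D, _, h⟩ := gh_ra_D_le hB l ls
  exact ⟨_, D, fun ξ => by rw [abs_of_pos (gh_ra_D_pos B l ls z ξ)]; exact h z ξ⟩

theorem gh_ra_D_cont2 {B : GhB S} (hB : B.Ok) (l : GhLv S ι) (ls : List (GhLv S ι)) (z : S → ℝ) :
    Continuous (ghD B l ls z) :=
  (gh_ra_D_cont hB l ls).comp (Continuous.prodMk continuous_const continuous_id)

theorem gh_ra_D_int {B : GhB S} (hB : B.Ok) (l : GhLv S ι) (ls : List (GhLv S ι)) (z : S → ℝ) :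
    Integrable (ghD B l ls z) (ghStd ι) :=
  gh_ra_int_of_sub (gh_ra_D_cont2 hB l ls z).aestronglyMeasurable (gh_ra_D_sub hB l ls z)

/-- the planted transition is normalised -/
theorem gh_ra_D_one {B : GhB S} (hB : B.Ok) (l : GhLv S ι) (ls : List (GhLv S ι)) (z : S → ℝ) :
    ∫ ξ, ghD B l ls z ξ ∂ghStd ι = 1 := by
  by_cases h0 : l.m = 0
  · simp [ghD, h0]
  · have hI := gh_ra_F_int_exp hB l ls z l.m
    have hpos := integral_exp_pos hI
    have e : ∀ ξ, ghD B l ls z ξ = Real.exp (l.m * ghF B ls (z + l.inc ξ))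
        * (∫ ξ, Real.exp (l.m * ghF B ls (z + l.inc ξ)) ∂ghStd ι)⁻¹ := fun ξ => by
      unfold ghD
      rw [mul_sub, Real.exp_sub, div_eq_mul_inv]
      congr 2
      show Real.exp (l.m * ghT (ghStd ι) l.m fun ξ => ghF B ls (z + l.inc ξ)) = _
      unfold ghT
      rw [if_neg h0, ← mul_assoc, mul_inv_cancel₀ h0, one_mul, Real.exp_log hpos]
    simp_rw [e]
    rw [integral_mul_const, mul_inv_cancel₀ hpos.ne']

/-! ### planted averages of one step -/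

theorem gh_ra_avg_int {B : GhB S} (hB : B.Ok) (l : GhLv S ι) (ls : List (GhLv S ι))
    {G : (S → ℝ) → (ι → ℝ) → ℝ} {M C : ℝ} (hG : Continuous fun p : (S → ℝ) × (ι → ℝ) => G p.1 p.2)
    (hM : ∀ z ξ, |G z ξ| ≤ M * Real.exp (C * ‖ξ‖)) (z : S → ℝ) :
    Integrable (fun ξ => ghD B l ls z ξ * G z ξ) (ghStd ι) :=
  gh_ra_int_of_sub
    ((gh_ra_D_cont2 hB l ls z).mul (hG.comp (Continuous.prodMk continuous_const continuous_id))).aestronglyMeasurable
    ((gh_ra_D_sub hB l ls z).mul ⟨C, M, hM z⟩)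

theorem gh_ra_avg_cont {B : GhB S} (hB : B.Ok) (l : GhLv S ι) (ls : List (GhLv S ι))
    {G : (S → ℝ) → (ι → ℝ) → ℝ} {M C : ℝ} (hG : Continuous fun p : (S → ℝ) × (ι → ℝ) => G p.1 p.2)
    (hM : ∀ z ξ, |G z ξ| ≤ M * Real.exp (C * ‖ξ‖)) :
    Continuous fun z => ∫ ξ, ghD B l ls z ξ * G z ξ ∂ghStd ι := by
  obtain ⟨D, hD0, hD⟩ := gh_ra_D_le hB l ls
  refine continuous_of_dominated (bound := fun ξ => (D * Real.exp (|l.m| * l.K * ‖ξ‖)) * (M * Real.exp (C * ‖ξ‖)))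
    (fun z => (gh_ra_avg_int hB l ls hG hM z).aestronglyMeasurable)
    (fun z => Filter.Eventually.of_forall fun ξ => ?_) ?_ (Filter.Eventually.of_forall fun ξ => ?_)
  · rw [Real.norm_eq_abs, abs_mul, abs_of_pos (gh_ra_D_pos B l ls z ξ)]
    exact mul_le_mul (hD z ξ) (hM z ξ) (abs_nonneg _) (mul_pos hD0 (Real.exp_pos _)).le
  · exact gh_ra_int_of_sub (by fun_prop)
      (((gh_ra_sub_const D).mul (gh_ra_sub_exp (a := 0) (b := |l.m| * l.K) fun ξ => by simp)).mul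
        ((gh_ra_sub_const M).mul (gh_ra_sub_exp (a := 0) (b := C) fun ξ => by simp)))
  · exact ((gh_ra_D_cont hB l ls).comp (Continuous.prodMk continuous_id continuous_const)).mul
      (hG.comp (Continuous.prodMk continuous_id continuous_const))

theorem gh_ra_avg_mono (B : GhB S) (l : GhLv S ι) (ls : List (GhLv S ι)) {f g : (ι → ℝ) → ℝ}
    (z : S → ℝ) (hf : Integrable (fun ξ => ghD B l ls z ξ * f ξ) (ghStd ι))
    (hg : Integrable (fun ξ => ghD B l ls z ξ * g ξ) (ghStd ι)) (h : ∀ ξ, f ξ ≤ g ξ) :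
    ∫ ξ, ghD B l ls z ξ * f ξ ∂ghStd ι ≤ ∫ ξ, ghD B l ls z ξ * g ξ ∂ghStd ι :=
  integral_mono hf hg fun ξ => mul_le_mul_of_nonneg_left (h ξ) (gh_ra_D_pos B l ls z ξ).le

theorem gh_ra_avg_const {B : GhB S} (hB : B.Ok) (l : GhLv S ι) (ls : List (GhLv S ι)) (z : S → ℝ) (c : ℝ) :
    ∫ ξ, ghD B l ls z ξ * c ∂ghStd ι = c := by
  rw [integral_mul_const, gh_ra_D_one hB, one_mul]

theorem gh_ra_avg_bdd {B : GhB S} (hB : B.Ok) (l : GhLv S ι) (ls : List (GhLv S ι)) {f : (ι → ℝ) → ℝ} {M : ℝ}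
    (z : S → ℝ) (hM : ∀ ξ, |f ξ| ≤ M) : |∫ ξ, ghD B l ls z ξ * f ξ ∂ghStd ι| ≤ M := by
  calc |∫ ξ, ghD B l ls z ξ * f ξ ∂ghStd ι| ≤ ∫ ξ, |ghD B l ls z ξ * f ξ| ∂ghStd ι := abs_integral_le_integral_abs
    _ ≤ ∫ ξ, ghD B l ls z ξ * M ∂ghStd ι := by
        refine integral_mono_of_nonneg (Filter.Eventually.of_forall fun ξ => abs_nonneg _)
          ((gh_ra_D_int hB l ls z).mul_const M) (Filter.Eventually.of_forall fun ξ => ?_)
        show |ghD B l ls z ξ * f ξ| ≤ ghD B l ls z ξ * M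
        rw [abs_mul, abs_of_pos (gh_ra_D_pos B l ls z ξ)]
        exact mul_le_mul_of_nonneg_left (hM ξ) (gh_ra_D_pos B l ls z ξ).le
    _ = M := gh_ra_avg_const hB l ls z M

/-! ### Gibbs weights -/

theorem gh_ra_Gw_nonneg {B : GhB S} (hB : B.Ok) (z : S → ℝ) (s : S) : 0 ≤ ghGw B z s :=
  div_nonneg (mul_nonneg (hB.nonneg s) (Real.exp_pos _).le) (gh_ra_Z_pos hB z).le

theorem gh_ra_Gw_sum {B : GhB S} (hB : B.Ok) (z : S → ℝ) : ∑ s, ghGw B z s = 1 := by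
  unfold ghGw
  rw [← Finset.sum_div, div_self (gh_ra_Z_pos hB z).ne']

theorem gh_ra_Gw_cont {B : GhB S} (hB : B.Ok) (s : S) : Continuous fun z => ghGw B z s := by
  unfold ghGw
  refine Continuous.div (by fun_prop) (by fun_prop) fun z => (gh_ra_Z_pos hB z).ne'

theorem gh_ra_Gw_le_one {B : GhB S} (hB : B.Ok) (z : S → ℝ) (s : S) : ghGw B z s ≤ 1 := by
  rw [← gh_ra_Gw_sum hB z]
  exact Finset.single_le_sum (f := fun s => ghGw B z s) (fun s _ => gh_ra_Gw_nonneg hB z s) (Finset.mem_univ s)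

/-! ### the planted conditional expectation -/

theorem gh_ra_E_reg {B : GhB S} (hB : B.Ok) (ls : List (GhLv S ι)) (Φ : S → ℝ) :
    Continuous (ghE B ls Φ) ∧ ∀ z, |ghE B ls Φ z| ≤ ‖Φ‖ := by
  induction ls with
  | nil =>
    refine ⟨?_, fun z => ?_⟩
    · have := fun s => gh_ra_Gw_cont hB s
      show Continuous fun z => ∑ s, ghGw B z s * Φ s
      fun_prop
    · show |∑ s, ghGw B z s * Φ s| ≤ ‖Φ‖
      calc |∑ s, ghGw B z s * Φ s| ≤ ∑ s, |ghGw B z s * Φ s| := Finset.abs_sum_le_sum_abs _ _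
        _ ≤ ∑ s, ghGw B z s * ‖Φ‖ := Finset.sum_le_sum fun s _ => by
            rw [abs_mul, abs_of_nonneg (gh_ra_Gw_nonneg hB z s)]
            exact mul_le_mul_of_nonneg_left (by simpa using norm_le_pi_norm Φ s) (gh_ra_Gw_nonneg hB z s)
        _ = ‖Φ‖ := by rw [← Finset.sum_mul, gh_ra_Gw_sum hB, one_mul]
  | cons l ls ih =>
    refine ⟨?_, fun z => ?_⟩
    · have hc : Continuous fun p : (S → ℝ) × (ι → ℝ) => ghE B ls Φ (p.1 + l.inc p.2) :=
        ih.1.comp (continuous_fst.add ((gh_ra_inc_cont l).comp continuous_snd))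
      exact gh_ra_avg_cont hB l ls (G := fun z ξ => ghE B ls Φ (z + l.inc ξ)) (M := ‖Φ‖) (C := 0) hc
        fun z ξ => by simpa using ih.2 _
    · exact gh_ra_avg_bdd hB l ls z fun ξ => ih.2 _

theorem gh_ra_E_cont {B : GhB S} (hB : B.Ok) (ls : List (GhLv S ι)) (Φ : S → ℝ) : Continuous (ghE B ls Φ) :=
  (gh_ra_E_reg hB ls Φ).1

theorem gh_ra_E_bdd {B : GhB S} (hB : B.Ok) (ls : List (GhLv S ι)) (Φ : S → ℝ) (z : S → ℝ) :
    |ghE B ls Φ z| ≤ ‖Φ‖ := (gh_ra_E_reg hB ls Φ).2 z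

theorem gh_ra_E_int {B : GhB S} (hB : B.Ok) (l : GhLv S ι) (ls : List (GhLv S ι)) (Φ : S → ℝ) (z : S → ℝ) :
    Integrable (fun ξ => ghD B l ls z ξ * ghE B ls Φ (z + l.inc ξ)) (ghStd ι) :=
  gh_ra_avg_int hB l ls (G := fun z ξ => ghE B ls Φ (z + l.inc ξ)) (M := ‖Φ‖) (C := 0)
    ((gh_ra_E_cont hB ls Φ).comp (continuous_fst.add ((gh_ra_inc_cont l).comp continuous_snd)))
    (fun z ξ => by simpa using gh_ra_E_bdd hB ls Φ _) z

theorem gh_ra_E_add {B : GhB S} (hB : B.Ok) (ls : List (GhLv S ι)) (Φ Ψ : S → ℝ) (z : S → ℝ) :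
    ghE B ls (Φ + Ψ) z = ghE B ls Φ z + ghE B ls Ψ z := by
  induction ls generalizing z with
  | nil => simp [ghE, mul_add, Finset.sum_add_distrib]
  | cons l ls ih =>
    show ∫ ξ, ghD B l ls z ξ * ghE B ls (Φ + Ψ) (z + l.inc ξ) ∂ghStd ι = _
    simp_rw [ih, mul_add]
    exact integral_add (gh_ra_E_int hB l ls Φ z) (gh_ra_E_int hB l ls Ψ z)

theorem gh_ra_E_smul (B : GhB S) (ls : List (GhLv S ι)) (c : ℝ) (Φ : S → ℝ) (z : S → ℝ) :
    ghE B ls (c • Φ) z = c * ghE B ls Φ z := by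
  induction ls generalizing z with
  | nil =>
    simp only [ghE, Pi.smul_apply, smul_eq_mul, Finset.mul_sum]
    exact Finset.sum_congr rfl fun s _ => by ring
  | cons l ls ih =>
    show ∫ ξ, ghD B l ls z ξ * ghE B ls (c • Φ) (z + l.inc ξ) ∂ghStd ι = c * ∫ ξ, _ ∂ghStd ι
    simp_rw [ih]
    rw [← integral_const_mul]
    exact integral_congr_ae (Filter.Eventually.of_forall fun ξ => by show _ * (_ * _) = _ * (_ * _); ring)

theorem gh_ra_E_const {B : GhB S} (hB : B.Ok) (ls : List (GhLv S ι)) (c : ℝ) (z : S → ℝ) :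
    ghE B ls (fun _ => c) z = c := by
  induction ls generalizing z with
  | nil => simp [ghE, ← Finset.sum_mul, gh_ra_Gw_sum hB]
  | cons l ls ih =>
    show ∫ ξ, ghD B l ls z ξ * ghE B ls (fun _ => c) (z + l.inc ξ) ∂ghStd ι = c
    simp_rw [ih]
    exact gh_ra_avg_const hB l ls z c

theorem gh_ra_E_neg (B : GhB S) (ls : List (GhLv S ι)) (Φ : S → ℝ) (z : S → ℝ) :
    ghE B ls (-Φ) z = -ghE B ls Φ z := by
  have := gh_ra_E_smul B ls (-1) Φ z
  simpa using this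

theorem gh_ra_E_sub {B : GhB S} (hB : B.Ok) (ls : List (GhLv S ι)) (Φ Ψ : S → ℝ) (z : S → ℝ) :
    ghE B ls (Φ - Ψ) z = ghE B ls Φ z - ghE B ls Ψ z := by
  rw [sub_eq_add_neg, gh_ra_E_add hB, gh_ra_E_neg, ← sub_eq_add_neg]

theorem gh_ra_E_nonneg {B : GhB S} (hB : B.Ok) (ls : List (GhLv S ι)) {Φ : S → ℝ} (h : ∀ s, 0 ≤ Φ s) (z : S → ℝ) :
    0 ≤ ghE B ls Φ z := by
  induction ls generalizing z with
  | nil => exact Finset.sum_nonneg fun s _ => mul_nonneg (gh_ra_Gw_nonneg hB z s) (h s)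
  | cons l ls ih => exact integral_nonneg fun ξ => mul_nonneg (gh_ra_D_pos B l ls z ξ).le (ih _)

theorem gh_ra_E_mono {B : GhB S} (hB : B.Ok) (ls : List (GhLv S ι)) {Φ Ψ : S → ℝ} (h : ∀ s, Φ s ≤ Ψ s) (z : S → ℝ) :
    ghE B ls Φ z ≤ ghE B ls Ψ z := by
  have h1 := gh_ra_E_nonneg hB ls (Φ := Ψ - Φ) (fun s => sub_nonneg.2 (h s)) z
  rw [gh_ra_E_sub hB] at h1
  linarith

theorem gh_ra_E_sum {B : GhB S} (hB : B.Ok) (ls : List (GhLv S ι)) {κ : Type} (t : Finset κ) (Φ : κ → S → ℝ)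
    (z : S → ℝ) : ghE B ls (∑ k ∈ t, Φ k) z = ∑ k ∈ t, ghE B ls (Φ k) z := by
  classical
  induction t using Finset.induction_on with
  | empty =>
    simp only [Finset.sum_empty]
    exact gh_ra_E_const hB ls 0 z
  | insert a t ha ih => rw [Finset.sum_insert ha, Finset.sum_insert ha, gh_ra_E_add hB, ih]

/-- Cauchy-Schwarz / Jensen: `(E Φ)² ≤ E Φ²` -/
theorem gh_ra_E_sq_le {B : GhB S} (hB : B.Ok) (ls : List (GhLv S ι)) (Φ : S → ℝ) (z : S → ℝ) :
    ghE B ls Φ z ^ 2 ≤ ghE B ls (fun s => Φ s * Φ s) z := by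
  set e := ghE B ls Φ z with he
  have h1 := gh_ra_E_nonneg hB ls (Φ := fun s => (Φ s - e) * (Φ s - e)) (fun s => mul_self_nonneg _) z
  have h2 : (fun s => (Φ s - e) * (Φ s - e)) = (fun s => Φ s * Φ s) + ((-2 * e) • Φ + fun _ => e * e) := by
    funext s; simp only [Pi.add_apply, Pi.smul_apply, smul_eq_mul]; ring
  rw [h2, gh_ra_E_add hB, gh_ra_E_add hB, gh_ra_E_smul, gh_ra_E_const hB, ← he] at h1
  nlinarith [h1]

/-! ### covariance and Hessian -/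

theorem gh_ra_C_symm (B : GhB S) (ls : List (GhLv S ι)) (v w : S → ℝ) (z : S → ℝ) :
    ghC B ls v w z = ghC B ls w v z := by
  unfold ghC
  rw [mul_comm (ghE B ls v z), show (fun s => v s * w s) = fun s => w s * v s from funext fun s => mul_comm _ _]

theorem gh_ra_C_self_nonneg {B : GhB S} (hB : B.Ok) (ls : List (GhLv S ι)) (v : S → ℝ) (z : S → ℝ) :
    0 ≤ ghC B ls v v z := by
  unfold ghC
  have := gh_ra_E_sq_le hB ls v z
  nlinarith [this]

theorem gh_ra_norm_mul_le (v w : S → ℝ) : ‖fun s => v s * w s‖ ≤ ‖v‖ * ‖w‖ := by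
  refine (pi_norm_le_iff_of_nonneg (mul_nonneg (norm_nonneg _) (norm_nonneg _))).2 fun s => ?_
  rw [norm_mul]
  exact mul_le_mul (norm_le_pi_norm v s) (norm_le_pi_norm w s) (norm_nonneg _) (norm_nonneg _)

theorem gh_ra_C_cont {B : GhB S} (hB : B.Ok) (ls : List (GhLv S ι)) (v w : S → ℝ) : Continuous (ghC B ls v w) := by
  unfold ghC
  exact (gh_ra_E_cont hB ls _).sub ((gh_ra_E_cont hB ls v).mul (gh_ra_E_cont hB ls w))

theorem gh_ra_C_bdd {B : GhB S} (hB : B.Ok) (ls : List (GhLv S ι)) (v w : S → ℝ) (z : S → ℝ) :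
    |ghC B ls v w z| ≤ 2 * (‖v‖ * ‖w‖) := by
  unfold ghC
  have h1 := (gh_ra_E_bdd hB ls (fun s => v s * w s) z).trans (gh_ra_norm_mul_le v w)
  have h2 : |ghE B ls v z * ghE B ls w z| ≤ ‖v‖ * ‖w‖ := by
    rw [abs_mul]
    exact mul_le_mul (gh_ra_E_bdd hB ls v z) (gh_ra_E_bdd hB ls w z) (abs_nonneg _) (norm_nonneg _)
  exact (abs_sub _ _).trans (by linarith)

/-- the constant in the bound of the Hessian -/
def ghHK (B : GhB S) : List (GhLv S ι) → ℝ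
  | [] => 2 * |B.a|
  | l :: ls => ghHK B ls + 4 * |l.m|

theorem gh_ra_HK_nonneg (B : GhB S) (ls : List (GhLv S ι)) : 0 ≤ ghHK B ls := by
  induction ls with
  | nil => simp [ghHK]
  | cons l ls ih => simp only [ghHK]; positivity

theorem gh_ra_H_reg {B : GhB S} (hB : B.Ok) (ls : List (GhLv S ι)) (v w : S → ℝ) :
    Continuous (ghH B ls v w) ∧ ∀ z, |ghH B ls v w z| ≤ ghHK B ls * (‖v‖ * ‖w‖) := by
  induction ls with
  | nil =>
    refine ⟨continuous_const.mul (gh_ra_C_cont hB _ v w), fun z => ?_⟩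
    show |B.a * ghC (ι := ι) B [] v w z| ≤ 2 * |B.a| * (‖v‖ * ‖w‖)
    rw [abs_mul]
    have := mul_le_mul_of_nonneg_left (gh_ra_C_bdd (ι := ι) hB [] v w z) (abs_nonneg B.a)
    linarith
  | cons l ls ih =>
    have hG : Continuous fun p : (S → ℝ) × (ι → ℝ) => ghH B ls v w (p.1 + l.inc p.2)
        + l.m * ((ghE B ls v (p.1 + l.inc p.2) - ghE B (l :: ls) v p.1)
          * (ghE B ls w (p.1 + l.inc p.2) - ghE B (l :: ls) w p.1)) := by
      have c0 : Continuous fun p : (S → ℝ) × (ι → ℝ) => p.1 + l.inc p.2 :=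
        continuous_fst.add ((gh_ra_inc_cont l).comp continuous_snd)
      exact (ih.1.comp c0).add (continuous_const.mul
        ((((gh_ra_E_cont hB ls v).comp c0).sub ((gh_ra_E_cont hB (l :: ls) v).comp continuous_fst)).mul
          (((gh_ra_E_cont hB ls w).comp c0).sub ((gh_ra_E_cont hB (l :: ls) w).comp continuous_fst))))
    have hM : ∀ (z : S → ℝ) (ξ : ι → ℝ), |ghH B ls v w (z + l.inc ξ)
        + l.m * ((ghE B ls v (z + l.inc ξ) - ghE B (l :: ls) v z)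
          * (ghE B ls w (z + l.inc ξ) - ghE B (l :: ls) w z))| ≤ ghHK B (l :: ls) * (‖v‖ * ‖w‖) := fun z ξ => by
      have a1 : |ghE B ls v (z + l.inc ξ) - ghE B (l :: ls) v z| ≤ 2 * ‖v‖ :=
        (abs_sub _ _).trans (by linarith [gh_ra_E_bdd hB ls v (z + l.inc ξ), gh_ra_E_bdd hB (l :: ls) v z])
      have a2 : |ghE B ls w (z + l.inc ξ) - ghE B (l :: ls) w z| ≤ 2 * ‖w‖ :=
        (abs_sub _ _).trans (by linarith [gh_ra_E_bdd hB ls w (z + l.inc ξ), gh_ra_E_bdd hB (l :: ls) w z])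
      have a3 : |l.m * ((ghE B ls v (z + l.inc ξ) - ghE B (l :: ls) v z)
          * (ghE B ls w (z + l.inc ξ) - ghE B (l :: ls) w z))| ≤ |l.m| * ((2 * ‖v‖) * (2 * ‖w‖)) := by
        rw [abs_mul, abs_mul]
        exact mul_le_mul_of_nonneg_left (mul_le_mul a1 a2 (abs_nonneg _) (by positivity)) (abs_nonneg _)
      refine (abs_add_le _ _).trans ?_
      simp only [ghHK]
      nlinarith [ih.2 (z + l.inc ξ), a3]
    refine ⟨?_, fun z => ?_⟩
    · exact gh_ra_avg_cont hB l ls (C := 0) hG fun z ξ => by simpa using hM z ξ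
    · exact gh_ra_avg_bdd hB l ls z (hM z)

theorem gh_ra_H_cont {B : GhB S} (hB : B.Ok) (ls : List (GhLv S ι)) (v w : S → ℝ) : Continuous (ghH B ls v w) :=
  (gh_ra_H_reg hB ls v w).1

theorem gh_ra_H_bdd {B : GhB S} (hB : B.Ok) (ls : List (GhLv S ι)) (v w : S → ℝ) (z : S → ℝ) :
    |ghH B ls v w z| ≤ ghHK B ls * (‖v‖ * ‖w‖) := (gh_ra_H_reg hB ls v w).2 z

theorem gh_ra_H_symm (B : GhB S) (ls : List (GhLv S ι)) (v w : S → ℝ) (z : S → ℝ) :
    ghH B ls v w z = ghH B ls w v z := by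
  induction ls generalizing z with
  | nil => show B.a * _ = B.a * _; rw [gh_ra_C_symm]
  | cons l ls ih =>
    show ∫ ξ, _ ∂ghStd ι = ∫ ξ, _ ∂ghStd ι
    refine integral_congr_ae (Filter.Eventually.of_forall fun ξ => ?_)
    show _ * (_ + _ * (_ * _)) = _ * (_ + _ * (_ * _))
    rw [ih, mul_comm (ghE B ls v (z + l.inc ξ) - ghE B (l :: ls) v z)]

theorem gh_ra_eqns_cite : True := by
  have := @GhSubE.eq_1
  have := @GhLv.K.eq_1
  have := @ghHK.eq_1
  have := @ghHK.eq_2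
  have := @ghHK.eq_def
  have := @ghHK.induct
  trivial

end Claimed.Agent.R286
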