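import Claimed.Agent.R286.Fd.Obs
import Claimed.Agent.R286.Fd.RegA

/-!
# Row 286 (S0533), Fd/ObsTw : PROOFS of the contracts G7, G8, K2 of `Fd/ObsC.lean`      (owner helper147; prefix `obt_`)      no sorry

* `obt_path_spin`   `ghPath` of a pure spin test = `ghE`;      `obt_path_const`  `ghPath` of a constant = the constant
* `obt_g_tower`     = `ob_g_tower` (G7), verbatim
* `obt_split`       two labels which share nothing: product of the two `ghE` (finite sums of product tests)
* `obt_two_sum`     G8 for finite sums `∑ k, Φ k (σ 0) * Ψ k (σ 1)`;      `obt_g_two` = `ob_g_two` (G8), verbatim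
* `obt_S_two`, `obt_B_two` = `ob_S_two`, `ob_B_two` (K2), verbatim
-/

set_option autoImplicit false
set_option linter.unusedSectionVars false
set_option linter.unusedVariables false

namespace Claimed.Agent.R286

open MeasureTheory ProbabilityTheory Set

section generic
variable {S ι : Type} [Fintype S] [Fintype ι]

/-- `ghPath` of a pure spin test is `ghE` -/
theorem obt_path_spin (B : GhB S) (ls : List (GhLv S ι)) (z : S → ℝ) (Φ : S → ℝ) :
    ghPath B ls z (fun _ s => Φ s) = ghE B ls Φ z := by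
  induction ls generalizing z with
  | nil => rfl
  | cons l ls ih =>
    simp only [ghPath, ghE]
    exact integral_congr_ae (Filter.Eventually.of_forall fun ξ => by simp only [ih])

/-- `ghPath` of a constant -/
theorem obt_path_const {B : GhB S} (hB : B.Ok) (ls : List (GhLv S ι)) (z : S → ℝ) (c : ℝ) :
    ghPath B ls z (fun _ _ => c) = c := by
  rw [obt_path_spin B ls z (fun _ => c), gh_ra_E_const hB]

theorem obt_pre_zero (ls : List (GhLv S ι)) (ξ : ℕ → ι → ℝ) : ghPre ls ξ 0 = 0 := by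
  simp [ghPre, ghSum]

theorem obt_pre_cons (l : GhLv S ι) (ls : List (GhLv S ι)) (ξ : ι → ℝ) (η : ℕ → ι → ℝ) (j : ℕ) :
    ghPre (l :: ls) (ghCons ξ η) (j + 1) = l.inc ξ + ghPre ls η j := by
  simp [ghPre, ghSum, ghCons]

theorem obt_pre_nil (ξ : ℕ → ι → ℝ) (j : ℕ) : ghPre ([] : List (GhLv S ι)) ξ j = 0 := by
  simp [ghPre, ghSum]

/-- G7: tower property on one path (= `ob_g_tower`) -/
theorem obt_g_tower (B : GhB S) (hB : B.Ok) (ls : List (GhLv S ι)) (hls : GhAdm B 0 ls) (z : S → ℝ) (j : ℕ)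
    (g : (ℕ → ι → ℝ) → ℝ) (hg : Measurable g) (hgb : ∃ K, ∀ ξ, |g ξ| ≤ K)
    (hloc : ∀ ξ ξ' : ℕ → ι → ℝ, (∀ t, t < j → ξ t = ξ' t) → g ξ = g ξ') (Φ : S → ℝ) :
    ghPath B ls z (fun ξ s => g ξ * Φ s)
      = ghPath B ls z (fun ξ _ => g ξ * ghE B (ls.drop j) Φ (z + ghPre ls ξ j)) := by
  clear hls hg hgb
  induction ls generalizing z j g with
  | nil =>
    simp only [ghPath, List.drop_nil, obt_pre_nil, add_zero, ghE]
    rw [← Finset.sum_mul, gh_ra_Gw_sum hB, one_mul, Finset.mul_sum]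
    exact Finset.sum_congr rfl fun s _ => by ring
  | cons l ls ih =>
    cases j with
    | zero =>
      have hc : ∀ ξ, g ξ = g (fun _ _ => 0) := fun ξ => hloc _ _ fun t ht => absurd ht (Nat.not_lt_zero t)
      have e1 : (fun (ξ : ℕ → ι → ℝ) (s : S) => g ξ * Φ s)
          = fun _ s => (g (fun _ _ => 0) • Φ) s := by
        funext ξ s; rw [hc ξ]; rfl
      have e2 : (fun (ξ : ℕ → ι → ℝ) (_ : S) =>
            g ξ * ghE B ((l :: ls).drop 0) Φ (z + ghPre (l :: ls) ξ 0))
          = fun _ _ => g (fun _ _ => 0) * ghE B (l :: ls) Φ z := by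
        funext ξ _; rw [hc ξ, obt_pre_zero, add_zero, List.drop_zero]
      rw [e1, e2, obt_path_spin, obt_path_const hB, gh_ra_E_smul]
    | succ j =>
      simp only [ghPath]
      refine integral_congr_ae (Filter.Eventually.of_forall fun ξ => ?_)
      simp only
      rw [ih (z + l.inc ξ) j (fun η => g (ghCons ξ η)) ?_]
      · simp only [List.drop_succ_cons, obt_pre_cons, add_assoc]
      · intro η η' h
        refine hloc _ _ fun t ht => ?_
        cases t with
        | zero => rfl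
        | succ t => exact h t (Nat.lt_of_succ_lt_succ ht)

/-- the representative maps of the tree with two labels -/
theorem obt_rep (j t : ℕ) (a : Fin 2) : (obT2 j).rep t a = if t < j then 0 else a := by
  have hsh : ∀ a b, (obT2 j).sh a b = j := fun _ _ => rfl
  unfold GhTree.rep
  split_ifs with h
  · apply le_antisymm
    · exact Finset.min'_le _ _ (by simp [hsh, h])
    · exact Fin.zero_le _
  · apply le_antisymm
    · exact Finset.min'_le _ _ (by simp)
    · refine Finset.le_min' _ _ _ fun b hb => ?_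
      simp only [hsh, h, or_false, Finset.mem_filter, Finset.mem_univ, true_and] at hb
      exact hb.ge

theorem obt_sum_fin2 (F : S → S → ℝ) : ∑ σ : Fin 2 → S, F (σ 0) (σ 1) = ∑ s, ∑ t, F s t := by
  rw [← Fintype.sum_prod_type']
  exact Fintype.sum_equiv (finTwoArrowEquiv S) _ _ fun σ => rfl

/-- two labels which share nothing: the tree law is the product of the two planted laws (finite sums of product tests) -/
theorem obt_split {B : GhB S} (hB : B.Ok) (ls : List (GhLv S ι)) {κ : Type} (K : Finset κ) (Φ Ψ : κ → S → ℝ)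
    (rep : ℕ → Fin 2 → Fin 2) (hrep : ∀ t a, rep t a = a) (G : Fin 2 → S → ℝ) :
    ghNu B ls rep G (fun _ σ => ∑ k ∈ K, Φ k (σ 0) * Ψ k (σ 1))
      = ∑ k ∈ K, ghE B ls (Φ k) (G 0) * ghE B ls (Ψ k) (G 1) := by
  induction ls generalizing rep G with
  | nil =>
    simp only [ghNu, ghE, hrep, Fin.prod_univ_two]
    rw [obt_sum_fin2 (fun s t => ghGw B (G 0) s * ghGw B (G 1) t * ∑ k ∈ K, Φ k s * Ψ k t)]
    have h : ∀ k ∈ K, (∑ s, ghGw B (G 0) s * Φ k s) * (∑ s, ghGw B (G 1) s * Ψ k s)
        = ∑ s, ∑ t, ghGw B (G 0) s * ghGw B (G 1) t * (Φ k s * Ψ k t) := by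
      intro k _
      rw [Finset.sum_mul_sum]
      exact Finset.sum_congr rfl fun s _ => Finset.sum_congr rfl fun t _ => by ring
    rw [Finset.sum_congr rfl h]
    symm
    calc ∑ k ∈ K, ∑ s, ∑ t, ghGw B (G 0) s * ghGw B (G 1) t * (Φ k s * Ψ k t)
        = ∑ s, ∑ k ∈ K, ∑ t, ghGw B (G 0) s * ghGw B (G 1) t * (Φ k s * Ψ k t) := Finset.sum_comm
      _ = ∑ s, ∑ t, ∑ k ∈ K, ghGw B (G 0) s * ghGw B (G 1) t * (Φ k s * Ψ k t) :=
          Finset.sum_congr rfl fun s _ => Finset.sum_comm
      _ = ∑ s, ∑ t, ghGw B (G 0) s * ghGw B (G 1) t * ∑ k ∈ K, Φ k s * Ψ k t :=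
          Finset.sum_congr rfl fun s _ => Finset.sum_congr rfl fun t _ => (Finset.mul_sum _ _ _).symm
  | cons l ls ih =>
    set f : κ → Fin 2 → (ι → ℝ) → ℝ := fun k a ξ =>
      ghD B l ls (G a) ξ * ghE B ls (if a = 0 then Φ k else Ψ k) (G a + l.inc ξ) with hf
    have hfi : ∀ k a, Integrable (f k a) (ghStd ι) := fun k a => gh_ra_E_int hB l ls _ (G a)
    have e : ∀ W : Fin 2 → ι → ℝ,
        ghDT B l ls (rep 0) G W * ghNu B ls (fun t => rep (t + 1)) (fun a => G a + l.inc (W (rep 0 a)))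
          (fun _ σ => ∑ k ∈ K, Φ k (σ 0) * Ψ k (σ 1)) = ∑ k ∈ K, ∏ a, f k a (W a) := by
      intro W
      rw [ih (fun t => rep (t + 1)) (fun t a => hrep _ a)]
      simp only [ghDT, hrep, if_true, Fin.prod_univ_two, hf, Finset.mul_sum]
      refine Finset.sum_congr rfl fun k _ => ?_
      simp only [one_ne_zero, if_false]
      ring
    simp only [ghNu]
    rw [integral_congr_ae (Filter.Eventually.of_forall e),
      integral_finsetSum _ fun k _ => Integrable.fintype_prod (hfi k)]
    refine Finset.sum_congr rfl fun k _ => ?_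
    rw [integral_fintype_prod_eq_prod (f k), Fin.prod_univ_two]
    simp only [hf, ghE, if_true, one_ne_zero, if_false]

/-- G8 for finite sums of product tests -/
theorem obt_two_sum {B : GhB S} (hB : B.Ok) (ls : List (GhLv S ι)) (z : S → ℝ) (j : ℕ) (hj : j ≤ ls.length)
    {κ : Type} (K : Finset κ) (Φ Ψ : κ → S → ℝ) :
    (obT2 j).nu B ls z (fun _ σ => ∑ k ∈ K, Φ k (σ 0) * Ψ k (σ 1))
      = ghPath B ls z (fun ξ _ => ∑ k ∈ K,
          ghE B (ls.drop j) (Φ k) (z + ghPre ls ξ j) * ghE B (ls.drop j) (Ψ k) (z + ghPre ls ξ j)) := by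
  unfold GhTree.nu
  induction ls generalizing z j with
  | nil =>
    have hj0 : j = 0 := Nat.le_zero.1 hj
    subst hj0
    rw [obt_split hB _ K Φ Ψ _ (fun t a => by simp [obt_rep])]
    simp only [List.drop_nil, obt_pre_nil, add_zero]
    rw [obt_path_const hB]
  | cons l ls ih =>
    cases j with
    | zero =>
      rw [obt_split hB _ K Φ Ψ _ (fun t a => by simp [obt_rep])]
      simp only [List.drop_zero, obt_pre_zero, add_zero]
      rw [obt_path_const hB]
    | succ j =>
      have hj' : j ≤ ls.length := Nat.le_of_succ_le_succ hj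
      have hr0 : ∀ a, (obT2 (j + 1)).rep 0 a = 0 := fun a => by simp [obt_rep]
      have hrs : (fun t => (obT2 (j + 1)).rep (t + 1)) = (obT2 j).rep := by
        funext t a; simp [obt_rep]
      set h : (ι → ℝ) → ℝ := fun ξ => ghD B l ls z ξ * ghPath B ls (z + l.inc ξ) (fun η _ => ∑ k ∈ K,
          ghE B (ls.drop j) (Φ k) (z + l.inc ξ + ghPre ls η j)
            * ghE B (ls.drop j) (Ψ k) (z + l.inc ξ + ghPre ls η j)) with hh
      set f : Fin 2 → (ι → ℝ) → ℝ := fun a => if a = 0 then h else fun _ => 1 with hf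
      have e : ∀ W : Fin 2 → ι → ℝ,
          ghDT B l ls ((obT2 (j + 1)).rep 0) (fun _ => z) W
            * ghNu B ls (fun t => (obT2 (j + 1)).rep (t + 1))
              (fun a => z + l.inc (W ((obT2 (j + 1)).rep 0 a)))
              (fun _ σ => ∑ k ∈ K, Φ k (σ 0) * Ψ k (σ 1)) = ∏ a, f a (W a) := by
        intro W
        rw [hrs]
        simp only [hr0]
        rw [ih (z + l.inc (W 0)) j hj']
        simp only [ghDT, hr0, Fin.prod_univ_two, hf, hh, if_true, one_ne_zero, if_false, zero_ne_one,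
          mul_one]
      simp only [ghNu, ghPath]
      rw [integral_congr_ae (Filter.Eventually.of_forall e), integral_fintype_prod_eq_prod f,
        Fin.prod_univ_two]
      simp only [hf, hh, if_true, one_ne_zero, if_false, integral_const, probReal_univ, smul_eq_mul,
        mul_one, List.drop_succ_cons, obt_pre_cons, add_assoc]

/-- G8 (= `ob_g_two`) -/
theorem obt_g_two (B : GhB S) (hB : B.Ok) (ls : List (GhLv S ι)) (hls : GhAdm B 0 ls) (z : S → ℝ) (j : ℕ)
    (hj : j ≤ ls.length) (Φ Ψ : S → ℝ) :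
    (obT2 j).nu B ls z (fun _ σ => Φ (σ 0) * Ψ (σ 1))
      = ghPath B ls z (fun ξ _ => ghE B (ls.drop j) Φ (z + ghPre ls ξ j) * ghE B (ls.drop j) Ψ (z + ghPre ls ξ j)) := by
  have := obt_two_sum hB ls z j hj ({()} : Finset Unit) (fun _ => Φ) (fun _ => Ψ)
  simpa using this

end generic

section sk
variable {n : ℕ}

theorem obt_base_ok (n : ℕ) {a : ℝ} (ha : 0 < a) : (skBase n a).Ok where
  nonneg := fun _ => by simp only [skBase, ghUnif]; positivity
  sum := by
    simp only [skBase, ghUnif, Finset.sum_const, Finset.card_univ, nsmul_eq_mul]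
    exact mul_inv_cancel₀ (Nat.cast_ne_zero.2 Fintype.card_ne_zero)
  pos := ha

theorem obt_ov (hn : 0 < n) (σ τ : SkCfg n) : skOv σ τ = ∑ i : Fin n, obY i σ * obY i τ := by
  have hn' : (0 : ℝ) < n := Nat.cast_pos.2 hn
  simp only [skOv, obY, skY, Finset.sum_div]
  refine Finset.sum_congr rfl fun i _ => ?_
  rw [div_mul_div_comm, Real.mul_self_sqrt hn'.le]

theorem obt_lvs_drop (n : ℕ) (P : SkStp) (j : ℕ) : (skLvs n P).drop j = skLvs n (P.drop j) := by
  simp [skLvs, List.map_drop]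

/-- K2 (= `ob_S_two`) -/
theorem obt_S_two (hn : 0 < n) {a : ℝ} (ha : 0 < a) (P : SkStp) (hP : SkAdm a P) (z₀ : SkCfg n → ℝ) (j : ℕ)
    (hj : j ≤ P.length) :
    (obT2 j).nu (skBase n a) (skLvs n P) z₀ (fun _ σ => skOv (σ 0) (σ 1)) = obS n a P z₀ j := by
  have h := obt_two_sum (obt_base_ok n ha) (skLvs n P) z₀ j (by simpa [skLvs] using hj)
    (Finset.univ : Finset (Fin n)) (fun i => obY i) (fun i => obY i)
  simp only [obt_ov hn]
  rw [h]
  simp only [obS, obE, obXp, obX, obFld, obt_lvs_drop, sq]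

/-- K2 (= `ob_B_two`) -/
theorem obt_B_two (hn : 0 < n) {a : ℝ} (ha : 0 < a) (P : SkStp) (hP : SkAdm a P) (z₀ : SkCfg n → ℝ) (j : ℕ)
    (hj : j ≤ P.length) :
    (obT2 j).nu (skBase n a) (skLvs n P) z₀ (fun _ σ => skOv (σ 0) (σ 1) ^ 2) = obB n a P z₀ j := by
  have h := obt_two_sum (obt_base_ok n ha) (skLvs n P) z₀ j (by simpa [skLvs] using hj)
    (Finset.univ : Finset (Fin n × Fin n)) (fun p σ => skY σ p.1 * skY σ p.2)
    (fun p σ => skY σ p.1 * skY σ p.2)
  have e : ∀ σ τ : SkCfg n, skOv σ τ ^ 2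
      = ∑ p : Fin n × Fin n, (skY σ p.1 * skY σ p.2) * (skY τ p.1 * skY τ p.2) := by
    intro σ τ
    rw [obt_ov hn, sq, Finset.sum_mul_sum, Fintype.sum_prod_type]
    exact Finset.sum_congr rfl fun i _ => Finset.sum_congr rfl fun k _ => by simp only [obY]; ring
  simp only [e]
  rw [h]
  simp only [obB, obE, obM, obFld, obt_lvs_drop, sq, Fintype.sum_prod_type]

end sk

end Claimed.Agent.R286
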