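import Claimed.Agent.R286.Fd.Obs
import Claimed.Agent.R286.Defs.GhBasic
import Claimed.Agent.R286.Defs.GhDeriv

/-!
# Row 286 (S0533), Fd/ObsU : path calculus on `Defs/Gh` (owner helper232; prefix `obu_`), 0 sorry

Proofs of the contracts K0, K1, K3, K8 of `Fd/ObsC.lean` (PE Lemma 2.1, eq. (1) line 4).   (G7, G8, K2: `Fd/ObsTw`, helper147.)

* `obu_tower_gen` : ANY test that sees only the drivers `< j` and the spin:
      `ghPath P = ghPath (ξ ↦ ghE (drop j) (P ξ) (field at the cut j))`      (no measurability, no bound needed)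
* `obuIt`, `obu_path_field` : a test of the field at the cut `j` = `j`-fold planted average; `obu_it_bc/_add/_const_mul`
      (= additivity of `ghPath`/`obE` on bounded continuous tests of the field at a cut); `ObuBC` closure lemmas
* `obu_base_ok`, `obu_lvs_nn`, `obu_lvs_drop`, `obu_lvs_length`, `obu_adm_drop` : SK plumbing
* `obu_feat_h`, `obu_feat_b` (K0), `obu_quad_H`, `obu_quad_C` (K1), `obu_E_W` (K8), `obu_D2_decomp` (K3), `obu_E_centred`
-/

set_option autoImplicit false

namespace Claimed.Agent.R286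

open MeasureTheory ProbabilityTheory Set

section generic
variable {S ι : Type} [Fintype S] [Fintype ι]

/-- a spin test on the planted path is the planted conditional mean -/
theorem obu_path_spin (B : GhB S) (ls : List (GhLv S ι)) (z : S → ℝ) (Φ : S → ℝ) :
    ghPath B ls z (fun _ s => Φ s) = ghE B ls Φ z := by
  induction ls generalizing z with
  | nil => rfl
  | cons l ls ih =>
    simp only [ghPath, ghE]
    refine integral_congr_ae (Filter.Eventually.of_forall fun ξ => ?_)
    simp only [ih]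

theorem obu_path_const_mul (B : GhB S) (ls : List (GhLv S ι)) (z : S → ℝ) (c : ℝ)
    (P : (ℕ → ι → ℝ) → S → ℝ) :
    ghPath B ls z (fun ξ s => c * P ξ s) = c * ghPath B ls z P := by
  induction ls generalizing z P with
  | nil =>
    simp only [ghPath, Finset.mul_sum]
    exact Finset.sum_congr rfl fun s _ => by ring
  | cons l ls ih =>
    simp only [ghPath]
    rw [← integral_const_mul]
    refine integral_congr_ae (Filter.Eventually.of_forall fun ξ => ?_)
    simp only [ih]
    ring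

theorem obu_path_const {B : GhB S} (hB : B.Ok) {ls : List (GhLv S ι)} (h : GhNn ls) (z : S → ℝ)
    (c : ℝ) : ghPath B ls z (fun _ _ => c) = c := by
  rw [obu_path_spin B ls z (fun _ => c)]
  exact gh_b_E_const hB c h z

theorem obu_pre_zero (ls : List (GhLv S ι)) (ξ : ℕ → ι → ℝ) : ghPre ls ξ 0 = 0 := by
  simp [ghPre, ghSum]

theorem obu_pre_nil (ξ : ℕ → ι → ℝ) (j : ℕ) : ghPre ([] : List (GhLv S ι)) ξ j = 0 := by
  simp [ghPre, ghSum]

theorem obu_pre_cons (l : GhLv S ι) (ls : List (GhLv S ι)) (x : ι → ℝ) (η : ℕ → ι → ℝ) (j : ℕ) :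
    ghPre (l :: ls) (ghCons x η) (j + 1) = l.inc x + ghPre ls η j := by
  simp [ghPre, ghSum, ghCons]

end generic

section generic
variable {S ι : Type} [Fintype S] [Fintype ι]

/-- general tower property: a test which sees only the drivers `< j` (and the spin) -/
theorem obu_tower_gen {B : GhB S} (hB : B.Ok) {ls : List (GhLv S ι)} (hls : GhNn ls) (z : S → ℝ)
    (j : ℕ) (P : (ℕ → ι → ℝ) → S → ℝ)
    (hloc : ∀ ξ ξ' : ℕ → ι → ℝ, (∀ t, t < j → ξ t = ξ' t) → P ξ = P ξ') :
    ghPath B ls z P = ghPath B ls z (fun ξ _ => ghE B (ls.drop j) (P ξ) (z + ghPre ls ξ j)) := by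
  induction ls generalizing z j P with
  | nil =>
    simp only [ghPath, List.drop_nil, obu_pre_nil, add_zero, ghE]
    rw [← Finset.sum_mul, gh_b_Gw_sum hB, one_mul]
  | cons l ls ih =>
    cases j with
    | zero =>
      have hc : ∀ ξ, P ξ = P (fun _ _ => 0) := fun ξ => hloc _ _ (fun t ht => absurd ht (by omega))
      have e1 : P = fun _ s => P (fun _ _ => 0) s := by funext ξ s; rw [hc ξ]
      rw [e1]
      simp only [List.drop_zero, obu_pre_zero, add_zero]
      rw [obu_path_spin, obu_path_const hB hls]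
    | succ j =>
      simp only [ghPath]
      refine integral_congr_ae (Filter.Eventually.of_forall fun x => ?_)
      have := ih hls.tail (z + l.inc x) j (fun η s => P (ghCons x η) s) (fun η η' hη => by
        refine hloc _ _ fun t ht => ?_
        cases t with
        | zero => rfl
        | succ t => exact hη t (by omega))
      simp only [this, List.drop_succ_cons, obu_pre_cons, add_assoc]

theorem obu_pre_loc (ls : List (GhLv S ι)) (j : ℕ) (ξ ξ' : ℕ → ι → ℝ)
    (h : ∀ t, t < j → ξ t = ξ' t) : ghPre ls ξ j = ghPre ls ξ' j := by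
  induction ls generalizing j ξ ξ' with
  | nil => simp [obu_pre_nil]
  | cons l ls ih =>
    cases j with
    | zero => simp [obu_pre_zero]
    | succ j =>
      have e : ∀ ζ : ℕ → ι → ℝ, ghPre (l :: ls) ζ (j + 1)
          = l.inc (ζ 0) + ghPre ls (fun k => ζ (k + 1)) j := fun ζ => by
        simp [ghPre, ghSum]
      rw [e, e, h 0 (by omega), ih j _ _ (fun t ht => h (t + 1) (by omega))]

/-- the `j`-fold planted average of a function of the field -/
noncomputable def obuIt (B : GhB S) : List (GhLv S ι) → ℕ → ((S → ℝ) → ℝ) → (S → ℝ) → ℝ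
  | [], _, φ, z => φ z
  | _ :: _, 0, φ, z => φ z
  | l :: ls, j + 1, φ, z => ghA B l ls (obuIt B ls j φ) z

theorem obu_it_zero (B : GhB S) (ls : List (GhLv S ι)) (φ : (S → ℝ) → ℝ) (z : S → ℝ) :
    obuIt B ls 0 φ z = φ z := by cases ls <;> rfl

/-- a test of the field at the cut `j` -/
theorem obu_path_field {B : GhB S} (hB : B.Ok) {ls : List (GhLv S ι)} (hls : GhNn ls) (z : S → ℝ)
    (j : ℕ) (φ : (S → ℝ) → ℝ) :
    ghPath B ls z (fun ξ _ => φ (z + ghPre ls ξ j)) = obuIt B ls j φ z := by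
  induction ls generalizing z j with
  | nil =>
    simp only [obu_pre_nil, add_zero]
    rw [obu_path_const hB hls]; rfl
  | cons l ls ih =>
    cases j with
    | zero =>
      simp only [obu_pre_zero, add_zero]
      rw [obu_path_const hB hls]; rfl
    | succ j =>
      simp only [ghPath, obuIt, ghA]
      refine integral_congr_ae (Filter.Eventually.of_forall fun x => ?_)
      simp only [obu_pre_cons, ← add_assoc]
      rw [ih hls.tail]

theorem obu_it_bc {B : GhB S} (hB : B.Ok) {ls : List (GhLv S ι)} (hls : GhNn ls) (j : ℕ)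
    {φ : (S → ℝ) → ℝ} {M : ℝ} (hφ : GhBC φ M) : GhBC (obuIt B ls j φ) M := by
  induction ls generalizing j with
  | nil => exact hφ
  | cons l ls ih =>
    cases j with
    | zero => exact hφ
    | succ j => exact gh_b_A_bc hB hls (ih hls.tail j)

theorem obu_it_add {B : GhB S} (hB : B.Ok) {ls : List (GhLv S ι)} (hls : GhNn ls) (j : ℕ)
    {φ ψ : (S → ℝ) → ℝ} {M M' : ℝ} (hφ : GhBC φ M) (hψ : GhBC ψ M') (z : S → ℝ) :
    obuIt B ls j (fun y => φ y + ψ y) z = obuIt B ls j φ z + obuIt B ls j ψ z := by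
  induction ls generalizing j z with
  | nil => rfl
  | cons l ls ih =>
    cases j with
    | zero => rfl
    | succ j =>
      simp only [obuIt]
      have : obuIt B ls j (fun y => φ y + ψ y) = fun y => obuIt B ls j φ y + obuIt B ls j ψ y :=
        funext fun y => ih hls.tail j y
      rw [this, gh_b_A_add hB hls (obu_it_bc hB hls.tail j hφ) (obu_it_bc hB hls.tail j hψ)]

theorem obu_it_const_mul (B : GhB S) (ls : List (GhLv S ι)) (j : ℕ) (φ : (S → ℝ) → ℝ) (c : ℝ)
    (z : S → ℝ) : obuIt B ls j (fun y => c * φ y) z = c * obuIt B ls j φ z := by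
  induction ls generalizing j z with
  | nil => rfl
  | cons l ls ih =>
    cases j with
    | zero => rfl
    | succ j =>
      simp only [obuIt]
      have : obuIt B ls j (fun y => c * φ y) = fun y => c * obuIt B ls j φ y :=
        funext fun y => ih j y
      rw [this, gh_b_A_const_mul]

end generic

section sk
variable {n : ℕ}

theorem obu_base_ok (n : ℕ) {a : ℝ} (ha : 0 < a) : (skBase n a).Ok := by
  refine ⟨fun s => ?_, ?_, ha⟩
  · simp only [skBase, ghUnif]; positivity
  · simp only [skBase, ghUnif, Finset.sum_const, Finset.card_univ, nsmul_eq_mul]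
    have : (Fintype.card (SkCfg n) : ℝ) ≠ 0 := by
      have : 0 < Fintype.card (SkCfg n) := Fintype.card_pos
      positivity
    field_simp

theorem obu_lvs_nn (n : ℕ) {a : ℝ} {P : SkStp} (hP : SkAdm a P) : GhNn (skLvs n P) := by
  intro l hl
  simp only [skLvs, List.mem_map] at hl
  obtain ⟨e, he, rfl⟩ := hl
  exact (hP.2 e he).1

theorem obu_lvs_drop (n : ℕ) (P : SkStp) (j : ℕ) : skLvs n (P.drop j) = (skLvs n P).drop j := by
  simp [skLvs, List.map_drop]

theorem obu_lvs_length (n : ℕ) (P : SkStp) : (skLvs n P).length = P.length := by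
  simp [skLvs]

theorem obu_adm_drop {a : ℝ} {P : SkStp} (hP : SkAdm a P) (j : ℕ) : SkAdm a (P.drop j) :=
  ⟨hP.1.sublist (List.drop_sublist j P), fun e he => hP.2 e (List.mem_of_mem_drop he)⟩

/-- K0 -/
theorem obu_feat_h (hn : 0 < n) (σ τ : SkCfg n) : ∑ i : Fin n, obY i σ * obY i τ = skOv σ τ := by
  have hn' : (0 : ℝ) < n := by exact_mod_cast hn
  simp only [obY, skY, skOv, Finset.sum_div]
  refine Finset.sum_congr rfl fun i _ => ?_
  rw [div_mul_div_comm, Real.mul_self_sqrt hn'.le]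

theorem obu_feat_b (hn : 0 < n) (σ τ : SkCfg n) :
    ∑ p : Fin n × Fin n, obPb p σ * obPb p τ = n * skOv σ τ ^ 2 / 2 := by
  have hn' : (0 : ℝ) < n := by exact_mod_cast hn
  have h2 : Real.sqrt (2 * n) * Real.sqrt (2 * n) = 2 * n := Real.mul_self_sqrt (by positivity)
  have e : ∀ p : Fin n × Fin n, obPb p σ * obPb p τ
      = (skSp σ p.1 * skSp τ p.1) * (skSp σ p.2 * skSp τ p.2) / (2 * n) := fun p => by
    simp only [obPb, skPhi, Sum.elim_inl]
    rw [div_mul_div_comm, h2]
    ring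
  simp only [e]
  rw [← Finset.sum_div, Fintype.sum_prod_type]
  simp only []
  rw [← Finset.sum_mul_sum]
  simp only [skOv]
  field_simp

end sk

section generic
variable {S ι : Type} [Fintype S] [Fintype ι]

/-- centred second moment = conditional covariance -/
theorem obu_E_centred {B : GhB S} (hB : B.Ok) {ls : List (GhLv S ι)} (h : GhNn ls) (v w : S → ℝ)
    (z : S → ℝ) :
    ghE B ls (fun s => (v s - ghE B ls v z) * (w s - ghE B ls w z)) z = ghC B ls v w z := by
  set a := ghE B ls v z with ha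
  set b := ghE B ls w z with hb
  have e : (fun s => (v s - a) * (w s - b))
      = fun s => (v s * w s - (b * v s + a * w s)) + a * b := by funext s; ring
  rw [e, gh_b_E_add hB _ _ h, gh_b_E_sub hB _ _ h, gh_b_E_add hB _ _ h, gh_b_E_const_mul,
    gh_b_E_const_mul, gh_b_E_const hB _ h, ghC, ← ha, ← hb]
  ring

/-- existence of a bound: closure lemmas -/
def ObuBC (g : (S → ℝ) → ℝ) : Prop := ∃ M, GhBC g M

theorem ObuBC.add {g g' : (S → ℝ) → ℝ} (h : ObuBC g) (h' : ObuBC g') :
    ObuBC (fun z => g z + g' z) := by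
  obtain ⟨M, hM⟩ := h; obtain ⟨M', hM'⟩ := h'; exact ⟨_, hM.add hM'⟩

theorem ObuBC.mul {g g' : (S → ℝ) → ℝ} (h : ObuBC g) (h' : ObuBC g') :
    ObuBC (fun z => g z * g' z) := by
  obtain ⟨M, hM⟩ := h; obtain ⟨M', hM'⟩ := h'; exact ⟨_, hM.mul hM'⟩

theorem ObuBC.const_mul {g : (S → ℝ) → ℝ} (h : ObuBC g) (c : ℝ) : ObuBC (fun z => c * g z) := by
  obtain ⟨M, hM⟩ := h; exact ⟨_, hM.const_mul c⟩

theorem ObuBC.sq {g : (S → ℝ) → ℝ} (h : ObuBC g) : ObuBC (fun z => g z ^ 2) := by
  simpa only [pow_two] using h.mul h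

theorem ObuBC.sum {κ : Type} (K : Finset κ) {g : κ → (S → ℝ) → ℝ} (h : ∀ k ∈ K, ObuBC (g k)) :
    ObuBC (fun z => ∑ k ∈ K, g k z) := by
  classical
  induction K using Finset.induction_on with
  | empty => exact ⟨_, by simpa using gh_b_bc_const (S := S) 0⟩
  | insert a K ha ih =>
    simp only [Finset.sum_insert ha]
    exact (h a (Finset.mem_insert_self a K)).add (ih fun k hk => h k (Finset.mem_insert_of_mem hk))

theorem obu_it_add' {B : GhB S} (hB : B.Ok) {ls : List (GhLv S ι)} (hls : GhNn ls) (j : ℕ)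
    {φ ψ : (S → ℝ) → ℝ} (hφ : ObuBC φ) (hψ : ObuBC ψ) (z : S → ℝ) :
    obuIt B ls j (fun y => φ y + ψ y) z = obuIt B ls j φ z + obuIt B ls j ψ z := by
  obtain ⟨M, hM⟩ := hφ; obtain ⟨M', hM'⟩ := hψ
  exact obu_it_add hB hls j hM hM' z

end generic

section sk
variable {n : ℕ}

/-- K8 -/
theorem obu_E_W (hn : 0 < n) {a : ℝ} (ha : 0 < a) (P : SkStp) (hP : SkAdm a P) (z₀ : SkCfg n → ℝ)
    (j : ℕ) : obE n a P z₀ (obW n a P z₀ j) = obTrHC n a P z₀ j := by
  have hB := obu_base_ok n ha
  have hls := obu_lvs_nn n hP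
  have hd : GhNn (skLvs n (P.drop j)) := obu_lvs_nn n (obu_adm_drop hP j)
  rw [obE, obu_tower_gen hB hls z₀ j (obW n a P z₀ j) (fun ξ ξ' h => by
    funext σ
    simp only [obW, obXp, obHp, obFld, obu_pre_loc (skLvs n P) j ξ ξ' h])]
  simp only [obTrHC, obE]
  congr 1
  funext ξ _
  rw [← obu_lvs_drop]
  set z' := z₀ + ghPre (skLvs n P) ξ j with hz'
  have e : obW n a P z₀ j ξ = fun σ => ∑ i ∈ Finset.univ, ∑ k ∈ Finset.univ,
      obHp n a P z₀ j ξ i k * ((obY i σ - ghE (skBase n a) (skLvs n (P.drop j)) (obY i) z')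
        * (obY k σ - ghE (skBase n a) (skLvs n (P.drop j)) (obY k) z')) := by
    funext σ
    simp only [obW, obXp, obX, obFld, obY, ← hz']
    exact Finset.sum_congr rfl fun i _ => Finset.sum_congr rfl fun k _ => by ring
  rw [e, gh_b_E_sum hB _ _ hd]
  refine Finset.sum_congr rfl fun i _ => ?_
  rw [gh_b_E_sum hB _ _ hd]
  refine Finset.sum_congr rfl fun k _ => ?_
  rw [gh_b_E_const_mul, obu_E_centred hB hd]
  simp only [obCp, obC, obFld, ← hz']

/-- K3 -/
theorem obu_D2_decomp (hn : 0 < n) {a : ℝ} (ha : 0 < a) (P : SkStp) (hP : SkAdm a P)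
    (z₀ : SkCfg n → ℝ) (j : ℕ) :
    obD2 n a P z₀ j
      = (obE n a P z₀ (fun ξ _ => (∑ i, obXp n a P z₀ j ξ i ^ 2) ^ 2) - obS n a P z₀ j ^ 2)
        + 2 * obE n a P z₀ (fun ξ _ => ∑ i, ∑ k, obXp n a P z₀ j ξ i * obCp n a P z₀ j ξ i k * obXp n a P z₀ j ξ k)
        + obTrC2 n a P z₀ j := by
  have hB := obu_base_ok n ha
  have hls := obu_lvs_nn n hP
  have hd : GhNn (skLvs n (P.drop j)) := obu_lvs_nn n (obu_adm_drop hP j)
  set Q := P.drop j with hQ
  -- the four field tests
  let φ1 : (SkCfg n → ℝ) → ℝ := fun y => (∑ i, obX n a Q y i ^ 2) ^ 2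
  let φ2 : (SkCfg n → ℝ) → ℝ := fun y => ∑ i, ∑ k, obX n a Q y i * obC n a Q y i k * obX n a Q y k
  let φ3 : (SkCfg n → ℝ) → ℝ := fun y => ∑ i, ∑ k, obC n a Q y i k ^ 2
  let φB : (SkCfg n → ℝ) → ℝ := fun y => ∑ i, ∑ k, obM n a Q y i k ^ 2
  have hX : ∀ i, ObuBC (fun y => obX n a Q y i) := fun i => ⟨_, gh_b_E_bc' hB (obY i) hd⟩
  have hC : ∀ i k, ObuBC (fun y => obC n a Q y i k) := fun i k => ⟨_, gh_b_C_bc hB _ _ hd⟩
  have h1 : ObuBC φ1 := (ObuBC.sum _ fun i _ => (hX i).sq).sq
  have h2 : ObuBC φ2 := ObuBC.sum _ fun i _ => ObuBC.sum _ fun k _ => ((hX i).mul (hC i k)).mul (hX k)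
  have h3 : ObuBC φ3 := ObuBC.sum _ fun i _ => ObuBC.sum _ fun k _ => (hC i k).sq
  have hpt : φB = fun y => (φ1 y + 2 * φ2 y) + φ3 y := by
    funext y
    simp only [φB, φ1, φ2, φ3]
    have hM : ∀ i k, obM n a Q y i k = obC n a Q y i k + obX n a Q y i * obX n a Q y k := fun i k => by
      simp only [obM, obC, obX, ghC, obY]; ring
    simp only [hM]
    have e1 : (∑ i, obX n a Q y i ^ 2) ^ 2 = ∑ i, ∑ k, (obX n a Q y i * obX n a Q y k) ^ 2 := by
      rw [pow_two, Finset.sum_mul_sum]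
      exact Finset.sum_congr rfl fun i _ => Finset.sum_congr rfl fun k _ => by ring
    rw [e1, Finset.mul_sum, ← Finset.sum_add_distrib, ← Finset.sum_add_distrib]
    refine Finset.sum_congr rfl fun i _ => ?_
    rw [Finset.mul_sum, ← Finset.sum_add_distrib, ← Finset.sum_add_distrib]
    exact Finset.sum_congr rfl fun k _ => by ring
  have pB : obB n a P z₀ j = obuIt (skBase n a) (skLvs n P) j φB z₀ :=
    obu_path_field hB hls z₀ j φB
  have p1 : obE n a P z₀ (fun ξ _ => (∑ i, obXp n a P z₀ j ξ i ^ 2) ^ 2)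
      = obuIt (skBase n a) (skLvs n P) j φ1 z₀ := obu_path_field hB hls z₀ j φ1
  have p2 : obE n a P z₀ (fun ξ _ => ∑ i, ∑ k, obXp n a P z₀ j ξ i * obCp n a P z₀ j ξ i k * obXp n a P z₀ j ξ k)
      = obuIt (skBase n a) (skLvs n P) j φ2 z₀ := obu_path_field hB hls z₀ j φ2
  have p3 : obTrC2 n a P z₀ j = obuIt (skBase n a) (skLvs n P) j φ3 z₀ :=
    obu_path_field hB hls z₀ j φ3
  rw [obD2, pB, p1, p2, p3, hpt, obu_it_add' hB hls j (h1.add (h2.const_mul 2)) h3,
    obu_it_add' hB hls j h1 (h2.const_mul 2), obu_it_const_mul]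
  ring

end sk

section sk2
variable {n : ℕ}

theorem obu_quad_H {a : ℝ} (ha : 0 < a) (Q : SkStp) (hQ : SkAdm a Q) (z : SkCfg n → ℝ) (c : Fin n → ℝ) :
    ∑ i, ∑ k, c i * obH n a Q z i k * c k
      = ghH (skBase n a) (skLvs n Q) (∑ i, c i • obY i) (∑ i, c i • obY i) z := by
  have hB := obu_base_ok n ha
  have hls := obu_lvs_nn n hQ
  have hsumL : ∀ (K : Finset (Fin n)) (w : SkCfg n → ℝ),
      ghH (skBase n a) (skLvs n Q) (∑ i ∈ K, c i • obY i) w z
        = ∑ i ∈ K, c i * ghH (skBase n a) (skLvs n Q) (obY i) w z := by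
    intro K w
    classical
    induction K using Finset.induction_on with
    | empty =>
      have := gh_v_H_smul (skBase n a) 0 (0 : SkCfg n → ℝ) w (skLvs n Q) z
      simpa using this
    | insert b K hb ih =>
      rw [Finset.sum_insert hb, Finset.sum_insert hb, gh_v_H_add hB _ _ _ hls, gh_v_H_smul, ih]
  rw [hsumL]
  refine Finset.sum_congr rfl fun i _ => ?_
  rw [gh_v_H_symm, hsumL, Finset.mul_sum]
  refine Finset.sum_congr rfl fun k _ => ?_
  rw [gh_v_H_symm]
  simp only [obH]; ring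

theorem obu_quad_C {a : ℝ} (ha : 0 < a) (Q : SkStp) (hQ : SkAdm a Q) (z : SkCfg n → ℝ) (c : Fin n → ℝ) :
    ∑ i, ∑ k, c i * obC n a Q z i k * c k
      = ghC (skBase n a) (skLvs n Q) (∑ i, c i • obY i) (∑ i, c i • obY i) z := by
  have hB := obu_base_ok n ha
  have hls := obu_lvs_nn n hQ
  have hsumL : ∀ (K : Finset (Fin n)) (w : SkCfg n → ℝ),
      ghC (skBase n a) (skLvs n Q) (∑ i ∈ K, c i • obY i) w z
        = ∑ i ∈ K, c i * ghC (skBase n a) (skLvs n Q) (obY i) w z := by
    intro K w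
    classical
    induction K using Finset.induction_on with
    | empty =>
      have := gh_v_C_smul (skBase n a) 0 (0 : SkCfg n → ℝ) w (skLvs n Q) z
      simpa using this
    | insert b K hb ih =>
      rw [Finset.sum_insert hb, Finset.sum_insert hb, gh_v_C_add hB _ _ _ hls, gh_v_C_smul, ih]
  rw [hsumL]
  refine Finset.sum_congr rfl fun i _ => ?_
  rw [gh_b_C_symm, hsumL, Finset.mul_sum]
  refine Finset.sum_congr rfl fun k _ => ?_
  rw [gh_b_C_symm]
  simp only [obC]; ring

end sk2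

end Claimed.Agent.R286
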