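import Claimed.Agent.R286.Defs.Plc

/-!
# Row 286: combinatorics of placements (PE Lemma 2.6: row sums, total variation)      (owner: helper42; prefix `ghp_`)
-/

set_option autoImplicit false

namespace Claimed.Agent.R286

variable {q : ℕ}

/-! ### the table of an attachment -/

@[simp] theorem ghp_att_cc (T : GhTree q) (l : ℕ) (a0 a b : Fin q) :
    (T.att l a0).sh a.castSucc b.castSucc = T.sh a b := by
  simp [GhTree.att, GhTree.ext]

theorem ghp_att_lc (T : GhTree q) (l : ℕ) (a0 b : Fin q) :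
    (T.att l a0).sh (Fin.last q) b.castSucc = if b = a0 then l else min l (T.sh a0 b) := by
  simp [GhTree.att, GhTree.ext, GhTree.arow]

theorem ghp_att_cl (T : GhTree q) (l : ℕ) (a0 b : Fin q) :
    (T.att l a0).sh b.castSucc (Fin.last q) = if b = a0 then l else min l (T.sh a0 b) := by
  simp [GhTree.att, GhTree.ext, GhTree.arow]

/-! ### the relation "share the first `l` revelations" -/

theorem ghp_mem_nd (T : GhTree q) (l : ℕ) (a b : Fin q) : b ∈ T.nd l a ↔ (b = a ∨ l ≤ T.sh a b) := by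
  simp [GhTree.nd]

theorem ghp_nd_self (T : GhTree q) (l : ℕ) (a : Fin q) : a ∈ T.nd l a := by simp [ghp_mem_nd]

theorem ghp_nd_symm (T : GhTree q) (l : ℕ) {a b : Fin q} (h : b ∈ T.nd l a) : a ∈ T.nd l b := by
  rw [ghp_mem_nd] at h ⊢
  rcases h with h | h
  · exact Or.inl h.symm
  · exact Or.inr (by rw [T.symm]; exact h)

theorem ghp_nd_trans (T : GhTree q) (l : ℕ) {a b c : Fin q} (h1 : b ∈ T.nd l a) (h2 : c ∈ T.nd l b) :
    c ∈ T.nd l a := by
  rw [ghp_mem_nd] at h1 h2 ⊢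
  by_cases hca : c = a
  · exact Or.inl hca
  · rcases h1 with h1 | h1
    · subst h1; exact h2
    · rcases h2 with h2 | h2
      · subst h2; exact Or.inr h1
      · exact Or.inr (le_trans (le_min h1 h2) (T.ultra a b c (fun h => hca h.symm)))

theorem ghp_nd_eq (T : GhTree q) (l : ℕ) {a b : Fin q} (h : b ∈ T.nd l a) : T.nd l b = T.nd l a := by
  ext c
  exact ⟨fun hc => ghp_nd_trans T l h hc, fun hc => ghp_nd_trans T l (ghp_nd_symm T l h) hc⟩

theorem ghp_nd_anti (T : GhTree q) {l l' : ℕ} (hl : l ≤ l') (a : Fin q) : T.nd l' a ⊆ T.nd l a := by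
  intro b hb
  rw [ghp_mem_nd] at hb ⊢
  exact hb.imp id (fun h => hl.trans h)

theorem ghp_can_iff (T : GhTree q) (l : ℕ) (a : Fin q) : T.can l a ↔ ∀ b ∈ T.nd l a, a ≤ b := by
  constructor
  · intro h b hb
    rw [ghp_mem_nd] at hb
    rcases hb with hb | hb
    · exact hb.ge
    · exact h b hb
  · intro h b hb
    exact h b ((ghp_mem_nd T l a b).2 (Or.inr hb))

/-- the canonical anchor of the node of depth `l` above `a` -/
def GhTree.anc (T : GhTree q) (l : ℕ) (a : Fin q) : Fin q := (T.nd l a).min' ⟨a, ghp_nd_self T l a⟩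

theorem ghp_anc_mem (T : GhTree q) (l : ℕ) (a : Fin q) : T.anc l a ∈ T.nd l a := Finset.min'_mem _ _

theorem ghp_anc_can (T : GhTree q) (l : ℕ) (a : Fin q) : T.can l (T.anc l a) := by
  rw [ghp_can_iff, ghp_nd_eq T l (ghp_anc_mem T l a)]
  intro b hb
  exact Finset.min'_le _ _ hb

theorem ghp_anc_eq_iff (T : GhTree q) (l : ℕ) (a b : Fin q) :
    T.anc l b = a ↔ (b ∈ T.nd l a ∧ T.can l a) := by
  constructor
  · rintro rfl
    exact ⟨ghp_nd_symm T l (ghp_anc_mem T l b), ghp_anc_can T l b⟩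
  · rintro ⟨hb, hc⟩
    have h1 : T.nd l b = T.nd l a := ghp_nd_eq T l hb
    apply le_antisymm
    · exact Finset.min'_le _ _ (by rw [h1]; exact ghp_nd_self T l a)
    · exact (ghp_can_iff T l a).1 hc _ (by rw [← h1]; exact ghp_anc_mem T l b)

theorem ghp_rep_eq_anc (T : GhTree q) (t : ℕ) (a : Fin q) : T.rep t a = T.anc (t + 1) a := by
  unfold GhTree.rep GhTree.anc GhTree.nd
  congr 1

theorem ghp_can_succ_iff (T : GhTree q) (t : ℕ) (a : Fin q) : T.can (t + 1) a ↔ T.rep t a = a := by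
  rw [ghp_rep_eq_anc, ghp_anc_eq_iff]
  exact ⟨fun h => ⟨ghp_nd_self T _ a, h⟩, fun h => h.2⟩

/-! ### counting nodes -/

/-- a set of labels which is a union of nodes of depth `l` -/
def GhTree.Sat (T : GhTree q) (l : ℕ) (B : Finset (Fin q)) : Prop := ∀ a ∈ B, T.nd l a ⊆ B

theorem ghp_sat_univ (T : GhTree q) (l : ℕ) : T.Sat l Finset.univ := fun _ _ => Finset.subset_univ _

theorem ghp_sat_nd (T : GhTree q) (l : ℕ) (x : Fin q) : T.Sat l (T.nd l x) := by
  intro a ha b hb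
  exact ghp_nd_trans T l ha hb

theorem ghp_sat_mono (T : GhTree q) {l l' : ℕ} (hl : l ≤ l') {B : Finset (Fin q)} (h : T.Sat l B) : T.Sat l' B :=
  fun a ha => (ghp_nd_anti T hl a).trans (h a ha)

/-- number of nodes of depth `l` inside `B` -/
def GhTree.nndOn (T : GhTree q) (B : Finset (Fin q)) (l : ℕ) : ℕ := (B.filter fun a => T.can l a).card

theorem ghp_sum_kids (T : GhTree q) (l : ℕ) {B : Finset (Fin q)} (hB : T.Sat l B) :
    ∑ a ∈ B.filter (fun a => T.can l a), T.kids l a = T.nndOn B (l + 1) := by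
  unfold GhTree.nndOn
  rw [Finset.card_eq_sum_card_fiberwise (f := T.anc l) (t := B.filter fun a => T.can l a)]
  · apply Finset.sum_congr rfl
    intro a ha
    rw [Finset.mem_filter] at ha
    unfold GhTree.kids
    congr 1
    ext b
    simp only [Finset.mem_filter]
    constructor
    · rintro ⟨hb, hc⟩
      exact ⟨⟨hB a ha.1 hb, hc⟩, (ghp_anc_eq_iff T l a b).2 ⟨hb, ha.2⟩⟩
    · rintro ⟨⟨_, hc⟩, hb⟩
      exact ⟨((ghp_anc_eq_iff T l a b).1 hb).1, hc⟩
  · intro b hb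
    have hb' := (Finset.mem_filter.1 (Finset.mem_coe.1 hb)).1
    exact Finset.mem_coe.2 (Finset.mem_filter.2 ⟨hB b hb' (ghp_anc_mem T l b), ghp_anc_can T l b⟩)

theorem ghp_kids_pos (T : GhTree q) (l : ℕ) (a : Fin q) : 1 ≤ T.kids l a := by
  unfold GhTree.kids
  apply Finset.card_pos.2
  exact ⟨T.anc (l + 1) a, Finset.mem_filter.2
    ⟨ghp_nd_anti T (Nat.le_succ l) a (ghp_anc_mem T (l + 1) a), ghp_anc_can T (l + 1) a⟩⟩

theorem ghp_nndOn_nd (T : GhTree q) (l : ℕ) (x : Fin q) : T.nndOn (T.nd l x) l = 1 := by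
  unfold GhTree.nndOn
  rw [Finset.card_eq_one]
  refine ⟨T.anc l x, ?_⟩
  ext a
  simp only [Finset.mem_filter, Finset.mem_singleton]
  constructor
  · rintro ⟨ha, hc⟩
    exact ((ghp_anc_eq_iff T l a x).2 ⟨ghp_nd_symm T l ha, hc⟩).symm
  · rintro rfl
    exact ⟨ghp_anc_mem T l x, ghp_anc_can T l x⟩

theorem ghp_nndOn_le (T : GhTree q) (B : Finset (Fin q)) (l : ℕ) : T.nndOn B l ≤ B.card :=
  Finset.card_filter_le _ _

theorem ghp_nndOn_univ (T : GhTree q) (l : ℕ) : T.nndOn Finset.univ l = T.nnd l := rfl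

/-! ### row sums -/

/-- the signed sum over the placements of depth `l0 ≤ l ≤ N + 1` with anchor in `B` -/
def GhTree.rowOn (T : GhTree q) (M : ℕ → ℝ) (N l0 : ℕ) (B : Finset (Fin q)) (Φ : ℕ → Fin q → ℝ) : ℝ :=
  ∑ l ∈ Finset.Icc l0 (N + 1), ∑ a ∈ B, if T.can l a then T.coef M l a * Φ l a else 0

theorem ghp_row_eq (T : GhTree q) (M : ℕ → ℝ) (N l0 : ℕ) (Φ : ℕ → Fin q → ℝ) :
    T.row M N l0 Φ = T.rowOn M N l0 Finset.univ Φ := rfl

theorem ghp_rowIn_eq (T : GhTree q) (M : ℕ → ℝ) (N l0 : ℕ) (x : Fin q) (Φ : ℕ → Fin q → ℝ) :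
    T.rowIn M N l0 x Φ = T.rowOn M N l0 (T.nd l0 x) Φ := rfl

theorem ghp_layer_sum (T : GhTree q) (M : ℕ → ℝ) (l : ℕ) {B : Finset (Fin q)} (hB : T.Sat l B) :
    (∑ a ∈ B, if T.can l a then T.coef M l a else 0)
      = (T.nndOn B l : ℝ) * M l - (T.nndOn B (l + 1) : ℝ) * M (l + 1) := by
  rw [← Finset.sum_filter, ← ghp_sum_kids T l hB]
  unfold GhTree.coef GhTree.nndOn
  rw [Finset.sum_sub_distrib, Finset.sum_const, nsmul_eq_mul, Nat.cast_sum, Finset.sum_mul]

theorem ghp_tele (f : ℕ → ℝ) (l0 n : ℕ) (h : l0 ≤ n + 1) :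
    ∑ l ∈ Finset.Icc l0 n, (f l - f (l + 1)) = f l0 - f (n + 1) := by
  induction n with
  | zero =>
    rcases Nat.le_one_iff_eq_zero_or_eq_one.1 h with h | h
    · subst h; simp
    · subst h; simp
  | succ n ih =>
    rcases Nat.lt_or_ge l0 (n + 2) with h' | h'
    · rw [← Finset.insert_Icc_right_eq_Icc_add_one (by omega), Finset.sum_insert (by simp), ih (by omega)]
      ring
    · have : l0 = n + 2 := le_antisymm h h'
      subst this
      rw [Finset.Icc_eq_empty (by omega)]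
      simp

/-- **PE Lemma 2.6, row sum**: a free row whose summand does not depend on the placement inside a union `B` of nodes of depth `l0`
collapses to (number of these nodes) x (mass `M l0`). -/
theorem ghp_rowOn_const (T : GhTree q) (M : ℕ → ℝ) (N l0 : ℕ) (hl : l0 ≤ N + 1) (hM : M (N + 2) = 0)
    {B : Finset (Fin q)} (hB : T.Sat l0 B) (κ : ℝ) :
    T.rowOn M N l0 B (fun _ _ => κ) = (T.nndOn B l0 : ℝ) * M l0 * κ := by
  unfold GhTree.rowOn
  have h1 : ∀ l ∈ Finset.Icc l0 (N + 1), (∑ a ∈ B, if T.can l a then T.coef M l a * κ else 0)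
      = ((T.nndOn B l : ℝ) * M l * κ - (T.nndOn B (l + 1) : ℝ) * M (l + 1) * κ) := by
    intro l hl'
    have h2 := ghp_layer_sum T M l (ghp_sat_mono T (Finset.mem_Icc.1 hl').1 hB)
    have h3 : (∑ a ∈ B, if T.can l a then T.coef M l a * κ else 0)
        = (∑ a ∈ B, if T.can l a then T.coef M l a else 0) * κ := by
      rw [Finset.sum_mul]
      apply Finset.sum_congr rfl
      intro a _
      split_ifs <;> simp
    rw [h3, h2]; ring
  rw [Finset.sum_congr rfl h1, ghp_tele (fun l => (T.nndOn B l : ℝ) * M l * κ) l0 (N + 1) (by omega)]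
  simp [hM]

theorem ghp_rowIn_const (T : GhTree q) (M : ℕ → ℝ) (N l0 : ℕ) (hl : l0 ≤ N + 1) (hM : M (N + 2) = 0)
    (x : Fin q) (κ : ℝ) : T.rowIn M N l0 x (fun _ _ => κ) = M l0 * κ := by
  rw [ghp_rowIn_eq, ghp_rowOn_const T M N l0 hl hM (ghp_sat_nd T l0 x), ghp_nndOn_nd]
  simp

theorem ghp_row_const (T : GhTree q) (M : ℕ → ℝ) (N l0 : ℕ) (hl : l0 ≤ N + 1) (hM : M (N + 2) = 0) (κ : ℝ) :
    T.row M N l0 (fun _ _ => κ) = (T.nnd l0 : ℝ) * M l0 * κ := by
  rw [ghp_row_eq, ghp_rowOn_const T M N l0 hl hM (ghp_sat_univ T l0), ghp_nndOn_univ]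

/-! ### total variation -/

/-- total variation of the row with anchors in `B` -/
def GhTree.tvOn (T : GhTree q) (M : ℕ → ℝ) (N l0 : ℕ) (B : Finset (Fin q)) : ℝ :=
  ∑ l ∈ Finset.Icc l0 (N + 1), ∑ a ∈ B, if T.can l a then |T.coef M l a| else 0

theorem ghp_rowTV_eq (T : GhTree q) (M : ℕ → ℝ) (N l0 : ℕ) : T.rowTV M N l0 = T.tvOn M N l0 Finset.univ := rfl

theorem ghp_abs_coef (T : GhTree q) (M : ℕ → ℝ) (l : ℕ) (a : Fin q) (h0 : 0 ≤ M (l + 1)) (h1 : M l ≤ M (l + 1)) :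
    |T.coef M l a| = -T.coef M l a := by
  apply abs_of_nonpos
  unfold GhTree.coef
  have hk : (1 : ℝ) ≤ (T.kids l a : ℝ) := by exact_mod_cast ghp_kids_pos T l a
  nlinarith

/-- **PE Lemma 2.6, total variation**: `2 r a - k M(l0)`, `r` = number of distinct leaves in `B`, `k` = number of nodes of depth `l0`. -/
theorem ghp_tvOn (T : GhTree q) (M : ℕ → ℝ) (N l0 : ℕ) (hl : l0 ≤ N + 1) (hM : M (N + 2) = 0)
    (h0 : ∀ l, 0 ≤ M l) (hmono : ∀ l ≤ N, M l ≤ M (l + 1)) {B : Finset (Fin q)} (hB : T.Sat l0 B) :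
    T.tvOn M N l0 B = 2 * (T.nndOn B (N + 1) : ℝ) * M (N + 1) - (T.nndOn B l0 : ℝ) * M l0 := by
  unfold GhTree.tvOn
  rw [← Finset.insert_Icc_right_eq_Icc_add_one hl, Finset.sum_insert (by simp)]
  have hlast : (∑ a ∈ B, if T.can (N + 1) a then |T.coef M (N + 1) a| else 0) = (T.nndOn B (N + 1) : ℝ) * M (N + 1) := by
    have : ∀ a ∈ B, (if T.can (N + 1) a then |T.coef M (N + 1) a| else 0) = if T.can (N + 1) a then M (N + 1) else 0 := by
      intro a _
      split_ifs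
      · unfold GhTree.coef
        rw [hM, mul_zero, sub_zero, abs_of_nonneg (h0 _)]
      · rfl
    rw [Finset.sum_congr rfl this, ← Finset.sum_filter, Finset.sum_const, nsmul_eq_mul]
    rfl
  have h1 : ∀ l ∈ Finset.Icc l0 N, (∑ a ∈ B, if T.can l a then |T.coef M l a| else 0)
      = -((T.nndOn B l : ℝ) * M l) - -((T.nndOn B (l + 1) : ℝ) * M (l + 1)) := by
    intro l hl'
    have hlN := (Finset.mem_Icc.1 hl').2
    have h2 := ghp_layer_sum T M l (ghp_sat_mono T (Finset.mem_Icc.1 hl').1 hB)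
    have h3 : (∑ a ∈ B, if T.can l a then |T.coef M l a| else 0)
        = -(∑ a ∈ B, if T.can l a then T.coef M l a else 0) := by
      rw [← Finset.sum_neg_distrib]
      apply Finset.sum_congr rfl
      intro a _
      split_ifs
      · exact ghp_abs_coef T M l a (h0 _) (hmono l hlN)
      · simp
    rw [h3, h2]; ring
  rw [hlast, Finset.sum_congr rfl h1, ghp_tele (fun l => -((T.nndOn B l : ℝ) * M l)) l0 N hl]
  ring

theorem ghp_rowTV_le (T : GhTree q) (M : ℕ → ℝ) (N l0 : ℕ) (hl : l0 ≤ N + 1) (hM : M (N + 2) = 0)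
    (h0 : ∀ l, 0 ≤ M l) (hmono : ∀ l ≤ N, M l ≤ M (l + 1)) : T.rowTV M N l0 ≤ 2 * q * M (N + 1) := by
  rw [ghp_rowTV_eq, ghp_tvOn T M N l0 hl hM h0 hmono (ghp_sat_univ T l0)]
  have h1 : (T.nndOn Finset.univ (N + 1) : ℝ) ≤ q := by
    have := ghp_nndOn_le T Finset.univ (N + 1)
    rw [Finset.card_univ, Fintype.card_fin] at this
    exact_mod_cast this
  have h2 : 0 ≤ (T.nndOn Finset.univ l0 : ℝ) * M l0 := mul_nonneg (Nat.cast_nonneg _) (h0 _)
  have h3 := mul_le_mul_of_nonneg_right h1 (h0 (N + 1))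
  linarith

/-- a signed row is bounded by its variation times the supremum of the summand -/
theorem ghp_rowOn_abs_le (T : GhTree q) (M : ℕ → ℝ) (N l0 : ℕ) (B : Finset (Fin q)) (Φ : ℕ → Fin q → ℝ) (K : ℝ)
    (hΦ : ∀ l a, |Φ l a| ≤ K) : |T.rowOn M N l0 B Φ| ≤ T.tvOn M N l0 B * K := by
  unfold GhTree.rowOn GhTree.tvOn
  rw [Finset.sum_mul]
  refine (Finset.abs_sum_le_sum_abs _ _).trans (Finset.sum_le_sum fun l _ => ?_)
  rw [Finset.sum_mul]
  refine (Finset.abs_sum_le_sum_abs _ _).trans (Finset.sum_le_sum fun a _ => ?_)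
  split_ifs
  · rw [abs_mul]
    exact mul_le_mul_of_nonneg_left (hΦ l a) (abs_nonneg _)
  · simp

/-! ### the masses -/

section masses
variable {S ι : Type}

@[simp] theorem ghp_M_zero (u : ℝ) (ls : List (GhLv S ι)) (a : ℝ) : ghM u ls a 0 = u := by
  simp [ghM]

theorem ghp_M_succ (u : ℝ) (ls : List (GhLv S ι)) (a : ℝ) (k : ℕ) :
    ghM u ls a (k + 1) = (ls.map GhLv.m ++ [a]).getD k 0 := by
  simp [ghM]

theorem ghp_M_cons (u : ℝ) (l : GhLv S ι) (ls : List (GhLv S ι)) (a : ℝ) (k : ℕ) :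
    ghM u (l :: ls) a (k + 1) = ghM l.m ls a k := by
  simp [ghM]

theorem ghp_M_lev (u : ℝ) (ls : List (GhLv S ι)) (a : ℝ) (j : ℕ) (hj : j < ls.length) :
    ghM u ls a (j + 1) = (ls[j]).m := by
  rw [ghp_M_succ, List.getD_eq_getElem?_getD, List.getElem?_append_left (by simpa using hj)]
  simp [hj]

theorem ghp_M_term (u : ℝ) (ls : List (GhLv S ι)) (a : ℝ) : ghM u ls a (ls.length + 1) = a := by
  rw [ghp_M_succ, List.getD_eq_getElem?_getD, List.getElem?_append_right (by simp)]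
  simp

theorem ghp_M_out (u : ℝ) (ls : List (GhLv S ι)) (a : ℝ) (k : ℕ) (hk : ls.length + 2 ≤ k) : ghM u ls a k = 0 := by
  unfold ghM
  rw [List.getD_eq_getElem?_getD, List.getElem?_eq_none (by simp; omega)]
  rfl

end masses

theorem ghp_lem_eqns_cite : True := by
  have := @GhTree.anc.eq_1
  have := @GhTree.Sat.eq_1
  have := @GhTree.nndOn.eq_1
  have := @GhTree.rowOn.eq_1
  have := @GhTree.tvOn.eq_1
  trivial

end Claimed.Agent.R286
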