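import Claimed.Agent.R286.Fd.NuApiB
import Claimed.Agent.R286.Fd.PlcLem

/-!
# Row 286 (S0533), Fd/NuApiC : replica representation of conditional means; API of `GhTree.nu`      (helper140; prefix `gh_n_`; sorry free)

* `ghRepAtt rep l a0` : canonical representatives of the tree with one more label (the LAST one) which follows `a0` through the revelations `0..l-1`
* `gh_n_att_free`   : a new label which is alone from the start (own root field `g`) factorises: `ν⁺[P Φ(σ_new)] = ν[P] · ghE B ls Φ g`
* **`gh_n_att`**     : `ν⁺[P Φ(σ_new)] = ν[P · ghE B (ls.drop l) Φ (G a0 + ghPre ls (η · a0) l)]`   (PE l.359: conditional means = additional replicas)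
* `gh_n_rep_iff`, `gh_n_rep_ok` : classes of `GhTree.rep`
* `gh_n_tree_pull`, `gh_n_tree_comap` : (M), (R) for `GhTree.nu`;   `gh_n_tree_att` : replica representation for `T.att l a0`;  `gh_n_tree_coin` : coincidence
-/

set_option autoImplicit false
set_option linter.unusedSectionVars false

namespace Claimed.Agent.R286

open MeasureTheory ProbabilityTheory

variable {S ι : Type} [Fintype S] [Fintype ι]

/-- canonical representatives of the tree with one more label (the last one), which follows `a0` through the revelations `0..l-1` -/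
def ghRepAtt {q : ℕ} (rep : ℕ → Fin q → Fin q) (l : ℕ) (a0 : Fin q) (t : ℕ) (x : Fin (q + 1)) : Fin (q + 1) :=
  Fin.lastCases (motive := fun _ => Fin (q + 1)) (if t < l then (rep t a0).castSucc else Fin.last q)
    (fun b => (rep t b).castSucc) x

@[simp] theorem ghRepAtt_cast {q : ℕ} (rep : ℕ → Fin q → Fin q) (l : ℕ) (a0 : Fin q) (t : ℕ) (b : Fin q) :
    ghRepAtt rep l a0 t b.castSucc = (rep t b).castSucc := by simp [ghRepAtt]

@[simp] theorem ghRepAtt_last {q : ℕ} (rep : ℕ → Fin q → Fin q) (l : ℕ) (a0 : Fin q) (t : ℕ) :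
    ghRepAtt rep l a0 t (Fin.last q) = if t < l then (rep t a0).castSucc else Fin.last q := by simp [ghRepAtt]

theorem gh_n_cast_ne_last {q : ℕ} (b : Fin q) : b.castSucc ≠ Fin.last q := (Fin.castSucc_lt_last b).ne

theorem gh_n_repAtt_ok {q : ℕ} {rep : ℕ → Fin q → Fin q} (h : GhRepOk rep) (l : ℕ) (a0 : Fin q) :
    GhRepOk (ghRepAtt rep l a0) where
  idem := by
    intro t x
    induction x using Fin.lastCases with
    | last =>
      by_cases ht : t < l
      · simp [ht, h.idem]
      · simp [ht]
    | cast b => simp [h.idem]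
  mono := by
    intro t x y hxy
    induction x using Fin.lastCases with
    | last =>
      induction y using Fin.lastCases with
      | last => rfl
      | cast b =>
        by_cases ht : t + 1 < l
        · have ht' : t < l := by omega
          simp only [ghRepAtt_last, ht, if_true, ghRepAtt_cast, Fin.castSucc_inj] at hxy
          simp only [ghRepAtt_last, ht', if_true, ghRepAtt_cast, Fin.castSucc_inj]
          exact h.mono t _ _ hxy
        · simp only [ghRepAtt_last, ht, if_false, ghRepAtt_cast] at hxy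
          exact absurd hxy.symm (gh_n_cast_ne_last _)
    | cast a =>
      induction y using Fin.lastCases with
      | last =>
        by_cases ht : t + 1 < l
        · have ht' : t < l := by omega
          simp only [ghRepAtt_last, ht, if_true, ghRepAtt_cast, Fin.castSucc_inj] at hxy
          simp only [ghRepAtt_last, ht', if_true, ghRepAtt_cast, Fin.castSucc_inj]
          exact h.mono t _ _ hxy
        · simp only [ghRepAtt_last, ht, if_false, ghRepAtt_cast] at hxy
          exact absurd hxy (gh_n_cast_ne_last _)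
      | cast b =>
        simp only [ghRepAtt_cast, Fin.castSucc_inj] at hxy ⊢
        exact h.mono t _ _ hxy

theorem gh_n_repAtt_shift {q : ℕ} (rep : ℕ → Fin q → Fin q) (l : ℕ) (a0 : Fin q) :
    (fun t => ghRepAtt rep (l + 1) a0 (t + 1)) = ghRepAtt (fun t => rep (t + 1)) l a0 := by
  funext t x
  induction x using Fin.lastCases with
  | last => simp
  | cast b => simp

/-- field table of the enlarged tree -/
def ghSnoc {α : Type} {q : ℕ} (G : Fin q → α) (g : α) (x : Fin (q + 1)) : α :=
  Fin.lastCases (motive := fun _ => α) g G x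

@[simp] theorem ghSnoc_cast {α : Type} {q : ℕ} (G : Fin q → α) (g : α) (b : Fin q) : ghSnoc G g b.castSucc = G b := by
  simp [ghSnoc]

@[simp] theorem ghSnoc_last {α : Type} {q : ℕ} (G : Fin q → α) (g : α) : ghSnoc G g (Fin.last q) = g := by
  simp [ghSnoc]

/-- a new label which is alone from the start factorises -/
theorem gh_n_att_free (B : GhB S) (hB : B.Ok) (ls : List (GhLv S ι)) (hls : GhNn ls) {q : ℕ}
    (rep : ℕ → Fin q → Fin q) (hr : GhRepOk rep) (a0 : Fin q) (G : Fin q → S → ℝ)
    (hG : ∀ a b, rep 0 a = rep 0 b → G a = G b) (g : S → ℝ)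
    (P : (ℕ → Fin q → ι → ℝ) → (Fin q → S) → ℝ) (Φ : S → ℝ) :
    ghNu B ls (ghRepAtt rep 0 a0) (ghSnoc G g)
        (fun η σ => P (fun t a => η t a.castSucc) (fun a => σ a.castSucc) * Φ (σ (Fin.last q)))
      = ghNu B ls rep G P * ghE B ls Φ g := by
  have h := gh_n_indep B hB ls hls (Fin.castSucc : Fin q → Fin (q + 1)) (fun _ : Fin 1 => Fin.last q)
    (ghRepAtt rep 0 a0) rep (fun _ a => a) (gh_n_repAtt_ok hr 0 a0) hr ⟨fun _ _ => rfl, fun _ _ _ h => h⟩
    (fun t a b => by simp) (fun t a b => by simp [Subsingleton.elim a b])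
    (fun a b => by simp) (ghSnoc G g)
    (by
      intro x y hxy
      induction x using Fin.lastCases with
      | last =>
        induction y using Fin.lastCases with
        | last => rfl
        | cast b => simp at hxy; exact absurd hxy.symm (gh_n_cast_ne_last _)
      | cast a =>
        induction y using Fin.lastCases with
        | last => simp at hxy
        | cast b => simp at hxy; simpa using hG a b hxy)
    P (fun _ σ => Φ (σ 0))
  simp only [ghSnoc_cast, ghSnoc_last] at h
  rw [h, gh_n_one_spin]

theorem gh_n_pre_zero (ls : List (GhLv S ι)) (ξ : ℕ → ι → ℝ) : ghPre ls ξ 0 = 0 := by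
  simp [ghPre, ghSum]

theorem gh_n_pre_succ (l : GhLv S ι) (ls : List (GhLv S ι)) (ξ : ℕ → ι → ℝ) (t : ℕ) :
    ghPre (l :: ls) ξ (t + 1) = l.inc (ξ 0) + ghPre ls (fun j => ξ (j + 1)) t := by
  simp [ghPre, ghSum]

/-- **replica representation of a conditional mean**: the new (last) label follows `a0` through the revelations `0..l-1` -/
theorem gh_n_att (B : GhB S) (hB : B.Ok) (Φ : S → ℝ) : ∀ (ls : List (GhLv S ι)), GhNn ls → ∀ (l : ℕ), l ≤ ls.length →
    ∀ {q : ℕ} (rep : ℕ → Fin q → Fin q), GhRepOk rep → ∀ (a0 : Fin q) (G : Fin q → S → ℝ),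
    (∀ a b, rep 0 a = rep 0 b → G a = G b) → ∀ (P : (ℕ → Fin q → ι → ℝ) → (Fin q → S) → ℝ),
    ghNu B ls (ghRepAtt rep l a0) (ghSnoc G (G a0))
        (fun η σ => P (fun t a => η t a.castSucc) (fun a => σ a.castSucc) * Φ (σ (Fin.last q)))
      = ghNu B ls rep G (fun η σ => P η σ * ghE B (ls.drop l) Φ (G a0 + ghPre ls (fun j => η j a0) l))
  | ls, hls, 0, _, q, rep, hr, a0, G, hG, P => by
      rw [gh_n_att_free B hB ls hls rep hr a0 G hG (G a0) P Φ]
      simp only [gh_n_pre_zero, add_zero, List.drop_zero]
      rw [gh_n_mul_const]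
  | [], _, l + 1, hl, q, rep, hr, a0, G, hG, P => by simp at hl
  | l₀ :: ls, hls, l + 1, hl, q, rep, hr, a0, G, hG, P => by
      have hl' : l ≤ ls.length := by simpa using hl
      simp only [ghNu]
      have hin : ∀ W : Fin (q + 1) → ι → ℝ,
          ghNu B ls (fun t => ghRepAtt rep (l + 1) a0 (t + 1))
            (fun x => ghSnoc G (G a0) x + l₀.inc (W (ghRepAtt rep (l + 1) a0 0 x)))
            (fun η σ => P (fun t a => ghCons (fun x => W (ghRepAtt rep (l + 1) a0 0 x)) η t a.castSucc)
              (fun a => σ a.castSucc) * Φ (σ (Fin.last q)))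
          = ghNu B ls (fun t => rep (t + 1)) (fun b => G b + l₀.inc (W (rep 0 b).castSucc))
            (fun η σ => P (ghCons (fun b => W (rep 0 b).castSucc) η) σ *
              ghE B (ls.drop l) Φ (G a0 + l₀.inc (W (rep 0 a0).castSucc) + ghPre ls (fun j => η j a0) l)) := by
        intro W
        rw [gh_n_repAtt_shift]
        have hGG : (fun x => ghSnoc G (G a0) x + l₀.inc (W (ghRepAtt rep (l + 1) a0 0 x)))
            = ghSnoc (fun b => G b + l₀.inc (W (rep 0 b).castSucc)) (G a0 + l₀.inc (W (rep 0 a0).castSucc)) := by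
          funext x
          induction x using Fin.lastCases with
          | last => simp
          | cast b => simp
        rw [hGG]
        simp_rw [gh_n_cons_comp (Fin.castSucc : Fin q → Fin (q + 1)), ghRepAtt_cast]
        exact gh_n_att B hB Φ ls hls.tail l hl' (fun t => rep (t + 1)) hr.shift a0
          (fun b => G b + l₀.inc (W (rep 0 b).castSucc))
          (fun a b hab => by rw [hG a b (hr.mono 0 a b hab), hr.mono 0 a b hab])
          (fun η σ => P (ghCons (fun b => W (rep 0 b).castSucc) η) σ)
      simp_rw [hin]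
      have hm := gh_n_pi_marg (ghStd ι) (Fin.castSucc : Fin q → Fin (q + 1)) (Fin.castSucc_injective q)
        (fun x ξ => if ghRepAtt rep (l + 1) a0 0 x = x then ghD B l₀ ls (ghSnoc G (G a0) x) ξ else 1)
        (fun x _ => gh_n_Dif_integral B hB l₀ ls hls _ _)
        (fun V => ghNu B ls (fun t => rep (t + 1)) (fun b => G b + l₀.inc (V (rep 0 b)))
            (fun η σ => P (ghCons (fun b => V (rep 0 b)) η) σ *
              ghE B (ls.drop l) Φ (G a0 + l₀.inc (V (rep 0 a0)) + ghPre ls (fun j => η j a0) l)))
      simp only [ghDT]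
      rw [hm]
      refine integral_congr_ae (Filter.Eventually.of_forall fun V => ?_)
      simp only [ghRepAtt_cast, Fin.castSucc_inj, ghSnoc_cast, List.drop_succ_cons, gh_n_pre_succ, ghCons, add_assoc]

/-! ### only the revelations `t ≤ length` are read -/

theorem gh_n_congr_rep (B : GhB S) : ∀ (ls : List (GhLv S ι)) {q : ℕ} (rep rep' : ℕ → Fin q → Fin q),
    (∀ t, t ≤ ls.length → rep t = rep' t) → ∀ (G : Fin q → S → ℝ) (P : (ℕ → Fin q → ι → ℝ) → (Fin q → S) → ℝ),
    ghNu B ls rep G P = ghNu B ls rep' G P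
  | [], q, rep, rep', h, G, P => by
      simp only [ghNu]
      rw [h 0 le_rfl]
  | l :: ls, q, rep, rep', h, G, P => by
      simp only [ghNu]
      rw [h 0 (Nat.zero_le _)]
      refine integral_congr_ae (Filter.Eventually.of_forall fun W => ?_)
      simp only
      rw [gh_n_congr_rep B ls (fun t => rep (t + 1)) (fun t => rep' (t + 1))
        (fun t ht => h (t + 1) (by simpa using ht))]

theorem gh_n_ok_min {q : ℕ} {rep : ℕ → Fin q → Fin q} (h : GhRepOk rep) (N : ℕ) : GhRepOk fun t => rep (min t N) where
  idem := fun t a => h.idem _ a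
  mono := by
    intro t a b hab
    by_cases ht : t + 1 ≤ N
    · have e1 : min (t + 1) N = t + 1 := min_eq_left ht
      have e2 : min t N = t := min_eq_left (by omega)
      simp only [e1] at hab
      simp only [e2]
      exact h.mono t a b hab
    · have e1 : min (t + 1) N = N := min_eq_right (by omega)
      have e2 : min t N = N := min_eq_right (by omega)
      simp only [e1] at hab
      simp only [e2]
      exact hab

/-- `gh_n_inv` with the compatibility of the classes required only for the revelations which are read -/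
theorem gh_n_inv_le (B : GhB S) (hB : B.Ok) (ls : List (GhLv S ι)) (hls : GhNn ls) {q q' : ℕ} (e : Fin q' → Fin q)
    (rep : ℕ → Fin q → Fin q) (rep' : ℕ → Fin q' → Fin q') (hr : GhRepOk rep) (hr' : GhRepOk rep')
    (hcls : ∀ t, t ≤ ls.length → ∀ a b, rep' t a = rep' t b ↔ rep t (e a) = rep t (e b))
    (G : Fin q → S → ℝ) (hG : ∀ a b, rep 0 a = rep 0 b → G a = G b)
    (P : (ℕ → Fin q' → ι → ℝ) → (Fin q' → S) → ℝ) :
    ghNu B ls rep G (fun η σ => P (fun t a => η t (e a)) (fun a => σ (e a))) = ghNu B ls rep' (fun a => G (e a)) P := by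
  rw [gh_n_congr_rep B ls rep (fun t => rep (min t ls.length)) (fun t ht => by rw [min_eq_left ht]),
    gh_n_congr_rep B ls rep' (fun t => rep' (min t ls.length)) (fun t ht => by rw [min_eq_left ht])]
  exact gh_n_inv B hB ls hls e _ _ (gh_n_ok_min hr _) (gh_n_ok_min hr' _)
    (fun t a b => hcls _ (min_le_right _ _) a b) G (fun a b hab => hG a b (by simpa using hab)) P

/-! ### `GhTree.nu` -/

section tree
variable {q : ℕ}

theorem gh_n_rep_iff (T : GhTree q) (t : ℕ) (a b : Fin q) : T.rep t a = T.rep t b ↔ (b = a ∨ t < T.sh a b) := by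
  rw [ghp_rep_eq_anc, ghp_rep_eq_anc]
  constructor
  · intro h
    have h1 := ghp_anc_mem T (t + 1) a
    have h2 := ghp_anc_mem T (t + 1) b
    rw [← h] at h2
    exact (ghp_mem_nd T (t + 1) a b).1 (ghp_nd_trans T (t + 1) h1 (ghp_nd_symm T (t + 1) h2))
  · intro h
    have hb : b ∈ T.nd (t + 1) a := (ghp_mem_nd T (t + 1) a b).2 h
    simp only [GhTree.anc, ghp_nd_eq T (t + 1) hb]

theorem gh_n_rep_ok (T : GhTree q) : GhRepOk T.rep where
  idem := by
    intro t a
    rw [gh_n_rep_iff]
    have h := ghp_nd_symm T (t + 1) (ghp_anc_mem T (t + 1) a)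
    rw [← ghp_rep_eq_anc] at h
    exact (ghp_mem_nd T (t + 1) _ a).1 h
  mono := by
    intro t a b h
    rw [gh_n_rep_iff] at h ⊢
    exact h.imp id fun h => by omega

/-- (M), (R) for trees: pull-back of the labels along a map which is compatible with the classes which are read -/
theorem gh_n_tree_pull (B : GhB S) (hB : B.Ok) (ls : List (GhLv S ι)) (hls : GhNn ls) {p : ℕ} (T : GhTree q)
    (T' : GhTree p) (e : Fin p → Fin q)
    (hcl : ∀ t, t ≤ ls.length → ∀ a b, (b = a ∨ t < T'.sh a b) ↔ (e b = e a ∨ t < T.sh (e a) (e b)))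
    (z : S → ℝ) (P : GhTest S ι p) : T.nu B ls z (ghPull e P) = T'.nu B ls z P :=
  gh_n_inv_le B hB ls hls e T.rep T'.rep (gh_n_rep_ok T) (gh_n_rep_ok T')
    (fun t ht a b => by rw [gh_n_rep_iff, gh_n_rep_iff]; exact hcl t ht a b) (fun _ => z) (fun _ _ _ => rfl) P

theorem gh_n_tree_comap (B : GhB S) (hB : B.Ok) (ls : List (GhLv S ι)) (hls : GhNn ls) {p : ℕ} (T : GhTree q)
    (e : Fin p → Fin q) (he : Function.Injective e) (z : S → ℝ) (P : GhTest S ι p) :
    (T.comap e he).nu B ls z P = T.nu B ls z (ghPull e P) :=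
  (gh_n_tree_pull B hB ls hls T (T.comap e he) e
    (fun t _ a b => by simp only [GhTree.comap, he.eq_iff]) z P).symm

/-- an old test does not see the new label -/
theorem gh_n_tree_old (B : GhB S) (hB : B.Ok) (ls : List (GhLv S ι)) (hls : GhNn ls) (T : GhTree q) (l : ℕ)
    (a0 : Fin q) (z : S → ℝ) (P : GhTest S ι q) : (T.att l a0).nu B ls z (ghOld P) = T.nu B ls z P :=
  gh_n_tree_pull B hB ls hls (T.att l a0) T Fin.castSucc
    (fun t _ a b => by simp only [ghp_att_cc, Fin.castSucc_inj]) z P

theorem gh_n_tree_const (B : GhB S) (hB : B.Ok) (ls : List (GhLv S ι)) (hls : GhNn ls) (T : GhTree q) (z : S → ℝ)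
    (c : ℝ) : T.nu B ls z (fun _ _ => c) = c := gh_n_const B hB c ls hls _ _

theorem gh_n_tree_nonneg (B : GhB S) (hB : B.Ok) (ls : List (GhLv S ι)) (T : GhTree q) (z : S → ℝ)
    (P : GhTest S ι q) (hP : ∀ η σ, 0 ≤ P η σ) : 0 ≤ T.nu B ls z P := gh_n_nonneg B hB ls _ _ P hP

theorem gh_n_tree_abs_le (B : GhB S) (hB : B.Ok) (ls : List (GhLv S ι)) (hls : GhNn ls) (T : GhTree q) (z : S → ℝ)
    (P : GhTest S ι q) (C : ℝ) (hP : ∀ η σ, |P η σ| ≤ C) : |T.nu B ls z P| ≤ C :=
  gh_n_abs_le B hB C ls hls _ _ P hP

theorem gh_n_att_cls (T : GhTree q) (l : ℕ) (a0 : Fin q) (t : ℕ) (x y : Fin (q + 1)) :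
    ghRepAtt T.rep l a0 t x = ghRepAtt T.rep l a0 t y ↔ (T.att l a0).rep t x = (T.att l a0).rep t y := by
  rw [gh_n_rep_iff]
  induction x using Fin.lastCases with
  | last =>
    induction y using Fin.lastCases with
    | last => simp
    | cast b =>
      rw [ghp_att_lc]
      by_cases ht : t < l
      · simp only [ghRepAtt_last, ht, if_true, ghRepAtt_cast, Fin.castSucc_inj, gh_n_rep_iff,
          gh_n_cast_ne_last, false_or]
        by_cases hb : b = a0
        · simp [hb, ht]
        · simp [hb, ht]
      · simp only [ghRepAtt_last, ht, if_false, ghRepAtt_cast, gh_n_cast_ne_last, false_or]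
        constructor
        · intro h; exact absurd h.symm (gh_n_cast_ne_last _)
        · intro h
          exfalso
          split_ifs at h
          · exact ht h
          · exact ht (lt_of_lt_of_le h (min_le_left _ _))
  | cast a =>
    induction y using Fin.lastCases with
    | last =>
      rw [ghp_att_cl]
      by_cases ht : t < l
      · simp only [ghRepAtt_last, ht, if_true, ghRepAtt_cast, Fin.castSucc_inj, (gh_n_cast_ne_last _).symm,
          false_or]
        rw [eq_comm, gh_n_rep_iff]
        by_cases hb : a = a0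
        · simp [hb, ht]
        · simp [hb, ht]
      · simp only [ghRepAtt_last, ht, if_false, ghRepAtt_cast, (gh_n_cast_ne_last _).symm, false_or]
        constructor
        · intro h; exact absurd h (gh_n_cast_ne_last _)
        · intro h
          exfalso
          split_ifs at h
          · exact ht h
          · exact ht (lt_of_lt_of_le h (min_le_left _ _))
    | cast b =>
      simp only [ghRepAtt_cast, Fin.castSucc_inj, ghp_att_cc, gh_n_rep_iff]

/-- **replica representation** for `T.att l a0`, `l ≤ length` -/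
theorem gh_n_tree_att (B : GhB S) (hB : B.Ok) (ls : List (GhLv S ι)) (hls : GhNn ls) (T : GhTree q) (l : ℕ)
    (hl : l ≤ ls.length) (a0 : Fin q) (z : S → ℝ) (P : GhTest S ι q) (Φ : S → ℝ) :
    (T.att l a0).nu B ls z (fun η σ => ghOld P η σ * Φ (σ (Fin.last q)))
      = T.nu B ls z (fun η σ => P η σ * ghE B (ls.drop l) Φ (z + ghPre ls (fun j => η j a0) l)) := by
  have h1 := gh_n_inv B hB ls hls (id : Fin (q + 1) → Fin (q + 1)) (T.att l a0).rep (ghRepAtt T.rep l a0)
    (gh_n_rep_ok _) (gh_n_repAtt_ok (gh_n_rep_ok T) l a0) (fun t x y => gh_n_att_cls T l a0 t x y)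
    (fun _ => z) (fun _ _ _ => rfl) (fun η σ => ghOld P η σ * Φ (σ (Fin.last q)))
  have h2 := gh_n_att B hB Φ ls hls l hl T.rep (gh_n_rep_ok T) a0 (fun _ => z) (fun _ _ _ => rfl) P
  have h3 : ghSnoc (fun _ : Fin q => z) z = fun _ => z := by
    funext x
    induction x using Fin.lastCases with
    | last => simp
    | cast b => simp
  rw [h3] at h2
  exact h1.trans h2

/-- the map of labels which sends the new label to `a0` -/
def ghFold (a0 : Fin q) (x : Fin (q + 1)) : Fin q := Fin.lastCases (motive := fun _ => Fin q) a0 id x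

@[simp] theorem ghFold_cast (a0 b : Fin q) : ghFold a0 b.castSucc = b := by simp [ghFold]

@[simp] theorem ghFold_last (a0 : Fin q) : ghFold a0 (Fin.last q) = a0 := by simp [ghFold]

/-- **coincidence**: for `l > length` the new label is a copy of `a0` -/
theorem gh_n_tree_coin (B : GhB S) (hB : B.Ok) (ls : List (GhLv S ι)) (hls : GhNn ls) (T : GhTree q) (l : ℕ)
    (hl : ls.length < l) (a0 : Fin q) (z : S → ℝ) (P : GhTest S ι (q + 1)) :
    (T.att l a0).nu B ls z P = T.nu B ls z (ghPull (ghFold a0) P) := by
  refine (gh_n_tree_pull B hB ls hls T (T.att l a0) (ghFold a0) ?_ z P).symm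
  intro t ht x y
  have htl : t < l := lt_of_le_of_lt ht hl
  induction x using Fin.lastCases with
  | last =>
    induction y using Fin.lastCases with
    | last => simp
    | cast b =>
      rw [ghp_att_lc]
      simp only [gh_n_cast_ne_last, false_or, ghFold_cast, ghFold_last]
      by_cases hb : b = a0
      · simp [hb, htl]
      · simp [hb, htl]
  | cast a =>
    induction y using Fin.lastCases with
    | last =>
      rw [ghp_att_cl]
      simp only [(gh_n_cast_ne_last _).symm, false_or, ghFold_cast, ghFold_last]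
      by_cases hb : a = a0
      · simp [hb, htl]
      · rw [T.symm a a0]
        simp [hb, htl, Ne.symm hb]
    | cast b => simp only [ghp_att_cc, Fin.castSucc_inj, ghFold_cast]

end tree

end Claimed.Agent.R286
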