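import Claimed.Agent.R286.Defs.Tr
import Claimed.Agent.R286.Defs.GhBasic
import Claimed.Agent.R286.Defs.SkLem

/-!
# Row 286 (S0533), Fd/TrBe : kernels only, empty levels      (owner + prover helper28; prefix `tr_e_`)      block of `Fd/TrB.lean` (architect helper150)

* `tr_e_F_meas`, `tr_e_nu_meas`       measurability of `ghF` in the field, of `ghNu` (spin tests) in the fields; NO hypothesis on the masses
* `tr_e_F_cov`, `tr_e_nu_cov`         `ghF`, `ghNu` depend on the levels only through masses and covariance kernels (any driver types)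
* `tr_e_F_empty`, `tr_e_nu_empty`     an empty level may be deleted; its representatives are irrelevant
* final forms = the statements of `Fd/TrB.lean` verbatim: `tr_e_F_cov_congr`, `tr_e_nu_cov_congr`, `tr_e_nu_insert_empty`, `tr_e_nu_empty_side`
-/

set_option autoImplicit false
set_option linter.unusedSectionVars false
set_option linter.unusedVariables false

namespace Claimed.Agent.R286

open MeasureTheory ProbabilityTheory

section meas

variable {S ι : Type} [Fintype S] [Fintype ι]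

theorem tr_e_add_inc_meas (l : GhLv S ι) : Measurable fun p : (S → ℝ) × (ι → ℝ) => p.1 + l.inc p.2 :=
  measurable_fst.add ((gh_l_inc_meas l).comp measurable_snd)

/-- the continuations are measurable functions of the field (any masses) -/
theorem tr_e_F_meas (B : GhB S) : ∀ ls : List (GhLv S ι), Measurable (ghF B ls)
  | [] => by
    show Measurable fun z => ghF0 B z
    unfold ghF0
    fun_prop
  | l :: ls => by
    have ih := tr_e_F_meas B ls
    have h1 : Measurable fun p : (S → ℝ) × (ι → ℝ) => ghF B ls (p.1 + l.inc p.2) := ih.comp (tr_e_add_inc_meas l)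
    show Measurable fun z => ghT (ghStd ι) l.m fun ξ => ghF B ls (z + l.inc ξ)
    unfold ghT
    split_ifs
    · exact (h1.stronglyMeasurable.integral_prod_right' (ν := ghStd ι)).measurable
    · have h2 : Measurable fun p : (S → ℝ) × (ι → ℝ) => Real.exp (l.m * ghF B ls (p.1 + l.inc p.2)) := by fun_prop
      have h3 := (h2.stronglyMeasurable.integral_prod_right' (ν := ghStd ι)).measurable
      fun_prop

theorem tr_e_D_meas (B : GhB S) (l : GhLv S ι) (ls : List (GhLv S ι)) :
    Measurable fun p : (S → ℝ) × (ι → ℝ) => ghD B l ls p.1 p.2 := by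
  unfold ghD
  have h1 : Measurable fun p : (S → ℝ) × (ι → ℝ) => ghF B ls (p.1 + l.inc p.2) := (tr_e_F_meas B ls).comp (tr_e_add_inc_meas l)
  have h2 : Measurable fun p : (S → ℝ) × (ι → ℝ) => ghF B (l :: ls) p.1 := (tr_e_F_meas B (l :: ls)).comp measurable_fst
  fun_prop

theorem tr_e_Gw_meas (B : GhB S) (s : S) : Measurable fun z : S → ℝ => ghGw B z s := by
  unfold ghGw
  fun_prop

theorem tr_e_DT_meas (B : GhB S) {q : ℕ} (l : GhLv S ι) (ls : List (GhLv S ι)) (r : Fin q → Fin q) :
    Measurable fun p : (Fin q → S → ℝ) × (Fin q → ι → ℝ) => ghDT B l ls r p.1 p.2 := by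
  unfold ghDT
  refine Finset.measurable_prod _ fun a _ => ?_
  split_ifs
  · have h1 : Measurable fun p : (Fin q → S → ℝ) × (Fin q → ι → ℝ) => (p.1 a, p.2 a) := by fun_prop
    exact (tr_e_D_meas B l ls).comp h1
  · exact measurable_const

/-- the tree numbers of a spin test are measurable functions of the revealed fields (any masses) -/
theorem tr_e_nu_meas (B : GhB S) {q : ℕ} (P : (Fin q → S) → ℝ) : ∀ (ls : List (GhLv S ι)) (rep : ℕ → Fin q → Fin q),
    Measurable fun G : Fin q → S → ℝ => ghNu B ls rep G fun _ σ => P σ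
  | [], rep => by
    show Measurable fun G : Fin q → S → ℝ => ∑ σ : Fin q → S, (∏ a, ghGw B (G a) (σ a)) * P fun a => σ (rep 0 a)
    refine Finset.measurable_sum _ fun σ _ => Measurable.mul_const (Finset.measurable_prod _ fun a _ => ?_) _
    exact (tr_e_Gw_meas B (σ a)).comp (measurable_pi_apply a)
  | l :: ls, rep => by
    have ih := tr_e_nu_meas B P ls fun t => rep (t + 1)
    show Measurable fun G : Fin q → S → ℝ => ∫ W : Fin q → ι → ℝ, ghDT B l ls (rep 0) G W *
      ghNu B ls (fun t => rep (t + 1)) (fun a => G a + l.inc (W (rep 0 a))) (fun _ σ => P σ) ∂(Measure.pi fun _ : Fin q => ghStd ι)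
    have h1 : Measurable fun p : (Fin q → S → ℝ) × (Fin q → ι → ℝ) => (fun a => p.1 a + l.inc (p.2 (rep 0 a)) : Fin q → S → ℝ) := by
      refine measurable_pi_lambda _ fun a => ?_
      exact ((measurable_pi_apply a).comp measurable_fst).add ((gh_l_inc_meas l).comp ((measurable_pi_apply (rep 0 a)).comp measurable_snd))
    have h2 : Measurable fun p : (Fin q → S → ℝ) × (Fin q → ι → ℝ) => ghDT B l ls (rep 0) p.1 p.2 *
        ghNu B ls (fun t => rep (t + 1)) (fun a => p.1 a + l.inc (p.2 (rep 0 a))) (fun _ σ => P σ) :=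
      (tr_e_DT_meas B l ls (rep 0)).mul (ih.comp h1)
    exact (h2.stronglyMeasurable.integral_prod_right' (ν := Measure.pi fun _ : Fin q => ghStd ι)).measurable

end meas

section cov

variable {S ι ι' : Type} [Fintype S] [Fintype ι] [Fintype ι']

/-- same masses, same covariance kernels, level by level -/
def TrECov (ls : List (GhLv S ι)) (ls' : List (GhLv S ι')) : Prop :=
  List.Forall₂ (fun l l' => l.m = l'.m ∧ ∀ s t, l.cov s t = l'.cov s t) ls ls'

theorem tr_e_cov_eqns_cite : True := by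
  have := @TrECov.eq_1
  trivial

/-- the continuation depends on the levels only through masses and kernels -/
theorem tr_e_F_cov (B : GhB S) {ls : List (GhLv S ι)} {ls' : List (GhLv S ι')} (h : TrECov ls ls') : ghF B ls = ghF B ls' := by
  induction h with
  | nil => rfl
  | @cons l l' ls ls' hl _ ih =>
    funext z
    show ghT (ghStd ι) l.m (fun ξ => ghF B ls (z + l.inc ξ)) = ghT (ghStd ι') l'.m fun ξ => ghF B ls' (z + l'.inc ξ)
    rw [ih, hl.1]
    exact gh_l_T_congr l l' hl.2 l'.m (fun y => ghF B ls' (z + y)) ((tr_e_F_meas B ls').comp (measurable_const.add measurable_id))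

/-- transfer of an integral over the drivers of `q` labels -/
theorem tr_e_pi_transfer (l : GhLv S ι) (l' : GhLv S ι') (h : ∀ s t, l.cov s t = l'.cov s t) {q : ℕ}
    (Ψ : (Fin q → S → ℝ) → ℝ) (hΨ : Measurable Ψ) :
    ∫ W : Fin q → ι → ℝ, Ψ (fun a => l.inc (W a)) ∂(Measure.pi fun _ : Fin q => ghStd ι)
      = ∫ W : Fin q → ι' → ℝ, Ψ (fun a => l'.inc (W a)) ∂(Measure.pi fun _ : Fin q => ghStd ι') := by
  have m1 : Measurable fun W : Fin q → ι → ℝ => (fun a => l.inc (W a) : Fin q → S → ℝ) :=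
    measurable_pi_lambda _ fun a => (gh_l_inc_meas l).comp (measurable_pi_apply a)
  have m2 : Measurable fun W : Fin q → ι' → ℝ => (fun a => l'.inc (W a) : Fin q → S → ℝ) :=
    measurable_pi_lambda _ fun a => (gh_l_inc_meas l').comp (measurable_pi_apply a)
  have i1 : IsProbabilityMeasure ((ghStd ι).map l.inc) := Measure.isProbabilityMeasure_map (gh_l_inc_meas l).aemeasurable
  have i2 : IsProbabilityMeasure ((ghStd ι').map l'.inc) := Measure.isProbabilityMeasure_map (gh_l_inc_meas l').aemeasurable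
  rw [← integral_map m1.aemeasurable hΨ.aestronglyMeasurable, ← integral_map m2.aemeasurable hΨ.aestronglyMeasurable,
    Measure.pi_map_pi (fun _ => (gh_l_inc_meas l).aemeasurable), Measure.pi_map_pi (fun _ => (gh_l_inc_meas l').aemeasurable),
    gh_l_inc_congr l l' h]

/-- the tree numbers of spin tests depend on the levels only through masses and kernels -/
theorem tr_e_nu_cov (B : GhB S) {q : ℕ} (P : (Fin q → S) → ℝ) {ls : List (GhLv S ι)} {ls' : List (GhLv S ι')} (h : TrECov ls ls') :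
    ∀ (rep : ℕ → Fin q → Fin q) (G : Fin q → S → ℝ), ghNu B ls rep G (fun _ σ => P σ) = ghNu B ls' rep G fun _ σ => P σ := by
  induction h with
  | nil => intro rep G; rfl
  | @cons l l' ls ls' hl hls ih =>
    intro rep G
    have hF : ghF B ls = ghF B ls' := tr_e_F_cov B hls
    have hF' : ghF B (l :: ls) = ghF B (l' :: ls') := tr_e_F_cov B (List.Forall₂.cons hl hls)
    set Ψ : (Fin q → S → ℝ) → ℝ := fun Y =>
      (∏ a, if rep 0 a = a then Real.exp (l'.m * (ghF B ls' (G a + Y a) - ghF B (l' :: ls') (G a))) else 1) *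
        ghNu B ls' (fun t => rep (t + 1)) (fun a => G a + Y (rep 0 a)) (fun _ σ => P σ) with hΨ
    have hm : Measurable Ψ := by
      refine Measurable.mul (Finset.measurable_prod _ fun a _ => ?_) ?_
      · split_ifs
        · have h1 : Measurable fun Y : Fin q → S → ℝ => ghF B ls' (G a + Y a) :=
            (tr_e_F_meas B ls').comp (measurable_const.add (measurable_pi_apply a))
          fun_prop
        · exact measurable_const
      · refine (tr_e_nu_meas B P ls' fun t => rep (t + 1)).comp (measurable_pi_lambda _ fun a => ?_)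
        exact measurable_const.add (measurable_pi_apply (rep 0 a))
    have e1 : ghNu B (l :: ls) rep G (fun _ σ => P σ)
        = ∫ W : Fin q → ι → ℝ, Ψ (fun a => l.inc (W a)) ∂(Measure.pi fun _ : Fin q => ghStd ι) := by
      show ∫ W : Fin q → ι → ℝ, ghDT B l ls (rep 0) G W *
        ghNu B ls (fun t => rep (t + 1)) (fun a => G a + l.inc (W (rep 0 a))) (fun _ σ => P σ) ∂(Measure.pi fun _ : Fin q => ghStd ι) = _
      refine integral_congr_ae (Filter.Eventually.of_forall fun W => ?_)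
      simp only [hΨ, ghDT, ghD]
      rw [ih, hF, hF', hl.1]
    have e2 : ghNu B (l' :: ls') rep G (fun _ σ => P σ)
        = ∫ W : Fin q → ι' → ℝ, Ψ (fun a => l'.inc (W a)) ∂(Measure.pi fun _ : Fin q => ghStd ι') := rfl
    rw [e1, e2]
    exact tr_e_pi_transfer l l' hl.2 Ψ hm

end cov

section empty

variable {S ι : Type} [Fintype S] [Fintype ι]

theorem tr_e_T_const {Ω : Type} [MeasurableSpace Ω] (μ : Measure Ω) [IsProbabilityMeasure μ] (m c : ℝ) :
    ghT μ m (fun _ => c) = c := by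
  unfold ghT
  split_ifs with h
  · simp
  · rw [integral_const, probReal_univ, one_smul, Real.log_exp]
    field_simp

theorem tr_e_inc_zero {l : GhLv S ι} (hl : ∀ s i, l.A s i = 0) (ξ : ι → ℝ) : l.inc ξ = 0 := by
  funext s
  simp [GhLv.inc, hl]

theorem tr_e_F_cons_congr (B : GhB S) (l : GhLv S ι) {ls ls' : List (GhLv S ι)} (h : ghF B ls = ghF B ls') :
    ghF B (l :: ls) = ghF B (l :: ls') := by
  funext z
  show ghT (ghStd ι) l.m (fun ξ => ghF B ls (z + l.inc ξ)) = ghT (ghStd ι) l.m fun ξ => ghF B ls' (z + l.inc ξ)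
  rw [h]

theorem tr_e_D_congr (B : GhB S) (l : GhLv S ι) {ls ls' : List (GhLv S ι)} (h : ghF B ls = ghF B ls') :
    ghD B l ls = ghD B l ls' := by
  funext z ξ
  unfold ghD
  rw [h, tr_e_F_cons_congr B l h]

theorem tr_e_DT_congr (B : GhB S) {q : ℕ} (l : GhLv S ι) {ls ls' : List (GhLv S ι)} (h : ghF B ls = ghF B ls') :
    ghDT (q := q) B l ls = ghDT B l ls' := by
  funext r G W
  unfold ghDT
  rw [tr_e_D_congr B l h]

theorem tr_e_F_empty_head (B : GhB S) {l : GhLv S ι} (hl : ∀ s i, l.A s i = 0) (ls : List (GhLv S ι)) :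
    ghF B (l :: ls) = ghF B ls := by
  funext z
  show ghT (ghStd ι) l.m (fun ξ => ghF B ls (z + l.inc ξ)) = _
  simp only [tr_e_inc_zero hl, add_zero]
  exact tr_e_T_const _ _ _

/-- an empty level does not change the continuation -/
theorem tr_e_F_empty (B : GhB S) {l : GhLv S ι} (hl : ∀ s i, l.A s i = 0) (l₁ l₂ : List (GhLv S ι)) :
    ghF B (l₁ ++ l :: l₂) = ghF B (l₁ ++ l₂) := by
  induction l₁ with
  | nil => exact tr_e_F_empty_head B hl l₂
  | cons l0 l₁ ih => exact tr_e_F_cons_congr B l0 ih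

theorem tr_e_D_empty (B : GhB S) {l : GhLv S ι} (hl : ∀ s i, l.A s i = 0) (ls : List (GhLv S ι)) (z : S → ℝ) (ξ : ι → ℝ) :
    ghD B l ls z ξ = 1 := by
  unfold ghD
  rw [tr_e_F_empty_head B hl, tr_e_inc_zero hl, add_zero, sub_self, mul_zero, Real.exp_zero]

theorem tr_e_nu_empty_head (B : GhB S) {q : ℕ} (P : (Fin q → S) → ℝ) {l : GhLv S ι} (hl : ∀ s i, l.A s i = 0) (ls : List (GhLv S ι))
    (rep : ℕ → Fin q → Fin q) (G : Fin q → S → ℝ) :
    ghNu B (l :: ls) rep G (fun _ σ => P σ) = ghNu B ls (fun t => rep (t + 1)) G fun _ σ => P σ := by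
  show ∫ W : Fin q → ι → ℝ, ghDT B l ls (rep 0) G W *
    ghNu B ls (fun t => rep (t + 1)) (fun a => G a + l.inc (W (rep 0 a))) (fun _ σ => P σ) ∂(Measure.pi fun _ : Fin q => ghStd ι) = _
  simp only [ghDT, tr_e_D_empty B hl, tr_e_inc_zero hl, add_zero, ite_self, Finset.prod_const_one, one_mul]
  rw [integral_const, probReal_univ, one_smul]

/-- **an empty level may be deleted**; its representatives are irrelevant -/
theorem tr_e_nu_empty (B : GhB S) {q : ℕ} (P : (Fin q → S) → ℝ) {l : GhLv S ι} (hl : ∀ s i, l.A s i = 0) (l₁ l₂ : List (GhLv S ι)) :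
    ∀ (rep : ℕ → Fin q → Fin q) (G : Fin q → S → ℝ), ghNu B (l₁ ++ l :: l₂) rep G (fun _ σ => P σ)
      = ghNu B (l₁ ++ l₂) (fun t => if t < l₁.length then rep t else rep (t + 1)) G fun _ σ => P σ := by
  induction l₁ with
  | nil =>
    intro rep G
    simpa using tr_e_nu_empty_head B P hl l₂ rep G
  | cons l0 l₁ ih =>
    intro rep G
    show ∫ W : Fin q → ι → ℝ, ghDT B l0 (l₁ ++ l :: l₂) (rep 0) G W *
        ghNu B (l₁ ++ l :: l₂) (fun t => rep (t + 1)) (fun a => G a + l0.inc (W (rep 0 a))) (fun _ σ => P σ) ∂(Measure.pi fun _ : Fin q => ghStd ι)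
      = ∫ W : Fin q → ι → ℝ, ghDT B l0 (l₁ ++ l₂) (if 0 < (l0 :: l₁).length then rep 0 else rep (0 + 1)) G W *
        ghNu B (l₁ ++ l₂) (fun t => if t + 1 < (l0 :: l₁).length then rep (t + 1) else rep (t + 1 + 1))
          (fun a => G a + l0.inc (W ((if 0 < (l0 :: l₁).length then rep 0 else rep (0 + 1)) a))) (fun _ σ => P σ) ∂(Measure.pi fun _ : Fin q => ghStd ι)
    have h0 : (if 0 < (l0 :: l₁).length then rep 0 else rep (0 + 1)) = rep 0 := by simp
    have h1 : (fun t => if t + 1 < (l0 :: l₁).length then rep (t + 1) else rep (t + 1 + 1))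
        = fun t => if t < l₁.length then rep (t + 1) else rep (t + 1 + 1) := by
      funext t
      simp
    rw [h0, h1, tr_e_DT_congr B l0 (tr_e_F_empty B hl l₁ l₂)]
    refine integral_congr_ae (Filter.Eventually.of_forall fun W => ?_)
    simp only
    rw [ih]

end empty

section final

variable {S ι : Type} [Fintype S] [Fintype ι] [Inhabited S]

theorem tr_e_rep_congr {q : ℕ} {τ τ' : ℕ → ℕ → ℕ} {j j' : ℕ} (h : ∀ a b : Fin q, j < τ a.1 b.1 ↔ j' < τ' a.1 b.1) :
    trRep q τ j = trRep q τ' j' := by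
  funext a
  unfold trRep
  have : (fun b : Fin q => decide (j < τ a.1 b.1)) = fun b : Fin q => decide (j' < τ' a.1 b.1) := by
    funext b
    simp only [h a b]
  rw [this]

theorem tr_e_cov_of_idx {ι' : Type} [Fintype ι'] {B : GhB S} {ls : List (GhLv S ι)} {ls' : List (GhLv S ι')}
    (hlen : ls.length = ls'.length) (hm : ∀ j, trMs B ls j = trMs B ls' j)
    (hc : ∀ j (h : j < ls.length) (h' : j < ls'.length) s t, (ls[j]).cov s t = (ls'[j]).cov s t) : TrECov ls ls' := by
  unfold TrECov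
  rw [List.forall₂_iff_get]
  refine ⟨hlen, fun i h₁ h₂ => ⟨?_, fun s t => hc i h₁ h₂ s t⟩⟩
  have := hm i
  simpa [trMs, h₁, h₂] using this

/-- `Fd/TrB.lean : gh_F_cov_congr` verbatim -/
theorem tr_e_F_cov_congr {ι' : Type} [Fintype ι'] {B : GhB S} (hB : B.Ok) {ls : List (GhLv S ι)} {ls' : List (GhLv S ι')}
    (hlen : ls.length = ls'.length) (hm : ∀ j, trMs B ls j = trMs B ls' j)
    (hc : ∀ j (h : j < ls.length) (h' : j < ls'.length) s t, (ls[j]).cov s t = (ls'[j]).cov s t) (z : S → ℝ) :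
    ghF B ls z = ghF B ls' z := by
  rw [tr_e_F_cov B (tr_e_cov_of_idx hlen hm hc)]

/-- `Fd/TrB.lean : tr_nu_cov_congr` verbatim -/
theorem tr_e_nu_cov_congr {ι' : Type} [Fintype ι'] {B : GhB S} (hB : B.Ok) {ls : List (GhLv S ι)} {ls' : List (GhLv S ι')}
    (hlen : ls.length = ls'.length) (hm : ∀ j, trMs B ls j = trMs B ls' j)
    (hc : ∀ j (h : j < ls.length) (h' : j < ls'.length) s t, (ls[j]).cov s t = (ls'[j]).cov s t)
    (q : ℕ) (τ : ℕ → ℕ → ℕ) (z : S → ℝ) (P : (ℕ → S) → ℝ) :
    trNu B ls q τ z P = trNu B ls' q τ z P :=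
  tr_e_nu_cov B (fun σ => P (trExt σ)) (tr_e_cov_of_idx hlen hm hc) _ _

/-- `Fd/TrB.lean : tr_nu_insert_empty` verbatim -/
theorem tr_e_nu_insert_empty {B : GhB S} (hB : B.Ok) {l₁ l₂ : List (GhLv S ι)} {l : GhLv S ι} (hl : ∀ s i, l.A s i = 0)
    (hls : GhAdm B 0 (l₁ ++ l :: l₂)) {q : ℕ} {τ : ℕ → ℕ → ℕ} (hτ : IsTr (l₁ ++ l₂).length q τ) (z : S → ℝ) (P : (ℕ → S) → ℝ) :
    trNu B (l₁ ++ l :: l₂) q (fun x y => if l₁.length < τ x y then τ x y + 1 else τ x y) z P
      = trNu B (l₁ ++ l₂) q τ z P := by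
  unfold trNu
  rw [tr_e_nu_empty B (fun σ => P (trExt σ)) hl l₁ l₂]
  congr 1
  funext t
  split_ifs with ht
  · refine tr_e_rep_congr fun a b => ?_
    split_ifs <;> omega
  · refine tr_e_rep_congr fun a b => ?_
    split_ifs <;> omega

/-- `Fd/TrB.lean : tr_nu_empty_side` verbatim -/
theorem tr_e_nu_empty_side {B : GhB S} (hB : B.Ok) {l₁ l₂ : List (GhLv S ι)} {l : GhLv S ι} (hl : ∀ s i, l.A s i = 0)
    (hls : GhAdm B 0 (l₁ ++ l :: l₂)) {q : ℕ} {τ τ' : ℕ → ℕ → ℕ} (hτ : IsTr (l₁ ++ l :: l₂).length q τ)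
    (hτ' : IsTr (l₁ ++ l :: l₂).length q τ')
    (h : ∀ x y, x < q → y < q → τ x y = τ' x y ∨ (τ x y = l₁.length ∧ τ' x y = l₁.length + 1) ∨
      (τ x y = l₁.length + 1 ∧ τ' x y = l₁.length)) (z : S → ℝ) (P : (ℕ → S) → ℝ) :
    trNu B (l₁ ++ l :: l₂) q τ z P = trNu B (l₁ ++ l :: l₂) q τ' z P := by
  unfold trNu
  rw [tr_e_nu_empty B (fun σ => P (trExt σ)) hl l₁ l₂, tr_e_nu_empty B (fun σ => P (trExt σ)) hl l₁ l₂]
  congr 1
  funext t
  split_ifs with ht
  · refine tr_e_rep_congr fun a b => ?_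
    have := h a.1 b.1 a.2 b.2
    omega
  · refine tr_e_rep_congr fun a b => ?_
    have := h a.1 b.1 a.2 b.2
    omega

end final

end Claimed.Agent.R286
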