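import Claimed.Agent.R286.Fd.TrB1
import Claimed.Agent.R286.Fd.TrBe

/-!
# Row 286 (S0533), Fd/TrB4 : empty levels, kernels only (raw versions: helper139 Fd/PosC, helper135)
architect helper150;  OWNER / PROVER of this file: helper28 (replace the `sorry`s in place, keep the statements, add imports as needed; a false statement = one line to helper150).
PROVED (0 sorry): the proofs are in `Fd/TrBe.lean` (helper28), which also has the raw forms on `ghF`, `ghNu` (any masses, any representatives): `tr_e_F_cov`, `tr_e_nu_cov`, `tr_e_F_empty`, `tr_e_nu_empty`, and measurability `tr_e_F_meas`, `tr_e_nu_meas`.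
-/

set_option autoImplicit false

namespace Claimed.Agent.R286

open MeasureTheory ProbabilityTheory

section
variable {S ι : Type} [Fintype S] [Fintype ι] [Inhabited S]

/-- an empty level (zero increment) may be inserted / deleted: the depths above it are shifted -/
theorem tr_nu_insert_empty {B : GhB S} (hB : B.Ok) {l₁ l₂ : List (GhLv S ι)} {l : GhLv S ι} (hl : ∀ s i, l.A s i = 0)
    (hls : GhAdm B 0 (l₁ ++ l :: l₂)) {q : ℕ} {τ : ℕ → ℕ → ℕ} (hτ : IsTr (l₁ ++ l₂).length q τ) (z : S → ℝ) (P : (ℕ → S) → ℝ) :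
    trNu B (l₁ ++ l :: l₂) q (fun x y => if l₁.length < τ x y then τ x y + 1 else τ x y) z P
      = trNu B (l₁ ++ l₂) q τ z P :=
  tr_e_nu_insert_empty hB hl hls hτ z P

/-- across an empty level the position of the split does not matter -/
theorem tr_nu_empty_side {B : GhB S} (hB : B.Ok) {l₁ l₂ : List (GhLv S ι)} {l : GhLv S ι} (hl : ∀ s i, l.A s i = 0)
    (hls : GhAdm B 0 (l₁ ++ l :: l₂)) {q : ℕ} {τ τ' : ℕ → ℕ → ℕ} (hτ : IsTr (l₁ ++ l :: l₂).length q τ)
    (hτ' : IsTr (l₁ ++ l :: l₂).length q τ')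
    (h : ∀ x y, x < q → y < q → τ x y = τ' x y ∨ (τ x y = l₁.length ∧ τ' x y = l₁.length + 1) ∨
      (τ x y = l₁.length + 1 ∧ τ' x y = l₁.length)) (z : S → ℝ) (P : (ℕ → S) → ℝ) :
    trNu B (l₁ ++ l :: l₂) q τ z P = trNu B (l₁ ++ l :: l₂) q τ' z P :=
  tr_e_nu_empty_side hB hl hls hτ hτ' h z P

/-- the law depends on the increments only through their kernels -/
theorem tr_nu_cov_congr {ι' : Type} [Fintype ι'] {B : GhB S} (hB : B.Ok) {ls : List (GhLv S ι)} {ls' : List (GhLv S ι')}
    (hlen : ls.length = ls'.length) (hm : ∀ j, trMs B ls j = trMs B ls' j)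
    (hc : ∀ j (h : j < ls.length) (h' : j < ls'.length) s t, (ls[j]).cov s t = (ls'[j]).cov s t)
    (q : ℕ) (τ : ℕ → ℕ → ℕ) (z : S → ℝ) (P : (ℕ → S) → ℝ) :
    trNu B ls q τ z P = trNu B ls' q τ z P :=
  tr_e_nu_cov_congr hB hlen hm hc q τ z P

theorem gh_F_cov_congr {ι' : Type} [Fintype ι'] {B : GhB S} (hB : B.Ok) {ls : List (GhLv S ι)} {ls' : List (GhLv S ι')}
    (hlen : ls.length = ls'.length) (hm : ∀ j, trMs B ls j = trMs B ls' j)
    (hc : ∀ j (h : j < ls.length) (h' : j < ls'.length) s t, (ls[j]).cov s t = (ls'[j]).cov s t) (z : S → ℝ) :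
    ghF B ls z = ghF B ls' z :=
  tr_e_F_cov_congr hB hlen hm hc z

end

end Claimed.Agent.R286
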