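import Claimed.Agent.R286.Fd.TrA1

/-!
# Row 286 (S0533), Fd/TrA2 : signed attachment weights, PURE COMBINATORICS (PE Lemma 2.6: row sums, total variation, signs, exact collapse)
architect helper150;  OWNER / PROVER of this file: helper276 (replace the `sorry`s in place, keep the statements; a false statement = one line to helper150).
No probability.  Statements checked on thousands of random trees (origin/helper150:notes/R286/tr_comb.py, prune.py).
Helpers of this file have the prefix `tra2`.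
-/

set_option autoImplicit false

namespace Claimed.Agent.R286

/-! ### blocks, representatives, children -/

/-- least leaf of the class of `y` at depth `j` -/
noncomputable def tra2Rp (τ : ℕ → ℕ → ℕ) (j y : ℕ) : ℕ := sInf {y' | j ≤ τ y y'}

theorem tra2_rp_spec {N q : ℕ} {τ : ℕ → ℕ → ℕ} (hτ : IsTr N q τ) {y j : ℕ} (hy : y < q) (hj : j ≤ N + 1) :
    tra2Rp τ j y ≤ y ∧ j ≤ τ y (tra2Rp τ j y) ∧ trIsMin τ j (tra2Rp τ j y) := by
  have hmem : y ∈ {y' | j ≤ τ y y'} := by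
    show j ≤ τ y y
    rw [hτ.diag y hy]; exact hj
  have h1 : tra2Rp τ j y ≤ y := Nat.sInf_le hmem
  have h2 : j ≤ τ y (tra2Rp τ j y) := Nat.sInf_mem (s := {y' | j ≤ τ y y'}) ⟨y, hmem⟩
  refine ⟨h1, h2, ?_⟩
  intro y' hy'
  by_contra hcon
  have hcon' : j ≤ τ (tra2Rp τ j y) y' := not_lt.mp hcon
  have hq1 : tra2Rp τ j y < q := lt_of_le_of_lt h1 hy
  have hq2 : y' < q := lt_trans hy' hq1
  have := hτ.ultra y (tra2Rp τ j y) y' hy hq1 hq2
  have h3 : j ≤ τ y y' := le_trans (le_min h2 hcon') this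
  exact Nat.notMem_of_lt_sInf hy' h3

theorem tra2_rp_eq {N q : ℕ} {τ : ℕ → ℕ → ℕ} (hτ : IsTr N q τ) {y r j : ℕ} (hy : y < q) (hr : r < q) (hj : j ≤ N + 1)
    (h1 : j ≤ τ r y) (h2 : trIsMin τ j r) : tra2Rp τ j y = r := by
  obtain ⟨a1, a2, a3⟩ := tra2_rp_spec hτ hy hj
  have hq1 : tra2Rp τ j y < q := lt_of_le_of_lt a1 hy
  have hle : tra2Rp τ j y ≤ r := Nat.sInf_le (by show j ≤ τ y r; rw [hτ.symm y r hy hr]; exact h1)
  rcases lt_or_eq_of_le hle with hlt | heq
  · exfalso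
    have := h2 _ hlt
    have u := hτ.ultra r y (tra2Rp τ j y) hr hy hq1
    omega
  · exact heq

/-- block of depth `j` above `x` -/
def tra2Bl (q : ℕ) (τ : ℕ → ℕ → ℕ) (j x : ℕ) : Finset ℕ := (Finset.range q).filter fun y => j ≤ τ x y

/-- representatives of the children of the node of depth `j` above `x` -/
def tra2Ch (q : ℕ) (τ : ℕ → ℕ → ℕ) (j x : ℕ) : Finset ℕ :=
  (Finset.range q).filter fun y => j ≤ τ x y ∧ trIsMin τ (j + 1) y

theorem tra2_deg_eq_card (q : ℕ) (τ : ℕ → ℕ → ℕ) (j x : ℕ) : trDeg q τ j x = (tra2Ch q τ j x).card := rfl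

/-- the leaves are the disjoint union of the blocks of depth `j` -/
theorem tra2_sum_blocks {N q : ℕ} {τ : ℕ → ℕ → ℕ} (hτ : IsTr N q τ) {j : ℕ} (hj : j ≤ N + 1) (f : ℕ → ℝ) :
    ∑ y ∈ Finset.range q, f y
      = ∑ r ∈ (Finset.range q).filter (fun r => trIsMin τ j r), ∑ y ∈ tra2Bl q τ j r, f y := by
  have hmaps : ∀ y ∈ Finset.range q, tra2Rp τ j y ∈ (Finset.range q).filter (fun r => trIsMin τ j r) := by
    intro y hy
    rw [Finset.mem_range] at hy
    obtain ⟨a1, a2, a3⟩ := tra2_rp_spec hτ hy hj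
    simp only [Finset.mem_filter, Finset.mem_range]
    exact ⟨lt_of_le_of_lt a1 hy, a3⟩
  rw [← Finset.sum_fiberwise_of_maps_to hmaps f]
  refine Finset.sum_congr rfl ?_
  intro r hr
  simp only [Finset.mem_filter, Finset.mem_range] at hr
  refine Finset.sum_congr ?_ (fun _ _ => rfl)
  ext y
  simp only [tra2Bl, Finset.mem_filter, Finset.mem_range]
  constructor
  · rintro ⟨hy, h2⟩
    obtain ⟨a1, a2, a3⟩ := tra2_rp_spec hτ hy hj
    refine ⟨hy, ?_⟩
    rw [h2] at a2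
    rw [hτ.symm r y hr.1 hy]; exact a2
  · rintro ⟨hy, h1⟩
    exact ⟨hy, tra2_rp_eq hτ hy hr.1 hj h1 hr.2⟩

/-- a block is the disjoint union of the blocks of its children -/
theorem tra2_bl_sum_children {N q : ℕ} {τ : ℕ → ℕ → ℕ} (hτ : IsTr N q τ) {x j : ℕ} (hx : x < q) (hj : j ≤ N)
    (f : ℕ → ℝ) :
    ∑ y ∈ tra2Bl q τ j x, f y = ∑ r ∈ tra2Ch q τ j x, ∑ y ∈ tra2Bl q τ (j + 1) r, f y := by
  have hmaps : ∀ y ∈ tra2Bl q τ j x, tra2Rp τ (j + 1) y ∈ tra2Ch q τ j x := by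
    intro y hy
    simp only [tra2Bl, Finset.mem_filter, Finset.mem_range] at hy
    obtain ⟨a1, a2, a3⟩ := tra2_rp_spec hτ hy.1 (show j + 1 ≤ N + 1 by omega)
    have hq1 : tra2Rp τ (j + 1) y < q := lt_of_le_of_lt a1 hy.1
    simp only [tra2Ch, Finset.mem_filter, Finset.mem_range]
    refine ⟨hq1, ?_, a3⟩
    have := hτ.ultra x y (tra2Rp τ (j + 1) y) hx hy.1 hq1
    omega
  rw [← Finset.sum_fiberwise_of_maps_to hmaps f]
  refine Finset.sum_congr rfl ?_
  intro r hr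
  simp only [tra2Ch, Finset.mem_filter, Finset.mem_range] at hr
  refine Finset.sum_congr ?_ (fun _ _ => rfl)
  ext y
  simp only [tra2Bl, Finset.mem_filter, Finset.mem_range]
  constructor
  · rintro ⟨⟨hy, h1⟩, h2⟩
    obtain ⟨a1, a2, a3⟩ := tra2_rp_spec hτ hy (show j + 1 ≤ N + 1 by omega)
    refine ⟨hy, ?_⟩
    rw [h2] at a2
    rw [hτ.symm r y hr.1 hy]; exact a2
  · rintro ⟨hy, h1⟩
    refine ⟨⟨hy, ?_⟩, tra2_rp_eq hτ hy hr.1 (by omega) h1 hr.2.2⟩
    have := hτ.ultra x r y hx hr.1 hy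
    omega

/-- in a block exactly one leaf is the least one -/
theorem tra2_bl_sum_min {N q : ℕ} {τ : ℕ → ℕ → ℕ} (hτ : IsTr N q τ) {x j : ℕ} (hx : x < q) (hj : j ≤ N + 1)
    (g : ℕ → ℝ) :
    ∑ y ∈ tra2Bl q τ j x, (if trIsMin τ j y then g y else 0) = g (tra2Rp τ j x) := by
  obtain ⟨a1, a2, a3⟩ := tra2_rp_spec hτ hx hj
  have hq1 : tra2Rp τ j x < q := lt_of_le_of_lt a1 hx
  rw [Finset.sum_eq_single (tra2Rp τ j x)]
  · rw [if_pos a3]
  · intro y hy hne
    simp only [tra2Bl, Finset.mem_filter, Finset.mem_range] at hy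
    rw [if_neg]
    intro hmin
    apply hne
    have := tra2_rp_eq hτ hx hy.1 hj (by rw [hτ.symm y x hy.1 hx]; exact hy.2) hmin
    exact this.symm
  · intro hn
    exfalso; apply hn
    simp only [tra2Bl, Finset.mem_filter, Finset.mem_range]
    exact ⟨hq1, a2⟩

theorem tra2_ch_congr {N q : ℕ} {τ : ℕ → ℕ → ℕ} (hτ : IsTr N q τ) {x x' j : ℕ} (hx : x < q) (hx' : x' < q)
    (h : j ≤ τ x x') : tra2Ch q τ j x = tra2Ch q τ j x' := by
  ext y
  simp only [tra2Ch, Finset.mem_filter, Finset.mem_range]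
  constructor
  · rintro ⟨hy, h1, h2⟩
    refine ⟨hy, ?_, h2⟩
    have := hτ.ultra x' x y hx' hx hy
    have := hτ.symm x x' hx hx'
    omega
  · rintro ⟨hy, h1, h2⟩
    refine ⟨hy, ?_, h2⟩
    have := hτ.ultra x x' y hx hx' hy
    omega

theorem tra2_deg_congr {N q : ℕ} {τ : ℕ → ℕ → ℕ} (hτ : IsTr N q τ) {x x' j : ℕ} (hx : x < q) (hx' : x' < q)
    (h : j ≤ τ x x') : trDeg q τ j x = trDeg q τ j x' := by
  rw [tra2_deg_eq_card, tra2_deg_eq_card, tra2_ch_congr hτ hx hx' h]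

theorem tra2_deg_pos {N q : ℕ} {τ : ℕ → ℕ → ℕ} (hτ : IsTr N q τ) {x j : ℕ} (hx : x < q) (hj : j ≤ N) :
    1 ≤ trDeg q τ j x := by
  obtain ⟨a1, a2, a3⟩ := tra2_rp_spec hτ hx (show j + 1 ≤ N + 1 by omega)
  rw [tra2_deg_eq_card]
  apply Finset.card_pos.mpr
  refine ⟨tra2Rp τ (j + 1) x, ?_⟩
  simp only [tra2Ch, Finset.mem_filter, Finset.mem_range]
  exact ⟨lt_of_le_of_lt a1 hx, by omega, a3⟩

theorem tra2_pm_le {N : ℕ} {ms : ℕ → ℝ} (hms : IsMs N ms) {j : ℕ} (hj : j ≤ N) : trPm ms j ≤ ms j := by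
  unfold trPm
  split_ifs with h
  · exact hms.nonneg j
  · exact hms.mono _ _ (by omega) hj

theorem tra2_pm_succ (ms : ℕ → ℝ) (j : ℕ) : trPm ms (j + 1) = ms j := by
  unfold trPm; simp

/-- general recursion over the blocks -/
theorem tra2_bl_rec {N q : ℕ} {τ : ℕ → ℕ → ℕ} (hτ : IsTr N q τ) {x j0 : ℕ} (hx : x < q) (hj0 : j0 ≤ N)
    (f : ℕ → ℕ → ℝ) :
    ∑ y ∈ tra2Bl q τ j0 x, ∑ j ∈ Finset.Icc j0 (N + 1), f y j
      = ∑ y ∈ tra2Bl q τ j0 x, f y j0
        + ∑ r ∈ tra2Ch q τ j0 x, ∑ y ∈ tra2Bl q τ (j0 + 1) r, ∑ j ∈ Finset.Icc (j0 + 1) (N + 1), f y j := by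
  rw [← tra2_bl_sum_children hτ hx hj0, ← Finset.sum_add_distrib]
  refine Finset.sum_congr rfl fun y _ => ?_
  rw [← Finset.sum_erase_add _ _ (show j0 ∈ Finset.Icc j0 (N + 1) by simp; omega), add_comm]
  congr 1
  refine Finset.sum_congr ?_ fun _ _ => rfl
  ext j
  simp only [Finset.mem_erase, Finset.mem_Icc]
  omega

/-! ### row sums -/

theorem tra2_row_sum {N q : ℕ} {τ : ℕ → ℕ → ℕ} {ms : ℕ → ℝ} (hτ : IsTr N q τ) (k : ℕ) :
    ∀ {x j0 : ℕ}, x < q → j0 + k = N + 1 →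
    ∑ y ∈ tra2Bl q τ j0 x, ∑ j ∈ Finset.Icc j0 (N + 1), trWt ms N q τ y j = trPm ms j0 := by
  induction k with
  | zero =>
    intro x j0 hx hj0
    have hj : j0 = N + 1 := by omega
    subst hj
    simp only [Finset.Icc_self, Finset.sum_singleton]
    have : ∀ y, trWt ms N q τ y (N + 1) = if trIsMin τ (N + 1) y then (fun _ => ms N) y else 0 := by
      intro y; unfold trWt; simp
    simp only [this]
    rw [tra2_bl_sum_min hτ hx le_rfl, tra2_pm_succ]
  | succ k ih =>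
    intro x j0 hx hj0
    have hj : j0 ≤ N := by omega
    rw [tra2_bl_rec hτ hx hj]
    have h1 : ∀ y, trWt ms N q τ y j0
        = if trIsMin τ j0 y then (fun y => trPm ms j0 - trDeg q τ j0 y * ms j0) y else 0 := by
      intro y; unfold trWt
      have : j0 ≠ N + 1 := by omega
      simp [this]
    simp only [h1]
    rw [tra2_bl_sum_min hτ hx (by omega)]
    obtain ⟨a1, a2, a3⟩ := tra2_rp_spec hτ hx (show j0 ≤ N + 1 by omega)
    rw [← tra2_deg_congr hτ hx (lt_of_le_of_lt a1 hx) a2]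
    have h2 : ∀ r ∈ tra2Ch q τ j0 x,
        ∑ y ∈ tra2Bl q τ (j0 + 1) r, ∑ j ∈ Finset.Icc (j0 + 1) (N + 1), trWt ms N q τ y j = ms j0 := by
      intro r hr
      simp only [tra2Ch, Finset.mem_filter, Finset.mem_range] at hr
      rw [ih hr.1 (by omega), tra2_pm_succ]
    rw [Finset.sum_congr rfl h2, Finset.sum_const, tra2_deg_eq_card, nsmul_eq_mul]
    ring

/-- TEX[PE:lem:found-attachment] Lemma 2.6, total signed mass of a block: the block = the node of depth `j0` above `x`; its mass is `trPm ms j0`. -/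
theorem tr_row_sum {N q : ℕ} {τ : ℕ → ℕ → ℕ} {ms : ℕ → ℝ} (hτ : IsTr N q τ) {x j0 : ℕ}
    (hx : x < q) (hj0 : j0 ≤ N + 1) :
    ∑ y ∈ (Finset.range q).filter (fun y => j0 ≤ τ x y), ∑ j ∈ Finset.Icc j0 (N + 1), trWt ms N q τ y j
      = trPm ms j0 :=
  tra2_row_sum hτ (N + 1 - j0) hx (by omega)

/-- all weights except the coincidences are nonpositive -/
theorem tr_wt_nonpos {N q : ℕ} {τ : ℕ → ℕ → ℕ} {ms : ℕ → ℝ} (hτ : IsTr N q τ) (hms : IsMs N ms) {x j : ℕ}
    (hx : x < q) (hj : j ≤ N) : trWt ms N q τ x j ≤ 0 := by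
  unfold trWt
  split_ifs with h1 h2
  · omega
  · have h3 : (1 : ℝ) ≤ trDeg q τ j x := by exact_mod_cast tra2_deg_pos hτ hx hj
    have h4 := tra2_pm_le hms hj
    have h5 := hms.nonneg j
    nlinarith
  · exact le_rfl

/-- the weight of a coincidence is nonnegative -/
theorem tra2_wt_top_nonneg {N q : ℕ} {τ : ℕ → ℕ → ℕ} {ms : ℕ → ℝ} (hms : IsMs N ms) (x : ℕ) :
    0 ≤ trWt ms N q τ x (N + 1) := by
  unfold trWt
  rw [if_pos rfl]
  split_ifs
  · exact hms.nonneg N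
  · exact le_refl (0 : ℝ)

/-! ### total variation -/

/-- distinct observed leaves of a block -/
def tra2Lf (N q : ℕ) (τ : ℕ → ℕ → ℕ) (j x : ℕ) : Finset ℕ :=
  (Finset.range q).filter fun y => j ≤ τ x y ∧ trIsMin τ (N + 1) y

theorem tra2_lf_card_eq_sum (N q : ℕ) (τ : ℕ → ℕ → ℕ) (j x : ℕ) :
    ((tra2Lf N q τ j x).card : ℝ) = ∑ y ∈ tra2Bl q τ j x, (if trIsMin τ (N + 1) y then (1 : ℝ) else 0) := by
  rw [Finset.sum_ite, Finset.sum_const_zero, add_zero, Finset.sum_const, nsmul_eq_mul, mul_one]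
  congr 2
  ext y
  simp only [tra2Lf, tra2Bl, Finset.mem_filter, Finset.mem_range]
  tauto

theorem tra2_row_abs {N q : ℕ} {τ : ℕ → ℕ → ℕ} {ms : ℕ → ℝ} (hτ : IsTr N q τ) (hms : IsMs N ms) (k : ℕ) :
    ∀ {x j0 : ℕ}, x < q → j0 + k = N + 1 →
    ∑ y ∈ tra2Bl q τ j0 x, ∑ j ∈ Finset.Icc j0 (N + 1), |trWt ms N q τ y j|
      = 2 * ((tra2Lf N q τ j0 x).card : ℝ) * ms N - trPm ms j0 := by
  induction k with
  | zero =>
    intro x j0 hx hj0
    have hj : j0 = N + 1 := by omega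
    subst hj
    simp only [Finset.Icc_self, Finset.sum_singleton]
    have : ∀ y, |trWt ms N q τ y (N + 1)| = if trIsMin τ (N + 1) y then (fun _ => ms N) y else 0 := by
      intro y; unfold trWt
      split_ifs
      · simp [abs_of_nonneg (hms.nonneg N)]
      · simp
    simp only [this]
    rw [tra2_lf_card_eq_sum]
    have e := tra2_bl_sum_min hτ hx (le_refl (N + 1)) (fun _ => (1 : ℝ))
    have e' := tra2_bl_sum_min hτ hx (le_refl (N + 1)) (fun _ => ms N)
    rw [e, e', tra2_pm_succ]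
    ring
  | succ k ih =>
    intro x j0 hx hj0
    have hj : j0 ≤ N := by omega
    rw [tra2_bl_rec hτ hx hj]
    have h1 : ∀ y ∈ tra2Bl q τ j0 x, |trWt ms N q τ y j0|
        = if trIsMin τ j0 y then (fun y => trDeg q τ j0 y * ms j0 - trPm ms j0) y else 0 := by
      intro y hy
      simp only [tra2Bl, Finset.mem_filter, Finset.mem_range] at hy
      rw [abs_of_nonpos (tr_wt_nonpos hτ hms hy.1 hj)]
      unfold trWt
      have : j0 ≠ N + 1 := by omega
      split_ifs <;> simp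
    rw [Finset.sum_congr rfl h1]
    rw [tra2_bl_sum_min hτ hx (by omega)]
    obtain ⟨a1, a2, a3⟩ := tra2_rp_spec hτ hx (show j0 ≤ N + 1 by omega)
    rw [← tra2_deg_congr hτ hx (lt_of_le_of_lt a1 hx) a2]
    have h2 : ∀ r ∈ tra2Ch q τ j0 x,
        ∑ y ∈ tra2Bl q τ (j0 + 1) r, ∑ j ∈ Finset.Icc (j0 + 1) (N + 1), |trWt ms N q τ y j|
          = (∑ y ∈ tra2Bl q τ (j0 + 1) r, (if trIsMin τ (N + 1) y then (1 : ℝ) else 0)) * (2 * ms N) - ms j0 := by
      intro r hr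
      simp only [tra2Ch, Finset.mem_filter, Finset.mem_range] at hr
      rw [ih hr.1 (by omega), tra2_lf_card_eq_sum, tra2_pm_succ]
      ring
    rw [Finset.sum_congr rfl h2, Finset.sum_sub_distrib, ← Finset.sum_mul, ← tra2_bl_sum_children hτ hx hj,
      Finset.sum_const, tra2_deg_eq_card, nsmul_eq_mul, tra2_lf_card_eq_sum]
    ring

/-- TEX[PE:lem:found-attachment] Lemma 2.6, total variation of a block with `r` distinct observed leaves: `2 r a - (mass of the block)`. -/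
theorem tr_row_abs {N q : ℕ} {τ : ℕ → ℕ → ℕ} {ms : ℕ → ℝ} (hτ : IsTr N q τ) (hms : IsMs N ms) {x j0 : ℕ}
    (hx : x < q) (hj0 : j0 ≤ N + 1) :
    ∑ y ∈ (Finset.range q).filter (fun y => j0 ≤ τ x y), ∑ j ∈ Finset.Icc j0 (N + 1), |trWt ms N q τ y j|
      = 2 * (((Finset.range q).filter fun y => j0 ≤ τ x y ∧ trIsMin τ (N + 1) y).card : ℝ) * ms N - trPm ms j0 :=
  tra2_row_abs hτ hms (N + 1 - j0) hx (by omega)

/-- exact row collapse: a summand which does not depend on the detailed attachment inside the block of depth `j0` above `x` -/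
theorem tr_row_collapse {N q : ℕ} {τ : ℕ → ℕ → ℕ} {ms : ℕ → ℝ} (hτ : IsTr N q τ) {x j0 : ℕ}
    (hx : x < q) (hj0 : j0 ≤ N + 1) (Φ : (ℕ → ℕ → ℕ) → ℝ) (c : ℝ)
    (hΦ : ∀ y j, y < q → j0 ≤ τ x y → j0 ≤ j → j ≤ N + 1 → Φ (trAtt N q τ y j) = c) :
    ∑ y ∈ (Finset.range q).filter (fun y => j0 ≤ τ x y), ∑ j ∈ Finset.Icc j0 (N + 1),
      trWt ms N q τ y j * Φ (trAtt N q τ y j) = trPm ms j0 * c := by
  rw [← tr_row_sum (ms := ms) hτ hx hj0, Finset.sum_mul]
  refine Finset.sum_congr rfl fun y hy => ?_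
  rw [Finset.sum_mul]
  refine Finset.sum_congr rfl fun j hj => ?_
  simp only [Finset.mem_filter, Finset.mem_range] at hy
  rw [Finset.mem_Icc] at hj
  rw [hΦ y j hy.1 hy.2 hj.1 hj.2]

/-- decomposition of a row at the cut of depth `j0`: placements above the cut + one block per node of depth `j0` -/
theorem tr_sum_block {N q : ℕ} {τ : ℕ → ℕ → ℕ} {ms : ℕ → ℝ} (hτ : IsTr N q τ) {j0 : ℕ} (hj0 : j0 ≤ N + 1)
    (Φ : (ℕ → ℕ → ℕ) → ℝ) :
    trSum ms N q τ Φ = (∑ x ∈ Finset.range q, ∑ j ∈ Finset.range j0, trWt ms N q τ x j * Φ (trAtt N q τ x j))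
      + ∑ x ∈ (Finset.range q).filter (fun x => trIsMin τ j0 x),
          ∑ y ∈ (Finset.range q).filter (fun y => j0 ≤ τ x y), ∑ j ∈ Finset.Icc j0 (N + 1),
            trWt ms N q τ y j * Φ (trAtt N q τ y j) := by
  have h := tra2_sum_blocks hτ hj0 (fun y => ∑ j ∈ Finset.Icc j0 (N + 1), trWt ms N q τ y j * Φ (trAtt N q τ y j))
  unfold tra2Bl at h
  rw [← h, ← Finset.sum_add_distrib]
  unfold trSum
  refine Finset.sum_congr rfl fun x _ => ?_
  have hsplit : Finset.range (N + 2) = Finset.range j0 ∪ Finset.Icc j0 (N + 1) := by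
    ext j
    simp only [Finset.mem_range, Finset.mem_union, Finset.mem_Icc]
    omega
  have hdisj : Disjoint (Finset.range j0) (Finset.Icc j0 (N + 1)) := by
    rw [Finset.disjoint_left]
    intro j h1 h2
    rw [Finset.mem_range] at h1
    rw [Finset.mem_Icc] at h2
    omega
  rw [hsplit, Finset.sum_union hdisj]

theorem tra2_absK_nonneg {N q : ℕ} {τ : ℕ → ℕ → ℕ} {ms : ℕ → ℝ} (k : ℕ) (Φ : (ℕ → ℕ → ℕ) → ℝ) (hΦ : ∀ τ', 0 ≤ Φ τ') :
    0 ≤ trAbsK ms N k q τ Φ := by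
  induction k generalizing q τ with
  | zero => exact hΦ τ
  | succ k ih =>
    simp only [trAbsK, trAbs]
    exact Finset.sum_nonneg fun x _ => Finset.sum_nonneg fun j _ => mul_nonneg (abs_nonneg _) ih

/-- total variation of one attachment -/
theorem tra2_abs_total {N q : ℕ} {τ : ℕ → ℕ → ℕ} {ms : ℕ → ℝ} (hτ : IsTr N q τ) (hms : IsMs N ms) :
    ∑ x ∈ Finset.range q, ∑ j ∈ Finset.range (N + 2), |trWt ms N q τ x j| ≤ 2 * ms N * q := by
  rcases Nat.eq_zero_or_pos q with h0 | hpos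
  · subst h0; simp
  · have h := tr_row_abs hτ hms hpos (Nat.zero_le (N + 1))
    have e1 : (Finset.range q).filter (fun y => 0 ≤ τ 0 y) = Finset.range q := by
      ext y; simp
    have e2 : Finset.Icc 0 (N + 1) = Finset.range (N + 2) := by
      ext j; simp only [Finset.mem_Icc, Finset.mem_range]; omega
    rw [e1, e2] at h
    rw [h]
    have h3 : (((Finset.range q).filter fun y => 0 ≤ τ 0 y ∧ trIsMin τ (N + 1) y).card : ℝ) ≤ q := by
      have := Finset.card_filter_le (Finset.range q) (fun y => 0 ≤ τ 0 y ∧ trIsMin τ (N + 1) y)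
      rw [Finset.card_range] at this
      exact_mod_cast this
    have h4 : trPm ms 0 = 0 := by simp [trPm]
    have h5 := hms.nonneg N
    rw [h4]
    nlinarith

/-- TEX[PE:lem:found-attachment] Lemma 2.6: `k` labels have total variation at most `(2a)^k q (q+1) .. (q+k-1)` -/
theorem tr_absK_le {N q : ℕ} {τ : ℕ → ℕ → ℕ} {ms : ℕ → ℝ} (hτ : IsTr N q τ) (hms : IsMs N ms) (k : ℕ)
    (Φ : (ℕ → ℕ → ℕ) → ℝ) (M : ℝ) (hΦ : ∀ τ', IsTr N (q + k) τ' → |Φ τ'| ≤ M) :
    trAbsK ms N k q τ (fun τ' => |Φ τ'|) ≤ (2 * ms N) ^ k * (∏ i ∈ Finset.range k, ((q : ℝ) + i)) * M := by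
  induction k generalizing q τ with
  | zero => simpa [trAbsK] using hΦ τ hτ
  | succ k ih =>
    simp only [trAbsK, trAbs]
    rcases Nat.eq_zero_or_pos q with h0 | hpos
    · subst h0
      simp [Finset.prod_range_succ']
    set B : ℝ := (2 * ms N) ^ k * (∏ i ∈ Finset.range k, (((q + 1 : ℕ) : ℝ) + i)) * M with hB
    have hstep : ∀ x ∈ Finset.range q, ∀ j ∈ Finset.range (N + 2),
        trAbsK ms N k (q + 1) (trAtt N q τ x j) (fun τ' => |Φ τ'|) ≤ B := by
      intro x hx j hj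
      rw [Finset.mem_range] at hx hj
      exact ih (tr_att_isTr hτ hx (by omega)) (fun τ' h' => hΦ τ' (by rw [show q + (k + 1) = q + 1 + k by ring]; exact h'))
    have hB0 : 0 ≤ B :=
      le_trans (tra2_absK_nonneg k _ fun _ => abs_nonneg _)
        (hstep 0 (Finset.mem_range.mpr hpos) 0 (Finset.mem_range.mpr (by omega)))
    calc ∑ x ∈ Finset.range q, ∑ j ∈ Finset.range (N + 2),
          |trWt ms N q τ x j| * trAbsK ms N k (q + 1) (trAtt N q τ x j) (fun τ' => |Φ τ'|)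
        ≤ ∑ x ∈ Finset.range q, ∑ j ∈ Finset.range (N + 2), |trWt ms N q τ x j| * B :=
          Finset.sum_le_sum fun x hx => Finset.sum_le_sum fun j hj =>
            mul_le_mul_of_nonneg_left (hstep x hx j hj) (abs_nonneg _)
      _ = (∑ x ∈ Finset.range q, ∑ j ∈ Finset.range (N + 2), |trWt ms N q τ x j|) * B := by
          rw [Finset.sum_mul]; refine Finset.sum_congr rfl fun x _ => ?_; rw [Finset.sum_mul]
      _ ≤ (2 * ms N * q) * B := mul_le_mul_of_nonneg_right (tra2_abs_total hτ hms) hB0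
      _ = (2 * ms N) ^ (k + 1) * (∏ i ∈ Finset.range (k + 1), ((q : ℝ) + i)) * M := by
          rw [hB, Finset.prod_range_succ']
          have : ∀ i : ℕ, (((q + 1 : ℕ) : ℝ) + i) = (q : ℝ) + ((i + 1 : ℕ) : ℝ) := by
            intro i; push_cast; ring
          simp only [this]
          push_cast
          ring

/-! ### signs -/

theorem tra2_absK_const_mul {N q : ℕ} {τ : ℕ → ℕ → ℕ} {ms : ℕ → ℝ} (k : ℕ) (c : ℝ) (Φ : (ℕ → ℕ → ℕ) → ℝ) :
    trAbsK ms N k q τ (fun τ' => c * Φ τ') = c * trAbsK ms N k q τ Φ := by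
  induction k generalizing q τ with
  | zero => rfl
  | succ k ih =>
    simp only [trAbsK, trAbs, ih, Finset.mul_sum]
    refine Finset.sum_congr rfl fun x _ => Finset.sum_congr rfl fun j _ => ?_
    ring

/-- sign of the label `q` -/
def tra2S0 (N q : ℕ) (τ : ℕ → ℕ → ℕ) : ℝ :=
  if ((Finset.range q).filter fun y => τ q y = N + 1).card = 0 then -1 else 1

theorem tra2_sg_succ (N q k : ℕ) (τ : ℕ → ℕ → ℕ) : trSg N q (k + 1) τ = tra2S0 N q τ * trSg N (q + 1) k τ := by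
  unfold trSg tra2S0
  rw [Finset.prod_range_succ', mul_comm]
  congr 1
  refine Finset.prod_congr rfl fun i _ => ?_
  rw [show q + (i + 1) = q + 1 + i by ring]

theorem tra2_s0_att {N q : ℕ} {τ : ℕ → ℕ → ℕ} (hτ : IsTr N q τ) {x j : ℕ} (hx : x < q) (hj : j ≤ N + 1)
    {τ' : ℕ → ℕ → ℕ} (h : ∀ y z, y < q + 1 → z < q + 1 → τ' y z = trAtt N q τ x j y z) :
    tra2S0 N q τ' = if j = N + 1 then 1 else -1 := by
  unfold tra2S0
  by_cases hj' : j = N + 1
  · rw [if_pos hj', if_neg]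
    rw [Finset.card_eq_zero]
    intro hemp
    have : x ∈ (Finset.range q).filter fun y => τ' q y = N + 1 := by
      simp only [Finset.mem_filter, Finset.mem_range]
      refine ⟨hx, ?_⟩
      rw [h q x (by omega) (by omega)]
      have hxq : x ≠ q := by omega
      simp only [trAtt, hxq, if_true, if_false]
      rw [hτ.diag x hx, hj']; simp
    rw [hemp] at this
    simp at this
  · rw [if_neg hj', if_pos]
    rw [Finset.card_eq_zero, Finset.filter_eq_empty_iff]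
    intro y hy
    rw [Finset.mem_range] at hy
    rw [h q y (by omega) (by omega)]
    have hyq : y ≠ q := by omega
    simp only [trAtt, hyq, if_true, if_false]
    omega

/-- the signed sum = the total variation sum with the sign `trSg` of the final tree (coincidences `+`, all other attachments `-`) -/
theorem tr_sumK_sign {N q : ℕ} {τ : ℕ → ℕ → ℕ} {ms : ℕ → ℝ} (hτ : IsTr N q τ) (hms : IsMs N ms) (k : ℕ) (Φ : (ℕ → ℕ → ℕ) → ℝ) :
    trSumK ms N k q τ Φ = trAbsK ms N k q τ fun τ' => trSg N q k τ' * Φ τ' := by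
  induction k generalizing q τ with
  | zero => simp [trSumK, trAbsK, trSg]
  | succ k ih =>
    simp only [trSumK, trAbsK, trSum, trAbs]
    refine Finset.sum_congr rfl fun x hx => Finset.sum_congr rfl fun j hj => ?_
    rw [Finset.mem_range] at hx hj
    have hτ1 : IsTr N (q + 1) (trAtt N q τ x j) := tr_att_isTr hτ hx (by omega)
    rw [ih hτ1]
    have e1 : trAbsK ms N k (q + 1) (trAtt N q τ x j) (fun τ' => trSg N q (k + 1) τ' * Φ τ')
        = trAbsK ms N k (q + 1) (trAtt N q τ x j)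
            (fun τ' => (if j = N + 1 then 1 else -1) * (trSg N (q + 1) k τ' * Φ τ')) := by
      apply tr_absK_congr hτ1
      intro τ' _ hag
      rw [tra2_sg_succ, tra2_s0_att hτ hx (by omega) hag, mul_assoc]
    rw [e1, tra2_absK_const_mul, ← mul_assoc]
    congr 1
    by_cases hj' : j = N + 1
    · rw [if_pos hj', mul_one, hj', abs_of_nonneg (tra2_wt_top_nonneg hms x)]
    · rw [if_neg hj', abs_of_nonpos (tr_wt_nonpos hτ hms hx (by omega))]
      ring

theorem tra2_eqns_cite : True := by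
  have := @tra2Rp.eq_1
  have := @tra2Bl.eq_1
  have := @tra2Ch.eq_1
  have := @tra2Lf.eq_1
  have := @tra2S0.eq_1
  trivial

end Claimed.Agent.R286
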