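import Claimed.Agent.R286.Defs.Sk

/-!
# Row 286 (S0533), Fd/Obs : PE Section 2.1-2.2 on `Defs/Gh.lean` + `Defs/Sk.lean`      (owner helper278; defs `ob*`, lemmas `ob_*`)

DEFINITIONS (sorry-free): the SK observables `X, E[yyᵀ|·], C, H, J_b` as FUNCTIONS of the revealed field, and `S, B, D², L, W` on one planted path.
A CUT `j` = after `j` revelations of the step path `P`; the remaining path is `P.drop j`; its length in mass is `skGap a P j`;
`∫_0^a g_u du = ∑ j ∈ range (P.length + 1), skGap a P j * g_j`.      A common deterministic source = the root field `z₀ : SkCfg n → ℝ`.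

The CONTRACTS (Lemma 2.1, eq. (1) lines 1-4, Lemma 2.2, Lemma 2.3 + polynomial form of the appendix) are in `Fd/ObsC.lean`.
-/

set_option autoImplicit false

namespace Claimed.Agent.R286

open MeasureTheory ProbabilityTheory

variable {n : ℕ}

/-- the coordinate `y_i` as a spin observable (= direction of the normalised spin source `λ_i`) -/
noncomputable def obY (i : Fin n) : SkCfg n → ℝ := fun σ => skY σ i

/-- the coordinate `(φ_b)_p` of the matrix feature as a spin observable -/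
noncomputable def obPb (p : Fin n × Fin n) : SkCfg n → ℝ := fun σ => skPhi n σ (Sum.inl p)

/-! ### functions of the revealed field (`Q` = the REMAINING step path) -/

/-- `X = E[y | field z]` -/
noncomputable def obX (n : ℕ) (a : ℝ) (Q : SkStp) (z : SkCfg n → ℝ) (i : Fin n) : ℝ :=
  ghE (skBase n a) (skLvs n Q) (obY i) z

/-- `E[y yᵀ | field z]` -/
noncomputable def obM (n : ℕ) (a : ℝ) (Q : SkStp) (z : SkCfg n → ℝ) (i k : Fin n) : ℝ :=
  ghE (skBase n a) (skLvs n Q) (fun σ => skY σ i * skY σ k) z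

/-- conditional covariance `C` of `y` -/
noncomputable def obC (n : ℕ) (a : ℝ) (Q : SkStp) (z : SkCfg n → ℝ) (i k : Fin n) : ℝ :=
  ghC (skBase n a) (skLvs n Q) (obY i) (obY k) z

/-- the Hessian `H` of the continuation in a normalised spin source -/
noncomputable def obH (n : ℕ) (a : ℝ) (Q : SkStp) (z : SkCfg n → ℝ) (i k : Fin n) : ℝ :=
  ghH (skBase n a) (skLvs n Q) (obY i) (obY k) z

/-- the mixed Hessian `J_b` (matrix feature x normalised spin source) -/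
noncomputable def obJ (n : ℕ) (a : ℝ) (Q : SkStp) (z : SkCfg n → ℝ) (p : Fin n × Fin n) (i : Fin n) : ℝ :=
  ghH (skBase n a) (skLvs n Q) (obPb p) (obY i) z

/-! ### one planted path -/

/-- the field revealed at the cut `j` along the path with drivers `ξ`, root field `z₀` -/
noncomputable def obFld (n : ℕ) (P : SkStp) (z₀ : SkCfg n → ℝ) (ξ : ℕ → SkDr n → ℝ) (j : ℕ) : SkCfg n → ℝ :=
  z₀ + ghPre (skLvs n P) ξ j

/-- expectation under the planted law of one path and its terminal spin -/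
noncomputable def obE (n : ℕ) (a : ℝ) (P : SkStp) (z₀ : SkCfg n → ℝ)
    (T : (ℕ → SkDr n → ℝ) → SkCfg n → ℝ) : ℝ :=
  ghPath (skBase n a) (skLvs n P) z₀ T

/-- `X` at the cut `j` along the path -/
noncomputable def obXp (n : ℕ) (a : ℝ) (P : SkStp) (z₀ : SkCfg n → ℝ) (j : ℕ) (ξ : ℕ → SkDr n → ℝ) (i : Fin n) : ℝ :=
  obX n a (P.drop j) (obFld n P z₀ ξ j) i

/-- `H` at the cut `j` along the path -/
noncomputable def obHp (n : ℕ) (a : ℝ) (P : SkStp) (z₀ : SkCfg n → ℝ) (j : ℕ) (ξ : ℕ → SkDr n → ℝ) (i k : Fin n) : ℝ :=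
  obH n a (P.drop j) (obFld n P z₀ ξ j) i k

/-- `C` at the cut `j` along the path -/
noncomputable def obCp (n : ℕ) (a : ℝ) (P : SkStp) (z₀ : SkCfg n → ℝ) (j : ℕ) (ξ : ℕ → SkDr n → ℝ) (i k : Fin n) : ℝ :=
  obC n a (P.drop j) (obFld n P z₀ ξ j) i k

/-- `S = E|X|²` at the cut `j` -/
noncomputable def obS (n : ℕ) (a : ℝ) (P : SkStp) (z₀ : SkCfg n → ℝ) (j : ℕ) : ℝ :=
  obE n a P z₀ fun ξ _ => ∑ i, obXp n a P z₀ j ξ i ^ 2

/-- `B = E‖E[yyᵀ|F]‖²_HS` at the cut `j` -/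
noncomputable def obB (n : ℕ) (a : ℝ) (P : SkStp) (z₀ : SkCfg n → ℝ) (j : ℕ) : ℝ :=
  obE n a P z₀ fun ξ _ => ∑ i, ∑ k, obM n a (P.drop j) (obFld n P z₀ ξ j) i k ^ 2

/-- `D² = B - S²` -/
noncomputable def obD2 (n : ℕ) (a : ℝ) (P : SkStp) (z₀ : SkCfg n → ℝ) (j : ℕ) : ℝ :=
  obB n a P z₀ j - obS n a P z₀ j ^ 2

/-- `L = y·X - |X|²/2` at the cut `j` -/
noncomputable def obL (n : ℕ) (a : ℝ) (P : SkStp) (z₀ : SkCfg n → ℝ) (j : ℕ) (ξ : ℕ → SkDr n → ℝ) (σ : SkCfg n) : ℝ :=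
  ∑ i, skY σ i * obXp n a P z₀ j ξ i - (∑ i, obXp n a P z₀ j ξ i ^ 2) / 2

/-- `W = (y-X)ᵀ H (y-X)` at the cut `j` -/
noncomputable def obW (n : ℕ) (a : ℝ) (P : SkStp) (z₀ : SkCfg n → ℝ) (j : ℕ) (ξ : ℕ → SkDr n → ℝ) (σ : SkCfg n) : ℝ :=
  ∑ i, ∑ k, (skY σ i - obXp n a P z₀ j ξ i) * obHp n a P z₀ j ξ i k * (skY σ k - obXp n a P z₀ j ξ k)

/-- `E tr H²` at the cut `j` -/
noncomputable def obTrH2 (n : ℕ) (a : ℝ) (P : SkStp) (z₀ : SkCfg n → ℝ) (j : ℕ) : ℝ :=
  obE n a P z₀ fun ξ _ => ∑ i, ∑ k, obHp n a P z₀ j ξ i k ^ 2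

/-- `E tr C²` at the cut `j` -/
noncomputable def obTrC2 (n : ℕ) (a : ℝ) (P : SkStp) (z₀ : SkCfg n → ℝ) (j : ℕ) : ℝ :=
  obE n a P z₀ fun ξ _ => ∑ i, ∑ k, obCp n a P z₀ j ξ i k ^ 2

/-- `E tr (H C)` at the cut `j` -/
noncomputable def obTrHC (n : ℕ) (a : ℝ) (P : SkStp) (z₀ : SkCfg n → ℝ) (j : ℕ) : ℝ :=
  obE n a P z₀ fun ξ _ => ∑ i, ∑ k, obHp n a P z₀ j ξ i k * obCp n a P z₀ j ξ i k

/-- `E‖J_b‖²_HS` at the cut `j` -/
noncomputable def obTrJ2 (n : ℕ) (a : ℝ) (P : SkStp) (z₀ : SkCfg n → ℝ) (j : ℕ) : ℝ :=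
  obE n a P z₀ fun ξ _ => ∑ p, ∑ i, obJ n a (P.drop j) (obFld n P z₀ ξ j) p i ^ 2

/-- the revelation `e` filled up to the fraction `t` (joint linear filling at its constant mass) -/
def obPart (t : ℝ) (e : SkInc) : SkInc := ⟨e.m, t * e.db, t * e.dh⟩

/-- the step path `P₁ ++ e :: P₂` with an intermediate cut at the fraction `t` of the revelation `e`;
the intermediate cut has the number `P₁.length + 1` -/
def obSplit (P₁ : SkStp) (e : SkInc) (P₂ : SkStp) (t : ℝ) : SkStp :=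
  P₁ ++ obPart t e :: obPart (1 - t) e :: P₂

/-- the tree with two labels which share exactly the first `j` revelations -/
def obT2 (j : ℕ) : GhTree 2 := ⟨fun _ _ => j, fun _ _ => rfl, fun _ _ _ _ => by simp⟩

theorem ob_eqns_cite : True := by
  have := @obY.eq_1
  have := @obPb.eq_1
  have := @obX.eq_1
  have := @obM.eq_1
  have := @obC.eq_1
  have := @obH.eq_1
  have := @obJ.eq_1
  have := @obFld.eq_1
  have := @obE.eq_1
  have := @obXp.eq_1
  have := @obHp.eq_1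
  have := @obCp.eq_1
  have := @obS.eq_1
  have := @obB.eq_1
  have := @obD2.eq_1
  have := @obL.eq_1
  have := @obW.eq_1
  have := @obTrH2.eq_1
  have := @obTrC2.eq_1
  have := @obTrHC.eq_1
  have := @obTrJ2.eq_1
  have := @obPart.eq_1
  have := @obSplit.eq_1
  have := @obT2.eq_1
  trivial

end Claimed.Agent.R286
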