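import Claimed.Agent.R286.Defs.Clk
import Claimed.Agent.R286.Fd.Obs

/-!
# Row 286 (S0533), Fd/ClkDefs : vocabulary of the CLOCK API (exits `Exit/Clk*.lean`)      (owner helper42; defs `ck*`; no sorry)

Bounded monotone clocks carry ONLY NUMBERS (`Defs/Clk.lean`): limits, along the net of all finite chains of positions, of numbers of finite chains.

* `CkAdm a b h`            admissible pair of clocks on `[0,a]`
* `ckSeg θ c0 c1`          affine segment of clocks
* `ckStp a b h ps`         the step path which reveals `b, h` at the positions `ps`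
* `ckNuF n a b h q τ P ps` tree expectation on ONE chain (`skCNu` is its `ghLim`)
* `ckH2, ckC2, ckX4, ckVx` `E tr H²`, `E tr C²`, `E|X|⁴`, `Var|X|²` at a position (`S`, `B` are `skCS`, `skCB` of `Defs/Clk`)
* `ckDPr`                  the derivative of the pressure along a segment (line 1 of PE (1))
* `ckRT P sh`              the real tree of a table of numbers of shared revelations of a step path
-/

set_option autoImplicit false

namespace Claimed.Agent.R286

open MeasureTheory ProbabilityTheory Filter Topology Set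

noncomputable section

/-- admissible pair of clocks on `[0,a]` -/
def CkAdm (a : ℝ) (b h : ℝ → ℝ) : Prop := GhClk1 a b ∧ GhClk1 a h

/-- affine segment of clocks -/
def ckSeg (θ : ℝ) (c0 c1 : ℝ → ℝ) : ℝ → ℝ := fun u => (1 - θ) * c0 u + θ * c1 u

/-- the step path which reveals `b, h` at the positions of the list -/
def ckStp (a : ℝ) (b h : ℝ → ℝ) (ps : List GhPos) : SkStp := skCStp a b h 0 0 ps

/-- tree expectation of a spin test on ONE chain -/
def ckNuF (n : ℕ) (a : ℝ) (b h : ℝ → ℝ) (q : ℕ) (τ : ℕ → ℕ → WithTop GhPos) (P : (Fin q → SkCfg n) → ℝ)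
    (ps : List GhPos) : ℝ :=
  ghNu (skBase n a) (skLvs n (ckStp a b h ps)) (ghRepN q (ghDisc ps τ)) (fun _ => 0) fun _ σ => P σ

/-- `E tr H²` at the position `p` -/
def ckH2 (n : ℕ) (a : ℝ) (b h : ℝ → ℝ) (p : GhPos) : ℝ :=
  ghLim a fun ps => obTrH2 n a (ckStp a b h ps) 0 (ghIdx ps p)

/-- `E tr C²` at the position `p` -/
def ckC2 (n : ℕ) (a : ℝ) (b h : ℝ → ℝ) (p : GhPos) : ℝ :=
  ghLim a fun ps => obTrC2 n a (ckStp a b h ps) 0 (ghIdx ps p)

/-- `E|X|⁴` at the cut `j` of a step path -/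
def ckX4F (n : ℕ) (a : ℝ) (P : SkStp) (j : ℕ) : ℝ := obE n a P 0 fun ξ _ => (∑ i, obXp n a P 0 j ξ i ^ 2) ^ 2

/-- `E|X|⁴` at the position `p` -/
def ckX4 (n : ℕ) (a : ℝ) (b h : ℝ → ℝ) (p : GhPos) : ℝ :=
  ghLim a fun ps => ckX4F n a (ckStp a b h ps) (ghIdx ps p)

/-- `Var|X|²` at the position `p` -/
def ckVx (n : ℕ) (a : ℝ) (b h : ℝ → ℝ) (p : GhPos) : ℝ := ckX4 n a b h p - skCS n a b h p ^ 2

/-- the derivative of the pressure along the segment -/
def ckDPr (n : ℕ) (a : ℝ) (b0 h0 b1 h1 : ℝ → ℝ) (θ : ℝ) : ℝ :=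
  -(1 / 4) * (∫ u in (0 : ℝ)..a, skCB n a (ckSeg θ b0 b1) (ckSeg θ h0 h1) (ghPosA u) * (b1 u - b0 u))
    - (1 / 2) * ∫ u in (0 : ℝ)..a, skCS n a (ckSeg θ b0 b1) (ckSeg θ h0 h1) (ghPosA u) * (h1 u - h0 u)

/-- the real tree of a table `sh` of numbers of shared revelations of the step path `P` (strictly increasing masses) -/
def ckRT (P : SkStp) (sh : ℕ → ℕ → ℕ) : ℕ → ℕ → WithTop GhPos := fun x y =>
  if x = y ∨ P.length < sh x y then ⊤
  else if sh x y = 0 then ((ghPosB 0 : GhPos) : WithTop GhPos)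
  else ((ghPosA ((P.map SkInc.m).getD (sh x y - 1) 0) : GhPos) : WithTop GhPos)

theorem ck_eqns_cite : True := by
  have := @CkAdm.eq_1
  have := @ckSeg.eq_1
  have := @ckStp.eq_1
  have := @ckNuF.eq_1
  have := @ckH2.eq_1
  have := @ckC2.eq_1
  have := @ckX4F.eq_1
  have := @ckX4.eq_1
  have := @ckVx.eq_1
  have := @ckDPr.eq_1
  have := @ckRT.eq_1
  trivial

/-- `skCNu` is the limit of `ckNuF` -/
theorem ck_nu_eq (n : ℕ) (a : ℝ) (b h : ℝ → ℝ) (q : ℕ) (τ : ℕ → ℕ → WithTop GhPos) (P : (Fin q → SkCfg n) → ℝ) :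
    skCNu n a b h q τ P = ghLim a (ckNuF n a b h q τ P) := rfl

end

end Claimed.Agent.R286
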