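import Claimed.Agent.R286.Fd.RegA
import Claimed.Agent.R286.Defs.SkLem
import Claimed.Agent.R286.Defs.Tr

/-!
# Row 286 (S0533), Fd/TrBs : SYMMETRIES of the positive tree laws (D5 of the PE ledger)      (OWNER helper203; prefix `trs_`; 0 sorry)

Proofs of leaves of `Fd/TrB4`, `Fd/TrB5` (architect helper150).  Only `B.Ok` is used: NO condition on the masses.

RAW (`ghNu`, representative maps `rep`, fields `G a`)
* `trs_nu_meas`        `G ↦ ghNu B ls rep G (spin test)` is measurable;  `trs_DT_meas`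
* `trs_const_src_raw`  a constant `c a` added to the field of every label drops out (ANY test)
* `trs_one_raw`        `ν[c] = c`;  `trs_DT_one`
* `trs_F_sym`          `ghF B ls (z ∘ e) = ghF B ls' z` (`e` preserves the prior and carries the kernels of `ls` to those of `ls'`; other driver type allowed)
* `trs_pi_law`         product of copies of the driver law: only the kernels of the factors matter
* **`trs_sym_raw`**    every label carries its own symmetry `ε a`; two lists `ls`, `ls'`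

TREE NUMBERS (`trNu`)
* `trs_F_cov_congr` = `gh_F_cov_congr`,  `trs_cov_congr` = `tr_nu_cov_congr`  (verbatim)
* `trs_sym` = `tr_nu_sym` + `(hP : TrUses q P)`;  `trs_block_sym` = `tr_nu_block_sym` + `(ht : t ≤ ls.length) (hP : TrUses q P)`
  (both are FALSE without these hypotheses: see the docstrings)
* `trs_const_src` = `tr_nu_const_src`
* `trs_prod` = `tr_nu_prod`,  `trs_const` = `tr_nu_const`  (verbatim, without the admissibility hypotheses)

RAW FACTORISATION (`S ≃ S₁ × S₂`, `TrsPr e B B₁ B₂`, list of pairs of levels `L`, field `trsJ e z₁ z₂`, level `trsLp e l₁ l₂`)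
* `trs_split_int1`, `trs_split_int`  a driver indexed by `ι₁ ⊕ ι₂` = a pair of independent drivers (no measurability)
* `trs_F_prod`, `trs_Gw_prod`, `trs_D_prod`, **`trs_prod_raw`**
-/

set_option autoImplicit false

namespace Claimed.Agent.R286

open MeasureTheory ProbabilityTheory

section raw
variable {S ι : Type} [Fintype S] [Fintype ι]

/-! ## 0. measurability of the tree number in the revealed fields -/

theorem trs_DT_meas {B : GhB S} (hB : B.Ok) {q : ℕ} (l : GhLv S ι) (ls : List (GhLv S ι)) (r : Fin q → Fin q) :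
    Measurable fun p : (Fin q → S → ℝ) × (Fin q → ι → ℝ) => ghDT B l ls r p.1 p.2 := by
  unfold ghDT
  refine Finset.measurable_prod _ fun a _ => ?_
  by_cases h : r a = a
  · simp only [h, if_true]
    have h1 : Measurable fun p : (S → ℝ) × (ι → ℝ) => ghD B l ls p.1 p.2 := (gh_ra_D_cont hB l ls).measurable
    have h2 : Measurable fun p : (Fin q → S → ℝ) × (Fin q → ι → ℝ) => (p.1 a, p.2 a) := by fun_prop
    exact h1.comp h2
  · simp only [h, if_false]
    exact measurable_const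

theorem trs_nu_meas {B : GhB S} (hB : B.Ok) {q : ℕ} : ∀ (ls : List (GhLv S ι)) (rep : ℕ → Fin q → Fin q)
    (P : (Fin q → S) → ℝ), Measurable fun G : Fin q → S → ℝ => ghNu B ls rep G fun _ σ => P σ
  | [], rep, P => by
      simp only [ghNu]
      refine Finset.measurable_sum _ fun σ _ => Measurable.mul_const ?_ _
      refine Finset.measurable_prod _ fun a _ => ?_
      exact (gh_ra_Gw_cont hB (σ a)).measurable.comp (measurable_pi_apply a)
  | l :: ls, rep, P => by
      simp only [ghNu]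
      have h1 := trs_nu_meas hB ls (fun t => rep (t + 1)) P
      have h2 : Measurable fun p : (Fin q → S → ℝ) × (Fin q → ι → ℝ) =>
          (fun a => p.1 a + l.inc (p.2 (rep 0 a)) : Fin q → S → ℝ) := by
        refine measurable_pi_lambda _ fun a => ?_
        exact ((measurable_pi_apply a).comp measurable_fst).add
          ((gh_ra_inc_cont l).measurable.comp ((measurable_pi_apply (rep 0 a)).comp measurable_snd))
      have h3 : Measurable fun p : (Fin q → S → ℝ) × (Fin q → ι → ℝ) =>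
          ghDT B l ls (rep 0) p.1 p.2 * ghNu B ls (fun t => rep (t + 1)) (fun a => p.1 a + l.inc (p.2 (rep 0 a)))
            (fun _ σ => P σ) := (trs_DT_meas hB l ls (rep 0)).mul (h1.comp h2)
      exact (h3.stronglyMeasurable.integral_prod_right'
        (ν := Measure.pi fun _ : Fin q => ghStd ι)).measurable

/-! ## 1. a constant source drops out (any test) -/

theorem trs_Gw_shift (B : GhB S) (z : S → ℝ) (c : ℝ) (s : S) : ghGw B (fun s => z s + c) s = ghGw B z s := by
  unfold ghGw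
  have h : ∀ t, B.w t * Real.exp (B.a * (z t + c)) = (B.w t * Real.exp (B.a * z t)) * Real.exp (B.a * c) := by
    intro t; rw [mul_add, Real.exp_add]; ring
  simp only [h]
  rw [← Finset.sum_mul, mul_div_mul_right _ _ (Real.exp_pos _).ne']

theorem trs_D_shift {B : GhB S} (hB : B.Ok) (l : GhLv S ι) (ls : List (GhLv S ι)) (z : S → ℝ) (c : ℝ) (ξ : ι → ℝ) :
    ghD B l ls (fun s => z s + c) ξ = ghD B l ls z ξ := by
  unfold ghD
  have h : (fun s => z s + c) + l.inc ξ = fun s => (z + l.inc ξ) s + c := by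
    funext s; simp only [Pi.add_apply]; ring
  rw [h, gh_ra_F_shift hB, gh_ra_F_shift hB]
  congr 2; ring

theorem trs_const_src_raw {B : GhB S} (hB : B.Ok) {q : ℕ} (c : Fin q → ℝ) : ∀ (ls : List (GhLv S ι))
    (rep : ℕ → Fin q → Fin q) (G : Fin q → S → ℝ) (P : (ℕ → Fin q → ι → ℝ) → (Fin q → S) → ℝ),
    ghNu B ls rep (fun a s => G a s + c a) P = ghNu B ls rep G P
  | [], rep, G, P => by
      simp only [ghNu, trs_Gw_shift]
  | l :: ls, rep, G, P => by
      simp only [ghNu]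
      refine integral_congr_ae (Filter.Eventually.of_forall fun W => ?_)
      simp only
      have h1 : ghDT B l ls (rep 0) (fun a s => G a s + c a) W = ghDT B l ls (rep 0) G W := by
        unfold ghDT
        simp only [trs_D_shift hB]
      have h2 : (fun a => (fun s => G a s + c a) + l.inc (W (rep 0 a)))
          = fun a s => (G a + l.inc (W (rep 0 a))) s + c a := by
        funext a s; simp only [Pi.add_apply]; ring
      rw [h1, h2, trs_const_src_raw hB c ls]

/-! ## 2. normalisation (no sign condition on the masses) -/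

theorem trs_DT_one {B : GhB S} (hB : B.Ok) {q : ℕ} (l : GhLv S ι) (ls : List (GhLv S ι)) (r : Fin q → Fin q)
    (G : Fin q → S → ℝ) : ∫ W, ghDT B l ls r G W ∂(Measure.pi fun _ : Fin q => ghStd ι) = 1 := by
  unfold ghDT
  rw [integral_fintype_prod_eq_prod (μ := fun _ : Fin q => ghStd ι)
    (fun a x => if r a = a then ghD B l ls (G a) x else 1)]
  refine Finset.prod_eq_one fun a _ => ?_
  split_ifs
  · exact gh_ra_D_one hB l ls _
  · simp

theorem trs_one_raw {B : GhB S} (hB : B.Ok) {q : ℕ} (c : ℝ) : ∀ (ls : List (GhLv S ι)) (rep : ℕ → Fin q → Fin q)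
    (G : Fin q → S → ℝ), ghNu B ls rep G (fun _ _ => c) = c
  | [], rep, G => by
      classical
      simp only [ghNu]
      rw [← Finset.sum_mul]
      have := Finset.prod_univ_sum (fun _ : Fin q => (Finset.univ : Finset S)) (fun a s => ghGw B (G a) s)
      rw [Fintype.piFinset_univ] at this
      rw [← this, Finset.prod_eq_one fun a _ => gh_ra_Gw_sum hB _, one_mul]
  | l :: ls, rep, G => by
      simp only [ghNu]
      simp_rw [trs_one_raw hB c ls]
      rw [integral_mul_const, trs_DT_one hB, one_mul]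

end raw

/-! ## 3. symmetries and change of the factors: the raw lemma -/

section sym
variable {S ι ι' : Type} [Fintype S] [Fintype ι] [Fintype ι']

/-- the level seen through a bijection of the configurations -/
def trsLv (l : GhLv S ι) (e : S ≃ S) : GhLv S ι := ⟨l.m, fun s => l.A (e s)⟩

theorem trs_F0_sym (B : GhB S) (e : S ≃ S) (hw : ∀ s, B.w (e s) = B.w s) (z : S → ℝ) :
    ghF0 B (fun s => z (e s)) = ghF0 B z := by
  unfold ghF0
  rw [← e.sum_comp (fun s => B.w s * Real.exp (B.a * z s))]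
  simp only [hw]

theorem trs_Gw_sym (B : GhB S) (e : S ≃ S) (hw : ∀ s, B.w (e s) = B.w s) (z : S → ℝ) (s : S) :
    ghGw B (fun s => z (e s)) s = ghGw B z (e s) := by
  unfold ghGw
  rw [← e.sum_comp (fun s => B.w s * Real.exp (B.a * z s))]
  simp only [hw]

/-- the continuation is invariant under a symmetry of the prior which carries the kernels of `ls` to those of `ls'` -/
theorem trs_F_sym {B : GhB S} (hB : B.Ok) (e : S ≃ S) (hw : ∀ s, B.w (e s) = B.w s) :
    ∀ (ls : List (GhLv S ι)) (ls' : List (GhLv S ι')), ls.length = ls'.length →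
      (∀ (j : ℕ) (l : GhLv S ι) (l' : GhLv S ι'), ls[j]? = some l → ls'[j]? = some l' → l.m = l'.m ∧ ∀ s s', l'.cov (e s) (e s') = l.cov s s') →
      ∀ z : S → ℝ, ghF B ls (fun s => z (e s)) = ghF B ls' z
  | [], [], _, _, z => trs_F0_sym B e hw z
  | [], _ :: _, hlen, _, _ => by simp at hlen
  | _ :: _, [], hlen, _, _ => by simp at hlen
  | l :: ls, l' :: ls', hlen, h, z => by
      have h0 := h 0 l l' rfl rfl
      have ih := trs_F_sym hB e hw ls ls' (by simpa using hlen)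
        (fun j a b ha hb => h (j + 1) a b (by simpa using ha) (by simpa using hb))
      simp only [ghF]
      have e1 : ∀ ξ, ghF B ls' (z + l'.inc ξ) = ghF B ls ((fun s => z (e s)) + (trsLv l' e).inc ξ) := by
        intro ξ; rw [← ih]; rfl
      simp only [e1]
      rw [h0.1]
      have hm : Measurable fun y : S → ℝ => ghF B ls ((fun s => z (e s)) + y) :=
        ((gh_ra_F_cont hB ls).comp (continuous_const.add continuous_id)).measurable
      exact gh_l_T_congr l (trsLv l' e) (fun s t => (h0.2 s t).symm) l'.m _ hm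

/-- product of copies of the driver law: only the kernels of the factors matter -/
theorem trs_pi_law {q : ℕ} (l : GhLv S ι) (l' : Fin q → GhLv S ι')
    (h : ∀ a s t, (l' a).cov s t = l.cov s t) (Ψ : (Fin q → S → ℝ) → ℝ) (hΨ : Measurable Ψ) :
    ∫ W, Ψ (fun a => (l' a).inc (W a)) ∂(Measure.pi fun _ : Fin q => ghStd ι')
      = ∫ W, Ψ (fun a => l.inc (W a)) ∂(Measure.pi fun _ : Fin q => ghStd ι) := by
  have : ∀ a, IsProbabilityMeasure ((ghStd ι').map (l' a).inc) := fun a =>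
    Measure.isProbabilityMeasure_map (gh_l_inc_meas _).aemeasurable
  have : IsProbabilityMeasure ((ghStd ι).map l.inc) :=
    Measure.isProbabilityMeasure_map (gh_l_inc_meas _).aemeasurable
  have m1 : (Measure.pi fun _ : Fin q => ghStd ι').map (fun W a => (l' a).inc (W a))
      = Measure.pi fun a => (ghStd ι').map (l' a).inc :=
    Measure.pi_map_pi fun a => (gh_l_inc_meas (l' a)).aemeasurable
  have m2 : (Measure.pi fun _ : Fin q => ghStd ι).map (fun W a => l.inc (W a))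
      = Measure.pi fun _ => (ghStd ι).map l.inc :=
    Measure.pi_map_pi fun _ => (gh_l_inc_meas l).aemeasurable
  have m3 : (fun a => (ghStd ι').map (l' a).inc) = fun _ => (ghStd ι).map l.inc :=
    funext fun a => gh_l_inc_congr (l' a) l (h a)
  have k1 : Measurable fun (W : Fin q → ι' → ℝ) a => (l' a).inc (W a) :=
    measurable_pi_lambda _ fun a => (gh_l_inc_meas (l' a)).comp (measurable_pi_apply a)
  have k2 : Measurable fun (W : Fin q → ι → ℝ) (a : Fin q) => l.inc (W a) :=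
    measurable_pi_lambda _ fun a => (gh_l_inc_meas l).comp (measurable_pi_apply a)
  rw [← integral_map k1.aemeasurable hΨ.aestronglyMeasurable, ← integral_map k2.aemeasurable hΨ.aestronglyMeasurable,
    m1, m2, m3]

/-- **RAW SYMMETRY LEMMA.**  Every label `a` carries a symmetry `ε a` of the prior which carries the kernels of `ls` to those of `ls'`;
at every stage the labels of one class carry symmetries which the level does not distinguish (the same symmetry at the terminal draw). -/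
theorem trs_sym_raw {B : GhB S} (hB : B.Ok) {q : ℕ} (ε : Fin q → S ≃ S) (hw : ∀ a s, B.w (ε a s) = B.w s) :
    ∀ (ls : List (GhLv S ι)) (ls' : List (GhLv S ι')) (rep : ℕ → Fin q → Fin q), ls.length = ls'.length →
      (∀ (j : ℕ) (l : GhLv S ι) (l' : GhLv S ι'), ls[j]? = some l → ls'[j]? = some l' → l.m = l'.m ∧
        (∀ a s s', l'.cov (ε a s) (ε a s') = l.cov s s') ∧ ∀ a s i, l'.A (ε a s) i = l'.A (ε (rep j a) s) i) →
      (∀ a, ε (rep ls.length a) = ε a) →
      ∀ (G : Fin q → S → ℝ) (P : (Fin q → S) → ℝ),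
      ghNu B ls rep (fun a s => G a (ε a s)) (fun _ σ => P fun a => ε a (σ a)) = ghNu B ls' rep G fun _ σ => P σ
  | [], [], rep, _, _, hT, G, P => by
      simp only [ghNu]
      rw [← (Equiv.piCongrRight ε).sum_comp (fun σ => (∏ a, ghGw B (G a) (σ a)) * P fun a => σ (rep 0 a))]
      refine Finset.sum_congr rfl fun σ _ => ?_
      congr 1
      · exact Finset.prod_congr rfl fun a _ => trs_Gw_sym B (ε a) (hw a) (G a) (σ a)
      · congr 1
        funext a
        have := hT a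
        simp only [List.length_nil] at this
        simp only [Equiv.piCongrRight_apply, Pi.map_apply, this]
  | [], _ :: _, _, hlen, _, _, _, _ => by simp at hlen
  | _ :: _, [], _, hlen, _, _, _, _ => by simp at hlen
  | l :: ls, l' :: ls', rep, hlen, h, hT, G, P => by
      have h0 := h 0 l l' rfl rfl
      have hlen' : ls.length = ls'.length := by simpa using hlen
      have htl : ∀ (j : ℕ) (l : GhLv S ι) (l' : GhLv S ι'), ls[j]? = some l → ls'[j]? = some l' → l.m = l'.m ∧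
          (∀ a s s', l'.cov (ε a s) (ε a s') = l.cov s s') ∧ ∀ a s i, l'.A (ε a s) i = l'.A (ε (rep (j + 1) a) s) i :=
        fun j a b ha hb => h (j + 1) a b (by simpa using ha) (by simpa using hb)
      have ih := trs_sym_raw hB ε hw ls ls' (fun t => rep (t + 1)) hlen' htl (fun a => by simpa using hT a)
      have hF1 : ∀ a z, ghF B ls (fun s => z (ε a s)) = ghF B ls' z := fun a =>
        trs_F_sym hB (ε a) (hw a) ls ls' hlen' fun j x y hx hy => ⟨(htl j x y hx hy).1, (htl j x y hx hy).2.1 a⟩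
      have hF2 : ∀ a z, ghF B (l :: ls) (fun s => z (ε a s)) = ghF B (l' :: ls') z := fun a =>
        trs_F_sym hB (ε a) (hw a) (l :: ls) (l' :: ls') hlen fun j x y hx hy => ⟨(h j x y hx hy).1, (h j x y hx hy).2.1 a⟩
      simp only [ghNu]
      let Ψ : (Fin q → S → ℝ) → ℝ := fun Y =>
        (∏ a, if rep 0 a = a then
            Real.exp (l.m * (ghF B ls ((fun s => G a (ε a s)) + Y a) - ghF B (l :: ls) (fun s => G a (ε a s)))) else 1)
          * ghNu B ls (fun t => rep (t + 1)) (fun a => (fun s => G a (ε a s)) + Y (rep 0 a))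
              (fun _ σ => P fun a => ε a (σ a))
      have hΨ : Measurable Ψ := by
        refine Measurable.mul (Finset.measurable_prod _ fun a _ => ?_) ?_
        · by_cases hr : rep 0 a = a
          · simp only [hr, if_true]
            have hc := gh_ra_F_cont hB ls
            have : Continuous fun Y : Fin q → S → ℝ =>
                Real.exp (l.m * (ghF B ls ((fun s => G a (ε a s)) + Y a) - ghF B (l :: ls) (fun s => G a (ε a s)))) := by
              fun_prop
            exact this.measurable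
          · simp only [hr, if_false]
            exact measurable_const
        · have h1 := trs_nu_meas hB ls (fun t => rep (t + 1)) (fun σ => P fun a => ε a (σ a))
          have h2 : Measurable fun Y : Fin q → S → ℝ =>
              (fun a => (fun s => G a (ε a s)) + Y (rep 0 a) : Fin q → S → ℝ) :=
            measurable_pi_lambda _ fun a => measurable_const.add (measurable_pi_apply (rep 0 a))
          exact h1.comp h2
      have hL : ∀ W : Fin q → ι → ℝ, ghDT B l ls (rep 0) (fun a s => G a (ε a s)) W *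
          ghNu B ls (fun t => rep (t + 1)) (fun a => (fun s => G a (ε a s)) + l.inc (W (rep 0 a)))
            (fun _ σ => P fun a => ε a (σ a)) = Ψ fun a => l.inc (W a) := fun W => rfl
      have hR : ∀ W : Fin q → ι' → ℝ, ghDT B l' ls' (rep 0) G W *
          ghNu B ls' (fun t => rep (t + 1)) (fun a => G a + l'.inc (W (rep 0 a))) (fun _ σ => P σ)
            = Ψ fun a => (trsLv l' (ε a)).inc (W a) := by
        intro W
        simp only [Ψ]
        congr 1
        · unfold ghDT ghD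
          refine Finset.prod_congr rfl fun a _ => ?_
          rw [← hF1 a, ← hF2 a, h0.1]
          rfl
        · rw [← ih]
          congr 1
          funext a s
          simp only [Pi.add_apply, trsLv, GhLv.inc]
          congr 1
          exact Finset.sum_congr rfl fun i _ => by rw [h0.2.2 a s i]
      simp only [hL, hR]
      exact (trs_pi_law l (fun a => trsLv l' (ε a)) (fun a s t => h0.2.1 a s t) Ψ hΨ).symm

end sym

/-! ## 4. the tree numbers `trNu`: kernels only, global symmetry, block flip, constant source -/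

section tr
variable {S ι : Type} [Fintype S] [Fintype ι]

omit [Fintype S] in
theorem trs_cov_comm (l : GhLv S ι) (s t : S) : l.cov s t = l.cov t s := by
  unfold GhLv.cov
  exact Finset.sum_congr rfl fun i _ => mul_comm _ _

omit [Fintype S] in
/-- a level whose kernel does not see `e` in one variable has a factor which does not see `e` -/
theorem trs_A_of_low (l : GhLv S ι) (e : S ≃ S) (h : ∀ s s', l.cov (e s) s' = l.cov s s') (s : S) (i : ι) :
    l.A (e s) i = l.A s i := by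
  have h1 : ∑ i, (l.A (e s) i - l.A s i) ^ 2 = l.cov (e s) (e s) - 2 * l.cov (e s) s + l.cov s s := by
    unfold GhLv.cov
    rw [Finset.mul_sum, ← Finset.sum_sub_distrib, ← Finset.sum_add_distrib]
    exact Finset.sum_congr rfl fun i _ => by ring
  have h2 : l.cov (e s) (e s) = l.cov s s := by rw [h, trs_cov_comm, h]
  rw [h2, h] at h1
  have h3 : ∑ i, (l.A (e s) i - l.A s i) ^ 2 = 0 := by rw [h1]; ring
  have h4 := (Finset.sum_eq_zero_iff_of_nonneg fun i _ => sq_nonneg _).1 h3 i (Finset.mem_univ i)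
  have h5 := (pow_eq_zero_iff two_ne_zero).1 h4
  linarith

theorem trs_rep_spec (q : ℕ) (τ : ℕ → ℕ → ℕ) (j : ℕ) (a : Fin q) :
    trRep q τ j a = a ∨ j < τ a.1 (trRep q τ j a).1 := by
  unfold trRep
  cases h : (List.finRange q).find? fun b : Fin q => decide (j < τ a.1 b.1) with
  | none => left; rfl
  | some b =>
      right
      have := List.find?_some h
      simpa using this

omit [Fintype S] [Fintype ι] in
theorem trs_ms_some {B : GhB S} {ls : List (GhLv S ι)} {j : ℕ} {l : GhLv S ι} (h : ls[j]? = some l) :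
    trMs B ls j = l.m := by
  simp [trMs, h]

variable [Inhabited S]

omit [Inhabited S] in
/-- `gh_F_cov_congr` of `Fd/TrB4` -/
theorem trs_F_cov_congr {ι' : Type} [Fintype ι'] {B : GhB S} (hB : B.Ok) {ls : List (GhLv S ι)} {ls' : List (GhLv S ι')}
    (hlen : ls.length = ls'.length) (hm : ∀ j, trMs B ls j = trMs B ls' j)
    (hc : ∀ j (h : j < ls.length) (h' : j < ls'.length) s t, (ls[j]).cov s t = (ls'[j]).cov s t) (z : S → ℝ) :
    ghF B ls z = ghF B ls' z := by
  refine trs_F_sym hB (Equiv.refl S) (fun _ => rfl) ls ls' hlen (fun j l l' hl hl' => ⟨?_, fun s s' => ?_⟩) z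
  · rw [← trs_ms_some (B := B) hl, ← trs_ms_some (B := B) hl', hm]
  · obtain ⟨h1, rfl⟩ := List.getElem?_eq_some_iff.1 hl
    obtain ⟨h2, rfl⟩ := List.getElem?_eq_some_iff.1 hl'
    exact (hc j h1 h2 s s').symm

/-- `tr_nu_cov_congr` of `Fd/TrB4` -/
theorem trs_cov_congr {ι' : Type} [Fintype ι'] {B : GhB S} (hB : B.Ok) {ls : List (GhLv S ι)} {ls' : List (GhLv S ι')}
    (hlen : ls.length = ls'.length) (hm : ∀ j, trMs B ls j = trMs B ls' j)
    (hc : ∀ j (h : j < ls.length) (h' : j < ls'.length) s t, (ls[j]).cov s t = (ls'[j]).cov s t)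
    (q : ℕ) (τ : ℕ → ℕ → ℕ) (z : S → ℝ) (P : (ℕ → S) → ℝ) :
    trNu B ls q τ z P = trNu B ls' q τ z P := by
  unfold trNu
  refine trs_sym_raw hB (fun _ : Fin q => Equiv.refl S) (fun _ _ => rfl) ls ls' (fun t => trRep q τ t) hlen
    (fun j l l' hl hl' => ⟨?_, fun _ s s' => ?_, fun _ _ _ => rfl⟩) (fun _ => rfl) (fun _ => z) (fun σ => P (trExt σ))
  · rw [← trs_ms_some (B := B) hl, ← trs_ms_some (B := B) hl', hm]
  · obtain ⟨h1, rfl⟩ := List.getElem?_eq_some_iff.1 hl
    obtain ⟨h2, rfl⟩ := List.getElem?_eq_some_iff.1 hl'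
    exact (hc j h1 h2 s s').symm

/-- `tr_nu_block_sym` of `Fd/TrB5`, with the two hypotheses which it needs: `t ≤ ls.length` (otherwise `A` may separate coincident leaves)
and `TrUses q P` (otherwise the test sees `e default` at the labels `≥ q`) -/
theorem trs_block_sym {B : GhB S} (hB : B.Ok) {ls : List (GhLv S ι)} {q : ℕ} {τ : ℕ → ℕ → ℕ}
    (hτ : IsTr ls.length q τ) (z : S → ℝ) (e : S ≃ S) (hw : ∀ s, B.w (e s) = B.w s) (hz : ∀ s, z (e s) = z s) (t : ℕ)
    (ht : t ≤ ls.length)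
    (hlow : ∀ j (h : j < ls.length), j < t → ∀ s s', (ls[j]).cov (e s) s' = (ls[j]).cov s s')
    (hhigh : ∀ j (h : j < ls.length), t ≤ j → ∀ s s', (ls[j]).cov (e s) (e s') = (ls[j]).cov s s')
    (A : ℕ → Prop) [DecidablePred A] (hA : ∀ x y, x < q → y < q → A x → t < τ x y → A y) (P : (ℕ → S) → ℝ)
    (hP : TrUses q P) :
    trNu B ls q τ z (fun σ => P fun x => if A x then e (σ x) else σ x) = trNu B ls q τ z P := by
  unfold trNu
  let ε : Fin q → S ≃ S := fun a => if A a.1 then e else Equiv.refl S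
  have hε : ∀ a s, ε a s = if A a.1 then e s else s := by
    intro a s
    simp only [ε]
    split_ifs <;> rfl
  have hrep : ∀ j, t ≤ j → ∀ a, ε (trRep q τ j a) = ε a := by
    intro j hj a
    rcases trs_rep_spec q τ j a with h | h
    · rw [h]
    · have h1 : t < τ a.1 (trRep q τ j a).1 := lt_of_le_of_lt hj h
      have h2 : A (trRep q τ j a).1 ↔ A a.1 :=
        ⟨fun hx => hA _ _ (trRep q τ j a).2 a.2 hx (by rw [hτ.symm _ _ (trRep q τ j a).2 a.2]; exact h1),
          fun hx => hA _ _ a.2 (trRep q τ j a).2 hx h1⟩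
      simp only [ε, h2]
  have key := trs_sym_raw hB ε (fun a s => by rw [hε]; split_ifs; exacts [hw s, rfl]) ls ls (fun t => trRep q τ t) rfl
    (fun j l l' hl hl' => by
      obtain ⟨h1, rfl⟩ := List.getElem?_eq_some_iff.1 hl
      obtain ⟨_, rfl⟩ := List.getElem?_eq_some_iff.1 hl'
      refine ⟨rfl, fun a s s' => ?_, fun a s i => ?_⟩
      · rw [hε, hε]
        split_ifs
        · rcases lt_or_ge j t with hj | hj
          · rw [hlow j h1 hj, trs_cov_comm, hlow j h1 hj, trs_cov_comm]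
          · exact hhigh j h1 hj s s'
        · rfl
      · rcases lt_or_ge j t with hj | hj
        · have hl := trs_A_of_low ls[j] e (hlow j h1 hj)
          rw [hε, hε]
          split_ifs <;> simp only [hl]
        · rw [hrep j hj a])
    (fun a => hrep _ ht a) (fun _ => z) (fun σ => P (trExt σ))
  rw [← key]
  congr 1
  · funext a s
    rw [hε]
    split_ifs
    · exact (hz s).symm
    · rfl
  · funext _ σ
    refine hP _ _ fun i hi => ?_
    simp only [trExt, hi, dif_pos, hε]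

/-- `tr_nu_sym` of `Fd/TrB5`, with the hypothesis `TrUses q P` which it needs -/
theorem trs_sym {B : GhB S} (hB : B.Ok) {ls : List (GhLv S ι)} (q : ℕ) (τ : ℕ → ℕ → ℕ) (z : S → ℝ)
    (e : S ≃ S) (hw : ∀ s, B.w (e s) = B.w s) (hz : ∀ s, z (e s) = z s) (hc : ∀ l ∈ ls, ∀ s t, l.cov (e s) (e t) = l.cov s t)
    (P : (ℕ → S) → ℝ) (hP : TrUses q P) : trNu B ls q τ z (fun σ => P fun x => e (σ x)) = trNu B ls q τ z P := by
  unfold trNu
  have key := trs_sym_raw hB (fun _ : Fin q => e) (fun _ s => hw s) ls ls (fun t => trRep q τ t) rfl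
    (fun j l l' hl hl' => by
      obtain ⟨h1, rfl⟩ := List.getElem?_eq_some_iff.1 hl
      obtain ⟨_, rfl⟩ := List.getElem?_eq_some_iff.1 hl'
      exact ⟨rfl, fun _ s s' => hc _ (List.getElem_mem h1) s s', fun _ _ _ => rfl⟩)
    (fun _ => rfl) (fun _ => z) (fun σ => P (trExt σ))
  rw [← key]
  congr 1
  · funext a s
    exact (hz s).symm
  · funext _ σ
    refine hP _ _ fun i hi => ?_
    simp only [trExt, hi, dif_pos]

/-- `tr_nu_const_src` of `Fd/TrB5` -/
theorem trs_const_src {B : GhB S} (hB : B.Ok) (ls : List (GhLv S ι)) (c : ℝ)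
    (q : ℕ) (τ : ℕ → ℕ → ℕ) (z : S → ℝ) (P : (ℕ → S) → ℝ) :
    trNu B ls q τ (fun s => z s + c) P = trNu B ls q τ z P :=
  trs_const_src_raw hB (fun _ => c) ls _ (fun _ => z) _

end tr

/-! ## 5. splitting of the drivers -/

section split
variable {ι₁ ι₂ : Type} [Fintype ι₁] [Fintype ι₂]

omit [Fintype ι₁] [Fintype ι₂] in
theorem trs_sumPi_symm (p : (ι₁ → ℝ) × (ι₂ → ℝ)) :
    (MeasurableEquiv.sumPiEquivProdPi fun _ : ι₁ ⊕ ι₂ => ℝ).symm p = Sum.elim p.1 p.2 := by
  funext t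
  cases t <;> rfl

theorem trs_split_mp : MeasurePreserving (MeasurableEquiv.sumPiEquivProdPi fun _ : ι₁ ⊕ ι₂ => ℝ).symm
    ((ghStd ι₁).prod (ghStd ι₂)) (ghStd (ι₁ ⊕ ι₂)) :=
  measurePreserving_sumPiEquivProdPi_symm (fun _ : ι₁ ⊕ ι₂ => gaussianReal 0 1)

/-- one driver indexed by a sum = a pair of independent drivers (no measurability needed) -/
theorem trs_split_int1 (f : (ι₁ ⊕ ι₂ → ℝ) → ℝ) :
    ∫ ξ, f ξ ∂ghStd (ι₁ ⊕ ι₂) = ∫ p : (ι₁ → ℝ) × (ι₂ → ℝ), f (Sum.elim p.1 p.2) ∂((ghStd ι₁).prod (ghStd ι₂)) := by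
  rw [← trs_split_mp.integral_comp' f]
  simp only [trs_sumPi_symm]

/-- the same for `q` labels -/
theorem trs_split_int {q : ℕ} (f : (Fin q → ι₁ ⊕ ι₂ → ℝ) → ℝ) :
    ∫ W, f W ∂(Measure.pi fun _ : Fin q => ghStd (ι₁ ⊕ ι₂))
      = ∫ p : (Fin q → ι₁ → ℝ) × (Fin q → ι₂ → ℝ), f (fun a => Sum.elim (p.1 a) (p.2 a))
          ∂((Measure.pi fun _ : Fin q => ghStd ι₁).prod (Measure.pi fun _ : Fin q => ghStd ι₂)) := by
  have h1 : MeasurePreserving
      (MeasurableEquiv.piCongrRight fun _ : Fin q => (MeasurableEquiv.sumPiEquivProdPi fun _ : ι₁ ⊕ ι₂ => ℝ).symm)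
      (Measure.pi fun _ : Fin q => (ghStd ι₁).prod (ghStd ι₂)) (Measure.pi fun _ : Fin q => ghStd (ι₁ ⊕ ι₂)) :=
    measurePreserving_pi _ _ fun _ => trs_split_mp
  have h2 := (measurePreserving_arrowProdEquivProdArrow (ι₁ → ℝ) (ι₂ → ℝ) (Fin q) (fun _ => ghStd ι₁)
    (fun _ => ghStd ι₂)).symm
  rw [← h1.integral_comp' f, ← h2.integral_comp']
  refine integral_congr_ae (Filter.Eventually.of_forall fun p => ?_)
  exact congrArg f (funext fun a => trs_sumPi_symm _)

theorem trs_T_split (m : ℝ) (f : (ι₁ ⊕ ι₂ → ℝ) → ℝ) :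
    ghT (ghStd (ι₁ ⊕ ι₂)) m f = ghT ((ghStd ι₁).prod (ghStd ι₂)) m fun p => f (Sum.elim p.1 p.2) := by
  unfold ghT
  rw [trs_split_int1 f, trs_split_int1 fun ξ => Real.exp (m * f ξ)]

theorem trs_T_prod {Ω₁ Ω₂ : Type} [MeasurableSpace Ω₁] [MeasurableSpace Ω₂] (μ₁ : Measure Ω₁) (μ₂ : Measure Ω₂)
    [IsProbabilityMeasure μ₁] [IsProbabilityMeasure μ₂] (m : ℝ) (f₁ : Ω₁ → ℝ) (f₂ : Ω₂ → ℝ)
    (h₁ : Integrable f₁ μ₁) (h₂ : Integrable f₂ μ₂) (k₁ : Integrable (fun x => Real.exp (m * f₁ x)) μ₁)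
    (k₂ : Integrable (fun x => Real.exp (m * f₂ x)) μ₂) :
    ghT (μ₁.prod μ₂) m (fun p => f₁ p.1 + f₂ p.2) = ghT μ₁ m f₁ + ghT μ₂ m f₂ := by
  unfold ghT
  by_cases hm : m = 0
  · simp only [hm, if_true]
    rw [integral_add (h₁.comp_fst μ₂) (h₂.comp_snd μ₁), integral_fun_fst, integral_fun_snd]
    simp
  · simp only [hm, if_false]
    have e1 : ∀ p : Ω₁ × Ω₂, Real.exp (m * (f₁ p.1 + f₂ p.2)) = Real.exp (m * f₁ p.1) * Real.exp (m * f₂ p.2) := by
      intro p; rw [mul_add, Real.exp_add]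
    simp only [e1]
    rw [integral_prod_mul (fun x => Real.exp (m * f₁ x)) (fun y => Real.exp (m * f₂ y)),
      Real.log_mul (integral_exp_pos k₁).ne' (integral_exp_pos k₂).ne', mul_add]

end split

/-! ## 6. site / rest factorisation: the raw lemma -/

section prod
variable {S S₁ S₂ ι₁ ι₂ : Type} [Fintype S] [Fintype S₁] [Fintype S₂] [Fintype ι₁] [Fintype ι₂]

/-- the field `z₁ ⊕ z₂` on `S ≃ S₁ × S₂` -/
def trsJ (e : S ≃ S₁ × S₂) (z₁ : S₁ → ℝ) (z₂ : S₂ → ℝ) : S → ℝ := fun s => z₁ (e s).1 + z₂ (e s).2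

/-- the level with kernel = kernel of the first factor + kernel of the second factor -/
def trsLp (e : S ≃ S₁ × S₂) (l₁ : GhLv S₁ ι₁) (l₂ : GhLv S₂ ι₂) : GhLv S (ι₁ ⊕ ι₂) :=
  ⟨l₁.m, fun s => Sum.elim (l₁.A (e s).1) (l₂.A (e s).2)⟩

omit [Fintype S] [Fintype S₁] [Fintype S₂] in
theorem trs_J_add (e : S ≃ S₁ × S₂) (z₁ y₁ : S₁ → ℝ) (z₂ y₂ : S₂ → ℝ) :
    trsJ e z₁ z₂ + trsJ e y₁ y₂ = trsJ e (z₁ + y₁) (z₂ + y₂) := by
  funext s
  simp only [trsJ, Pi.add_apply]
  ring

omit [Fintype S] [Fintype S₁] [Fintype S₂] in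
theorem trs_Lp_inc (e : S ≃ S₁ × S₂) (l₁ : GhLv S₁ ι₁) (l₂ : GhLv S₂ ι₂) (ξ₁ : ι₁ → ℝ) (ξ₂ : ι₂ → ℝ) :
    (trsLp e l₁ l₂).inc (Sum.elim ξ₁ ξ₂) = trsJ e (l₁.inc ξ₁) (l₂.inc ξ₂) := by
  funext s
  simp only [trsLp, GhLv.inc, trsJ, Fintype.sum_sum_type, Sum.elim_inl, Sum.elim_inr]

/-- data of a product base -/
structure TrsPr (e : S ≃ S₁ × S₂) (B : GhB S) (B₁ : GhB S₁) (B₂ : GhB S₂) : Prop where
  w : ∀ s, B.w s = B₁.w (e s).1 * B₂.w (e s).2
  a₁ : B.a = B₁.a
  a₂ : B.a = B₂.a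

variable {e : S ≃ S₁ × S₂} {B : GhB S} {B₁ : GhB S₁} {B₂ : GhB S₂}

theorem trs_Z_prod (h : TrsPr e B B₁ B₂) (z₁ : S₁ → ℝ) (z₂ : S₂ → ℝ) :
    ∑ s, B.w s * Real.exp (B.a * trsJ e z₁ z₂ s)
      = (∑ s, B₁.w s * Real.exp (B₁.a * z₁ s)) * ∑ s, B₂.w s * Real.exp (B₂.a * z₂ s) := by
  rw [Finset.sum_mul_sum, ← Fintype.sum_prod_type',
    ← e.sum_comp fun p : S₁ × S₂ => B₁.w p.1 * Real.exp (B₁.a * z₁ p.1) * (B₂.w p.2 * Real.exp (B₂.a * z₂ p.2))]
  refine Finset.sum_congr rfl fun s _ => ?_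
  rw [h.w, ← h.a₁, ← h.a₂, trsJ, mul_add, Real.exp_add]
  ring

theorem trs_F0_prod (h : TrsPr e B B₁ B₂) (hB₁ : B₁.Ok) (hB₂ : B₂.Ok) (z₁ : S₁ → ℝ) (z₂ : S₂ → ℝ) :
    ghF0 B (trsJ e z₁ z₂) = ghF0 B₁ z₁ + ghF0 B₂ z₂ := by
  unfold ghF0
  rw [trs_Z_prod h, Real.log_mul (gh_ra_Z_pos hB₁ z₁).ne' (gh_ra_Z_pos hB₂ z₂).ne', mul_add, ← h.a₁, ← h.a₂]

theorem trs_Gw_prod (h : TrsPr e B B₁ B₂) (z₁ : S₁ → ℝ) (z₂ : S₂ → ℝ) (s : S) :
    ghGw B (trsJ e z₁ z₂) s = ghGw B₁ z₁ (e s).1 * ghGw B₂ z₂ (e s).2 := by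
  unfold ghGw
  rw [trs_Z_prod h, div_mul_div_comm]
  congr 1
  rw [h.w, ← h.a₁, ← h.a₂, trsJ, mul_add, Real.exp_add]
  ring

/-- the continuation of a product hierarchy is the sum of the continuations -/
theorem trs_F_prod (h : TrsPr e B B₁ B₂) (hB₁ : B₁.Ok) (hB₂ : B₂.Ok) :
    ∀ (L : List (GhLv S₁ ι₁ × GhLv S₂ ι₂)), (∀ p ∈ L, p.1.m = p.2.m) → ∀ (z₁ : S₁ → ℝ) (z₂ : S₂ → ℝ),
      ghF B (L.map fun p => trsLp e p.1 p.2) (trsJ e z₁ z₂) = ghF B₁ (L.map Prod.fst) z₁ + ghF B₂ (L.map Prod.snd) z₂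
  | [], _, z₁, z₂ => trs_F0_prod h hB₁ hB₂ z₁ z₂
  | p :: L, hm, z₁, z₂ => by
      have ih := trs_F_prod h hB₁ hB₂ L fun x hx => hm x (List.mem_cons_of_mem _ hx)
      have hp : p.1.m = p.2.m := hm p List.mem_cons_self
      simp only [List.map_cons, ghF]
      rw [trs_T_split]
      simp only [trs_Lp_inc, trs_J_add, ih]
      rw [← hp]
      exact trs_T_prod (ghStd ι₁) (ghStd ι₂) p.1.m _ _ (gh_ra_F_int hB₁ _ _ _) (gh_ra_F_int hB₂ _ _ _)
        (gh_ra_F_int_exp hB₁ _ _ _ _) (gh_ra_F_int_exp hB₂ _ _ _ _)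

theorem trs_D_prod (h : TrsPr e B B₁ B₂) (hB₁ : B₁.Ok) (hB₂ : B₂.Ok) (p : GhLv S₁ ι₁ × GhLv S₂ ι₂)
    (L : List (GhLv S₁ ι₁ × GhLv S₂ ι₂)) (hm : ∀ x ∈ p :: L, x.1.m = x.2.m) (z₁ : S₁ → ℝ) (z₂ : S₂ → ℝ)
    (ξ₁ : ι₁ → ℝ) (ξ₂ : ι₂ → ℝ) :
    ghD B (trsLp e p.1 p.2) (L.map fun p => trsLp e p.1 p.2) (trsJ e z₁ z₂) (Sum.elim ξ₁ ξ₂)
      = ghD B₁ p.1 (L.map Prod.fst) z₁ ξ₁ * ghD B₂ p.2 (L.map Prod.snd) z₂ ξ₂ := by
  have h1 := trs_F_prod h hB₁ hB₂ L (fun x hx => hm x (List.mem_cons_of_mem _ hx))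
  have h2 := trs_F_prod h hB₁ hB₂ (p :: L) hm z₁ z₂
  simp only [List.map_cons] at h2
  have hp : p.1.m = p.2.m := hm p List.mem_cons_self
  unfold ghD
  rw [trs_Lp_inc, trs_J_add, h1, h2, ← Real.exp_add, ← hp]
  congr 1
  simp only [trsLp]
  ring

/-- **RAW FACTORISATION** of the tree law of a product hierarchy -/
theorem trs_prod_raw (h : TrsPr e B B₁ B₂) (hB₁ : B₁.Ok) (hB₂ : B₂.Ok) {q : ℕ} :
    ∀ (L : List (GhLv S₁ ι₁ × GhLv S₂ ι₂)), (∀ p ∈ L, p.1.m = p.2.m) → ∀ (rep : ℕ → Fin q → Fin q)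
      (G₁ : Fin q → S₁ → ℝ) (G₂ : Fin q → S₂ → ℝ) (P₁ : (Fin q → S₁) → ℝ) (P₂ : (Fin q → S₂) → ℝ),
      ghNu B (L.map fun p => trsLp e p.1 p.2) rep (fun a => trsJ e (G₁ a) (G₂ a))
          (fun _ σ => P₁ (fun a => (e (σ a)).1) * P₂ fun a => (e (σ a)).2)
        = ghNu B₁ (L.map Prod.fst) rep G₁ (fun _ σ => P₁ σ) * ghNu B₂ (L.map Prod.snd) rep G₂ fun _ σ => P₂ σ
  | [], _, rep, G₁, G₂, P₁, P₂ => by
      simp only [List.map_nil, ghNu]
      rw [Finset.sum_mul_sum, ← Fintype.sum_prod_type',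
        ← ((Equiv.piCongrRight fun _ : Fin q => e).trans
            (Equiv.arrowProdEquivProdArrow (Fin q) (fun _ => S₁) fun _ => S₂)).sum_comp
          fun p : (Fin q → S₁) × (Fin q → S₂) =>
            ((∏ a, ghGw B₁ (G₁ a) (p.1 a)) * P₁ fun a => p.1 (rep 0 a)) *
              ((∏ a, ghGw B₂ (G₂ a) (p.2 a)) * P₂ fun a => p.2 (rep 0 a))]
      refine Finset.sum_congr rfl fun σ _ => ?_
      simp only [trs_Gw_prod h, Finset.prod_mul_distrib]
      simp only [Equiv.trans_apply, Equiv.piCongrRight_apply, Pi.map_apply, Equiv.arrowProdEquivProdArrow_apply]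
      ring
  | p :: L, hm, rep, G₁, G₂, P₁, P₂ => by
      have ih := trs_prod_raw h hB₁ hB₂ L (fun x hx => hm x (List.mem_cons_of_mem _ hx)) (fun t => rep (t + 1))
      simp only [List.map_cons, ghNu]
      rw [trs_split_int]
      have hDT : ∀ (U : Fin q → ι₁ → ℝ) (V : Fin q → ι₂ → ℝ),
          ghDT B (trsLp e p.1 p.2) (L.map fun p => trsLp e p.1 p.2) (rep 0) (fun a => trsJ e (G₁ a) (G₂ a))
            (fun a => Sum.elim (U a) (V a))
          = ghDT B₁ p.1 (L.map Prod.fst) (rep 0) G₁ U * ghDT B₂ p.2 (L.map Prod.snd) (rep 0) G₂ V := by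
        intro U V
        unfold ghDT
        rw [← Finset.prod_mul_distrib]
        refine Finset.prod_congr rfl fun a _ => ?_
        split_ifs
        · exact trs_D_prod h hB₁ hB₂ p L hm _ _ _ _
        · rw [one_mul]
      simp only [hDT, trs_Lp_inc, trs_J_add, ih]
      rw [← integral_prod_mul
        (fun U : Fin q → ι₁ → ℝ => ghDT B₁ p.1 (L.map Prod.fst) (rep 0) G₁ U *
          ghNu B₁ (L.map Prod.fst) (fun t => rep (t + 1)) (fun a => G₁ a + p.1.inc (U (rep 0 a))) fun _ σ => P₁ σ)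
        (fun V : Fin q → ι₂ → ℝ => ghDT B₂ p.2 (L.map Prod.snd) (rep 0) G₂ V *
          ghNu B₂ (L.map Prod.snd) (fun t => rep (t + 1)) (fun a => G₂ a + p.2.inc (V (rep 0 a))) fun _ σ => P₂ σ)]
      refine integral_congr_ae (Filter.Eventually.of_forall fun x => ?_)
      simp only
      ring

end prod

/-! ## 7. the tree numbers: site / rest factorisation, constant feature -/

/-- `tr_nu_prod` of `Fd/TrB5` (verbatim; the admissibility hypotheses are not needed) -/
theorem trs_prod {S₁ S₂ ι₁ ι₂ : Type} [Fintype S₁] [Fintype S₂] [Fintype ι₁] [Fintype ι₂] [Inhabited S₁] [Inhabited S₂]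
    {B₁ : GhB S₁} {B₂ : GhB S₂} (hB₁ : B₁.Ok) (hB₂ : B₂.Ok) (ha : B₁.a = B₂.a)
    {ls₁ : List (GhLv S₁ ι₁)} {ls₂ : List (GhLv S₂ ι₂)}
    (hlen : ls₁.length = ls₂.length) (hm : ∀ j, trMs B₁ ls₁ j = trMs B₂ ls₂ j)
    (q : ℕ) (τ : ℕ → ℕ → ℕ) (z₁ : S₁ → ℝ) (z₂ : S₂ → ℝ) (P₁ : (ℕ → S₁) → ℝ) (P₂ : (ℕ → S₂) → ℝ) :
    trNu (⟨fun s => B₁.w s.1 * B₂.w s.2, B₁.a⟩ : GhB (S₁ × S₂))
        (List.zipWith (fun l₁ l₂ => (⟨l₁.m, fun s => Sum.elim (l₁.A s.1) (l₂.A s.2)⟩ : GhLv (S₁ × S₂) (ι₁ ⊕ ι₂))) ls₁ ls₂)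
        q τ (fun s => z₁ s.1 + z₂ s.2) (fun σ => P₁ (fun x => (σ x).1) * P₂ fun x => (σ x).2)
      = trNu B₁ ls₁ q τ z₁ P₁ * trNu B₂ ls₂ q τ z₂ P₂ := by
  have hpr : TrsPr (Equiv.refl (S₁ × S₂)) (⟨fun s => B₁.w s.1 * B₂.w s.2, B₁.a⟩ : GhB (S₁ × S₂)) B₁ B₂ :=
    ⟨fun _ => rfl, rfl, ha⟩
  have hmL : ∀ p ∈ ls₁.zip ls₂, p.1.m = p.2.m := by
    intro p hp
    obtain ⟨j, hj, rfl⟩ := List.mem_iff_getElem.1 hp
    rw [List.getElem_zip]
    have h1 : j < ls₁.length := by
      rw [List.length_zip] at hj; omega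
    have h2 : j < ls₂.length := by
      rw [List.length_zip] at hj; omega
    have := hm j
    rw [trs_ms_some (List.getElem?_eq_getElem h1), trs_ms_some (List.getElem?_eq_getElem h2)] at this
    exact this
  have key := trs_prod_raw hpr hB₁ hB₂ (ls₁.zip ls₂) hmL (fun t => trRep q τ t) (fun _ => z₁) (fun _ => z₂)
    (fun σ => P₁ (trExt σ)) (fun σ => P₂ (trExt σ))
  rw [List.map_fst_zip hlen.le, List.map_snd_zip hlen.ge] at key
  unfold trNu
  rw [← key, List.map_zip_eq_zipWith]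
  congr 1
  funext _ σ
  have e1 : (fun x => (trExt σ x).1) = trExt fun a => (σ a).1 := by
    funext x
    unfold trExt
    split_ifs <;> rfl
  have e2 : (fun x => (trExt σ x).2) = trExt fun a => (σ a).2 := by
    funext x
    unfold trExt
    split_ifs <;> rfl
  show P₁ (fun x => (trExt σ x).1) * P₂ (fun x => (trExt σ x).2) = _
  rw [e1, e2]
  rfl

/-- `tr_nu_const` of `Fd/TrB5` (verbatim; the admissibility hypothesis is not needed) -/
theorem trs_const {S ι ι' : Type} [Fintype S] [Fintype ι] [Inhabited S] [Fintype ι'] {B : GhB S} (hB : B.Ok)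
    (ls : List (GhLv S ι)) (c : ℕ → ι' → ℝ) (q : ℕ) (τ : ℕ → ℕ → ℕ) (z : S → ℝ) (P : (ℕ → S) → ℝ) :
    trNu B (ls.zipIdx.map fun lj => (⟨lj.1.m, fun s => Sum.elim (lj.1.A s) (c lj.2)⟩ : GhLv S (ι ⊕ ι'))) q τ z P
      = trNu B ls q τ z P := by
  let B₂ : GhB Unit := ⟨fun _ => 1, B.a⟩
  have hB₂ : B₂.Ok := ⟨fun _ => zero_le_one, by simp [B₂], hB.pos⟩
  have hpr : TrsPr (Equiv.prodPUnit S).symm B B B₂ := ⟨fun s => by simp [B₂], rfl, rfl⟩
  let L : List (GhLv S ι × GhLv Unit ι') := ls.zipIdx.map fun lj => (lj.1, ⟨lj.1.m, fun _ => c lj.2⟩)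
  have hmL : ∀ p ∈ L, p.1.m = p.2.m := by
    intro p hp
    obtain ⟨lj, _, rfl⟩ := List.mem_map.1 hp
    rfl
  have key := trs_prod_raw hpr hB hB₂ L hmL (fun t => trRep q τ t) (fun _ => z) (fun _ => 0)
    (fun σ => P (trExt σ)) (fun _ => 1)
  have hL1 : L.map Prod.fst = ls := by
    simp only [L, List.map_map]
    exact List.zipIdx_map_fst 0 ls
  rw [hL1, trs_one_raw hB₂, mul_one] at key
  unfold trNu
  rw [← key]
  simp only [L, List.map_map]
  congr 1
  · funext a s
    simp [trsJ]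
  · funext _ σ
    simp

end Claimed.Agent.R286
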