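import Claimed.Agent.R286.Defs.Tr

/-!
# Row 286 (S0533), Fd/TrA1 : signed attachment weights, PURE COMBINATORICS (structure: trees stay trees, congruence, composition, trivial bounds)
architect helper150;  PROVED by helper21 (preset owner was helper154).
No probability.  Statements checked on thousands of random trees (origin/helper150:notes/R286/tr_comb.py, prune.py).
-/

set_option autoImplicit false

namespace Claimed.Agent.R286

/-- the enlarged tree is a tree -/
theorem tr_att_isTr {N q : ℕ} {τ : ℕ → ℕ → ℕ} (hτ : IsTr N q τ) {x j : ℕ} (hx : x < q) (hj : j ≤ N + 1) :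
    IsTr N (q + 1) (trAtt N q τ x j) := by
  refine ⟨?_, ?_, ?_, ?_⟩
  · intro y z hy hz
    unfold trAtt
    split_ifs with h1 h2 h2
    · exact le_rfl
    · omega
    · omega
    · exact hτ.le y z (by omega) (by omega)
  · intro y hy
    unfold trAtt
    split_ifs with h1
    · rfl
    · exact hτ.diag y (by omega)
  · intro y z hy hz
    unfold trAtt
    split_ifs with h1 h2 h2
    · rfl
    · rw [hτ.symm x z hx (by omega)]
    · rw [hτ.symm y x (by omega) hx]
    · exact hτ.symm y z (by omega) (by omega)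
  · intro y z w hy hz hw
    unfold trAtt
    by_cases h1 : y = q <;> by_cases h2 : z = q <;> by_cases h3 : w = q <;> simp only [h1, h2, h3, if_true, if_false]
    · omega
    · omega
    · omega
    · have := hτ.ultra x z w hx (by omega) (by omega)
      omega
    · omega
    · have := hτ.ultra y x w (by omega) hx (by omega)
      omega
    · have := hτ.ultra y z x (by omega) (by omega) hx
      omega
    · exact hτ.ultra y z w (by omega) (by omega) (by omega)

/-- the enlarged tree depends only on the node -/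
theorem tr_att_congr {N q : ℕ} {τ : ℕ → ℕ → ℕ} (hτ : IsTr N q τ) {x x' j : ℕ} (hx : x < q) (hx' : x' < q)
    (h : j ≤ τ x x') (y z : ℕ) (hy : y < q + 1) (hz : z < q + 1) :
    trAtt N q τ x j y z = trAtt N q τ x' j y z := by
  have key : ∀ w, w < q → min j (τ x w) = min j (τ x' w) := by
    intro w hw
    have a1 := hτ.ultra x x' w hx hx' hw
    have a2 := hτ.ultra x' x w hx' hx hw
    have a3 := hτ.symm x x' hx hx'
    omega
  unfold trAtt
  split_ifs with h1 h2 h2
  · rfl
  · exact key z (by omega)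
  · rw [hτ.symm y x (by omega) hx, hτ.symm y x' (by omega) hx']
    exact key y (by omega)
  · rfl

/-- restriction of a tree -/
theorem tr_isTr_mono {N q q' : ℕ} {τ : ℕ → ℕ → ℕ} (hτ : IsTr N q τ) (h : q' ≤ q) : IsTr N q' τ :=
  ⟨fun x y hx hy => hτ.le x y (by omega) (by omega), fun x hx => hτ.diag x (by omega),
    fun x y hx hy => hτ.symm x y (by omega) (by omega),
    fun x y z hx hy hz => hτ.ultra x y z (by omega) (by omega) (by omega)⟩

/-- pull-back of a tree along ANY map of labels (equal images = coincident labels) -/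
theorem tr_comap_isTr {N q p : ℕ} {τ : ℕ → ℕ → ℕ} (hτ : IsTr N q τ) (f : ℕ → ℕ) (hf : ∀ x, x < p → f x < q) :
    IsTr N p fun x y => τ (f x) (f y) :=
  ⟨fun x y hx hy => hτ.le _ _ (hf x hx) (hf y hy), fun x hx => hτ.diag _ (hf x hx),
    fun x y hx hy => hτ.symm _ _ (hf x hx) (hf y hy),
    fun x y z hx hy hz => hτ.ultra _ _ _ (hf x hx) (hf y hy) (hf z hz)⟩

/-- deletion of a label -/
theorem tr_del_isTr {N q k : ℕ} {τ : ℕ → ℕ → ℕ} (hτ : IsTr N (q + 1 + k) τ) : IsTr N (q + k) (trDel q τ) := by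
  refine tr_comap_isTr hτ (fun y => if y < q then y else y + 1) ?_
  intro x hx
  split_ifs <;> omega

/-- the duplicated tree is a tree -/
theorem tr_dup_isTr {N q : ℕ} {τ : ℕ → ℕ → ℕ} (hτ : IsTr N q τ) {a t : ℕ} (ha : a < q) (ht : t ≤ N) :
    IsTr N (2 * q) (trDup q τ a t) := by
  have hq : 0 < q := by omega
  have hm : ∀ x, x % q < q := fun x => Nat.mod_lt x hq
  refine ⟨?_, ?_, ?_, ?_⟩
  · intro x y _ _
    have := hτ.le _ _ (hm x) (hm y)
    unfold trDup
    split_ifs <;> omega
  · intro x _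
    unfold trDup
    simp only [iff_self, if_true]
    exact hτ.diag _ (hm x)
  · intro x y _ _
    have := hτ.symm _ _ (hm x) (hm y)
    unfold trDup
    split_ifs <;> omega
  · intro x y z _ _ _
    have s1 := hτ.symm _ _ (hm x) (hm y)
    have s2 := hτ.symm _ _ (hm y) (hm z)
    have s3 := hτ.symm _ _ (hm x) (hm z)
    have s4 := hτ.symm _ _ ha (hm x)
    have s5 := hτ.symm _ _ ha (hm y)
    have s6 := hτ.symm _ _ ha (hm z)
    have u1 := hτ.ultra _ _ _ (hm x) (hm y) (hm z)
    have u2 := hτ.ultra _ _ _ (hm x) ha (hm y)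
    have u3 := hτ.ultra _ _ _ (hm y) ha (hm z)
    have u4 := hτ.ultra _ _ _ ha (hm x) (hm y)
    have u5 := hτ.ultra _ _ _ ha (hm z) (hm y)
    have u6 := hτ.ultra _ _ _ ha (hm y) (hm x)
    have u7 := hτ.ultra _ _ _ ha (hm y) (hm z)
    unfold trDup
    generalize τ (x % q) (y % q) = A at *
    generalize τ (y % q) (z % q) = B at *
    generalize τ (x % q) (z % q) = C at *
    generalize τ a (x % q) = P at *
    generalize τ a (y % q) = Q at *
    generalize τ a (z % q) = R at *
    split_ifs <;> omega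

/-- the masses of an admissible hierarchy -/
theorem tr_ms_isMs {S ι : Type} [Fintype S] {B : GhB S} (hB : B.Ok) {ls : List (GhLv S ι)} (hls : GhAdm B 0 ls) :
    IsMs ls.length (trMs B ls) ∧ trMs B ls ls.length = B.a := by
  have hlt : ∀ j (hj : j < ls.length), trMs B ls j = (ls[j]).m := by
    intro j hj
    unfold trMs
    rw [List.getElem?_eq_getElem hj]
    rfl
  have hge : ∀ j, ls.length ≤ j → trMs B ls j = B.a := by
    intro j hj
    unfold trMs
    rw [List.getElem?_eq_none hj]
    rfl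
  refine ⟨⟨?_, ?_⟩, hge _ le_rfl⟩
  · intro j
    rcases lt_or_ge j ls.length with hj | hj
    · rw [hlt j hj]
      exact (hls.2 _ (List.getElem_mem hj)).1
    · rw [hge j hj]
      exact hB.pos.le
  · intro i j hij hj
    rcases lt_or_ge j ls.length with hj' | hj'
    · rw [hlt j hj', hlt i (by omega)]
      rcases Nat.eq_or_lt_of_le hij with rfl | hlt'
      · exact le_rfl
      · exact (List.pairwise_iff_getElem.mp hls.1) i j (by omega) hj' hlt'
    · rw [hge j hj']
      rcases lt_or_ge i ls.length with hi | hi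
      · rw [hlt i hi]
        exact (hls.2 _ (List.getElem_mem hi)).2
      · rw [hge i hi]

/-- the untruncated row -/
theorem tr_row_top {N q : ℕ} {τ : ℕ → ℕ → ℕ} {ms : ℕ → ℝ} (Φ : (ℕ → ℕ → ℕ) → ℝ) :
    trRow ms N q τ (N + 1) Φ = trSum ms N q τ Φ := by
  unfold trRow trSum
  refine Finset.sum_congr rfl fun x _ => Finset.sum_congr rfl fun j hj => ?_
  have : j < N + 2 := Finset.mem_range.mp hj
  rw [min_eq_left (by omega)]

theorem tr_sumK_le {N q : ℕ} {τ : ℕ → ℕ → ℕ} {ms : ℕ → ℝ} (k : ℕ) (Φ : (ℕ → ℕ → ℕ) → ℝ) :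
    |trSumK ms N k q τ Φ| ≤ trAbsK ms N k q τ (fun τ' => |Φ τ'|) := by
  induction k generalizing q τ with
  | zero => exact le_rfl
  | succ k ih =>
    rw [trSumK, trAbsK]
    unfold trSum trAbs
    refine (Finset.abs_sum_le_sum_abs _ _).trans (Finset.sum_le_sum fun x _ => ?_)
    refine (Finset.abs_sum_le_sum_abs _ _).trans (Finset.sum_le_sum fun j _ => ?_)
    rw [abs_mul]
    exact mul_le_mul_of_nonneg_left ih (abs_nonneg _)

/-- monotonicity of the total variation sums -/
theorem tr_absK_mono {N q : ℕ} {τ : ℕ → ℕ → ℕ} {ms : ℕ → ℝ} (hτ : IsTr N q τ) (k : ℕ) (Φ Ψ : (ℕ → ℕ → ℕ) → ℝ)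
    (h : ∀ τ', IsTr N (q + k) τ' → Φ τ' ≤ Ψ τ') : trAbsK ms N k q τ Φ ≤ trAbsK ms N k q τ Ψ := by
  induction k generalizing q τ with
  | zero => exact h τ hτ
  | succ k ih =>
    rw [trAbsK, trAbsK]
    unfold trAbs
    refine Finset.sum_le_sum fun x hx => Finset.sum_le_sum fun j hj => ?_
    have hx' := Finset.mem_range.mp hx
    have hj' := Finset.mem_range.mp hj
    refine mul_le_mul_of_nonneg_left (ih (tr_att_isTr hτ hx' (by omega)) ?_) (abs_nonneg _)
    intro τ' hτ'
    exact h τ' (by rwa [show q + (k + 1) = q + 1 + k by omega])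

theorem tr_att_old {N q : ℕ} {τ : ℕ → ℕ → ℕ} {x j y z : ℕ} (hy : y < q) (hz : z < q) :
    trAtt N q τ x j y z = τ y z := by
  unfold trAtt
  rw [if_neg (by omega), if_neg (by omega)]

/-- the sums only see trees, and only their values on the labels -/
theorem tr_sumK_congr {N q : ℕ} {τ : ℕ → ℕ → ℕ} {ms : ℕ → ℝ} (hτ : IsTr N q τ) (k : ℕ) (Φ Ψ : (ℕ → ℕ → ℕ) → ℝ)
    (h : ∀ τ', IsTr N (q + k) τ' → (∀ y z, y < q → z < q → τ' y z = τ y z) → Φ τ' = Ψ τ') :
    trSumK ms N k q τ Φ = trSumK ms N k q τ Ψ := by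
  induction k generalizing q τ with
  | zero => exact h τ hτ fun _ _ _ _ => rfl
  | succ k ih =>
    rw [trSumK, trSumK]
    unfold trSum
    refine Finset.sum_congr rfl fun x hx => Finset.sum_congr rfl fun j hj => ?_
    have hx' := Finset.mem_range.mp hx
    have hj' := Finset.mem_range.mp hj
    congr 1
    refine ih (tr_att_isTr hτ hx' (by omega)) ?_
    intro τ' hτ' hag
    refine h τ' (by rwa [show q + (k + 1) = q + 1 + k by omega]) ?_
    intro y z hy hz
    rw [hag y z (by omega) (by omega), tr_att_old hy hz]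

theorem tr_absK_congr {N q : ℕ} {τ : ℕ → ℕ → ℕ} {ms : ℕ → ℝ} (hτ : IsTr N q τ) (k : ℕ) (Φ Ψ : (ℕ → ℕ → ℕ) → ℝ)
    (h : ∀ τ', IsTr N (q + k) τ' → (∀ y z, y < q → z < q → τ' y z = τ y z) → Φ τ' = Ψ τ') :
    trAbsK ms N k q τ Φ = trAbsK ms N k q τ Ψ := by
  induction k generalizing q τ with
  | zero => exact h τ hτ fun _ _ _ _ => rfl
  | succ k ih =>
    rw [trAbsK, trAbsK]
    unfold trAbs
    refine Finset.sum_congr rfl fun x hx => Finset.sum_congr rfl fun j hj => ?_
    have hx' := Finset.mem_range.mp hx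
    have hj' := Finset.mem_range.mp hj
    congr 1
    refine ih (tr_att_isTr hτ hx' (by omega)) ?_
    intro τ' hτ' hag
    refine h τ' (by rwa [show q + (k + 1) = q + 1 + k by omega]) ?_
    intro y z hy hz
    rw [hag y z (by omega) (by omega), tr_att_old hy hz]

theorem tr_isMin_congr {q : ℕ} {τ τ' : ℕ → ℕ → ℕ} (h : ∀ y z, y < q → z < q → τ y z = τ' y z) (j x : ℕ)
    (hx : x < q) : trIsMin τ j x ↔ trIsMin τ' j x := by
  unfold trIsMin
  constructor
  · intro H y hy
    rw [← h x y hx (by omega)]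
    exact H y hy
  · intro H y hy
    rw [h x y hx (by omega)]
    exact H y hy

theorem tr_wt_congr {N q : ℕ} {τ τ' : ℕ → ℕ → ℕ} {ms : ℕ → ℝ} (h : ∀ y z, y < q → z < q → τ y z = τ' y z)
    (x j : ℕ) (hx : x < q) : trWt ms N q τ x j = trWt ms N q τ' x j := by
  have hd : trDeg q τ j x = trDeg q τ' j x := by
    unfold trDeg
    congr 1
    refine Finset.filter_congr fun y hy => ?_
    have hy' := Finset.mem_range.mp hy
    rw [h x y hx hy', tr_isMin_congr h (j + 1) y hy']
  unfold trWt
  simp only [tr_isMin_congr h j x hx, hd]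

/-- the sums depend on the old tree only through its values on the labels (for summands with the same property) -/
theorem tr_sumK_tree_congr {N q : ℕ} {τ τ' : ℕ → ℕ → ℕ} {ms : ℕ → ℝ} (h : ∀ y z, y < q → z < q → τ y z = τ' y z) (k : ℕ)
    (Φ : (ℕ → ℕ → ℕ) → ℝ)
    (hΦ : ∀ τ₁ τ₂ : ℕ → ℕ → ℕ, (∀ y z, y < q + k → z < q + k → τ₁ y z = τ₂ y z) → Φ τ₁ = Φ τ₂) :
    trSumK ms N k q τ Φ = trSumK ms N k q τ' Φ := by
  induction k generalizing q τ τ' with
  | zero => exact hΦ τ τ' h
  | succ k ih =>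
    rw [trSumK, trSumK]
    unfold trSum
    refine Finset.sum_congr rfl fun x hx => Finset.sum_congr rfl fun j hj => ?_
    have hx' := Finset.mem_range.mp hx
    rw [tr_wt_congr h x j hx']
    congr 1
    refine ih ?_ ?_
    · intro y z hy hz
      unfold trAtt
      split_ifs with h1 h2 h2
      · rfl
      · rw [h x z hx' (by omega)]
      · rw [h y x (by omega) hx']
      · exact h y z (by omega) (by omega)
    · intro τ₁ τ₂ H
      exact hΦ τ₁ τ₂ (by rwa [show q + (k + 1) = q + 1 + k by omega])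

/-- composition of successive allocations -/
theorem tr_sumK_add {N q : ℕ} {τ : ℕ → ℕ → ℕ} {ms : ℕ → ℝ} (k l : ℕ) (Φ : (ℕ → ℕ → ℕ) → ℝ) :
    trSumK ms N (k + l) q τ Φ = trSumK ms N k q τ fun τ' => trSumK ms N l (q + k) τ' Φ := by
  induction k generalizing q τ with
  | zero => rw [Nat.zero_add]; rfl
  | succ k ih =>
    rw [show k + 1 + l = (k + l) + 1 by omega, trSumK, trSumK]
    congr 1
    funext τ'
    rw [ih, show q + 1 + k = q + (k + 1) by omega]

/-- composition of successive allocations, total variation form -/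
theorem tr_absK_add {N q : ℕ} {τ : ℕ → ℕ → ℕ} {ms : ℕ → ℝ} (k l : ℕ) (Φ : (ℕ → ℕ → ℕ) → ℝ) :
    trAbsK ms N (k + l) q τ Φ = trAbsK ms N k q τ fun τ' => trAbsK ms N l (q + k) τ' Φ := by
  induction k generalizing q τ with
  | zero => rw [Nat.zero_add]; rfl
  | succ k ih =>
    rw [show k + 1 + l = (k + l) + 1 by omega, trAbsK, trAbsK]
    congr 1
    funext τ'
    rw [ih, show q + 1 + k = q + (k + 1) by omega]

end Claimed.Agent.R286
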