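import Claimed.Agent.R286.Fd.P02Brg

/-!
# Row 286 (S0533), Fd/TrCe : the clocked families `gcLs feat (gcAff hs θ)` ARE families of the P02 engine; CONTINUITY IN `θ` on `[0,1]`
owner helper134 (order of helper150, 03:12Z); prefix `tce_`.

* `gcP2 feat h`, `tce_p2L : p2L (hs.map (gcP2 feat)) θ = gcLs feat (gcAff hs θ)`, `tce_ok`, `tce_length`, `tce_dK`  (bridge gc -> P2Lv; for 69, 105 too)
* `tce_nu_continuousOn` : `θ ↦ gcNu B feat hs θ q τ z P` is continuous on `[0,1]`  (all `q, τ, P`)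
* `tce_F_continuousOn`  : `θ ↦ ghF B (gcLs feat (gcAff hs θ)) z` is continuous on `[0,1]`
from `p2_cont` and `p2_brg_nu`.
-/

set_option autoImplicit false
set_option linter.unusedSectionVars false

namespace Claimed.Agent.R286

open MeasureTheory ProbabilityTheory Filter Topology

section
variable {S Φ ι : Type} [Fintype S] [Fintype Φ] [Fintype ι]

/-- a clocked affine level as a level of the P02 engine -/
def gcP2 (feat : Φ → S → ι → ℝ) (h : ℝ × (Φ → ℝ) × (Φ → ℝ)) : P2Lv S (Φ × ι) :=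
  ⟨h.1, fun s x => feat x.1 s x.2, fun x => h.2.1 x.1, fun x => h.2.2 x.1⟩

theorem tce_p2L (feat : Φ → S → ι → ℝ) (hs : List (ℝ × (Φ → ℝ) × (Φ → ℝ))) (θ : ℝ) :
    p2L (hs.map (gcP2 feat)) θ = gcLs feat (gcAff hs θ) := by
  simp only [p2L, gcLs, gcAff, List.map_map]
  rfl

theorem tce_ok {a : ℝ} (feat : Φ → S → ι → ℝ) {hs : List (ℝ × (Φ → ℝ) × (Φ → ℝ))} (hhs : GcAffAdm a hs) :
    ∀ h ∈ hs.map (gcP2 feat), h.Ok := by
  intro h hh
  obtain ⟨h0, hh0, rfl⟩ := List.mem_map.1 hh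
  have := hhs.2 h0 hh0
  exact ⟨this.1.1, fun x => (this.2 x.1).1, fun x => (this.2 x.1).2⟩

theorem tce_length (feat : Φ → S → ι → ℝ) (hs : List (ℝ × (Φ → ℝ) × (Φ → ℝ))) (θ : ℝ) :
    (p2L (hs.map (gcP2 feat)) θ).length = hs.length := by
  simp [p2L]

theorem tce_m (feat : Φ → S → ι → ℝ) (hs : List (ℝ × (Φ → ℝ) × (Φ → ℝ))) :
    (hs.map (gcP2 feat)).map P2Lv.m = hs.map Prod.fst := by
  simp only [List.map_map]
  rfl

/-- derivative of the covariance increment of one level -/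
theorem tce_dK (feat : Φ → S → ι → ℝ) (h : ℝ × (Φ → ℝ) × (Φ → ℝ)) (s t : S) :
    (gcP2 feat h).dK s t = ∑ r, h.2.2 r * gcKer feat r s t := by
  unfold P2Lv.dK gcP2 gcKer
  rw [Fintype.sum_prod_type]
  refine Finset.sum_congr rfl fun r _ => ?_
  rw [Finset.mul_sum]
  exact Finset.sum_congr rfl fun i _ => by ring

theorem tce_U_zero (B : GhB S) (τ : ℕ → ℕ → ℕ) (σ : ℕ → S) (ls : List (GhLv S ι)) (j : ℕ) (b : Finset ℕ) (z : S → ℝ) :
    p2U B τ σ ls j b 0 z = p2W B τ σ ls j b z := by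
  simp [p2U]

theorem tce_W_empty (B : GhB S) (τ : ℕ → ℕ → ℕ) (σ : ℕ → S) (ls : List (GhLv S ι)) (j : ℕ) (z : S → ℝ) :
    p2W B τ σ ls j ∅ z = 1 := by
  cases ls <;> simp [p2W, p2Cls]

theorem tce_U_empty (B : GhB S) (τ : ℕ → ℕ → ℕ) (σ : ℕ → S) (ls : List (GhLv S ι)) (j : ℕ) (z : S → ℝ) :
    p2U B τ σ ls j ∅ 1 z = Real.exp (ghF B ls z) := by
  simp [p2U, tce_W_empty]

/-- **continuity in `θ` of the tree numbers along an affine family of clocks** -/
theorem tce_nu_continuousOn [Inhabited S] {B : GhB S} (hB : B.Ok) (feat : Φ → S → ι → ℝ)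
    {hs : List (ℝ × (Φ → ℝ) × (Φ → ℝ))} (hhs : GcAffAdm B.a hs) {q : ℕ} {τ : ℕ → ℕ → ℕ} (hτ : IsTr hs.length q τ)
    (z : S → ℝ) (P : (ℕ → S) → ℝ) :
    ContinuousOn (fun θ => gcNu B feat hs θ q τ z P) (Set.Icc (0 : ℝ) 1) := by
  have hok := tce_ok (a := B.a) feat hhs
  have e : (fun θ => gcNu B feat hs θ q τ z P) = fun θ => ∑ σ : Fin q → S,
      p2U B τ (trExt σ) (p2L (hs.map (gcP2 feat)) θ) 0 (Finset.range q) 0 z * P (trExt σ) := by
    funext θ
    unfold gcNu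
    rw [← tce_p2L, p2_brg_nu hB (p2L_nn hok θ) (by rw [tce_length]; exact hτ) z P]
    exact Finset.sum_congr rfl fun σ _ => by rw [tce_U_zero]
  rw [e]
  refine continuousOn_finsetSum _ fun σ _ => ContinuousOn.mul ?_ continuousOn_const
  have h := p2_cont hB (hs.map (gcP2 feat)) hok τ (trExt σ) 0 (Finset.range q) 0
  exact h.comp (f := fun θ : ℝ => (θ, z)) (by fun_prop) fun θ hθ => ⟨hθ, Set.mem_univ _⟩

/-- **continuity in `θ` of the continuation** -/
theorem tce_F_continuousOn {B : GhB S} (hB : B.Ok) (feat : Φ → S → ι → ℝ)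
    {hs : List (ℝ × (Φ → ℝ) × (Φ → ℝ))} (hhs : GcAffAdm B.a hs) (z : S → ℝ) :
    ContinuousOn (fun θ => ghF B (gcLs feat (gcAff hs θ)) z) (Set.Icc (0 : ℝ) 1) := by
  classical
  rcases isEmpty_or_nonempty S with hS | ⟨⟨s0⟩⟩
  · exfalso
    have := hB.sum
    simp at this
  have hok := tce_ok (a := B.a) feat hhs
  have h := p2_cont hB (hs.map (gcP2 feat)) hok (fun _ _ => 0) (fun _ => s0) 0 ∅ 1
  have h1 : ContinuousOn (fun θ : ℝ => Real.exp (ghF B (gcLs feat (gcAff hs θ)) z)) (Set.Icc (0 : ℝ) 1) := by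
    have h2 := h.comp (f := fun θ : ℝ => (θ, z)) (by fun_prop) fun θ hθ => ⟨hθ, Set.mem_univ _⟩
    refine h2.congr fun θ _ => ?_
    simp only [Function.comp]
    rw [tce_U_empty, tce_p2L]
  have h3 := h1.log fun θ _ => (Real.exp_pos _).ne'
  simpa using h3

theorem tce_eqns_cite : True := by
  have := @gcP2.eq_1
  trivial

end

end Claimed.Agent.R286
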