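import Claimed.Agent.R286.Fd.P02Brg
import Claimed.Agent.R286.Fd.TrA1
import Claimed.Agent.R286.Fd.TrCe

/-!
# Row 286 (S0533), Fd/CovTop : PE Prop 2.5, eq. (2) and the pressure derivative FROM THE ENGINE `Fd/P02*`      (owner helper69)

`trc_cov_deriv`, `trc_pressure_deriv` = the statements `tr_cov_deriv`, `tr_pressure_deriv` of `Fd/TrC2` (architect helper150), deduced from
`p2_main` (interior derivative of the block weights), `p2_cont` (continuity up to the end points) and the bridges `Fd/P02Brg` (engine of helper299).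
-/

set_option autoImplicit false

namespace Claimed.Agent.R286

open MeasureTheory ProbabilityTheory Filter Topology

/-! ### end points -/

/-- derivative in the interior + continuity of the function and of the derivative up to the end points -/
theorem trc_wrap {f f' : ℝ → ℝ} (hf : ContinuousOn f (Set.Icc 0 1)) (hf' : ContinuousOn f' (Set.Icc 0 1))
    (hd : ∀ θ ∈ Set.Ioo (0 : ℝ) 1, HasDerivAt f (f' θ) θ) {θ : ℝ} (hθ : θ ∈ Set.Icc (0 : ℝ) 1) :
    HasDerivWithinAt f (f' θ) (Set.Icc 0 1) θ := by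
  have hdiff : DifferentiableOn ℝ f (Set.Ioo 0 1) := fun x hx => (hd x hx).differentiableAt.differentiableWithinAt
  have hder : ∀ x ∈ Set.Ioo (0 : ℝ) 1, deriv f x = f' x := fun x hx => (hd x hx).deriv
  rcases eq_or_lt_of_le hθ.1 with h0 | h0
  · subst h0
    have h1 : HasDerivWithinAt f (f' 0) (Set.Ici 0) 0 := by
      refine hasDerivWithinAt_Ici_of_tendsto_deriv hdiff ?_ (Ioo_mem_nhdsGT one_pos) ?_
      · exact (hf 0 hθ).mono Set.Ioo_subset_Icc_self
      · have h2 : Tendsto f' (𝓝[Set.Ioo 0 1] 0) (𝓝 (f' 0)) := (hf' 0 hθ).mono Set.Ioo_subset_Icc_self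
        have h3 : 𝓝[>] (0 : ℝ) ≤ 𝓝[Set.Ioo 0 1] 0 :=
          le_inf inf_le_left (le_principal_iff.2 (Ioo_mem_nhdsGT one_pos))
        refine (h2.mono_left h3).congr' ?_
        filter_upwards [Ioo_mem_nhdsGT (one_pos : (0 : ℝ) < 1)] with x hx using (hder x hx).symm
    exact h1.mono Set.Icc_subset_Ici_self
  · rcases eq_or_lt_of_le hθ.2 with h1 | h1
    · subst h1
      have h1 : HasDerivWithinAt f (f' 1) (Set.Iic 1) 1 := by
        refine hasDerivWithinAt_Iic_of_tendsto_deriv hdiff ?_ (Ioo_mem_nhdsLT one_pos) ?_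
        · exact (hf 1 hθ).mono Set.Ioo_subset_Icc_self
        · have h2 : Tendsto f' (𝓝[Set.Ioo 0 1] 1) (𝓝 (f' 1)) := (hf' 1 hθ).mono Set.Ioo_subset_Icc_self
          have h3 : 𝓝[<] (1 : ℝ) ≤ 𝓝[Set.Ioo 0 1] 1 :=
            le_inf inf_le_left (le_principal_iff.2 (Ioo_mem_nhdsLT one_pos))
          refine (h2.mono_left h3).congr' ?_
          filter_upwards [Ioo_mem_nhdsLT (one_pos : (0 : ℝ) < 1)] with x hx using (hder x hx).symm
      exact h1.mono Set.Icc_subset_Iic_self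
    · exact (hd θ ⟨h0, h1⟩).hasDerivWithinAt

/-! ### conversion of the clocked families -/

section conv
variable {S Φ ι : Type} [Fintype S] [Fintype Φ] [Fintype ι]

/-- a clocked level as a level of the engine -/
def trcLv (feat : Φ → S → ι → ℝ) (h : ℝ × (Φ → ℝ) × (Φ → ℝ)) : P2Lv S (Φ × ι) :=
  ⟨h.1, fun s x => feat x.1 s x.2, fun x => h.2.1 x.1, fun x => h.2.2 x.1⟩

omit [Fintype S] [Fintype Φ] [Fintype ι] in
theorem trc_L (feat : Φ → S → ι → ℝ) (hs : List (ℝ × (Φ → ℝ) × (Φ → ℝ))) (θ : ℝ) :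
    p2L (hs.map (trcLv feat)) θ = gcLs feat (gcAff hs θ) := by
  unfold p2L gcLs gcAff
  rw [List.map_map, List.map_map]
  rfl

omit [Fintype S] [Fintype Φ] [Fintype ι] in
theorem trc_ok (feat : Φ → S → ι → ℝ) {a : ℝ} {hs : List (ℝ × (Φ → ℝ) × (Φ → ℝ))} (hhs : GcAffAdm a hs) :
    ∀ h ∈ hs.map (trcLv feat), h.Ok := by
  intro h hh
  obtain ⟨h0, hh0, rfl⟩ := List.mem_map.1 hh
  have := hhs.2 h0 hh0
  exact ⟨this.1.1, fun i => (this.2 i.1).1, fun i => (this.2 i.1).2⟩

omit [Fintype S] [Fintype Φ] [Fintype ι] in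
theorem trc_ml (feat : Φ → S → ι → ℝ) (hs : List (ℝ × (Φ → ℝ) × (Φ → ℝ))) :
    (hs.map (trcLv feat)).map P2Lv.m = hs.map Prod.fst := by
  rw [List.map_map]; rfl

omit [Fintype S] [Fintype Φ] [Fintype ι] in
theorem trc_ms (a : ℝ) (hs : List (ℝ × (Φ → ℝ) × (Φ → ℝ))) :
    gcMs a hs = fun j => (hs.map Prod.fst).getD j a := by
  funext j
  unfold gcMs
  rw [List.getD_eq_getElem?_getD, List.getElem?_map]

theorem trc_dK (feat : Φ → S → ι → ℝ) (h : ℝ × (Φ → ℝ) × (Φ → ℝ)) (s t : S) :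
    (trcLv feat h).dK s t = ∑ r, h.2.2 r * gcKer feat r s t := by
  unfold P2Lv.dK trcLv gcKer
  rw [Fintype.sum_prod_type]
  refine Finset.sum_congr rfl fun r _ => ?_
  rw [Finset.mul_sum]
  exact Finset.sum_congr rfl fun i _ => by ring

theorem trc_V (feat : Φ → S → ι → ℝ) (hs : List (ℝ × (Φ → ℝ) × (Φ → ℝ))) (r : ℕ) (s t : S) :
    p2V (hs.map (trcLv feat)) r s t = trV (gcDK feat hs) hs.length r s t := by
  induction hs generalizing r with
  | nil => simp [p2V, trV]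
  | cons h hs ih =>
    cases r with
    | zero => simp [p2V, trV]
    | succ r =>
      simp only [List.map_cons, p2V, List.length_cons]
      rw [ih, trc_dK]
      unfold trV
      rw [Nat.succ_min_succ, Finset.sum_range_succ', add_comm]
      congr 1

end conv

/-! ### double rows -/

theorem trc_row2_sum {a : ℝ} {τ : ℕ → ℕ → ℕ} {ms : List ℝ} {μ : ℝ} {j : ℕ} {b b₁ : Finset ℕ} {τ₁ : ℕ → ℕ → ℕ → ℕ → ℕ}
    (h : P2Tr τ b j (j + ms.length + 1))
    (h₁ : ∀ x i, P2Sup b j ms.length x i → P2Tr (τ₁ x i) b₁ j (j + ms.length + 1))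
    {κ : Type} (u : Finset κ) (c : κ → ℝ) (Ψ : κ → ℕ → ℕ → ℕ → ℕ → ℝ) :
    ∑ k ∈ u, c k * (p2Row a τ ms μ j b fun x i => p2Row a (τ₁ x i) ms μ j b₁ (Ψ k x i))
      = p2Row a τ ms μ j b fun x i => p2Row a (τ₁ x i) ms μ j b₁ fun x' i' => ∑ k ∈ u, c k * Ψ k x i x' i' := by
  have e1 : (p2Row a τ ms μ j b fun x i => p2Row a (τ₁ x i) ms μ j b₁ fun x' i' => ∑ k ∈ u, c k * Ψ k x i x' i')
      = p2Row a τ ms μ j b fun x i => ∑ k ∈ u, c k * p2Row a (τ₁ x i) ms μ j b₁ (Ψ k x i) := by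
    refine p2Row_congr h fun x i hxi => ?_
    rw [p2Row_sum (h₁ x i hxi)]
    exact Finset.sum_congr rfl fun k _ => p2Row_smul (h₁ x i hxi) _ _
  rw [e1, p2Row_sum h]
  exact Finset.sum_congr rfl fun k _ => (p2Row_smul h _ _).symm

/-! ### the tree numbers of a clocked family in the vocabulary of the engine -/

section main
variable {S Φ ι : Type} [Fintype S] [Fintype Φ] [Fintype ι] [Inhabited S]

omit [Fintype S] [Fintype Φ] [Fintype ι] [Inhabited S] in
theorem trc_nn (feat : Φ → S → ι → ℝ) {a : ℝ} {hs : List (ℝ × (Φ → ℝ) × (Φ → ℝ))} (hhs : GcAffAdm a hs) (θ : ℝ) :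
    GhNn (p2L (hs.map (trcLv feat)) θ) := by
  intro l hl
  simp only [p2L, List.mem_map] at hl
  obtain ⟨h', hh', rfl⟩ := hl
  obtain ⟨h0, hh0, rfl⟩ := hh'
  exact (hhs.2 h0 hh0).1.1

theorem trc_nu {B : GhB S} (hB : B.Ok) (feat : Φ → S → ι → ℝ) {hs : List (ℝ × (Φ → ℝ) × (Φ → ℝ))} (hhs : GcAffAdm B.a hs)
    {q : ℕ} {τ : ℕ → ℕ → ℕ} (hτ : IsTr hs.length q τ) (z : S → ℝ) (P : (ℕ → S) → ℝ) (θ : ℝ) :
    gcNu B feat hs θ q τ z P
      = ∑ σ : Fin q → S, P (trExt σ) * p2U B τ (trExt σ) (p2L (hs.map (trcLv feat)) θ) 0 (Finset.range q) 0 z := by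
  unfold gcNu
  rw [← trc_L, p2_brg_nu hB (trc_nn feat hhs θ) (by simpa [p2L] using hτ) z P]
  refine Finset.sum_congr rfl fun σ _ => ?_
  simp [p2U, mul_comm]

theorem trc_nu_cont {B : GhB S} (hB : B.Ok) (feat : Φ → S → ι → ℝ) {hs : List (ℝ × (Φ → ℝ) × (Φ → ℝ))} (hhs : GcAffAdm B.a hs)
    {q : ℕ} {τ : ℕ → ℕ → ℕ} (hτ : IsTr hs.length q τ) (z : S → ℝ) (P : (ℕ → S) → ℝ) :
    ContinuousOn (fun θ => gcNu B feat hs θ q τ z P) (Set.Icc 0 1) := by
  have e : (fun θ => gcNu B feat hs θ q τ z P) = fun θ =>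
      ∑ σ : Fin q → S, P (trExt σ) * p2U B τ (trExt σ) (p2L (hs.map (trcLv feat)) θ) 0 (Finset.range q) 0 z :=
    funext fun θ => trc_nu hB feat hhs hτ z P θ
  rw [e]
  refine continuousOn_finsetSum _ fun σ _ => continuousOn_const.mul ?_
  have h1 := p2_cont hB (hs.map (trcLv feat)) (trc_ok feat hhs) τ (trExt σ) 0 (Finset.range q) 0
  have h2 : ContinuousOn (fun θ : ℝ => (θ, z)) (Set.Icc (0 : ℝ) 1) := by fun_prop
  have h3 : Set.MapsTo (fun θ : ℝ => (θ, z)) (Set.Icc (0 : ℝ) 1) (Set.Icc (0 : ℝ) 1 ×ˢ (Set.univ : Set (S → ℝ))) := by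
    intro θ hθ
    exact Set.mk_mem_prod hθ (Set.mem_univ _)
  have h4 := ContinuousOn.comp h1 h2 h3
  simpa only [Function.comp_def] using h4

theorem trc_row (feat : Φ → S → ι → ℝ) (a : ℝ) (hs : List (ℝ × (Φ → ℝ) × (Φ → ℝ))) {q : ℕ} {τ : ℕ → ℕ → ℕ}
    (hτ : IsTr hs.length q τ) (F : (ℕ → ℕ → ℕ) → ℝ) :
    trSum (gcMs a hs) hs.length q τ F
      = p2Row a τ ((hs.map (trcLv feat)).map P2Lv.m) 0 0 (Finset.range q) fun x i => F (trAtt hs.length q τ x i) := by
  have h := p2_brg_row a ((hs.map (trcLv feat)).map P2Lv.m) (q := q) (τ := τ) (by simpa using hτ) F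
  rw [trc_ms, ← trc_ml feat]
  simpa using h

/-- interior derivative of a tree number -/
theorem trc_nu_deriv {B : GhB S} (hB : B.Ok) (feat : Φ → S → ι → ℝ) {hs : List (ℝ × (Φ → ℝ) × (Φ → ℝ))} (hhs : GcAffAdm B.a hs)
    {q : ℕ} {τ : ℕ → ℕ → ℕ} (hτ : IsTr hs.length q τ) (z : S → ℝ) (P : (ℕ → S) → ℝ) {θ : ℝ} (hθ : θ ∈ Set.Ioo (0 : ℝ) 1) :
    HasDerivAt (fun θ => gcNu B feat hs θ q τ z P)
      (∑ σ : Fin q → S, P (trExt σ) * p2Gt B hs.length ((hs.map (trcLv feat)).map P2Lv.m) τ (trExt σ) (hs.map (trcLv feat)) θ 0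
        (Finset.range q) 0 q (q + 1) z) θ := by
  have e : (fun θ => gcNu B feat hs θ q τ z P) = fun θ =>
      ∑ σ : Fin q → S, P (trExt σ) * p2U B τ (trExt σ) (p2L (hs.map (trcLv feat)) θ) 0 (Finset.range q) 0 z :=
    funext fun θ => trc_nu hB feat hhs hτ z P θ
  rw [e]
  refine HasDerivAt.fun_sum fun σ _ => HasDerivAt.const_mul _ ?_
  have h := p2_main hB (hs.map (trcLv feat)) (trc_ok feat hhs) hs.length 0 τ (trExt σ) (Finset.range q) 0 q (q + 1)
    (by simp) (by simp) (by simp) (by simp) (p2_tr_of_isTr hτ) θ hθ z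
  exact h.fst

/-- a tree number with two more labels which carry the insertion -/
theorem trc_nu2 {B : GhB S} (hB : B.Ok) (feat : Φ → S → ι → ℝ) {hs : List (ℝ × (Φ → ℝ) × (Φ → ℝ))} (hhs : GcAffAdm B.a hs)
    {q : ℕ} {τ₂ : ℕ → ℕ → ℕ} (hτ : IsTr hs.length (q + 2) τ₂) (z : S → ℝ) (P : (ℕ → S) → ℝ) (hP : TrUses q P) (θ : ℝ) :
    gcNu B feat hs θ (q + 2) τ₂ z (fun σ => P σ * trV (gcDK feat hs) hs.length (τ₂ q (q + 1)) (σ q) (σ (q + 1)))
      = ∑ σ : Fin q → S, P (trExt σ) * ∑ t, ∑ t', p2V (hs.map (trcLv feat)) (τ₂ q (q + 1) - 0) t t' *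
          p2U B τ₂ (Function.update (Function.update (trExt σ) q t) (q + 1) t') (p2L (hs.map (trcLv feat)) θ) 0
            (insert (q + 1) (insert q (Finset.range q))) 0 z := by
  rw [trc_nu hB feat hhs hτ]
  set L := p2L (hs.map (trcLv feat)) θ with hL
  set f : (ℕ → S) → ℝ := fun σ => (P σ * trV (gcDK feat hs) hs.length (τ₂ q (q + 1)) (σ q) (σ (q + 1))) *
    p2U B τ₂ σ L 0 (Finset.range (q + 2)) 0 z with hf
  have hU : ∀ σ σ' : ℕ → S, (∀ i, i < q + 2 → σ i = σ' i) →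
      p2U B τ₂ σ L 0 (Finset.range (q + 2)) 0 z = p2U B τ₂ σ' L 0 (Finset.range (q + 2)) 0 z := by
    intro σ σ' h
    unfold p2U
    rw [p2W_congr B L 0 (Finset.range (q + 2)) z (fun _ _ _ _ => rfl) fun x hx => h x (Finset.mem_range.1 hx)]
  have hf2 : TrUses (q + 1 + 1) f := by
    intro σ σ' h
    simp only [hf]
    rw [hU σ σ' h, hP σ σ' fun i hi => h i (by omega), h q (by omega), h (q + 1) (by omega)]
  have hf1 : TrUses (q + 1) fun σ => ∑ t', f (Function.update σ (q + 1) t') := by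
    intro σ σ' h
    refine Finset.sum_congr rfl fun t' _ => hf2 _ _ fun i hi => ?_
    by_cases hi' : i = q + 1
    · subst hi'; simp
    · rw [Function.update_of_ne hi', Function.update_of_ne hi']
      exact h i (by omega)
  have e1 := p2_brg_snoc (q + 1) f hf2
  have e2 := p2_brg_snoc q (fun σ => ∑ t', f (Function.update σ (q + 1) t')) hf1
  have e3 : ∑ σ : Fin (q + 2) → S, f (trExt σ) = ∑ σ : Fin q → S, ∑ t, ∑ t',
      f (Function.update (Function.update (trExt σ) q t) (q + 1) t') := e1.trans e2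
  refine e3.trans (Finset.sum_congr rfl fun σ _ => ?_)
  rw [Finset.mul_sum]
  refine Finset.sum_congr rfl fun t _ => ?_
  rw [Finset.mul_sum]
  refine Finset.sum_congr rfl fun t' _ => ?_
  have hq : q ≠ q + 1 := by omega
  have hPσ : P (Function.update (Function.update (trExt σ) q t) (q + 1) t') = P (trExt σ) := by
    refine hP _ _ fun i hi => ?_
    rw [Function.update_of_ne (by omega), Function.update_of_ne (by omega)]
  have hr : Finset.range (q + 2) = insert (q + 1) (insert q (Finset.range q)) := by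
    rw [Finset.range_add_one, Finset.range_add_one]
  simp only [hf]
  rw [hPσ, Function.update_self, Function.update_of_ne hq, Function.update_self, trc_V, Nat.sub_zero, hr]
  ring

/-- the derivative given by the engine = the right side of (2) -/
theorem trc_cov_id {B : GhB S} (hB : B.Ok) (feat : Φ → S → ι → ℝ) {hs : List (ℝ × (Φ → ℝ) × (Φ → ℝ))} (hhs : GcAffAdm B.a hs)
    {q : ℕ} (hq : 0 < q) {τ : ℕ → ℕ → ℕ} (hτ : IsTr hs.length q τ) (z : S → ℝ) (P : (ℕ → S) → ℝ) (hP : TrUses q P) (θ : ℝ) :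
    ∑ σ : Fin q → S, P (trExt σ) * p2Gt B hs.length ((hs.map (trcLv feat)).map P2Lv.m) τ (trExt σ) (hs.map (trcLv feat)) θ 0
        (Finset.range q) 0 q (q + 1) z
      = 1 / 2 * trSum (gcMs B.a hs) hs.length q τ fun τ₁ => trSum (gcMs B.a hs) hs.length (q + 1) τ₁ fun τ₂ =>
        gcNu B feat hs θ (q + 2) τ₂ z fun σ => P σ * trV (gcDK feat hs) hs.length (τ₂ q (q + 1)) (σ q) (σ (q + 1)) := by
  set ml := (hs.map (trcLv feat)).map P2Lv.m with hml
  have hlen : ml.length = hs.length := by simp [hml]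
  have hT : P2Tr τ (Finset.range q) 0 (0 + ml.length + 1) := by
    rw [hlen, Nat.zero_add]; exact p2_tr_of_isTr hτ
  have hne : Finset.range q ≠ ∅ := by
    intro h; rw [Finset.range_eq_empty_iff] at h; omega
  have hI₁ : ∀ x i, P2Sup (Finset.range q) 0 ml.length x i → IsTr hs.length (q + 1) (trAtt hs.length q τ x i) := by
    intro x i h
    have hx : x < q := by
      rcases h.1 with h1 | h1
      · exact Finset.mem_range.1 h1
      · exact absurd h1 hne
    exact tr_att_isTr hτ hx (by have := h.2.2; omega)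
  have hT₁ : ∀ x i, P2Sup (Finset.range q) 0 ml.length x i →
      P2Tr (trAtt hs.length q τ x i) (insert q (Finset.range q)) 0 (0 + ml.length + 1) := by
    intro x i h
    rw [hlen, Nat.zero_add, ← Finset.range_add_one]
    exact p2_tr_of_isTr (hI₁ x i h)
  have e1 : ∑ σ : Fin q → S, P (trExt σ) * p2Gt B hs.length ml τ (trExt σ) (hs.map (trcLv feat)) θ 0
        (Finset.range q) 0 q (q + 1) z
      = 1 / 2 * ∑ σ : Fin q → S, P (trExt σ) * (p2Row B.a τ ml 0 0 (Finset.range q) fun x i =>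
          p2Row B.a (trAtt hs.length q τ x i) ml 0 0 (insert q (Finset.range q)) fun x' i' =>
            ∑ t, ∑ t', p2V (hs.map (trcLv feat))
                (trAtt hs.length (q + 1) (trAtt hs.length q τ x i) x' i' q (q + 1) - 0) t t' *
              p2U B (trAtt hs.length (q + 1) (trAtt hs.length q τ x i) x' i')
                (Function.update (Function.update (trExt σ) q t) (q + 1) t') (p2L (hs.map (trcLv feat)) θ) 0
                (insert (q + 1) (insert q (Finset.range q))) 0 z) := by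
    rw [Finset.mul_sum]
    refine Finset.sum_congr rfl fun σ _ => ?_
    unfold p2Gt
    ring
  rw [e1, trc_row2_sum hT hT₁, trc_row feat B.a hs hτ]
  congr 1
  refine p2Row_congr hT fun x i hxi => ?_
  rw [trc_row feat B.a hs (hI₁ x i hxi), Finset.range_add_one]
  refine p2Row_congr (hT₁ x i hxi) fun x' i' hxi' => ?_
  have hx' : x' < q + 1 := by
    rcases hxi'.1 with h1 | h1
    · rw [← Finset.range_add_one] at h1
      exact Finset.mem_range.1 h1
    · exact absurd h1 (Finset.insert_ne_empty _ _)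
  have hI₂ : IsTr hs.length (q + 2) (trAtt hs.length (q + 1) (trAtt hs.length q τ x i) x' i') :=
    tr_att_isTr (hI₁ x i hxi) hx' (by have := hxi'.2.2; omega)
  rw [trc_nu2 hB feat hhs hI₂ z P hP θ]

/-- **Proposition 2.5, eq. (2)** (statement `tr_cov_deriv` of `Fd/TrC2`) -/
theorem trc_cov_deriv {B : GhB S} (hB : B.Ok) (feat : Φ → S → ι → ℝ) {hs : List (ℝ × (Φ → ℝ) × (Φ → ℝ))}
    (hhs : GcAffAdm B.a hs) {q : ℕ} {τ : ℕ → ℕ → ℕ} (hτ : IsTr hs.length q τ) (z : S → ℝ) (P : (ℕ → S) → ℝ) (hP : TrUses q P)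
    {θ : ℝ} (hθ : θ ∈ Set.Icc (0 : ℝ) 1) :
    HasDerivWithinAt (fun θ => gcNu B feat hs θ q τ z P)
      (1 / 2 * trSum (gcMs B.a hs) hs.length q τ fun τ₁ => trSum (gcMs B.a hs) hs.length (q + 1) τ₁ fun τ₂ =>
        gcNu B feat hs θ (q + 2) τ₂ z fun σ => P σ * trV (gcDK feat hs) hs.length (τ₂ q (q + 1)) (σ q) (σ (q + 1)))
      (Set.Icc 0 1) θ := by
  rcases Nat.eq_zero_or_pos q with hq | hq
  · subst hq
    have e : (fun θ => gcNu B feat hs θ 0 τ z P) = fun _ => ∑ σ : Fin 0 → S, P (trExt σ) := by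
      funext θ
      rw [trc_nu hB feat hhs hτ]
      refine Finset.sum_congr rfl fun σ _ => ?_
      simp [p2U, p2W_empty]
    rw [e]
    simpa [trSum] using hasDerivWithinAt_const θ (Set.Icc (0 : ℝ) 1) (∑ σ : Fin 0 → S, P (trExt σ))
  · refine trc_wrap (f := fun θ => gcNu B feat hs θ q τ z P)
      (f' := fun θ => 1 / 2 * trSum (gcMs B.a hs) hs.length q τ fun τ₁ => trSum (gcMs B.a hs) hs.length (q + 1) τ₁ fun τ₂ =>
        gcNu B feat hs θ (q + 2) τ₂ z fun σ => P σ * trV (gcDK feat hs) hs.length (τ₂ q (q + 1)) (σ q) (σ (q + 1)))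
      (trc_nu_cont hB feat hhs hτ z P) ?_ ?_ hθ
    · refine continuousOn_const.mul ?_
      unfold trSum
      refine continuousOn_finsetSum _ fun x hx => continuousOn_finsetSum _ fun i hi => continuousOn_const.mul ?_
      refine continuousOn_finsetSum _ fun x' hx' => continuousOn_finsetSum _ fun i' hi' => continuousOn_const.mul ?_
      have h1 : IsTr hs.length (q + 1) (trAtt hs.length q τ x i) :=
        tr_att_isTr hτ (Finset.mem_range.1 hx) (by have := Finset.mem_range.1 hi; omega)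
      have h2 : IsTr hs.length (q + 2) (trAtt hs.length (q + 1) (trAtt hs.length q τ x i) x' i') :=
        tr_att_isTr h1 (Finset.mem_range.1 hx') (by have := Finset.mem_range.1 hi'; omega)
      exact trc_nu_cont hB feat hhs h2 z _
    · intro θ' hθ'
      have h := trc_nu_deriv hB feat hhs hτ z P hθ'
      rwa [trc_cov_id hB feat hhs hq hτ z P hP θ'] at h

/-- the derivative of the continuation given by the engine = the right side of the pressure formula -/
theorem trc_pr_id {B : GhB S} (hB : B.Ok) (feat : Φ → S → ι → ℝ) {hs : List (ℝ × (Φ → ℝ) × (Φ → ℝ))} (hhs : GcAffAdm B.a hs)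
    (z : S → ℝ) (θ : ℝ) (σ₀ : ℕ → S) :
    (1 / 2) * (p2Row B.a (trAtt hs.length 0 (fun _ _ => hs.length + 1) 0 0) ((hs.map (trcLv feat)).map P2Lv.m) 0 0 (insert 0 ∅)
        fun x' i' => ∑ t, ∑ t', p2V (hs.map (trcLv feat))
            (trAtt hs.length 1 (trAtt hs.length 0 (fun _ _ => hs.length + 1) 0 0) x' i' 0 1 - 0) t t' *
          p2U B (trAtt hs.length 1 (trAtt hs.length 0 (fun _ _ => hs.length + 1) 0 0) x' i')
            (Function.update (Function.update σ₀ 0 t) 1 t') (p2L (hs.map (trcLv feat)) θ) 0 (insert 1 (insert 0 ∅)) 0 z)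
      = 1 / 2 * trSum (gcMs B.a hs) hs.length 1 (fun _ _ => hs.length + 1) fun τ₂ =>
        gcNu B feat hs θ 2 τ₂ z fun σ => trV (gcDK feat hs) hs.length (τ₂ 0 1) (σ 0) (σ 1) := by
  set N := hs.length with hN
  set τ₀ : ℕ → ℕ → ℕ := fun _ _ => N + 1 with hτ₀
  set τ₁ := trAtt N 0 τ₀ 0 0 with hτ₁
  set ml := (hs.map (trcLv feat)).map P2Lv.m with hml
  have hlen : ml.length = N := by simp [hml, hN]
  have hI₀ : IsTr N 1 τ₀ := ⟨fun _ _ _ _ => le_rfl, fun _ _ => rfl, fun _ _ _ _ => rfl, fun _ _ _ _ _ _ => by simp [hτ₀]⟩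
  have h00 : τ₁ 0 0 = N + 1 := p2_att_qq N 0 τ₀ 0 0
  have hr1 : (insert 0 ∅ : Finset ℕ) = Finset.range 1 := by simp
  have htab : ∀ x ∈ Finset.range 1, ∀ y ∈ Finset.range 1, τ₀ x y = τ₁ x y := by
    intro x hx y hy
    have hx0 : x = 0 := by simpa using hx
    have hy0 : y = 0 := by simpa using hy
    subst hx0; subst hy0
    exact h00.symm
  have hT₀ : P2Tr τ₀ (Finset.range 1) 0 (0 + ml.length + 1) := by
    rw [hlen, Nat.zero_add]; exact p2_tr_of_isTr hI₀
  congr 1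
  rw [trc_row feat B.a hs hI₀, hr1, ← p2Row_congr_tab B.a ml 0 0 (Finset.range 1) _ htab]
  refine p2Row_congr hT₀ fun x' i' hxi' => ?_
  have hx' : x' = 0 := by
    rcases hxi'.1 with h1 | h1
    · simpa using h1
    · exact absurd h1 (by simp)
  subst hx'
  have hi' : i' ≤ N + 1 := by have := hxi'.2.2; omega
  have hI₂ : IsTr N (0 + 2) (trAtt N 1 τ₀ 0 i') := tr_att_isTr hI₀ (by omega) hi'
  have hP : TrUses 0 (fun _ : ℕ → S => (1 : ℝ)) := fun _ _ _ => rfl
  have e := trc_nu2 hB feat hhs hI₂ z (fun _ => 1) hP θ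
  simp only [one_mul, Nat.zero_add] at e
  rw [e, Fintype.sum_unique (ι := Fin 0 → S)]
  have hb : (insert 1 (insert 0 (Finset.range 0)) : Finset ℕ) = insert 1 (Finset.range 1) := by simp
  have ht2 : ∀ x ∈ (insert 1 (Finset.range 1) : Finset ℕ), ∀ y ∈ (insert 1 (Finset.range 1) : Finset ℕ),
      trAtt N 1 τ₁ 0 i' x y = trAtt N 1 τ₀ 0 i' x y := by
    intro x hx y hy
    have hx01 : x = 1 ∨ x = 0 := by simpa using hx
    have hy01 : y = 1 ∨ y = 0 := by simpa using hy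
    rcases hx01 with rfl | rfl <;> rcases hy01 with rfl | rfl <;> simp [trAtt, h00, hτ₀]
  rw [hb, ht2 0 (by simp) 1 (by simp)]
  refine Finset.sum_congr rfl fun t _ => Finset.sum_congr rfl fun t' _ => ?_
  congr 1
  unfold p2U
  congr 1
  refine p2W_congr B _ 0 (insert 1 (Finset.range 1)) z ht2 fun x hx => ?_
  have hx01 : x = 1 ∨ x = 0 := by simpa using hx
  rcases hx01 with rfl | rfl <;> simp

/-- **pressure differentiation** (statement `tr_pressure_deriv` of `Fd/TrC2`) -/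
theorem trc_pressure_deriv {B : GhB S} (hB : B.Ok) (feat : Φ → S → ι → ℝ) {hs : List (ℝ × (Φ → ℝ) × (Φ → ℝ))}
    (hhs : GcAffAdm B.a hs) (z : S → ℝ) {θ : ℝ} (hθ : θ ∈ Set.Icc (0 : ℝ) 1) :
    HasDerivWithinAt (fun θ => ghF B (gcLs feat (gcAff hs θ)) z)
      (1 / 2 * trSum (gcMs B.a hs) hs.length 1 (fun _ _ => hs.length + 1) fun τ₂ =>
        gcNu B feat hs θ 2 τ₂ z fun σ => trV (gcDK feat hs) hs.length (τ₂ 0 1) (σ 0) (σ 1))
      (Set.Icc 0 1) θ := by
  have hI₀ : IsTr hs.length 1 (fun _ _ => hs.length + 1) :=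
    ⟨fun _ _ _ _ => le_rfl, fun _ _ => rfl, fun _ _ _ _ => rfl, fun _ _ _ _ _ _ => by simp⟩
  refine trc_wrap (f := fun θ => ghF B (gcLs feat (gcAff hs θ)) z)
    (f' := fun θ => 1 / 2 * trSum (gcMs B.a hs) hs.length 1 (fun _ _ => hs.length + 1) fun τ₂ =>
        gcNu B feat hs θ 2 τ₂ z fun σ => trV (gcDK feat hs) hs.length (τ₂ 0 1) (σ 0) (σ 1))
    (tce_F_continuousOn hB feat hhs z) ?_ ?_ hθ
  · refine continuousOn_const.mul ?_
    unfold trSum
    refine continuousOn_finsetSum _ fun x hx => continuousOn_finsetSum _ fun i hi => continuousOn_const.mul ?_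
    have h1 : IsTr hs.length (1 + 1) (trAtt hs.length 1 (fun _ _ => hs.length + 1) x i) :=
      tr_att_isTr hI₀ (Finset.mem_range.1 hx) (by have := Finset.mem_range.1 hi; omega)
    exact trc_nu_cont hB feat hhs h1 z _
  · intro θ' hθ'
    have h := (p2_F_hasD hB (hs.map (trcLv feat)) (trc_ok feat hhs) (p2_main hB _ (trc_ok feat hhs)) (N := hs.length) (j := 0)
      (by simp) (fun _ _ => hs.length + 1) (fun _ => default) (q := 0) (q' := 1) (by decide) hθ' z).fst
    rw [trc_pr_id hB feat hhs z θ' (fun _ => default)] at h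
    simpa only [trc_L] using h

end main

end Claimed.Agent.R286
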