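import Claimed.Agent.R286.Fd.TrB1
import Claimed.Agent.R286.Fd.TrA2

/-!
# Row 286 (S0533), Fd/TrCb : ASSEMBLY block of the signed calculus      (owner / prover helper105; architect helper150)
From eq. (2) on a finite hierarchy (`tr_cov_deriv`, here the HYPOTHESIS `TcbCov`) and the contracts of `TrA1, TrA2, TrB`:
`gc_adm`, `gc_cov`, iterated form of (2), smoothness in `θ`, PE Lemma 2.9 (Taylor bounds, two-sided comparison).
`Fd/TrC` closes its statements by `exact tcb_* ..`.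
-/

set_option autoImplicit false
set_option linter.unusedSectionVars false

namespace Claimed.Agent.R286

open MeasureTheory ProbabilityTheory

section pos
variable {S ι : Type} [Fintype S] [Fintype ι] [Inhabited S]

theorem tcb_nu_mono {B : GhB S} (hB : B.Ok) {ls : List (GhLv S ι)} (hls : GhAdm B 0 ls) (q : ℕ) (τ : ℕ → ℕ → ℕ)
    (z : S → ℝ) {P Q : (ℕ → S) → ℝ} (h : ∀ σ, P σ ≤ Q σ) : trNu B ls q τ z P ≤ trNu B ls q τ z Q := by
  classical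
  rw [tr_nu_eq_sum hB hls q τ z P, tr_nu_eq_sum hB hls q τ z Q]
  exact Finset.sum_le_sum fun σ₀ _ => mul_le_mul_of_nonneg_left (h _) (tr_pr_nonneg hB hls q τ z σ₀)

theorem tcb_nu_const {B : GhB S} (hB : B.Ok) {ls : List (GhLv S ι)} (hls : GhAdm B 0 ls) (q : ℕ) (τ : ℕ → ℕ → ℕ)
    (z : S → ℝ) (c : ℝ) : trNu B ls q τ z (fun _ => c) = c := by
  classical
  rw [tr_nu_eq_sum hB hls q τ z, ← Finset.sum_mul, tr_pr_sum hB hls q τ z, one_mul]

theorem tcb_nu_mul_const {B : GhB S} (hB : B.Ok) {ls : List (GhLv S ι)} (hls : GhAdm B 0 ls) (q : ℕ) (τ : ℕ → ℕ → ℕ)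
    (z : S → ℝ) (c : ℝ) (P : (ℕ → S) → ℝ) : trNu B ls q τ z (fun σ => c * P σ) = c * trNu B ls q τ z P := by
  classical
  rw [tr_nu_eq_sum hB hls q τ z, tr_nu_eq_sum hB hls q τ z P, Finset.mul_sum]
  exact Finset.sum_congr rfl fun σ₀ _ => by ring

theorem tcb_nu_neg {B : GhB S} (hB : B.Ok) {ls : List (GhLv S ι)} (hls : GhAdm B 0 ls) (q : ℕ) (τ : ℕ → ℕ → ℕ)
    (z : S → ℝ) (P : (ℕ → S) → ℝ) : trNu B ls q τ z (fun σ => - P σ) = - trNu B ls q τ z P := by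
  have := tcb_nu_mul_const hB hls q τ z (-1) P
  simpa using this

theorem tcb_nu_abs_le_nu {B : GhB S} (hB : B.Ok) {ls : List (GhLv S ι)} (hls : GhAdm B 0 ls) (q : ℕ) (τ : ℕ → ℕ → ℕ)
    (z : S → ℝ) {P Q : (ℕ → S) → ℝ} (h : ∀ σ, |P σ| ≤ Q σ) : |trNu B ls q τ z P| ≤ trNu B ls q τ z Q := by
  rw [abs_le]
  constructor
  · rw [← tcb_nu_neg hB hls q τ z Q]
    exact tcb_nu_mono hB hls q τ z fun σ => (abs_le.1 (h σ)).1
  · exact tcb_nu_mono hB hls q τ z fun σ => (abs_le.1 (h σ)).2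

theorem tcb_nu_abs_le {B : GhB S} (hB : B.Ok) {ls : List (GhLv S ι)} (hls : GhAdm B 0 ls) (q : ℕ) (τ : ℕ → ℕ → ℕ)
    (z : S → ℝ) {P : (ℕ → S) → ℝ} {K : ℝ} (h : ∀ σ, |P σ| ≤ K) : |trNu B ls q τ z P| ≤ K := by
  have := tcb_nu_abs_le_nu hB hls q τ z (Q := fun _ => K) h
  rwa [tcb_nu_const hB hls q τ z K] at this

end pos

/-! ### differentiation of finite signed sums -/

theorem tcb_sum_hasDeriv {N q : ℕ} {τ : ℕ → ℕ → ℕ} {ms : ℕ → ℝ} (hτ : IsTr N q τ) {s : Set ℝ} {θ : ℝ}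
    (Φ : ℝ → (ℕ → ℕ → ℕ) → ℝ) (Φ' : (ℕ → ℕ → ℕ) → ℝ)
    (h : ∀ τ', IsTr N (q + 1) τ' → HasDerivWithinAt (fun θ => Φ θ τ') (Φ' τ') s θ) :
    HasDerivWithinAt (fun θ => trSum ms N q τ (Φ θ)) (trSum ms N q τ Φ') s θ := by
  unfold trSum
  refine HasDerivWithinAt.fun_sum fun x hx => HasDerivWithinAt.fun_sum fun j hj => ?_
  refine HasDerivWithinAt.const_mul _ (h _ (tr_att_isTr hτ (Finset.mem_range.1 hx) ?_))
  have := Finset.mem_range.1 hj
  omega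

theorem tcb_sumK_hasDeriv {N : ℕ} {ms : ℕ → ℝ} {s : Set ℝ} {θ : ℝ} (k : ℕ) :
    ∀ {q : ℕ} {τ : ℕ → ℕ → ℕ}, IsTr N q τ → ∀ (Φ : ℝ → (ℕ → ℕ → ℕ) → ℝ) (Φ' : (ℕ → ℕ → ℕ) → ℝ),
    (∀ τ', IsTr N (q + k) τ' → HasDerivWithinAt (fun θ => Φ θ τ') (Φ' τ') s θ) →
    HasDerivWithinAt (fun θ => trSumK ms N k q τ (Φ θ)) (trSumK ms N k q τ Φ') s θ := by
  induction k with
  | zero => intro q τ hτ Φ Φ' h; simpa [trSumK] using h τ hτ
  | succ k ih =>
    intro q τ hτ Φ Φ' h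
    simp only [trSumK]
    refine tcb_sum_hasDeriv hτ (fun θ τ' => trSumK ms N k (q + 1) τ' (Φ θ)) _ fun τ' hτ' => ?_
    refine ih hτ' Φ Φ' fun τ'' hτ'' => h τ'' ?_
    have e : q + 1 + k = q + (k + 1) := by omega
    rwa [e] at hτ''

theorem tcb_sum_mul_left (ms : ℕ → ℝ) (N q : ℕ) (τ : ℕ → ℕ → ℕ) (c : ℝ) (Φ : (ℕ → ℕ → ℕ) → ℝ) :
    c * trSum ms N q τ Φ = trSum ms N q τ fun τ' => c * Φ τ' := by
  unfold trSum
  rw [Finset.mul_sum]
  refine Finset.sum_congr rfl fun x _ => ?_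
  rw [Finset.mul_sum]
  exact Finset.sum_congr rfl fun j _ => by ring

theorem tcb_sumK_mul_left (ms : ℕ → ℝ) (N : ℕ) (k : ℕ) : ∀ (q : ℕ) (τ : ℕ → ℕ → ℕ) (c : ℝ) (Φ : (ℕ → ℕ → ℕ) → ℝ),
    c * trSumK ms N k q τ Φ = trSumK ms N k q τ fun τ' => c * Φ τ' := by
  induction k with
  | zero => intro q τ c Φ; rfl
  | succ k ih =>
    intro q τ c Φ
    simp only [trSumK]
    rw [tcb_sum_mul_left]
    congr 1
    funext τ'
    exact ih _ _ _ _

section cov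
variable {S Φ ι : Type} [Fintype S] [Fintype Φ] [Fintype ι] [Inhabited S]

theorem tcb_gc_adm {B : GhB S} (feat : Φ → S → ι → ℝ) {hs : List (ℝ × (Φ → ℝ) × (Φ → ℝ))} (hhs : GcAffAdm B.a hs) (θ : ℝ) :
    GhAdm B 0 (gcLs feat (gcAff hs θ)) ∧ (gcLs feat (gcAff hs θ)).length = hs.length ∧
      ∀ j, trMs B (gcLs feat (gcAff hs θ)) j = gcMs B.a hs j := by
  refine ⟨⟨?_, ?_⟩, by simp [gcLs, gcAff], fun j => ?_⟩
  · have h := hhs.1
    rw [List.pairwise_map] at h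
    simp only [gcLs, gcAff, List.map_map, List.pairwise_map]
    exact h
  · intro l hl
    simp only [gcLs, gcAff, List.map_map, List.mem_map] at hl
    obtain ⟨h, hh, rfl⟩ := hl
    exact (hhs.2 h hh).1
  · simp only [trMs, gcMs, gcLs, gcAff, List.map_map, List.getElem?_map, Option.map_map]
    rfl

theorem tcb_gc_cov (feat : Φ → S → ι → ℝ) (m : ℝ) (v : Φ → ℝ) (hv : ∀ r, 0 ≤ v r) (s t : S) :
    (gcLv feat m v).cov s t = ∑ r, v r * gcKer feat r s t := by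
  simp only [GhLv.cov, gcLv, gcKer, Fintype.sum_prod_type, Finset.mul_sum]
  refine Finset.sum_congr rfl fun r _ => Finset.sum_congr rfl fun i _ => ?_
  have := Real.mul_self_sqrt (hv r)
  calc Real.sqrt (v r) * feat r s i * (Real.sqrt (v r) * feat r t i)
      = (Real.sqrt (v r) * Real.sqrt (v r)) * (feat r s i * feat r t i) := by ring
    _ = v r * (feat r s i * feat r t i) := by rw [this]

/-- the statement of `tr_cov_deriv` (eq. (2)) for a fixed affine family and source -/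
def TcbCov (B : GhB S) (feat : Φ → S → ι → ℝ) (hs : List (ℝ × (Φ → ℝ) × (Φ → ℝ))) (z : S → ℝ) : Prop :=
  ∀ (q : ℕ) (τ : ℕ → ℕ → ℕ), IsTr hs.length q τ → ∀ P : (ℕ → S) → ℝ, TrUses q P → ∀ θ ∈ Set.Icc (0 : ℝ) 1,
    HasDerivWithinAt (fun θ => gcNu B feat hs θ q τ z P)
      (1 / 2 * trSum (gcMs B.a hs) hs.length q τ fun τ₁ => trSum (gcMs B.a hs) hs.length (q + 1) τ₁ fun τ₂ =>
        gcNu B feat hs θ (q + 2) τ₂ z fun σ => P σ * trV (gcDK feat hs) hs.length (τ₂ q (q + 1)) (σ q) (σ (q + 1)))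
      (Set.Icc 0 1) θ

/-- the test of the `j`-th derivative -/
def tcbT (feat : Φ → S → ι → ℝ) (hs : List (ℝ × (Φ → ℝ) × (Φ → ℝ))) (q j : ℕ) (P : (ℕ → S) → ℝ) (τ' : ℕ → ℕ → ℕ) :
    (ℕ → S) → ℝ := fun σ => P σ * ∏ i ∈ Finset.range j,
  trV (gcDK feat hs) hs.length (τ' (q + 2 * i) (q + 2 * i + 1)) (σ (q + 2 * i)) (σ (q + 2 * i + 1))

theorem tcb_T_uses (feat : Φ → S → ι → ℝ) (hs : List (ℝ × (Φ → ℝ) × (Φ → ℝ))) {q : ℕ} (j : ℕ) {P : (ℕ → S) → ℝ}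
    (hP : TrUses q P) (τ' : ℕ → ℕ → ℕ) : TrUses (q + 2 * j) (tcbT feat hs q j P τ') := by
  intro σ σ' h
  unfold tcbT
  rw [hP σ σ' fun i hi => h i (by omega)]
  congr 1
  refine Finset.prod_congr rfl fun i hi => ?_
  have := Finset.mem_range.1 hi
  rw [h (q + 2 * i) (by omega), h (q + 2 * i + 1) (by omega)]

theorem tcb_T_succ (feat : Φ → S → ι → ℝ) (hs : List (ℝ × (Φ → ℝ) × (Φ → ℝ))) (q j : ℕ) (P : (ℕ → S) → ℝ)
    (τ' τ₂ : ℕ → ℕ → ℕ) (h : ∀ y z, y < q + 2 * j → z < q + 2 * j → τ₂ y z = τ' y z) (σ : ℕ → S) :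
    tcbT feat hs q j P τ' σ * trV (gcDK feat hs) hs.length (τ₂ (q + 2 * j) (q + 2 * j + 1)) (σ (q + 2 * j)) (σ (q + 2 * j + 1))
      = tcbT feat hs q (j + 1) P τ₂ σ := by
  unfold tcbT
  rw [Finset.prod_range_succ, mul_assoc]
  congr 2
  refine Finset.prod_congr rfl fun i hi => ?_
  have := Finset.mem_range.1 hi
  rw [h (q + 2 * i) (q + 2 * i + 1) (by omega) (by omega)]

theorem tcb_att_old (N q : ℕ) (τ : ℕ → ℕ → ℕ) (x j y z : ℕ) (hy : y < q) (hz : z < q) : trAtt N q τ x j y z = τ y z := by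
  unfold trAtt
  rw [if_neg (by omega), if_neg (by omega)]

/-- iterated form of (2) -/
theorem tcb_cov_deriv_iter {B : GhB S} {feat : Φ → S → ι → ℝ} {hs : List (ℝ × (Φ → ℝ) × (Φ → ℝ))} {z : S → ℝ}
    (H : TcbCov B feat hs z) {q : ℕ} {τ : ℕ → ℕ → ℕ} (hτ : IsTr hs.length q τ) (P : (ℕ → S) → ℝ) (hP : TrUses q P)
    (j : ℕ) : ∀ θ ∈ Set.Icc (0 : ℝ) 1,
    iteratedDerivWithin j (fun θ => gcNu B feat hs θ q τ z P) (Set.Icc 0 1) θ
      = (1 / 2) ^ j * trSumK (gcMs B.a hs) hs.length (2 * j) q τ fun τ' =>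
        gcNu B feat hs θ (q + 2 * j) τ' z (tcbT feat hs q j P τ') := by
  induction j with
  | zero =>
    intro θ _
    have e : tcbT feat hs q 0 P τ = P := by funext σ; simp [tcbT]
    simp [iteratedDerivWithin_zero, trSumK, e]
  | succ j ih =>
    intro θ hθ
    rw [iteratedDerivWithin_succ]
    have hd : HasDerivWithinAt (fun θ => (1 / 2 : ℝ) ^ j * trSumK (gcMs B.a hs) hs.length (2 * j) q τ fun τ' =>
        gcNu B feat hs θ (q + 2 * j) τ' z (tcbT feat hs q j P τ'))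
        ((1 / 2 : ℝ) ^ j * trSumK (gcMs B.a hs) hs.length (2 * j) q τ fun τ' =>
          (1 / 2 * trSum (gcMs B.a hs) hs.length (q + 2 * j) τ' fun τ₁ =>
            trSum (gcMs B.a hs) hs.length (q + 2 * j + 1) τ₁ fun τ₂ =>
              gcNu B feat hs θ (q + 2 * j + 2) τ₂ z fun σ => tcbT feat hs q j P τ' σ *
                trV (gcDK feat hs) hs.length (τ₂ (q + 2 * j) (q + 2 * j + 1)) (σ (q + 2 * j)) (σ (q + 2 * j + 1))))
        (Set.Icc 0 1) θ := by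
      refine HasDerivWithinAt.const_mul _ ?_
      exact tcb_sumK_hasDeriv (2 * j) hτ
        (fun θ τ' => gcNu B feat hs θ (q + 2 * j) τ' z (tcbT feat hs q j P τ')) _
        fun τ' hτ' => H _ τ' hτ' _ (tcb_T_uses feat hs j hP τ') θ hθ
    rw [derivWithin_congr (fun θ' hθ' => ih θ' hθ') (ih θ hθ), hd.derivWithin (uniqueDiffOn_Icc zero_lt_one θ hθ)]
    have e2 : 2 * (j + 1) = 2 * j + 2 := by ring
    rw [e2, tr_sumK_add (2 * j) 2, pow_succ, mul_assoc]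
    congr 1
    rw [tcb_sumK_mul_left]
    refine tr_sumK_congr hτ (2 * j) _ _ fun τ' _ _ => ?_
    simp only [trSumK]
    congr 1
    unfold trSum
    refine Finset.sum_congr rfl fun x _ => Finset.sum_congr rfl fun i _ => ?_
    congr 1
    refine Finset.sum_congr rfl fun x' _ => Finset.sum_congr rfl fun i' _ => ?_
    congr 1
    show gcNu B feat hs θ (q + 2 * j + 2) _ z _ = gcNu B feat hs θ (q + 2 * j + 2) _ z _
    congr 1
    funext σ
    refine tcb_T_succ feat hs q j P τ' _ (fun y z hy hz => ?_) σ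
    rw [tcb_att_old _ _ _ _ _ _ _ (by omega) (by omega), tcb_att_old _ _ _ _ _ _ _ hy hz]

end cov

end Claimed.Agent.R286
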