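import Claimed.Agent.R286.Fd.TrC1
import Claimed.Agent.R286.Fd.TrB4
import Claimed.Agent.R286.Fd.TrCb
import Claimed.Agent.R286.Fd.CovTop

/-!
# Row 286 (S0533), Fd/TrC2 : PE Prop 2.5, eq. (2): covariance differentiation; pressure derivative
architect helper150;  OWNER / PROVER of this file: helper69 (replace the `sorry`s in place, keep the statements, add imports as needed; a false statement = one line to helper150).
A leaf claimed by somebody else in claim286: he sends the proof to the owner or lands it here himself.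
-/

set_option autoImplicit false

namespace Claimed.Agent.R286

open MeasureTheory ProbabilityTheory

section
variable {S Φ ι : Type} [Fintype S] [Fintype Φ] [Fintype ι] [Inhabited S]

theorem gc_adm {B : GhB S} (feat : Φ → S → ι → ℝ) {hs : List (ℝ × (Φ → ℝ) × (Φ → ℝ))} (hhs : GcAffAdm B.a hs) (θ : ℝ) :
    GhAdm B 0 (gcLs feat (gcAff hs θ)) ∧ (gcLs feat (gcAff hs θ)).length = hs.length ∧
      ∀ j, trMs B (gcLs feat (gcAff hs θ)) j = gcMs B.a hs j :=
  tcb_gc_adm feat hhs θ

/-- kernel of a clocked level -/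
theorem gc_cov (feat : Φ → S → ι → ℝ) (m : ℝ) (v : Φ → ℝ) (hv : ∀ r, 0 ≤ v r) (s t : S) :
    (gcLv feat m v).cov s t = ∑ r, v r * gcKer feat r s t :=
  tcb_gc_cov feat m v hv s t

/-- TEX[PE:prop:found-replica] **Proposition 2.5, eq. (2)** on a finite hierarchy: two labels are attached successively with the signed weights;
the insertion is the change of covariance accumulated along their shared stages. -/
theorem tr_cov_deriv {B : GhB S} (hB : B.Ok) (feat : Φ → S → ι → ℝ) {hs : List (ℝ × (Φ → ℝ) × (Φ → ℝ))}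
    (hhs : GcAffAdm B.a hs) {q : ℕ} {τ : ℕ → ℕ → ℕ} (hτ : IsTr hs.length q τ) (z : S → ℝ) (P : (ℕ → S) → ℝ) (hP : TrUses q P)
    {θ : ℝ} (hθ : θ ∈ Set.Icc (0 : ℝ) 1) :
    HasDerivWithinAt (fun θ => gcNu B feat hs θ q τ z P)
      (1 / 2 * trSum (gcMs B.a hs) hs.length q τ fun τ₁ => trSum (gcMs B.a hs) hs.length (q + 1) τ₁ fun τ₂ =>
        gcNu B feat hs θ (q + 2) τ₂ z fun σ => P σ * trV (gcDK feat hs) hs.length (τ₂ q (q + 1)) (σ q) (σ (q + 1)))
      (Set.Icc 0 1) θ :=
  trc_cov_deriv hB feat hhs hτ z P hP hθ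

/-- pressure differentiation (first line of PE (1)) in the same vocabulary: one leaf `0`, one attached label `1` -/
theorem tr_pressure_deriv {B : GhB S} (hB : B.Ok) (feat : Φ → S → ι → ℝ) {hs : List (ℝ × (Φ → ℝ) × (Φ → ℝ))}
    (hhs : GcAffAdm B.a hs) (z : S → ℝ) {θ : ℝ} (hθ : θ ∈ Set.Icc (0 : ℝ) 1) :
    HasDerivWithinAt (fun θ => ghF B (gcLs feat (gcAff hs θ)) z)
      (1 / 2 * trSum (gcMs B.a hs) hs.length 1 (fun _ _ => hs.length + 1) fun τ₂ =>
        gcNu B feat hs θ 2 τ₂ z fun σ => trV (gcDK feat hs) hs.length (τ₂ 0 1) (σ 0) (σ 1))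
      (Set.Icc 0 1) θ :=
  trc_pressure_deriv hB feat hhs z hθ

end

end Claimed.Agent.R286
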