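import Claimed.Agent.R286.Fd.TrA1
import Claimed.Agent.R286.Fd.NuApi
import Claimed.Agent.R286.Fd.TrBe

/-!
# Row 286 (S0533), Fd/TrB1 : finite-sum form (a tree law on spin tests = a probability vector), Hoelder, congruence, one leaf, BRIDGE to GhTree
architect helper150;  PROVED by helper59 (claim286 03:05Z; preset owner was helper66).  Raw lemmas: prefix `tr_b1_`.
RAW TOOLS: `tr_b1_int` (integrability of one level of `ghNu` on a spin test), `tr_b1_nu_sum` (linearity of `ghNu` on spin tests),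
`tr_b1_rep_congr_nu` (`ghNu` reads `rep t` for `t ≤ length` only), `tr_b1_one` (one label = `ghE`), `tr_b1_rep_least` (`trRep` = least label of the class).
-/

set_option autoImplicit false
set_option linter.unusedSectionVars false
set_option linter.unusedVariables false

namespace Claimed.Agent.R286

open MeasureTheory ProbabilityTheory

section raw
variable {S ι : Type} [Fintype S] [Fintype ι]

/-- integrability of one level of the tree law on a spin test -/
theorem tr_b1_int {B : GhB S} (hB : B.Ok) {q : ℕ} (l : GhLv S ι) (ls : List (GhLv S ι)) (h : GhNn (l :: ls))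
    (r : Fin q → Fin q) (rep : ℕ → Fin q → Fin q) (G : Fin q → S → ℝ) (P : (Fin q → S) → ℝ) :
    Integrable (fun W : Fin q → ι → ℝ => ghDT B l ls r G W *
      ghNu B ls rep (fun a => G a + l.inc (W (r a))) (fun _ σ => P σ)) (Measure.pi fun _ : Fin q => ghStd ι) := by
  have hC : ∀ σ, |P σ| ≤ ∑ σ, |P σ| := fun σ =>
    Finset.single_le_sum (f := fun σ => |P σ|) (fun _ _ => abs_nonneg _) (Finset.mem_univ σ)
  have hm : Measurable fun W : Fin q → ι → ℝ => ghNu B ls rep (fun a => G a + l.inc (W (r a))) (fun _ σ => P σ) := by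
    refine (tr_e_nu_meas B P ls rep).comp (measurable_pi_lambda _ fun a => ?_)
    exact measurable_const.add ((gh_l_inc_meas l).comp (measurable_pi_apply (r a)))
  refine (gh_n_DT_integrable B hB l ls h r G).mul_bdd (c := ∑ σ, |P σ|) hm.aestronglyMeasurable
    (Filter.Eventually.of_forall fun W => ?_)
  rw [Real.norm_eq_abs]
  exact gh_n_abs_le B hB _ ls h.tail _ _ _ fun _ σ => hC σ

/-- linearity of the tree law on spin tests -/
theorem tr_b1_nu_sum {B : GhB S} (hB : B.Ok) {q : ℕ} {κ : Type} (s : Finset κ) (c : κ → ℝ) (P : κ → (Fin q → S) → ℝ) :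
    ∀ (ls : List (GhLv S ι)), GhNn ls → ∀ (rep : ℕ → Fin q → Fin q) (G : Fin q → S → ℝ),
    ghNu B ls rep G (fun _ σ => ∑ k ∈ s, c k * P k σ) = ∑ k ∈ s, c k * ghNu B ls rep G (fun _ σ => P k σ)
  | [], _, rep, G => by
      simp only [ghNu]
      simp_rw [Finset.mul_sum]
      rw [Finset.sum_comm]
      exact Finset.sum_congr rfl fun k _ => Finset.sum_congr rfl fun σ _ => by ring
  | l :: ls, h, rep, G => by
      simp only [ghNu]
      simp_rw [tr_b1_nu_sum hB s c P ls h.tail, Finset.mul_sum]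
      rw [integral_finsetSum]
      · refine Finset.sum_congr rfl fun k _ => ?_
        rw [← integral_const_mul]
        exact integral_congr_ae (Filter.Eventually.of_forall fun W => by simp only; ring)
      · intro k _
        refine ((tr_b1_int hB l ls h (rep 0) (fun t => rep (t + 1)) G (P k)).const_mul (c k)).congr
          (Filter.Eventually.of_forall fun W => by simp only; ring)

/-- the tree law reads the representatives of the stages `t ≤ length` only -/
theorem tr_b1_rep_congr_nu (B : GhB S) {q : ℕ} : ∀ (ls : List (GhLv S ι)) (rep rep' : ℕ → Fin q → Fin q),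
    (∀ t, t ≤ ls.length → rep t = rep' t) → ∀ (G : Fin q → S → ℝ) (P : (ℕ → Fin q → ι → ℝ) → (Fin q → S) → ℝ),
    ghNu B ls rep G P = ghNu B ls rep' G P
  | [], rep, rep', h, G, P => by
      simp only [ghNu, h 0 le_rfl]
  | l :: ls, rep, rep', h, G, P => by
      simp only [ghNu, h 0 (Nat.zero_le _)]
      refine integral_congr_ae (Filter.Eventually.of_forall fun W => ?_)
      simp only
      rw [tr_b1_rep_congr_nu B ls (fun t => rep (t + 1)) (fun t => rep' (t + 1))
        (fun t ht => h (t + 1) (by simpa using ht))]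

theorem tr_b1_int_one (f : (Fin 1 → ι → ℝ) → ℝ) :
    ∫ W, f W ∂(Measure.pi fun _ : Fin 1 => ghStd ι) = ∫ ξ, f (fun _ => ξ) ∂ghStd ι := by
  have h := (measurePreserving_funUnique (ghStd ι) (Fin 1)).symm.integral_comp' f
  have hi : (Unique.fintype : Fintype (Fin 1)) = Fin.fintype 1 := Subsingleton.elim _ _
  rw [hi] at h
  rw [← h]
  rfl

/-- one label: the planted conditional mean -/
theorem tr_b1_one (B : GhB S) (φ : S → ℝ) : ∀ (ls : List (GhLv S ι)) (rep : ℕ → Fin 1 → Fin 1) (G : Fin 1 → S → ℝ),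
    ghNu B ls rep G (fun _ σ => φ (σ 0)) = ghE B ls φ (G 0)
  | [], rep, G => by
      simp only [ghNu, ghE]
      rw [← (Equiv.funUnique (Fin 1) S).symm.sum_comp]
      refine Finset.sum_congr rfl fun s _ => ?_
      simp [Equiv.funUnique]
  | l :: ls, rep, G => by
      simp only [ghNu, ghE]
      rw [tr_b1_int_one]
      refine integral_congr_ae (Filter.Eventually.of_forall fun ξ => ?_)
      simp only
      rw [tr_b1_one B φ ls]
      have h0 : rep 0 0 = 0 := Subsingleton.elim _ _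
      simp [ghDT, h0]

end raw

/-- `trRep` is the least label of the class (when the class contains the label itself) -/
theorem tr_b1_rep_least (q : ℕ) (τ : ℕ → ℕ → ℕ) (j : ℕ) (a : Fin q) (ha : j < τ a.1 a.1) :
    j < τ a.1 (trRep q τ j a).1 ∧ ∀ b : Fin q, j < τ a.1 b.1 → trRep q τ j a ≤ b := by
  unfold trRep
  cases h : (List.finRange q).find? fun b : Fin q => decide (j < τ a.1 b.1) with
  | none =>
    have := List.find?_eq_none.1 h a (List.mem_finRange a)
    simp [ha] at this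
  | some b₀ =>
    simp only [Option.getD_some]
    rw [List.find?_eq_some_iff_getElem] at h
    obtain ⟨h1, i, hi, h2, h3⟩ := h
    refine ⟨by simpa using h1, fun b hb => ?_⟩
    by_contra hlt
    push Not at hlt
    have hbi : b.1 < i := by
      have : b₀.1 = i := by rw [← h2]; simp
      have := Fin.lt_def.1 hlt
      omega
    have := h3 b.1 hbi
    simp [hb] at this

section
variable {S ι : Type} [Fintype S] [Fintype ι] [Inhabited S]

theorem tr_b1_ext_apply {q : ℕ} (σ : Fin q → S) (i : Fin q) : trExt σ i.1 = σ i := by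
  simp [trExt, i.2]

theorem tr_pr_nonneg [DecidableEq S] {B : GhB S} (hB : B.Ok) {ls : List (GhLv S ι)} (hls : GhAdm B 0 ls) (q : ℕ) (τ : ℕ → ℕ → ℕ)
    (z : S → ℝ) (σ₀ : Fin q → S) : 0 ≤ trPr B ls q τ z σ₀ := by
  unfold trPr trNu
  refine gh_n_nonneg B hB ls _ _ _ fun η σ => ?_
  beta_reduce
  split_ifs <;> norm_num

theorem tr_nu_eq_sum [DecidableEq S] {B : GhB S} (hB : B.Ok) {ls : List (GhLv S ι)} (hls : GhAdm B 0 ls) (q : ℕ) (τ : ℕ → ℕ → ℕ)
    (z : S → ℝ) (P : (ℕ → S) → ℝ) : trNu B ls q τ z P = ∑ σ₀ : Fin q → S, trPr B ls q τ z σ₀ * P (trExt σ₀) := by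
  unfold trPr trNu
  have h := tr_b1_nu_sum hB (Finset.univ : Finset (Fin q → S)) (fun σ₀ => P (trExt σ₀))
    (fun σ₀ σ => if ∀ i : Fin q, trExt σ i.1 = σ₀ i then 1 else 0) ls (hls.ghNn le_rfl) (fun t => trRep q τ t) (fun _ => z)
  have h2 : (fun (_ : ℕ → Fin q → ι → ℝ) (σ : Fin q → S) => P (trExt σ))
      = fun _ σ => ∑ σ₀ : Fin q → S, P (trExt σ₀) * (if ∀ i : Fin q, trExt σ i.1 = σ₀ i then 1 else 0) := by
    funext _ σ
    rw [Finset.sum_eq_single σ]
    · simp [tr_b1_ext_apply]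
    · intro σ₀ _ hne
      rw [if_neg, mul_zero]
      intro hall
      exact hne (funext fun i => by rw [← hall i, tr_b1_ext_apply])
    · intro hn; exact absurd (Finset.mem_univ σ) hn
  rw [h2, h]
  exact Finset.sum_congr rfl fun σ₀ _ => mul_comm _ _

theorem tr_pr_sum [DecidableEq S] {B : GhB S} (hB : B.Ok) {ls : List (GhLv S ι)} (hls : GhAdm B 0 ls) (q : ℕ) (τ : ℕ → ℕ → ℕ)
    (z : S → ℝ) : ∑ σ₀ : Fin q → S, trPr B ls q τ z σ₀ = 1 := by
  have h := tr_nu_eq_sum hB hls q τ z (fun _ => 1)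
  have h2 : ∑ σ₀ : Fin q → S, trPr B ls q τ z σ₀ = ∑ σ₀ : Fin q → S, trPr B ls q τ z σ₀ * 1 :=
    Finset.sum_congr rfl fun _ _ => (mul_one _).symm
  rw [h2, ← h]
  exact gh_n_const B hB 1 ls (hls.ghNn le_rfl) _ _

/-- Hoelder under the genuine law -/
theorem tr_nu_holder {B : GhB S} (hB : B.Ok) {ls : List (GhLv S ι)} (hls : GhAdm B 0 ls) (q : ℕ) (τ : ℕ → ℕ → ℕ)
    (z : S → ℝ) (F G : (ℕ → S) → ℝ) (p p' : ℝ) (hpp : p.HolderConjugate p') :
    |trNu B ls q τ z fun σ => F σ * G σ|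
      ≤ (trNu B ls q τ z fun σ => |F σ| ^ p) ^ (1 / p) * (trNu B ls q τ z fun σ => |G σ| ^ p') ^ (1 / p') := by
  classical
  rw [tr_nu_eq_sum hB hls q τ z fun σ => F σ * G σ, tr_nu_eq_sum hB hls q τ z fun σ => |F σ| ^ p,
    tr_nu_eq_sum hB hls q τ z fun σ => |G σ| ^ p']
  set w : (Fin q → S) → ℝ := fun σ₀ => trPr B ls q τ z σ₀ with hw
  have hw0 : ∀ σ₀, 0 ≤ w σ₀ := fun σ₀ => tr_pr_nonneg hB hls q τ z σ₀
  have hp0 : 0 < p := hpp.pos
  have hp0' : 0 < p' := hpp.symm.pos
  have key := Real.inner_le_Lp_mul_Lq (Finset.univ : Finset (Fin q → S))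
    (fun σ₀ => w σ₀ ^ (1 / p) * |F (trExt σ₀)|) (fun σ₀ => w σ₀ ^ (1 / p') * |G (trExt σ₀)|) hpp
  have e1 : ∀ σ₀, abs (w σ₀ ^ (1 / p) * |F (trExt σ₀)|) ^ p = w σ₀ * |F (trExt σ₀)| ^ p := by
    intro σ₀
    rw [abs_of_nonneg (mul_nonneg (Real.rpow_nonneg (hw0 σ₀) _) (abs_nonneg _)),
      Real.mul_rpow (Real.rpow_nonneg (hw0 σ₀) _) (abs_nonneg _), ← Real.rpow_mul (hw0 σ₀),
      one_div, inv_mul_cancel₀ hp0.ne', Real.rpow_one]
  have e2 : ∀ σ₀, abs (w σ₀ ^ (1 / p') * |G (trExt σ₀)|) ^ p' = w σ₀ * |G (trExt σ₀)| ^ p' := by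
    intro σ₀
    rw [abs_of_nonneg (mul_nonneg (Real.rpow_nonneg (hw0 σ₀) _) (abs_nonneg _)),
      Real.mul_rpow (Real.rpow_nonneg (hw0 σ₀) _) (abs_nonneg _), ← Real.rpow_mul (hw0 σ₀),
      one_div, inv_mul_cancel₀ hp0'.ne', Real.rpow_one]
  have e3 : ∀ σ₀, w σ₀ ^ (1 / p) * |F (trExt σ₀)| * (w σ₀ ^ (1 / p') * |G (trExt σ₀)|)
      = w σ₀ * (|F (trExt σ₀)| * |G (trExt σ₀)|) := by
    intro σ₀
    have : w σ₀ ^ (1 / p) * w σ₀ ^ (1 / p') = w σ₀ := by
      rw [← Real.rpow_add' (hw0 σ₀) (by rw [one_div, one_div, hpp.inv_add_inv_eq_one]; exact one_ne_zero),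
        one_div, one_div, hpp.inv_add_inv_eq_one, Real.rpow_one]
    calc _ = (w σ₀ ^ (1 / p) * w σ₀ ^ (1 / p')) * (|F (trExt σ₀)| * |G (trExt σ₀)|) := by ring
      _ = _ := by rw [this]
  simp only [e1, e2, e3] at key
  refine le_trans ?_ key
  refine (Finset.abs_sum_le_sum_abs _ _).trans (Finset.sum_le_sum fun σ₀ _ => ?_)
  rw [abs_mul, abs_mul, abs_of_nonneg (hw0 σ₀)]

/-- only the values of the tree on the leaves matter -/
theorem tr_nu_congr (B : GhB S) (ls : List (GhLv S ι)) {q : ℕ} {τ τ' : ℕ → ℕ → ℕ}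
    (h : ∀ x y, x < q → y < q → τ x y = τ' x y) (z : S → ℝ) (P : (ℕ → S) → ℝ) :
    trNu B ls q τ z P = trNu B ls q τ' z P := by
  unfold trNu
  congr 1
  funext t
  exact tr_e_rep_congr fun a b => by rw [h a.1 b.1 a.2 b.2]

/-- one leaf: the planted conditional mean of `Defs/Gh` -/
theorem tr_nu_one_leaf {B : GhB S} (hB : B.Ok) {ls : List (GhLv S ι)} (hls : GhAdm B 0 ls) (τ : ℕ → ℕ → ℕ) (z : S → ℝ)
    (φ : S → ℝ) : trNu B ls 1 τ z (fun σ => φ (σ 0)) = ghE B ls φ z := by
  unfold trNu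
  have h := tr_b1_one B φ ls (fun t => trRep 1 τ t) (fun _ => z)
  rw [← h]
  congr 1

/-- BRIDGE to `GhTree` (`Defs/Gh`, `Defs/Plc`, `Defs/Clk`) -/
theorem tr_of_isTr {q : ℕ} (T : GhTree q) (N : ℕ) : IsTr N q (trOf T N) := by
  refine ⟨fun x y hx hy => ?_, fun x hx => ?_, fun x y hx hy => ?_, fun x y z hx hy hz => ?_⟩
  · simp only [trOf, hx, hy, and_self, dite_true]
    split_ifs
    · exact le_rfl
    · exact min_le_right _ _
  · simp [trOf, hx]
  · simp only [trOf, hx, hy, and_self, dite_true]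
    by_cases hxy : x = y
    · simp [hxy]
    · rw [if_neg hxy, if_neg (Ne.symm hxy), T.symm]
  · simp only [trOf, hx, hy, hz, and_self, dite_true]
    by_cases hxz : x = z
    · subst hxz
      simp only [if_true]
      split_ifs <;> omega
    · rw [if_neg hxz]
      by_cases hxy : x = y
      · subst hxy
        simp [hxz]
      · by_cases hyz : y = z
        · subst hyz
          simp [hxy]
        · rw [if_neg hxy, if_neg hyz]
          have hu := T.ultra ⟨x, hx⟩ ⟨y, hy⟩ ⟨z, hz⟩ (by simpa [Fin.ext_iff] using hxz)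
          omega

theorem tr_nu_of_ghTree (B : GhB S) (ls : List (GhLv S ι)) {q : ℕ} (T : GhTree q) (z : S → ℝ) (P : (Fin q → S) → ℝ) :
    T.nu B ls z (fun _ σ => P σ) = trNu B ls q (trOf T ls.length) z fun σ => P fun a => σ a.1 := by
  unfold GhTree.nu trNu
  simp only [tr_b1_ext_apply]
  refine tr_b1_rep_congr_nu B ls _ _ (fun t ht => ?_) _ _
  funext a
  have hd : t < trOf T ls.length a.1 a.1 := by
    rw [(tr_of_isTr T ls.length).diag a.1 a.2]; omega
  obtain ⟨h1, h2⟩ := tr_b1_rep_least q (trOf T ls.length) t a hd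
  have hiff : ∀ b : Fin q, t < trOf T ls.length a.1 b.1 ↔ (b = a ∨ t < T.sh a b) := by
    intro b
    simp only [trOf, a.2, b.2, and_self, dite_true]
    by_cases hab : a.1 = b.1
    · have : b = a := Fin.ext hab.symm
      simp [hab, this]; omega
    · have : ¬ b = a := fun h => hab (by rw [h])
      simp only [if_neg hab, this, false_or, Fin.eta]
      omega
  unfold GhTree.rep
  refine le_antisymm (Finset.min'_le _ _ ?_) (Finset.le_min' _ _ _ fun b hb => ?_)
  · simp only [Finset.mem_filter, Finset.mem_univ, true_and]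
    exact (hiff _).1 h1
  · simp only [Finset.mem_filter, Finset.mem_univ, true_and] at hb
    exact h2 b ((hiff b).2 hb)

end

end Claimed.Agent.R286
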