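import Claimed.Agent.R286.Defs.GhBasic

/-!
# Row 286 (S0533), PE Sec. 2: THE LAW KIT of `Defs/Gh.lean`      (helper76; prefix `gh_l_`)      all proved

The numbers `ghPath`, `ghNu` (recursive Gaussian integrals) are integrals against Markov kernels of Mathlib:
* `ghGK B`          the Gibbs kernel  field `↦` law of the spin
* `ghSK B l ls`     the planted step kernel  field `↦` law of the driver of the level `l`
* `ghPK B ls`       **the planted path kernel**  field `↦` law of (drivers, spin) on `GhOm S ι = (ℕ → ι → ℝ) × S`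
* `gh_l_path_eq`    `ghPath B ls z P = ∫ P ∂(ghPK B ls z)`  (measurable + integrable test)
so that Hölder, Jensen, Markov, Doob, ... of Mathlib apply.
-/

set_option autoImplicit false
set_option linter.unusedSectionVars false

namespace Claimed.Agent.R286

open MeasureTheory ProbabilityTheory Filter Topology
open scoped ENNReal

variable {S ι : Type} [Fintype S] [Fintype ι] [MeasurableSpace S] [MeasurableSingletonClass S]

/-- path space: drivers of the successive levels and the terminal spin -/
abbrev GhOm (S ι : Type) : Type := (ℕ → ι → ℝ) × S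

/-- the Gibbs kernel -/
noncomputable def ghGK (B : GhB S) : Kernel (S → ℝ) S :=
  Kernel.withDensity (Kernel.const _ Measure.count) fun z s => ENNReal.ofReal (ghGw B z s)

/-- the planted step kernel -/
noncomputable def ghSK (B : GhB S) (l : GhLv S ι) (ls : List (GhLv S ι)) : Kernel (S → ℝ) (ι → ℝ) :=
  Kernel.withDensity (Kernel.const _ (ghStd ι)) fun z ξ => ENNReal.ofReal (ghD B l ls z ξ)

theorem gh_l_shift_meas (l : GhLv S ι) : Measurable fun p : (S → ℝ) × (ι → ℝ) => p.1 + l.inc p.2 :=
  measurable_fst.add ((gh_b_inc_continuous l).measurable.comp measurable_snd)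

/-- **the planted path kernel** -/
noncomputable def ghPK (B : GhB S) : List (GhLv S ι) → Kernel (S → ℝ) (GhOm S ι)
  | [] => (ghGK B).map fun s => ((fun _ _ => 0 : ℕ → ι → ℝ), s)
  | l :: ls => (ghSK B l ls ⊗ₖ (ghPK B ls).comap (fun p : (S → ℝ) × (ι → ℝ) => p.1 + l.inc p.2) (gh_l_shift_meas l)).map
      fun p => (ghCons p.1 p.2.1, p.2.2)

theorem gh_l_eqns_cite : True := by
  have := @ghGK.eq_1
  have := @ghSK.eq_1
  have := @ghPK.eq_1
  have := @ghPK.eq_2
  have := @ghPK.eq_def
  have := @ghPK.induct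
  trivial

/-! ### measurability -/

theorem gh_l_cons_meas {α : Type} [MeasurableSpace α] : Measurable fun p : α × (ℕ → α) => ghCons p.1 p.2 := by
  refine measurable_pi_iff.2 fun j => ?_
  cases j with
  | zero => exact measurable_fst
  | succ j => exact (measurable_pi_apply j).comp measurable_snd

theorem gh_l_glue_meas : Measurable fun p : (ι → ℝ) × GhOm S ι => ((ghCons p.1 p.2.1, p.2.2) : GhOm S ι) :=
  (gh_l_cons_meas.comp (measurable_fst.prodMk (measurable_fst.comp measurable_snd))).prodMk
    (measurable_snd.comp measurable_snd)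

theorem gh_l_Gw_meas (B : GhB S) : Measurable (Function.uncurry fun (z : S → ℝ) (s : S) => ENNReal.ofReal (ghGw B z s)) := by
  apply Measurable.ennreal_ofReal
  apply measurable_from_prod_countable_left
  intro s
  unfold ghGw
  fun_prop

theorem gh_l_D_cont {B : GhB S} (hB : B.Ok) {ls : List (GhLv S ι)} {l : GhLv S ι} (h : GhNn (l :: ls)) :
    Continuous (Function.uncurry fun (z : S → ℝ) (ξ : ι → ℝ) => ghD B l ls z ξ) := by
  unfold ghD Function.uncurry
  have h1 := gh_b_continuous hB h.tail
  have h2 := gh_b_continuous hB h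
  have h3 := gh_b_inc_continuous l
  fun_prop

theorem gh_l_D_meas {B : GhB S} (hB : B.Ok) {ls : List (GhLv S ι)} {l : GhLv S ι} (h : GhNn (l :: ls)) :
    Measurable (Function.uncurry fun (z : S → ℝ) (ξ : ι → ℝ) => ENNReal.ofReal (ghD B l ls z ξ)) :=
  (gh_l_D_cont hB h).measurable.ennreal_ofReal

/-! ### the kernels are s-finite / Markov -/

instance gh_l_GK_sfin (B : GhB S) : IsSFiniteKernel (ghGK B) :=
  Kernel.IsSFiniteKernel.withDensity _ fun _ _ => ENNReal.ofReal_ne_top

instance gh_l_SK_sfin (B : GhB S) (l : GhLv S ι) (ls : List (GhLv S ι)) : IsSFiniteKernel (ghSK B l ls) :=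
  Kernel.IsSFiniteKernel.withDensity _ fun _ _ => ENNReal.ofReal_ne_top

instance gh_l_PK_sfin (B : GhB S) : ∀ ls : List (GhLv S ι), IsSFiniteKernel (ghPK B ls)
  | [] => by unfold ghPK; infer_instance
  | l :: ls => by
    have := gh_l_PK_sfin B ls
    unfold ghPK; infer_instance

theorem gh_l_GK_apply (B : GhB S) (z : S → ℝ) :
    ghGK B z = Measure.count.withDensity fun s => ENNReal.ofReal (ghGw B z s) := by
  unfold ghGK
  rw [Kernel.withDensity_apply _ (gh_l_Gw_meas B), Kernel.const_apply]

theorem gh_l_SK_apply {B : GhB S} (hB : B.Ok) {ls : List (GhLv S ι)} {l : GhLv S ι} (h : GhNn (l :: ls)) (z : S → ℝ) :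
    ghSK B l ls z = (ghStd ι).withDensity fun ξ => ENNReal.ofReal (ghD B l ls z ξ) := by
  unfold ghSK
  rw [Kernel.withDensity_apply _ (gh_l_D_meas hB h), Kernel.const_apply]

theorem gh_l_GK_integral (B : GhB S) (hB : B.Ok) (z : S → ℝ) (f : S → ℝ) :
    ∫ s, f s ∂(ghGK B z) = ∑ s, ghGw B z s * f s := by
  rw [gh_l_GK_apply, integral_withDensity_eq_integral_toReal_smul (measurable_of_countable _)
    (Eventually.of_forall fun _ => ENNReal.ofReal_lt_top), integral_count]
  refine Finset.sum_congr rfl fun s _ => ?_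
  rw [ENNReal.toReal_ofReal (gh_b_Gw_nonneg hB z s), smul_eq_mul]

theorem gh_l_SK_integral {B : GhB S} (hB : B.Ok) {ls : List (GhLv S ι)} {l : GhLv S ι} (h : GhNn (l :: ls)) (z : S → ℝ)
    (f : (ι → ℝ) → ℝ) : ∫ ξ, f ξ ∂(ghSK B l ls z) = ∫ ξ, ghD B l ls z ξ * f ξ ∂ghStd ι := by
  have hm : Measurable fun ξ => ENNReal.ofReal (ghD B l ls z ξ) := (gh_l_D_meas hB h).comp measurable_prodMk_left
  rw [gh_l_SK_apply hB h, integral_withDensity_eq_integral_toReal_smul hm
    (Eventually.of_forall fun _ => ENNReal.ofReal_lt_top)]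
  refine integral_congr_ae (Eventually.of_forall fun ξ => ?_)
  simp only [smul_eq_mul]
  rw [ENNReal.toReal_ofReal (gh_b_D_pos B l ls z ξ).le]

theorem gh_l_GK_markov {B : GhB S} (hB : B.Ok) : IsMarkovKernel (ghGK B) := by
  refine ⟨fun z => ⟨?_⟩⟩
  rw [gh_l_GK_apply, withDensity_apply _ MeasurableSet.univ, Measure.restrict_univ, lintegral_count, tsum_fintype,
    ← ENNReal.ofReal_sum_of_nonneg fun s _ => gh_b_Gw_nonneg hB z s, gh_b_Gw_sum hB, ENNReal.ofReal_one]

theorem gh_l_SK_markov {B : GhB S} (hB : B.Ok) {ls : List (GhLv S ι)} {l : GhLv S ι} (h : GhNn (l :: ls)) :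
    IsMarkovKernel (ghSK B l ls) := by
  refine ⟨fun z => ⟨?_⟩⟩
  rw [gh_l_SK_apply hB h, withDensity_apply _ MeasurableSet.univ, Measure.restrict_univ,
    ← ofReal_integral_eq_lintegral_ofReal (gh_b_D_integrable hB h.tail l z)
      (Eventually.of_forall fun ξ => (gh_b_D_pos B l ls z ξ).le), gh_b_D_integral hB h.tail, ENNReal.ofReal_one]

theorem gh_l_PK_markov {B : GhB S} (hB : B.Ok) : ∀ {ls : List (GhLv S ι)}, GhNn ls → IsMarkovKernel (ghPK B ls)
  | [], _ => by
    have := gh_l_GK_markov hB
    unfold ghPK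
    exact Kernel.IsMarkovKernel.map _ (by fun_prop)
  | l :: ls, h => by
    have := gh_l_PK_markov hB h.tail
    have := gh_l_SK_markov hB h
    unfold ghPK
    exact Kernel.IsMarkovKernel.map _ gh_l_glue_meas

/-! ### the numbers are integrals -/

/-- **`ghPath` is the integral against the planted path kernel** -/
theorem gh_l_path_eq {B : GhB S} (hB : B.Ok) : ∀ {ls : List (GhLv S ι)}, GhNn ls → ∀ (z : S → ℝ) (P : (ℕ → ι → ℝ) → S → ℝ),
    Measurable (Function.uncurry P) → Integrable (Function.uncurry P) (ghPK B ls z) →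
    ghPath B ls z P = ∫ p, P p.1 p.2 ∂(ghPK B ls z)
  | [], _, z, P, hP, _ => by
    have hm : Measurable fun s : S => ((fun _ _ => 0 : ℕ → ι → ℝ), s) := by fun_prop
    simp only [ghPath, ghPK]
    change _ = ∫ p, Function.uncurry P p ∂_
    rw [Kernel.map_apply _ hm, integral_map hm.aemeasurable hP.aestronglyMeasurable]
    exact (gh_l_GK_integral B hB z _).symm
  | l :: ls, h, z, P, hP, hI => by
    simp only [ghPath, ghPK] at hI ⊢
    change _ = ∫ p, Function.uncurry P p ∂_
    rw [Kernel.map_apply _ gh_l_glue_meas] at hI ⊢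
    rw [integral_map gh_l_glue_meas.aemeasurable hP.aestronglyMeasurable]
    have hI2 := (integrable_map_measure hP.aestronglyMeasurable gh_l_glue_meas.aemeasurable).1 hI
    change _ = ∫ x, (Function.uncurry P ∘ fun p : (ι → ℝ) × GhOm S ι => ((ghCons p.1 p.2.1, p.2.2) : GhOm S ι)) x ∂_
    rw [ProbabilityTheory.integral_compProd hI2]
    have hI3 := ((ProbabilityTheory.integrable_compProd_iff hI2.aestronglyMeasurable).1 hI2).1
    rw [← gh_l_SK_integral hB h]
    refine integral_congr_ae ?_
    filter_upwards [hI3] with ξ hξ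
    rw [Kernel.comap_apply] at hξ ⊢
    refine gh_l_path_eq hB h.tail _ _ ?_ hξ
    exact hP.comp (gh_l_glue_meas.comp measurable_prodMk_left)

end Claimed.Agent.R286
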