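import Claimed.Agent.R286.Fd.EntA
import Claimed.Agent.R286.Gk.Der
import Claimed.Agent.R286.Fd.ObsU

/-!
# Row 286 (S0533), Fd/EntB : ENTROPY PRODUCTION of the planted path      (owner helper278; prefix `obn`)

* `obn_step`   one planted step through the level `l` (mass `m ≥ 0`), any field `z`:
      `m/2 ∑_α E[A_α | z]² ≤ ∫ ghD (F_{next}(z + l.inc ξ) - F(z)) ≤ m/2 ∑_α ∫ ghD E[A_α | z + l.inc ξ]²`
  (`= m⁻¹ Ent(planted transition | Gaussian)`; lower half = Donsker-Varadhan, upper half = Gaussian log-Sobolev; both from `obn_sandwich`)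
* `obn_path`   the same along the planted path of a hierarchy, at the revelation number `k`
* `ob_entropy` (K12) the SK form: `m_k/2 n (Δb_k/2 B_k + Δh_k S_k) ≤ E[F_{k+1}(Z_{k+1}) - F_k(Z_k)] ≤ m_k/2 n (Δb_k/2 B_{k+1} + Δh_k S_{k+1})`
  = `L8Z_Ent` of `L08/SaD13.lean` (LL (D13)); also the input of `fd_mass_lip` (Fd/Contract).
-/

set_option autoImplicit false
set_option linter.unusedSectionVars false

namespace Claimed.Agent.R286

open MeasureTheory ProbabilityTheory Set Filter Topology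

section step

variable {S ι : Type} [Fintype S] [Fintype ι] {B : GhB S}

theorem obn_inc_single [DecidableEq ι] (l : GhLv S ι) (α : ι) : ghrInc l (Pi.single α 1) = fun s => l.A s α := by
  funext s
  rw [ghrInc_apply]
  simp [GhLv.inc, Pi.single_apply]

/-- the weight of the step -/
theorem obn_w_pos (hB : B.Ok) (m : ℝ) (ls : List (GhLv S ι)) : GkPos fun y => Real.exp (m * ghF B ls y) :=
  ((ghr_F hB ls).const_mul m).exp

theorem obn_w_dir (hB : B.Ok) (m : ℝ) (ls : List (GhLv S ι)) (v y : S → ℝ) :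
    ghhD v (fun y => Real.exp (m * ghF B ls y)) y = m * Real.exp (m * ghF B ls y) * ghE B ls v y := by
  have h1 := ((ghd_F_hasFDerivAt (ι := ι) hB ls y).const_mul m).exp
  unfold ghhD
  rw [h1.fderiv]
  simp only [_root_.smul_apply, smul_eq_mul, ghd_fderiv_F hB]
  ring

theorem obn_w_Q (hB : B.Ok) (l : GhLv S ι) (ls : List (GhLv S ι)) (z : S → ℝ) :
    obkQ (ghrInc l) (fun y => Real.exp (l.m * ghF B ls y)) 1 z = Real.exp (l.m * ghF B (l :: ls) z) := by
  have := ghd_exp_mul_T (ghr_F hB ls) (ghr_noise l) l.m z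
  unfold obkQ
  simp only [one_smul, ghrInc_apply]
  exact this.symm

theorem obn_D_eq (B : GhB S) (l : GhLv S ι) (ls : List (GhLv S ι)) (z : S → ℝ) (ξ : ι → ℝ) :
    ghD B l ls z ξ = Real.exp (l.m * ghF B ls (z + l.inc ξ)) / Real.exp (l.m * ghF B (l :: ls) z) := by
  rw [ghD, ← Real.exp_sub]
  congr 1
  ring


/-- a weighted Gaussian average is a planted average -/
theorem obn_Q_tilt (B : GhB S) (l : GhLv S ι) (ls : List (GhLv S ι)) (z : S → ℝ) (Θ : (S → ℝ) → ℝ) :
    obkQ (ghrInc l) (fun y => Real.exp (l.m * ghF B ls y) * Θ y) 1 z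
      = Real.exp (l.m * ghF B (l :: ls) z) * ∫ ξ, ghD B l ls z ξ * Θ (z + l.inc ξ) ∂ghStd ι := by
  unfold obkQ
  rw [← integral_const_mul]
  refine integral_congr_ae (Eventually.of_forall fun ξ => ?_)
  simp only [one_smul, ghrInc_apply, obn_D_eq]
  have := (Real.exp_pos (l.m * ghF B (l :: ls) z)).ne'
  field_simp

/-- **entropy production of one planted step**, positive mass -/
theorem obn_step_pos [DecidableEq ι] (hB : B.Ok) (l : GhLv S ι) (ls : List (GhLv S ι)) (hm : 0 < l.m) (z : S → ℝ) :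
    l.m / 2 * ∑ α, ghE B (l :: ls) (fun s => l.A s α) z ^ 2
        ≤ ∫ ξ, ghD B l ls z ξ * (ghF B ls (z + l.inc ξ) - ghF B (l :: ls) z) ∂ghStd ι ∧
      ∫ ξ, ghD B l ls z ξ * (ghF B ls (z + l.inc ξ) - ghF B (l :: ls) z) ∂ghStd ι
        ≤ l.m / 2 * ∑ α, ∫ ξ, ghD B l ls z ξ * ghE B ls (fun s => l.A s α) (z + l.inc ξ) ^ 2 ∂ghStd ι := by
  have hF := ghr_F (ι := ι) hB ls
  have key := obn_sandwich (ghrInc l) (obn_w_pos hB l.m ls) z
  set W : ℝ := Real.exp (l.m * ghF B (l :: ls) z) with hW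
  have hWp : 0 < W := Real.exp_pos _
  set ψ : ℝ := ∫ ξ, ghD B l ls z ξ * (ghF B ls (z + l.inc ξ) - ghF B (l :: ls) z) ∂ghStd ι with hψ
  have e0 : obkQ (ghrInc l) (fun y => Real.exp (l.m * ghF B ls y)) 1 z = W := obn_w_Q hB l ls z
  have e1 : obkQ (ghrInc l) (fun y => Real.exp (l.m * ghF B ls y) * Real.log (Real.exp (l.m * ghF B ls y))) 1 z
      - W * Real.log W = W * l.m * ψ := by
    simp only [Real.log_exp, hW]
    rw [obn_Q_tilt, ← hW, hψ]
    have i1 : Integrable (fun ξ => ghD B l ls z ξ * ghF B ls (z + l.inc ξ)) (ghStd ι) :=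
      ghd_D_mul_integrable hF (ghr_noise l) l.m hF.ghd_continuous hF.gr z
    have i2 : Integrable (fun ξ => ghD B l ls z ξ * ghF B (l :: ls) z) (ghStd ι) :=
      (ghd_ghD_integrable hB l ls z).mul_const _
    simp only [mul_sub]
    rw [integral_sub i1 i2, integral_mul_const, ghd_ghD_int hB]
    have : ∫ ξ, ghD B l ls z ξ * (l.m * ghF B ls (z + l.inc ξ)) ∂ghStd ι
        = l.m * ∫ ξ, ghD B l ls z ξ * ghF B ls (z + l.inc ξ) ∂ghStd ι := by
      rw [← integral_const_mul]
      exact integral_congr_ae (Eventually.of_forall fun ξ => by ring)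
    rw [this]
    ring
  have e2 : ∀ α, obkQ (ghrInc l) (ghhD (ghrInc l (Pi.single α 1)) fun y => Real.exp (l.m * ghF B ls y)) 1 z
      = W * l.m * ghE B (l :: ls) (fun s => l.A s α) z := fun α => by
    have : (ghhD (ghrInc l (Pi.single α 1)) fun y => Real.exp (l.m * ghF B ls y))
        = fun y => Real.exp (l.m * ghF B ls y) * (l.m * ghE B ls (fun s => l.A s α) y) := by
      funext y
      rw [obn_w_dir hB, obn_inc_single]
      ring
    rw [this, obn_Q_tilt, ← hW, ghE]
    have : ∫ ξ, ghD B l ls z ξ * (l.m * ghE B ls (fun s => l.A s α) (z + l.inc ξ)) ∂ghStd ι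
        = l.m * ∫ ξ, ghD B l ls z ξ * ghE B ls (fun s => l.A s α) (z + l.inc ξ) ∂ghStd ι := by
      rw [← integral_const_mul]
      exact integral_congr_ae (Eventually.of_forall fun ξ => by ring)
    rw [this]
    ring
  have e3 : ∀ α, obkQ (ghrInc l) (fun y => ghhD (ghrInc l (Pi.single α 1)) (fun y => Real.exp (l.m * ghF B ls y)) y ^ 2
        / Real.exp (l.m * ghF B ls y)) 1 z
      = W * l.m ^ 2 * ∫ ξ, ghD B l ls z ξ * ghE B ls (fun s => l.A s α) (z + l.inc ξ) ^ 2 ∂ghStd ι := fun α => by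
    have : (fun y => ghhD (ghrInc l (Pi.single α 1)) (fun y => Real.exp (l.m * ghF B ls y)) y ^ 2
        / Real.exp (l.m * ghF B ls y))
        = fun y => Real.exp (l.m * ghF B ls y) * (l.m ^ 2 * ghE B ls (fun s => l.A s α) y ^ 2) := by
      funext y
      rw [obn_w_dir hB, obn_inc_single]
      have := (Real.exp_pos (l.m * ghF B ls y)).ne'
      field_simp
    rw [this, obn_Q_tilt, ← hW]
    have : ∫ ξ, ghD B l ls z ξ * (l.m ^ 2 * ghE B ls (fun s => l.A s α) (z + l.inc ξ) ^ 2) ∂ghStd ι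
        = l.m ^ 2 * ∫ ξ, ghD B l ls z ξ * ghE B ls (fun s => l.A s α) (z + l.inc ξ) ^ 2 ∂ghStd ι := by
      rw [← integral_const_mul]
      exact integral_congr_ae (Eventually.of_forall fun ξ => by ring)
    rw [this]
    ring
  simp only [e0, e1, e2, e3] at key
  have hWm : 0 < W * l.m := mul_pos hWp hm
  constructor
  · have h1 := key.1
    have e : (1 / 2) * ∑ α, (W * l.m * ghE B (l :: ls) (fun s => l.A s α) z) ^ 2 / W
        = W * l.m * (l.m / 2 * ∑ α, ghE B (l :: ls) (fun s => l.A s α) z ^ 2) := by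
      rw [Finset.mul_sum, Finset.mul_sum, Finset.mul_sum]
      refine Finset.sum_congr rfl fun α _ => ?_
      field_simp
    rw [e] at h1
    exact le_of_mul_le_mul_left h1 hWm
  · have h1 := key.2
    have e : (1 / 2) * ∑ α, W * l.m ^ 2 * ∫ ξ, ghD B l ls z ξ * ghE B ls (fun s => l.A s α) (z + l.inc ξ) ^ 2 ∂ghStd ι
        = W * l.m * (l.m / 2 * ∑ α, ∫ ξ, ghD B l ls z ξ * ghE B ls (fun s => l.A s α) (z + l.inc ξ) ^ 2 ∂ghStd ι) := by
      rw [Finset.mul_sum, Finset.mul_sum, Finset.mul_sum]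
      refine Finset.sum_congr rfl fun α _ => ?_
      ring
    rw [e] at h1
    exact le_of_mul_le_mul_left h1 hWm


/-- the entropy production of the step through `l`, as a function of the field -/
noncomputable def obnPsi (B : GhB S) (l : GhLv S ι) (ls : List (GhLv S ι)) (z : S → ℝ) : ℝ :=
  ∫ ξ, ghD B l ls z ξ * (ghF B ls (z + l.inc ξ) - ghF B (l :: ls) z) ∂ghStd ι

/-- the squared gradient of the continuation `ls` in the metric of the level `l` -/
noncomputable def obnGr (B : GhB S) (l : GhLv S ι) (ls : List (GhLv S ι)) (z : S → ℝ) : ℝ :=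
  ∑ α, ghE B ls (fun s => l.A s α) z ^ 2

theorem obn_psi_eqns_cite : True := by
  have := @obnPsi.eq_1
  have := @obnGr.eq_1
  trivial

theorem obn_psi_eq (hB : B.Ok) (l : GhLv S ι) (ls : List (GhLv S ι)) (z : S → ℝ) :
    obnPsi B l ls z = (∫ ξ, ghD B l ls z ξ * ghF B ls (z + l.inc ξ) ∂ghStd ι) - ghF B (l :: ls) z := by
  have hF := ghr_F (ι := ι) hB ls
  have i1 : Integrable (fun ξ => ghD B l ls z ξ * ghF B ls (z + l.inc ξ)) (ghStd ι) :=
    ghd_D_mul_integrable hF (ghr_noise l) l.m hF.ghd_continuous hF.gr z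
  have i2 : Integrable (fun ξ => ghD B l ls z ξ * ghF B (l :: ls) z) (ghStd ι) :=
    (ghd_ghD_integrable hB l ls z).mul_const _
  unfold obnPsi
  simp only [mul_sub]
  rw [integral_sub i1 i2, integral_mul_const, ghd_ghD_int hB, one_mul]

theorem obn_psi_cont (hB : B.Ok) (l : GhLv S ι) (ls : List (GhLv S ι)) : Continuous (obnPsi B l ls) := by
  have hF := ghr_F (ι := ι) hB ls
  have h1 : Continuous fun z => ∫ ξ, ghD B l ls z ξ * ghF B ls (z + l.inc ξ) ∂ghStd ι :=
    ghd_Br_continuous hF (ghr_noise l) l.m hF.ghd_continuous hF.gr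
  have : obnPsi B l ls = fun z => (∫ ξ, ghD B l ls z ξ * ghF B ls (z + l.inc ξ) ∂ghStd ι) - ghF B (l :: ls) z :=
    funext fun z => obn_psi_eq hB l ls z
  rw [this]
  exact h1.sub (ghr_F hB (l :: ls)).ghd_continuous

theorem obn_gr_bc (hB : B.Ok) (l : GhLv S ι) {ls : List (GhLv S ι)} (hls : GhNn ls) : ObuBC (obnGr B l ls) :=
  ObuBC.sum _ fun _ _ => ObuBC.sq ⟨_, gh_b_E_bc' hB _ hls⟩

/-- **entropy production of one planted step** (`0 ≤ m`) -/
theorem obn_step (hB : B.Ok) (l : GhLv S ι) (ls : List (GhLv S ι)) (hm : 0 ≤ l.m) (z : S → ℝ) :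
    l.m / 2 * obnGr B l (l :: ls) z ≤ obnPsi B l ls z ∧ obnPsi B l ls z ≤ l.m / 2 * ghA B l ls (obnGr B l ls) z := by
  classical
  rcases hm.eq_or_lt with h0 | hpos
  · have hF := ghr_F (ι := ι) hB ls
    have e : obnPsi B l ls z = 0 := by
      rw [obn_psi_eq hB]
      have e1 : ∀ ξ, ghD B l ls z ξ = 1 := fun ξ => by simp [ghD, ← h0]
      simp only [e1, one_mul, ghF, ghT, ← h0, if_true, sub_self]
    rw [e, ← h0]
    simp
  · have key := obn_step_pos hB l ls hpos z
    refine ⟨key.1, key.2.trans (le_of_eq ?_)⟩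
    congr 1
    unfold ghA obnGr
    simp only [Finset.mul_sum]
    rw [integral_finsetSum]
    intro α _
    have hF := ghr_F (ι := ι) hB ls
    have hE := ghd_E_reg (ι := ι) hB ls (fun s => l.A s α)
    obtain ⟨M, hM⟩ : ∃ M, ∀ y, |ghE B ls (fun s => l.A s α) y| ≤ M :=
      ⟨_, fun y => gh_ra_E_bdd hB ls _ y⟩
    refine ghd_D_mul_integrable hF (ghr_noise l) l.m (Θ := fun y => ghE B ls (fun s => l.A s α) y ^ 2)
      (hE.ghd_continuous.pow 2) (ghd_gr_of_bdd (C := M ^ 2) fun y => ?_) z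
    rw [Real.norm_eq_abs, abs_pow]
    exact pow_le_pow_left₀ (abs_nonneg _) (hM y) 2

end step

section path
variable {S ι : Type} [Fintype S] [Fintype ι] {B : GhB S}

/-- a test of the field at the cut `k` and of the driver number `k` -/
theorem obn_path_step (hB : B.Ok) {ls : List (GhLv S ι)} (hls : GhNn ls) (z : S → ℝ) (k : ℕ)
    (Θ : (S → ℝ) → (ι → ℝ) → ℝ) (l : GhLv S ι) (ls' : List (GhLv S ι)) (hd : ls.drop k = l :: ls') :
    ghPath B ls z (fun ξ _ => Θ (z + ghPre ls ξ k) (ξ k))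
      = obuIt B ls k (fun y => ∫ x, ghD B l ls' y x * Θ y x ∂ghStd ι) z := by
  induction ls generalizing z k with
  | nil => simp at hd
  | cons l0 ls0 ih =>
    cases k with
    | zero =>
      simp only [List.drop_zero, List.cons.injEq] at hd
      obtain ⟨rfl, rfl⟩ := hd
      simp only [ghPath, obuIt, obu_pre_zero, add_zero]
      refine integral_congr_ae (Eventually.of_forall fun x => ?_)
      simp only [ghCons]
      rw [obu_path_const hB hls.tail]
    | succ k =>
      simp only [List.drop_succ_cons] at hd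
      simp only [ghPath, obuIt, ghA]
      refine integral_congr_ae (Eventually.of_forall fun x => ?_)
      simp only [obu_pre_cons, ← add_assoc, ghCons]
      rw [ih hls.tail _ k hd]

/-- one more planted average at the end -/
theorem obn_it_succ (B : GhB S) (ls : List (GhLv S ι)) (z : S → ℝ) (k : ℕ) (φ : (S → ℝ) → ℝ)
    (l : GhLv S ι) (ls' : List (GhLv S ι)) (hd : ls.drop k = l :: ls') :
    obuIt B ls (k + 1) φ z = obuIt B ls k (ghA B l ls' φ) z := by
  induction ls generalizing z k with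
  | nil => simp at hd
  | cons l0 ls0 ih =>
    cases k with
    | zero =>
      simp only [List.drop_zero, List.cons.injEq] at hd
      obtain ⟨rfl, rfl⟩ := hd
      simp only [obuIt]
      congr 1
      funext y
      exact obu_it_zero B _ φ y
    | succ k =>
      simp only [List.drop_succ_cons] at hd
      simp only [obuIt]
      congr 1
      funext y
      exact ih y k hd

theorem obn_it_mono (hB : B.Ok) {ls : List (GhLv S ι)} (hls : GhNn ls) (j : ℕ) {φ ψ : (S → ℝ) → ℝ}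
    (hφ : ObuBC φ) (hψ : ObuBC ψ) (h : ∀ y, φ y ≤ ψ y) (z : S → ℝ) : obuIt B ls j φ z ≤ obuIt B ls j ψ z := by
  obtain ⟨M, hM⟩ := hφ
  obtain ⟨M', hM'⟩ := hψ
  induction ls generalizing j z with
  | nil => exact h z
  | cons l ls ih =>
    cases j with
    | zero => exact h z
    | succ j =>
      simp only [obuIt]
      exact gh_b_A_mono hB hls (obu_it_bc hB hls.tail j hM) (obu_it_bc hB hls.tail j hM') (fun y => ih hls.tail j y) z

theorem obn_pre_succ (ls : List (GhLv S ι)) (ξ : ℕ → ι → ℝ) (k : ℕ) (l : GhLv S ι) (ls' : List (GhLv S ι))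
    (hd : ls.drop k = l :: ls') : ghPre ls ξ (k + 1) = ghPre ls ξ k + l.inc (ξ k) := by
  induction ls generalizing ξ k with
  | nil => simp at hd
  | cons l0 ls0 ih =>
    have e : ∀ j, ghPre (l0 :: ls0) ξ (j + 1) = l0.inc (ξ 0) + ghPre ls0 (fun i => ξ (i + 1)) j := fun j => by
      simp [ghPre, ghSum]
    cases k with
    | zero =>
      simp only [List.drop_zero, List.cons.injEq] at hd
      obtain ⟨rfl, rfl⟩ := hd
      rw [e, obu_pre_zero, obu_pre_zero]
      simp
    | succ k =>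
      simp only [List.drop_succ_cons] at hd
      rw [e, e, ih _ k hd, add_assoc]


theorem obn_gr_nonneg (B : GhB S) (l : GhLv S ι) (ls : List (GhLv S ι)) (z : S → ℝ) : 0 ≤ obnGr B l ls z :=
  Finset.sum_nonneg fun _ _ => sq_nonneg _

theorem obn_psi_bc (hB : B.Ok) {l : GhLv S ι} {ls : List (GhLv S ι)} (hls : GhNn (l :: ls)) : ObuBC (obnPsi B l ls) := by
  obtain ⟨M, hM⟩ := obn_gr_bc hB l hls.tail
  refine ⟨l.m / 2 * M, obn_psi_cont hB l ls, fun z => ?_⟩
  have h := obn_step hB l ls hls.head z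
  have hm := hls.head
  have h1 : 0 ≤ obnPsi B l ls z := le_trans (mul_nonneg (by linarith) (obn_gr_nonneg B l _ z)) h.1
  rw [abs_of_nonneg h1]
  refine h.2.trans (mul_le_mul_of_nonneg_left ?_ (by linarith))
  exact (le_abs_self _).trans ((gh_b_A_bc hB hls hM).le z)

/-- **entropy production along the planted path**, at the revelation number `k` (`ls.drop k = l :: ls'`) -/
theorem obn_path (hB : B.Ok) {ls : List (GhLv S ι)} (hls : GhNn ls) (z : S → ℝ) (k : ℕ)
    (l : GhLv S ι) (ls' : List (GhLv S ι)) (hd : ls.drop k = l :: ls') :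
    l.m / 2 * ghPath B ls z (fun ξ _ => obnGr B l (l :: ls') (z + ghPre ls ξ k))
        ≤ ghPath B ls z (fun ξ _ => ghF B ls' (z + ghPre ls ξ (k + 1)) - ghF B (l :: ls') (z + ghPre ls ξ k)) ∧
      ghPath B ls z (fun ξ _ => ghF B ls' (z + ghPre ls ξ (k + 1)) - ghF B (l :: ls') (z + ghPre ls ξ k))
        ≤ l.m / 2 * ghPath B ls z (fun ξ _ => obnGr B l ls' (z + ghPre ls ξ (k + 1))) := by
  have hl : GhNn (l :: ls') := fun x hx => hls x (List.mem_of_mem_drop (hd ▸ hx))
  have e1 : ghPath B ls z (fun ξ _ => ghF B ls' (z + ghPre ls ξ (k + 1)) - ghF B (l :: ls') (z + ghPre ls ξ k))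
      = obuIt B ls k (obnPsi B l ls') z := by
    have := obn_path_step hB hls z k (fun y x => ghF B ls' (y + l.inc x) - ghF B (l :: ls') y) l ls' hd
    simp only [add_assoc, ← obn_pre_succ ls _ k l ls' hd] at this
    exact this
  have e0 : l.m / 2 * ghPath B ls z (fun ξ _ => obnGr B l (l :: ls') (z + ghPre ls ξ k))
      = obuIt B ls k (fun y => l.m / 2 * obnGr B l (l :: ls') y) z := by
    rw [obu_path_field hB hls z k (obnGr B l (l :: ls')), obu_it_const_mul]
  have e2 : l.m / 2 * ghPath B ls z (fun ξ _ => obnGr B l ls' (z + ghPre ls ξ (k + 1)))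
      = obuIt B ls k (fun y => l.m / 2 * ghA B l ls' (obnGr B l ls') y) z := by
    rw [obu_path_field hB hls z (k + 1) (obnGr B l ls'), obn_it_succ B ls z k _ l ls' hd, obu_it_const_mul]
  have b0 : ObuBC (fun y => l.m / 2 * obnGr B l (l :: ls') y) := (obn_gr_bc hB l hl).const_mul _
  have b2 : ObuBC (fun y => l.m / 2 * ghA B l ls' (obnGr B l ls') y) := by
    obtain ⟨M, hM⟩ := obn_gr_bc hB l hl.tail
    exact ObuBC.const_mul ⟨M, gh_b_A_bc hB hl hM⟩ _
  rw [e0, e1, e2]
  exact ⟨obn_it_mono hB hls k b0 (obn_psi_bc hB hl) (fun y => (obn_step hB l ls' hl.head y).1) z,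
    obn_it_mono hB hls k (obn_psi_bc hB hl) b2 (fun y => (obn_step hB l ls' hl.head y).2) z⟩

end path

section sk
variable {n : ℕ}

/-- the squared gradient in the metric of one SK revelation -/
theorem obn_gr_sk (hn : 0 < n) (a : ℝ) (e : SkInc) (hb : 0 ≤ e.db) (hh : 0 ≤ e.dh) (Q : SkStp) (y : SkCfg n → ℝ) :
    obnGr (skBase n a) (e.lv n) (skLvs n Q) y
      = n * (e.db / 2 * ∑ i, ∑ k, obM n a Q y i k ^ 2 + e.dh * ∑ i, obX n a Q y i ^ 2) := by
  have hn' : (0 : ℝ) < n := by exact_mod_cast hn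
  have hs : Real.sqrt n * Real.sqrt n = n := Real.mul_self_sqrt hn'.le
  have hs0 : Real.sqrt n ≠ 0 := (Real.sqrt_pos.2 hn').ne'
  have h2 : Real.sqrt (2 * n) * Real.sqrt (2 * n) = 2 * n := Real.mul_self_sqrt (by positivity)
  have h20 : Real.sqrt (2 * n) ≠ 0 := (Real.sqrt_pos.2 (by positivity)).ne'
  have eb : ∀ p : Fin n × Fin n, (fun σ : SkCfg n => (e.lv n).A σ (Sum.inl p))
      = fun σ => (Real.sqrt e.db * (n / Real.sqrt (2 * n))) * (skY σ p.1 * skY σ p.2) := fun p => by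
    funext σ
    simp only [SkInc.lv, ghLvF, skPhi, Sum.elim_inl, skY]
    rw [div_mul_div_comm, hs]
    field_simp
  have eh : ∀ i : Fin n, (fun σ : SkCfg n => (e.lv n).A σ (Sum.inr i))
      = fun σ => (Real.sqrt e.dh * Real.sqrt n) * obY i σ := fun i => by
    funext σ
    simp only [SkInc.lv, ghLvF, skPhi, Sum.elim_inr, obY, skY]
    field_simp
  unfold obnGr
  rw [Fintype.sum_sum_type, Fintype.sum_prod_type]
  simp only [eb, eh, gh_b_E_const_mul, mul_pow]
  have c1 : Real.sqrt e.db ^ 2 * (n / Real.sqrt (2 * n)) ^ 2 = n * (e.db / 2) := by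
    rw [Real.sq_sqrt hb, div_pow, pow_two (Real.sqrt (2 * n)), h2]
    field_simp
  have c2 : Real.sqrt e.dh ^ 2 * Real.sqrt n ^ 2 = n * e.dh := by
    rw [Real.sq_sqrt hh, Real.sq_sqrt hn'.le]; ring
  simp only [c1, c2, obM, obX]
  simp only [← Finset.mul_sum]
  ring


/-- the path average of the squared gradient at the cut `j` -/
theorem obn_gr_path (hn : 0 < n) {a : ℝ} (ha : 0 < a) (P : SkStp) (hP : SkAdm a P) (z₀ : SkCfg n → ℝ) (e : SkInc)
    (hb : 0 ≤ e.db) (hh : 0 ≤ e.dh) (j : ℕ) :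
    ghPath (skBase n a) (skLvs n P) z₀ (fun ξ _ => obnGr (skBase n a) (e.lv n) (skLvs n (P.drop j)) (z₀ + ghPre (skLvs n P) ξ j))
      = n * (e.db / 2 * obB n a P z₀ j + e.dh * obS n a P z₀ j) := by
  have hB := obu_base_ok n ha
  have hls := obu_lvs_nn n hP
  have hd : GhNn (skLvs n (P.drop j)) := obu_lvs_nn n (obu_adm_drop hP j)
  set Q := P.drop j with hQ
  let φB : (SkCfg n → ℝ) → ℝ := fun y => ∑ i, ∑ k, obM n a Q y i k ^ 2
  let φS : (SkCfg n → ℝ) → ℝ := fun y => ∑ i, obX n a Q y i ^ 2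
  have hX : ∀ i, ObuBC (fun y => obX n a Q y i) := fun i => ⟨_, gh_b_E_bc' hB (obY i) hd⟩
  have hM : ∀ i k, ObuBC (fun y => obM n a Q y i k) := fun i k => ⟨_, gh_b_E_bc' hB _ hd⟩
  have bB : ObuBC φB := ObuBC.sum _ fun i _ => ObuBC.sum _ fun k _ => (hM i k).sq
  have bS : ObuBC φS := ObuBC.sum _ fun i _ => (hX i).sq
  have pB : obB n a P z₀ j = obuIt (skBase n a) (skLvs n P) j φB z₀ := obu_path_field hB hls z₀ j φB
  have pS : obS n a P z₀ j = obuIt (skBase n a) (skLvs n P) j φS z₀ := obu_path_field hB hls z₀ j φS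
  have e1 : obnGr (skBase n a) (e.lv n) (skLvs n Q) = fun y => n * (e.db / 2 * φB y + e.dh * φS y) :=
    funext fun y => obn_gr_sk hn a e hb hh Q y
  rw [obu_path_field hB hls z₀ j, e1, obu_it_const_mul, obu_it_add' hB hls j (bB.const_mul _) (bS.const_mul _),
    obu_it_const_mul, obu_it_const_mul, pB, pS]

/-- **K12: entropy production along the planted SK path** (any root field).   `m_k/2 n (Δb_k/2 B + Δh_k S)` at the cut before / after the
revelation number `k` bound `E[F_{k+1}(Z_{k+1}) - F_k(Z_k)]` from below / above. -/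
theorem ob_entropy (hn : 0 < n) {a : ℝ} (ha : 0 < a) (P : SkStp) (hP : SkAdm a P) (z₀ : SkCfg n → ℝ) (k : ℕ)
    (hk : k < P.length) :
    skMs a P k / 2 * n * ((P.map SkInc.db).getD k 0 / 2 * obB n a P z₀ k + (P.map SkInc.dh).getD k 0 * obS n a P z₀ k)
        ≤ obE n a P z₀ (fun ξ _ => skF n a (P.drop (k + 1)) (obFld n P z₀ ξ (k + 1)) - skF n a (P.drop k) (obFld n P z₀ ξ k)) ∧
      obE n a P z₀ (fun ξ _ => skF n a (P.drop (k + 1)) (obFld n P z₀ ξ (k + 1)) - skF n a (P.drop k) (obFld n P z₀ ξ k))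
        ≤ skMs a P k / 2 * n * ((P.map SkInc.db).getD k 0 / 2 * obB n a P z₀ (k + 1)
            + (P.map SkInc.dh).getD k 0 * obS n a P z₀ (k + 1)) := by
  have hB := obu_base_ok n ha
  have hls := obu_lvs_nn n hP
  set e := P[k] with he
  have hdP : P.drop k = e :: P.drop (k + 1) := List.drop_eq_getElem_cons hk
  have hd : (skLvs n P).drop k = e.lv n :: skLvs n (P.drop (k + 1)) := by
    rw [← obu_lvs_drop, hdP]; rfl
  have hmem : e ∈ P := List.getElem_mem hk
  obtain ⟨-, -, hb, hh⟩ := hP.2 e hmem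
  have em : skMs a P k = e.m := by
    unfold skMs
    rw [List.getD_eq_getElem _ _ (by simpa using hk)]
    simp [he]
  have eb : (P.map SkInc.db).getD k 0 = e.db := by
    rw [List.getD_eq_getElem _ _ (by simpa using hk)]
    simp [he]
  have eh : (P.map SkInc.dh).getD k 0 = e.dh := by
    rw [List.getD_eq_getElem _ _ (by simpa using hk)]
    simp [he]
  have key := obn_path hB hls z₀ k (e.lv n) (skLvs n (P.drop (k + 1))) hd
  have g0 := obn_gr_path hn ha P hP z₀ e hb hh k
  have g1 := obn_gr_path hn ha P hP z₀ e hb hh (k + 1)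
  rw [hdP] at g0
  have g0' : ghPath (skBase n a) (skLvs n P) z₀ (fun ξ _ => obnGr (skBase n a) (e.lv n) (e.lv n :: skLvs n (P.drop (k + 1)))
      (z₀ + ghPre (skLvs n P) ξ k)) = n * (e.db / 2 * obB n a P z₀ k + e.dh * obS n a P z₀ k) := g0
  rw [g0', g1] at key
  have emid : obE n a P z₀ (fun ξ _ => skF n a (P.drop (k + 1)) (obFld n P z₀ ξ (k + 1)) - skF n a (P.drop k) (obFld n P z₀ ξ k))
      = ghPath (skBase n a) (skLvs n P) z₀ (fun ξ _ => ghF (skBase n a) (skLvs n (P.drop (k + 1))) (z₀ + ghPre (skLvs n P) ξ (k + 1))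
          - ghF (skBase n a) (e.lv n :: skLvs n (P.drop (k + 1))) (z₀ + ghPre (skLvs n P) ξ k)) := by
    rw [hdP]; rfl
  rw [emid, em, eb, eh]
  have elm : (e.lv n).m = e.m := rfl
  rw [elm] at key
  constructor
  · calc _ = e.m / 2 * (n * (e.db / 2 * obB n a P z₀ k + e.dh * obS n a P z₀ k)) := by ring
      _ ≤ _ := key.1
  · calc _ ≤ e.m / 2 * (n * (e.db / 2 * obB n a P z₀ (k + 1) + e.dh * obS n a P z₀ (k + 1))) := key.2
      _ = _ := by ring

end sk

end Claimed.Agent.R286
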