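import Claimed.Agent.R286.Fd.Obs
import Claimed.Agent.R286.Fd.ObsTw
import Claimed.Agent.R286.Defs.GhDeriv

/-!
# Row 286 (S0533), Fd/ObsG : the GENERIC part G1-G8 of PE Lemma 2.1 (any `GhB`, any levels)      (owner helper278; proofs: 71, 147)      0 sorry

Lower layer of `Fd/ObsC.lean`: the provers of the SK contracts K* import THIS file (never `Fd/ObsC`, which imports their files).
-/

set_option autoImplicit false

namespace Claimed.Agent.R286

open MeasureTheory ProbabilityTheory Set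

section generic
variable {S ι : Type} [Fintype S] [Fintype ι]

/-- G1 (Lemma 2.1): the gradient of a continuation in the direction `v` is the planted conditional mean of `v` -/
theorem ob_g_grad (B : GhB S) (hB : B.Ok) (ls : List (GhLv S ι)) (hls : GhAdm B 0 ls) (v z : S → ℝ) :
    HasDerivAt (fun t : ℝ => ghF B ls (z + t • v)) (ghE B ls v z) 0 := by
  exact gh_v_grad hB v (hls.ghNn le_rfl) z

/-- G2 (Lemma 2.1): the Hessian is the mass-weighted sum of the remaining martingale covariance increments -/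
theorem ob_g_hess (B : GhB S) (hB : B.Ok) (ls : List (GhLv S ι)) (hls : GhAdm B 0 ls) (v w z : S → ℝ) :
    HasDerivAt (fun t : ℝ => ghE B ls v (z + t • w)) (ghH B ls v w z) 0 := by
  exact gh_v_hess hB v w (hls.ghNn le_rfl) z

/-- G3 (Lemma 2.1): `u C ≼ H` seen from a cut of mass `u` -/
theorem ob_g_hess_lower (B : GhB S) (hB : B.Ok) {u : ℝ} (hu : 0 ≤ u) (ls : List (GhLv S ι)) (hls : GhAdm B u ls)
    (hua : u ≤ B.a) (v z : S → ℝ) : u * ghC B ls v v z ≤ ghH B ls v v z := by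
  exact gh_b_le_H hB v hua (hls.ghNn hu) (fun l hl => (hls.2 l hl).1) z

/-- G4 (Lemma 2.1): `H ≼ a C` -/
theorem ob_g_hess_upper (B : GhB S) (hB : B.Ok) (ls : List (GhLv S ι)) (hls : GhAdm B 0 ls) (v z : S → ℝ) :
    ghH B ls v v z ≤ B.a * ghC B ls v v z := by
  exact gh_b_H_le hB v (hls.ghNn le_rfl) (fun l hl => (hls.2 l hl).2) z

/-- G5: `C ≽ 0` -/
theorem ob_g_cov_nonneg (B : GhB S) (hB : B.Ok) (ls : List (GhLv S ι)) (hls : GhAdm B 0 ls) (v z : S → ℝ) :
    0 ≤ ghC B ls v v z := by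
  exact gh_b_C_nonneg hB v (hls.ghNn le_rfl) z

/-- G6: `H` is a symmetric bilinear form: Cauchy-Schwarz (= positivity of the block Hessian in the proof of Lemma 2.3) -/
theorem ob_g_hess_cs (B : GhB S) (hB : B.Ok) (ls : List (GhLv S ι)) (hls : GhAdm B 0 ls) (v w z : S → ℝ) :
    ghH B ls v w z ^ 2 ≤ ghH B ls v v z * ghH B ls w w z := by
  exact gh_v_H_cs hB v w (hls.ghNn le_rfl) z

theorem ob_g_hess_symm (B : GhB S) (ls : List (GhLv S ι)) (v w z : S → ℝ) :
    ghH B ls v w z = ghH B ls w v z := by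
  exact gh_v_H_symm B v w ls z

theorem ob_g_hess_add (B : GhB S) (hB : B.Ok) (ls : List (GhLv S ι)) (hls : GhAdm B 0 ls) (v v' w z : S → ℝ) :
    ghH B ls (v + v') w z = ghH B ls v w z + ghH B ls v' w z := by
  exact gh_v_H_add hB v v' w (hls.ghNn le_rfl) z

theorem ob_g_hess_smul (B : GhB S) (ls : List (GhLv S ι)) (c : ℝ) (v w z : S → ℝ) :
    ghH B ls (c • v) w z = c * ghH B ls v w z := by
  exact gh_v_H_smul B c v w ls z

/-- G7: tower property on one path: a test of the drivers `< j` times a spin observable -/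
theorem ob_g_tower (B : GhB S) (hB : B.Ok) (ls : List (GhLv S ι)) (hls : GhAdm B 0 ls) (z : S → ℝ) (j : ℕ)
    (g : (ℕ → ι → ℝ) → ℝ) (hg : Measurable g) (hgb : ∃ K, ∀ ξ, |g ξ| ≤ K)
    (hloc : ∀ ξ ξ' : ℕ → ι → ℝ, (∀ t, t < j → ξ t = ξ' t) → g ξ = g ξ') (Φ : S → ℝ) :
    ghPath B ls z (fun ξ s => g ξ * Φ s)
      = ghPath B ls z (fun ξ _ => g ξ * ghE B (ls.drop j) Φ (z + ghPre ls ξ j)) := by
  exact obt_g_tower B hB ls hls z j g hg hgb hloc Φ

/-- G8: two labels which share exactly the first `j` revelations are conditionally independent continuations -/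
theorem ob_g_two (B : GhB S) (hB : B.Ok) (ls : List (GhLv S ι)) (hls : GhAdm B 0 ls) (z : S → ℝ) (j : ℕ)
    (hj : j ≤ ls.length) (Φ Ψ : S → ℝ) :
    (obT2 j).nu B ls z (fun _ σ => Φ (σ 0) * Ψ (σ 1))
      = ghPath B ls z (fun ξ _ => ghE B (ls.drop j) Φ (z + ghPre ls ξ j) * ghE B (ls.drop j) Ψ (z + ghPre ls ξ j)) := by
  exact obt_g_two B hB ls hls z j hj Φ Ψ

end generic

end Claimed.Agent.R286
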