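import Claimed.Agent.R286.Fd.ClkHeat
import Claimed.Agent.R286.Ana.Tilt

/-!
# Row 286 (S0533), Fd/ClkRat : the clock identity for a ratio of two heat solutions      (owner helper79; prefix `obk`)

`u, w : E → ℝ` of the class `SkaG 2` (251, Ana/Cls), `w > 0`.      `U = obkQ A u`, `W = obkQ A w`, `X = obkX A u w = U / W`, bounded with bounded `∂_α X`.
* `obk_line`    `d/dt obkQ A v r (y + t a) = obkQ A (∂_a v) r y`;      `obk_time`  `d/dr obkQ A v r y = r ∑_α obkQ A (∂_α∂_α v) r y`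
* `obk_dX`      `d/dt X r (y + t a) = obkDX A u w a r y`;      `obk_X_le`, `obk_DX_le` bounds from `|u|, |∂_a u|, |∂_a w| ≤ M w`
* `obk_rat`     **`d/ds obkQ A (U²/W at √(1-s)) √s z = obkQ A (W ∑_α (∂_α X)²  at √(1-t)) √t z`** within `[0,1]`
* `obk_rat_X`   the same with `X`, `X1 α = ∂_α X` supplied by the user (`U = W X`): EXIT for the glue of helper47 (Fd/ObsK7*)
-/

set_option autoImplicit false
set_option linter.unusedSectionVars false

namespace Claimed.Agent.R286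

open MeasureTheory ProbabilityTheory Set Filter Topology

section alg

theorem obk_calc_dx {U W : ℝ → ℝ} {u1 w1 x : ℝ} (hU : HasDerivAt U u1 x) (hW : HasDerivAt W w1 x) (h0 : W x ≠ 0) :
    HasDerivAt (fun t => U t / W t) ((u1 - U x / W x * w1) / W x) x := by
  have h := hU.fun_div hW h0
  have e : (u1 * W x - U x * w1) / W x ^ 2 = (u1 - U x / W x * w1) / W x := by
    field_simp
  rw [e] at h
  exact h

theorem obk_calc_d1 {U W : ℝ → ℝ} {u1 w1 x : ℝ} (hU : HasDerivAt U u1 x) (hW : HasDerivAt W w1 x) (h0 : W x ≠ 0) :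
    HasDerivAt (fun t => U t ^ 2 / W t) (2 * (U x / W x) * u1 - (U x / W x) ^ 2 * w1) x := by
  have h := (hU.fun_pow 2).fun_div hW h0
  have e : ((2 : ℕ) * U x ^ (2 - 1) * u1 * W x - U x ^ 2 * w1) / W x ^ 2 = 2 * (U x / W x) * u1 - (U x / W x) ^ 2 * w1 := by
    field_simp
    norm_num
    ring
  rw [e] at h
  exact h

theorem obk_calc_d2 {U W U1 W1 : ℝ → ℝ} {u2 w2 : ℝ} (hU : HasDerivAt U (U1 0) 0) (hW : HasDerivAt W (W1 0) 0)
    (hU1 : HasDerivAt U1 u2 0) (hW1 : HasDerivAt W1 w2 0) (h0 : W 0 ≠ 0) :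
    HasDerivAt (fun t => 2 * (U t / W t) * U1 t - (U t / W t) ^ 2 * W1 t)
      (2 * W 0 * ((U1 0 - U 0 / W 0 * W1 0) / W 0) ^ 2 + 2 * (U 0 / W 0) * u2 - (U 0 / W 0) ^ 2 * w2) 0 := by
  have hX := obk_calc_dx hU hW h0
  have h := ((hX.const_mul 2).fun_mul hU1).fun_sub ((hX.fun_pow 2).fun_mul hW1)
  have e : 2 * ((U1 0 - U 0 / W 0 * W1 0) / W 0) * U1 0 + 2 * (U 0 / W 0) * u2
      - ((2 : ℕ) * (U 0 / W 0) ^ (2 - 1) * ((U1 0 - U 0 / W 0 * W1 0) / W 0) * W1 0 + (U 0 / W 0) ^ 2 * w2)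
      = 2 * W 0 * ((U1 0 - U 0 / W 0 * W1 0) / W 0) ^ 2 + 2 * (U 0 / W 0) * u2 - (U 0 / W 0) ^ 2 * w2 := by
    have hD : U1 0 - U 0 / W 0 * W1 0 = W 0 * ((U1 0 - U 0 / W 0 * W1 0) / W 0) := by field_simp
    generalize (U1 0 - U 0 / W 0 * W1 0) / W 0 = D at hD ⊢
    generalize U 0 / W 0 = X at hD ⊢
    norm_num
    linear_combination (2 * D) * hD
  rw [e] at h
  exact h

end alg

section rat

variable {E : Type} [NormedAddCommGroup E] [NormedSpace ℝ E] {ι : Type} [Fintype ι]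

/-- directional derivative -/
noncomputable def obkD (a : E) (u : E → ℝ) : E → ℝ := fun y => fderiv ℝ u y a

/-- the ratio of two heat solutions -/
noncomputable def obkX (A : (ι → ℝ) →L[ℝ] E) (u w : E → ℝ) (r : ℝ) (y : E) : ℝ := obkQ A u r y / obkQ A w r y

/-- its directional derivative -/
noncomputable def obkDX (A : (ι → ℝ) →L[ℝ] E) (u w : E → ℝ) (a : E) (r : ℝ) (y : E) : ℝ :=
  (obkQ A (obkD a u) r y - obkX A u w r y * obkQ A (obkD a w) r y) / obkQ A w r y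

theorem obk_rat_eqns_cite : True := by
  have := @obkD.eq_1
  have := @obkX.eq_1
  have := @obkDX.eq_1
  trivial

theorem obk_inc (A : (ι → ℝ) →L[ℝ] E) (r : ℝ) : SkaInc (ghStd ι) (fun η => r • A η) := by
  refine ⟨(by fun_prop : Continuous fun η : ι → ℝ => r • A η).aestronglyMeasurable, fun c => ?_⟩
  refine (gh_ra_int_exp_norm (|c| * |r| * ‖A‖)).mono'
    ((by fun_prop : Continuous fun η : ι → ℝ => Real.exp (c * ‖r • A η‖)).aestronglyMeasurable) (Eventually.of_forall fun η => ?_)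
  rw [Real.norm_eq_abs, abs_of_pos (Real.exp_pos _)]
  refine Real.exp_le_exp.2 ?_
  have h1 : ‖r • A η‖ ≤ |r| * ‖A‖ * ‖η‖ := by
    rw [norm_smul, Real.norm_eq_abs, mul_assoc]
    exact mul_le_mul_of_nonneg_left (A.le_opNorm η) (abs_nonneg r)
  calc c * ‖r • A η‖ ≤ |c| * ‖r • A η‖ := mul_le_mul_of_nonneg_right (le_abs_self c) (norm_nonneg _)
    _ ≤ |c| * (|r| * ‖A‖ * ‖η‖) := mul_le_mul_of_nonneg_left h1 (abs_nonneg c)
    _ = _ := by ring

theorem obk_G_bd {n : ℕ} {v : E → ℝ} (hv : SkaG n v) : ∃ C c : ℝ, 0 ≤ C ∧ 0 ≤ c ∧ ∀ y, |v y| ≤ C * Real.exp (c * ‖y‖) := by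
  obtain ⟨c, C, hc, hA⟩ := hv
  refine ⟨C, c, ska_gr_nonneg hA, hc, fun y => ?_⟩
  have := hA.2 0 (Nat.zero_le _) y
  rwa [norm_iteratedFDeriv_zero, Real.norm_eq_abs] at this

theorem obk_G_cont {n : ℕ} {v : E → ℝ} (hv : SkaG n v) : Continuous v := (ska_G_contDiff hv).continuous

theorem obk_D_G {n : ℕ} {v : E → ℝ} (hv : SkaG (n + 1) v) (a : E) : SkaG n (obkD a v) := ska_G_apply (ska_G_fderiv hv) a

theorem obk_G_gr (A : (ι → ℝ) →L[ℝ] E) {n : ℕ} {v : E → ℝ} (hv : SkaG n v) : ObkGr fun r y => obkQ A v r y := by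
  obtain ⟨C, c, hC, hc, h⟩ := obk_G_bd hv
  exact ObkGr.Q A hC hc h

theorem obk_G_contQ (A : (ι → ℝ) →L[ℝ] E) {n : ℕ} {v : E → ℝ} (hv : SkaG n v) : Continuous fun p : ℝ × E => obkQ A v p.1 p.2 := by
  obtain ⟨C, c, hC, hc, h⟩ := obk_G_bd hv
  exact obk_Q_cont A (obk_G_cont hv) hC hc h

theorem obk_G_int (A : (ι → ℝ) →L[ℝ] E) {n : ℕ} {v : E → ℝ} (hv : SkaG n v) (r : ℝ) (y : E) :
    Integrable (fun η : ι → ℝ => v (y + r • A η)) (ghStd ι) := ska_G_int (obk_inc A r) hv y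

theorem obk_fd (A : (ι → ℝ) →L[ℝ] E) {v : E → ℝ} (hv : SkaG 1 v) (r : ℝ) (y : E) :
    HasFDerivAt (obkQ A v r) (∫ η, fderiv ℝ v (y + r • A η) ∂ghStd ι) y :=
  ska_conv_fderiv (obk_inc A r) le_rfl hv y

theorem obk_fd_apply (A : (ι → ℝ) →L[ℝ] E) {v : E → ℝ} (hv : SkaG 1 v) (r : ℝ) (y a : E) :
    (∫ η, fderiv ℝ v (y + r • A η) ∂ghStd ι) a = obkQ A (obkD a v) r y :=
  ContinuousLinearMap.integral_apply (ska_G_int (obk_inc A r) (ska_G_fderiv (n := 0) hv) y) a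

theorem obk_line_of {f : E → ℝ} {f' : E →L[ℝ] ℝ} {y : E} (h : HasFDerivAt f f' y) (a : E) :
    HasDerivAt (fun t : ℝ => f (y + t • a)) (f' a) 0 := by
  have h1 : HasDerivAt (fun t : ℝ => y + t • a) a 0 := by
    simpa using ((hasDerivAt_id (0 : ℝ)).smul_const a).const_add y
  exact h.comp_hasDerivAt_of_eq 0 h1 (by simp)

/-- space derivative of a heat solution along a line -/
theorem obk_line (A : (ι → ℝ) →L[ℝ] E) {v : E → ℝ} (hv : SkaG 1 v) (a : E) (r : ℝ) (y : E) :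
    HasDerivAt (fun t : ℝ => obkQ A v r (y + t • a)) (obkQ A (obkD a v) r y) 0 := by
  rw [← obk_fd_apply A hv r y a]
  exact obk_line_of (obk_fd A hv r y) a

theorem obk_line_G {v : E → ℝ} (hv : SkaG 1 v) (a y : E) :
    HasDerivAt (fun t : ℝ => v (y + t • a)) (obkD a v y) 0 :=
  obk_line_of (((ska_G_contDiff hv).differentiable (by simp)) y).hasFDerivAt a

/-- time derivative of a heat solution (in the standard deviation) -/
theorem obk_time [DecidableEq ι] (A : (ι → ℝ) →L[ℝ] E) {v : E → ℝ} (hv : SkaG 2 v) (r : ℝ) (y : E) :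
    HasDerivAt (fun r => obkQ A v r y)
      (r * ∑ α, obkQ A (obkD (A (Pi.single α 1)) (obkD (A (Pi.single α 1)) v)) r y) r := by
  have hv1 : SkaG 1 v := ska_G_of_le hv (by norm_num)
  have h1 : ∀ α, SkaG 1 (obkD (A (Pi.single α 1)) v) := fun α => obk_D_G hv _
  have h2 : ∀ α, SkaG 0 (obkD (A (Pi.single α 1)) (obkD (A (Pi.single α 1)) v)) := fun α => obk_D_G (h1 α) _
  obtain ⟨C0, c0, hC0, hc0, b0⟩ := obk_G_bd hv
  choose C1 c1 hC1 hc1 b1 using fun α => obk_G_bd (h1 α)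
  choose C2 c2 hC2 hc2 b2 using fun α => obk_G_bd (h2 α)
  have s1 : 0 ≤ ∑ α, C1 α := Finset.sum_nonneg fun α _ => hC1 α
  have s2 : 0 ≤ ∑ α, C2 α := Finset.sum_nonneg fun α _ => hC2 α
  have t1 : 0 ≤ ∑ α, c1 α := Finset.sum_nonneg fun α _ => hc1 α
  have t2 : 0 ≤ ∑ α, c2 α := Finset.sum_nonneg fun α _ => hc2 α
  refine obk_heat A (g := v) (g' := fderiv ℝ v) (g1 := fun α => obkD (A (Pi.single α 1)) v)
    (g2 := fun α => obkD (A (Pi.single α 1)) (obkD (A (Pi.single α 1)) v))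
    (fun y => (((ska_G_contDiff hv1).differentiable (by simp)) y).hasFDerivAt) (fun α y => rfl)
    (fun α y => obk_line_G (h1 α) _ y) (fun α => obk_G_cont (h1 α)) (fun α => obk_G_cont (h2 α))
    (C := C0 + ∑ α, C1 α + ∑ α, C2 α) (c := c0 + ∑ α, c1 α + ∑ α, c2 α) (by positivity) (by positivity)
    (fun y => ?_) (fun α y => ?_) (fun α y => ?_) r y
  · exact (b0 y).trans (obk_mono_bd (norm_nonneg y) (by linarith) (by linarith) (by positivity))
  · have e1 := Finset.single_le_sum (fun α _ => hC1 α) (Finset.mem_univ α)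
    have e2 := Finset.single_le_sum (fun α _ => hc1 α) (Finset.mem_univ α)
    exact (b1 α y).trans (obk_mono_bd (norm_nonneg y) (by linarith) (by linarith) (by positivity))
  · have e1 := Finset.single_le_sum (fun α _ => hC2 α) (Finset.mem_univ α)
    have e2 := Finset.single_le_sum (fun α _ => hc2 α) (Finset.mem_univ α)
    exact (b2 α y).trans (obk_mono_bd (norm_nonneg y) (by linarith) (by linarith) (by positivity))

theorem obk_Q_pos (A : (ι → ℝ) →L[ℝ] E) {n : ℕ} {w : E → ℝ} (hw : SkaG n w) (hpos : ∀ y, 0 < w y) (r : ℝ) (y : E) :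
    0 < obkQ A w r y := by
  unfold obkQ
  rw [integral_pos_iff_support_of_nonneg (fun η => (hpos _).le) (obk_G_int A hw r y)]
  have : Function.support (fun η : ι → ℝ => w (y + r • A η)) = univ := by
    ext η; simp [(hpos _).ne']
  rw [this]; simp

theorem obk_Q_dom (A : (ι → ℝ) →L[ℝ] E) {n : ℕ} {w : E → ℝ} (hw : SkaG n w) {v : E → ℝ} {M : ℝ}
    (h : ∀ y, |v y| ≤ M * w y) (r : ℝ) (y : E) : |obkQ A v r y| ≤ M * obkQ A w r y := by
  unfold obkQ
  rw [← integral_const_mul, ← Real.norm_eq_abs]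
  exact norm_integral_le_of_norm_le ((obk_G_int A hw r y).const_mul M) (Eventually.of_forall fun η => by
    rw [Real.norm_eq_abs]; exact h _)

theorem ObkGr.sq {k : ℝ → E → ℝ} (h : ObkGr k) : ObkGr fun r y => k r y ^ 2 := by
  simpa [pow_two] using h.mul h

theorem obk_int' (A : (ι → ℝ) →L[ℝ] E) {k : ℝ → E → ℝ} (hc : Continuous fun p : ℝ × E => k p.1 p.2) (hg : ObkGr k)
    (r₂ r₁ : ℝ) (z : E) : Integrable (fun η : ι → ℝ => k r₂ (z + r₁ • A η)) (ghStd ι) := by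
  obtain ⟨C, c, hC, hc0, hb⟩ := hg |r₂|
  exact obk_int A (hc.comp (by fun_prop : Continuous fun y : E => (r₂, y))) hC hc0 (hb r₂ le_rfl) r₁ z

theorem obk_calc_d1' {U W : ℝ → ℝ} {u0 w0 u1 w1 x : ℝ} (hU : HasDerivAt U u1 x) (hW : HasDerivAt W w1 x)
    (eU : U x = u0) (eW : W x = w0) (h0 : w0 ≠ 0) :
    HasDerivAt (fun t => U t ^ 2 / W t) (2 * (u0 / w0) * u1 - (u0 / w0) ^ 2 * w1) x := by
  subst eU eW
  exact obk_calc_d1 hU hW h0

theorem obk_calc_dx' {U W : ℝ → ℝ} {u0 w0 u1 w1 x : ℝ} (hU : HasDerivAt U u1 x) (hW : HasDerivAt W w1 x)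
    (eU : U x = u0) (eW : W x = w0) (h0 : w0 ≠ 0) :
    HasDerivAt (fun t => U t / W t) ((u1 - u0 / w0 * w1) / w0) x := by
  subst eU eW
  exact obk_calc_dx hU hW h0

theorem obk_calc_d2' {U W U1 W1 : ℝ → ℝ} {u0 w0 u1 w1 u2 w2 : ℝ} (hU : HasDerivAt U u1 0) (hW : HasDerivAt W w1 0)
    (hU1 : HasDerivAt U1 u2 0) (hW1 : HasDerivAt W1 w2 0) (eU : U 0 = u0) (eW : W 0 = w0) (eU1 : U1 0 = u1) (eW1 : W1 0 = w1)
    (h0 : w0 ≠ 0) :
    HasDerivAt (fun t => 2 * (U t / W t) * U1 t - (U t / W t) ^ 2 * W1 t)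
      (2 * w0 * ((u1 - u0 / w0 * w1) / w0) ^ 2 + 2 * (u0 / w0) * u2 - (u0 / w0) ^ 2 * w2) 0 := by
  subst eU eW eU1 eW1
  exact obk_calc_d2 hU hW hU1 hW1 h0

/-- the derivative of the ratio along a line -/
theorem obk_dX (A : (ι → ℝ) →L[ℝ] E) {u w : E → ℝ} (hu : SkaG 1 u) (hw : SkaG 1 w) (hpos : ∀ y, 0 < w y) (a : E) (r : ℝ) (y : E) :
    HasDerivAt (fun t : ℝ => obkX A u w r (y + t • a)) (obkDX A u w a r y) 0 :=
  obk_calc_dx' (obk_line A hu a r y) (obk_line A hw a r y) (by simp) (by simp) (obk_Q_pos A hw hpos r y).ne'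

theorem obk_X_le (A : (ι → ℝ) →L[ℝ] E) {n : ℕ} {u w : E → ℝ} (hw : SkaG n w) (hpos : ∀ y, 0 < w y) {M : ℝ}
    (bu : ∀ y, |u y| ≤ M * w y) (r : ℝ) (y : E) : |obkX A u w r y| ≤ M := by
  have h1 := obk_Q_pos A hw hpos r y
  unfold obkX
  rw [abs_div, abs_of_pos h1, div_le_iff₀ h1]
  exact obk_Q_dom A hw bu r y

theorem obk_DX_le (A : (ι → ℝ) →L[ℝ] E) {n : ℕ} {u w : E → ℝ} (hw : SkaG n w) (hpos : ∀ y, 0 < w y) {M : ℝ} (a : E)
    (bu : ∀ y, |u y| ≤ M * w y) (bu1 : ∀ y, |obkD a u y| ≤ M * w y) (bw1 : ∀ y, |obkD a w y| ≤ M * w y) (r : ℝ) (y : E) :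
    |obkDX A u w a r y| ≤ M + M ^ 2 := by
  have h1 := obk_Q_pos A hw hpos r y
  have h2 := obk_X_le A hw hpos bu r y
  have h3 := obk_Q_dom A hw bu1 r y
  have h4 := obk_Q_dom A hw bw1 r y
  have hM : 0 ≤ M := (abs_nonneg _).trans h2
  unfold obkDX
  rw [abs_div, abs_of_pos h1, div_le_iff₀ h1]
  calc |obkQ A (obkD a u) r y - obkX A u w r y * obkQ A (obkD a w) r y|
      ≤ |obkQ A (obkD a u) r y| + |obkX A u w r y| * |obkQ A (obkD a w) r y| := by
        rw [← abs_mul]; exact abs_sub _ _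
    _ ≤ M * obkQ A w r y + M * (M * obkQ A w r y) := add_le_add h3 (mul_le_mul h2 h4 (abs_nonneg _) hM)
    _ = _ := by ring

theorem obk_Q_const_mul (A : (ι → ℝ) →L[ℝ] E) (c : ℝ) (f : E → ℝ) (r : ℝ) (z : E) :
    obkQ A (fun y => c * f y) r z = c * obkQ A f r z := integral_const_mul _ _

theorem obk_Q_sub (A : (ι → ℝ) →L[ℝ] E) {f g : E → ℝ} {r : ℝ} {z : E} (hf : Integrable (fun η : ι → ℝ => f (z + r • A η)) (ghStd ι))
    (hg : Integrable (fun η : ι → ℝ => g (z + r • A η)) (ghStd ι)) :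
    obkQ A (fun y => f y - g y) r z = obkQ A f r z - obkQ A g r z := integral_sub hf hg

theorem obk_Q_sum (A : (ι → ℝ) →L[ℝ] E) {J : Type} (s : Finset J) {f : J → E → ℝ} {r : ℝ} {z : E}
    (hf : ∀ j ∈ s, Integrable (fun η : ι → ℝ => f j (z + r • A η)) (ghStd ι)) :
    obkQ A (fun y => ∑ j ∈ s, f j y) r z = ∑ j ∈ s, obkQ A (f j) r z := integral_finsetSum s hf

theorem obk_fin (A : (ι → ℝ) →L[ℝ] E) {H2 : ι → E → ℝ} {K G : E → ℝ} {r : ℝ} {z : E}
    (hH : ∀ α, Integrable (fun η : ι → ℝ => H2 α (z + r • A η)) (ghStd ι))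
    (hK : Integrable (fun η : ι → ℝ => K (z + r • A η)) (ghStd ι)) (e : ∀ y, G y = (1 / 2) * (∑ α, H2 α y - K y)) :
    (1 / 2) * (∑ α, obkQ A (H2 α) r z - obkQ A K r z) = obkQ A G r z := by
  have e' : G = fun y => (1 / 2) * ((fun y => ∑ α, H2 α y) y - K y) := funext e
  rw [e', obk_Q_const_mul, obk_Q_sub A (f := fun y => ∑ α, H2 α y) (g := K) (integrable_finsetSum _ fun α _ => hH α) hK,
    obk_Q_sum A _ fun α _ => hH α]

/-- **the clock identity for a ratio of two heat solutions** -/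
theorem obk_rat [DecidableEq ι] (A : (ι → ℝ) →L[ℝ] E) {u w : E → ℝ} (hu : SkaG 2 u) (hw : SkaG 2 w) (hpos : ∀ y, 0 < w y) {M M1 : ℝ}
    (bX : ∀ r y, |obkX A u w r y| ≤ M) (bDX : ∀ α r y, |obkDX A u w (A (Pi.single α 1)) r y| ≤ M1)
    (z : E) {t : ℝ} (ht : t ∈ Icc (0 : ℝ) 1) :
    HasDerivWithinAt (fun s => obkQ A (fun y => obkQ A u (Real.sqrt (1 - s)) y ^ 2 / obkQ A w (Real.sqrt (1 - s)) y) (Real.sqrt s) z)
      (obkQ A (fun y => obkQ A w (Real.sqrt (1 - t)) y * ∑ α, obkDX A u w (A (Pi.single α 1)) (Real.sqrt (1 - t)) y ^ 2) (Real.sqrt t) z)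
      (Icc 0 1) t := by
  have hu1 : SkaG 1 u := ska_G_of_le hu (by norm_num)
  have hw1 : SkaG 1 w := ska_G_of_le hw (by norm_num)
  have hua : ∀ α, SkaG 1 (obkD (A (Pi.single α 1)) u) := fun α => obk_D_G hu _
  have hwa : ∀ α, SkaG 1 (obkD (A (Pi.single α 1)) w) := fun α => obk_D_G hw _
  have huaa : ∀ α, SkaG 0 (obkD (A (Pi.single α 1)) (obkD (A (Pi.single α 1)) u)) := fun α => obk_D_G (hua α) _
  have hwaa : ∀ α, SkaG 0 (obkD (A (Pi.single α 1)) (obkD (A (Pi.single α 1)) w)) := fun α => obk_D_G (hwa α) _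
  have hne : ∀ r y, obkQ A w r y ≠ 0 := fun r y => (obk_Q_pos A hw hpos r y).ne'
  -- continuity
  have cU := obk_G_contQ A hu
  have cW := obk_G_contQ A hw
  have cX : Continuous fun p : ℝ × E => obkX A u w p.1 p.2 := cU.div cW fun p => hne _ _
  have cDX : ∀ α, Continuous fun p : ℝ × E => obkDX A u w (A (Pi.single α 1)) p.1 p.2 := fun α =>
    ((obk_G_contQ A (hua α)).sub (cX.mul (obk_G_contQ A (hwa α)))).div cW fun p => hne _ _
  -- growth
  have gU := obk_G_gr A hu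
  have gW := obk_G_gr A hw
  have gX : ObkGr fun r y => obkX A u w r y := obk_gr_bdd bX
  have gDX : ∀ α, ObkGr fun r y => obkDX A u w (A (Pi.single α 1)) r y := fun α => obk_gr_bdd (bDX α)
  have hd : ∀ r y, HasFDerivAt (fun y => obkQ A u r y ^ 2 / obkQ A w r y)
      (fderiv ℝ (fun y => obkQ A u r y ^ 2 / obkQ A w r y) y) y := fun r y => by
    have h3 : DifferentiableAt ℝ (fun y => obkQ A u r y ^ 2 * (obkQ A w r y)⁻¹) y :=
      ((obk_fd A hu1 r y).differentiableAt.fun_pow 2).fun_mul ((obk_fd A hw1 r y).differentiableAt.fun_inv (hne r y))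
    simp only [div_eq_mul_inv]
    exact h3.hasFDerivAt
  have c2 : ∀ α, Continuous fun p : ℝ × E => 2 * obkQ A w p.1 p.2 * obkDX A u w (A (Pi.single α 1)) p.1 p.2 ^ 2
      + 2 * obkX A u w p.1 p.2 * obkQ A (obkD (A (Pi.single α 1)) (obkD (A (Pi.single α 1)) u)) p.1 p.2
      - obkX A u w p.1 p.2 ^ 2 * obkQ A (obkD (A (Pi.single α 1)) (obkD (A (Pi.single α 1)) w)) p.1 p.2 :=
    fun α => (((continuous_const.mul cW).mul ((cDX α).pow 2)).add ((continuous_const.mul cX).mul (obk_G_contQ A (huaa α)))).sub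
      ((cX.pow 2).mul (obk_G_contQ A (hwaa α)))
  have ck : Continuous fun p : ℝ × E => 2 * obkX A u w p.1 p.2 * ∑ α, obkQ A (obkD (A (Pi.single α 1)) (obkD (A (Pi.single α 1)) u)) p.1 p.2
      - obkX A u w p.1 p.2 ^ 2 * ∑ α, obkQ A (obkD (A (Pi.single α 1)) (obkD (A (Pi.single α 1)) w)) p.1 p.2 :=
    ((continuous_const.mul cX).mul (continuous_finsetSum _ fun α _ => obk_G_contQ A (huaa α))).sub
      ((cX.pow 2).mul (continuous_finsetSum _ fun α _ => obk_G_contQ A (hwaa α)))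
  have g2 : ∀ α, ObkGr fun r y => 2 * obkQ A w r y * obkDX A u w (A (Pi.single α 1)) r y ^ 2
      + 2 * obkX A u w r y * obkQ A (obkD (A (Pi.single α 1)) (obkD (A (Pi.single α 1)) u)) r y
      - obkX A u w r y ^ 2 * obkQ A (obkD (A (Pi.single α 1)) (obkD (A (Pi.single α 1)) w)) r y :=
    fun α => (((gW.const_mul 2).mul (gDX α).sq).add ((gX.const_mul 2).mul (obk_G_gr A (huaa α)))).sub
      (gX.sq.mul (obk_G_gr A (hwaa α)))
  have gk : ObkGr fun r y => 2 * obkX A u w r y * ∑ α, obkQ A (obkD (A (Pi.single α 1)) (obkD (A (Pi.single α 1)) u)) r y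
      - obkX A u w r y ^ 2 * ∑ α, obkQ A (obkD (A (Pi.single α 1)) (obkD (A (Pi.single α 1)) w)) r y :=
    ((gX.const_mul 2).mul (ObkGr.sum Finset.univ fun α _ => obk_G_gr A (huaa α))).sub
      (gX.sq.mul (ObkGr.sum Finset.univ fun α _ => obk_G_gr A (hwaa α)))
  have key := obk_two A (h := fun r y => obkQ A u r y ^ 2 / obkQ A w r y)
    (h' := fun r y => fderiv ℝ (fun y => obkQ A u r y ^ 2 / obkQ A w r y) y)
    (h1 := fun α r y => 2 * obkX A u w r y * obkQ A (obkD (A (Pi.single α 1)) u) r y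
      - obkX A u w r y ^ 2 * obkQ A (obkD (A (Pi.single α 1)) w) r y)
    (h2 := fun α r y => 2 * obkQ A w r y * obkDX A u w (A (Pi.single α 1)) r y ^ 2
      + 2 * obkX A u w r y * obkQ A (obkD (A (Pi.single α 1)) (obkD (A (Pi.single α 1)) u)) r y
      - obkX A u w r y ^ 2 * obkQ A (obkD (A (Pi.single α 1)) (obkD (A (Pi.single α 1)) w)) r y)
    (k₂ := fun r y => 2 * obkX A u w r y * ∑ α, obkQ A (obkD (A (Pi.single α 1)) (obkD (A (Pi.single α 1)) u)) r y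
      - obkX A u w r y ^ 2 * ∑ α, obkQ A (obkD (A (Pi.single α 1)) (obkD (A (Pi.single α 1)) w)) r y)
    hd
    (fun α r y => (obk_line_of (hd r y) (A (Pi.single α 1))).unique
      (obk_calc_d1' (obk_line A hu1 _ r y) (obk_line A hw1 _ r y) (by simp) (by simp) (hne r y)))
    (fun α r y => obk_calc_d2' (obk_line A hu1 _ r y) (obk_line A hw1 _ r y) (obk_line A (hua α) _ r y)
      (obk_line A (hwa α) _ r y) (by simp) (by simp) (by simp) (by simp) (hne r y))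
    (fun r y => by
      have := obk_calc_d1 (obk_time A hu r y) (obk_time A hw r y) (hne r y)
      refine this.congr_deriv ?_
      unfold obkX
      ring)
    ((cU.pow 2).div cW fun p => hne _ _)
    (fun α => ((continuous_const.mul cX).mul (obk_G_contQ A (hua α))).sub ((cX.pow 2).mul (obk_G_contQ A (hwa α))))
    c2 ck
    ((gX.mul gU).of_le fun r y => le_of_eq (by
      unfold obkX
      congr 1
      have := hne r y
      field_simp))
    (fun α => ((gX.const_mul 2).mul (obk_G_gr A (hua α))).sub (gX.sq.mul (obk_G_gr A (hwa α))))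
    g2 gk z ht
  refine key.congr_deriv ?_
  exact obk_fin A (H2 := fun α y => 2 * obkQ A w (Real.sqrt (1 - t)) y * obkDX A u w (A (Pi.single α 1)) (Real.sqrt (1 - t)) y ^ 2
      + 2 * obkX A u w (Real.sqrt (1 - t)) y * obkQ A (obkD (A (Pi.single α 1)) (obkD (A (Pi.single α 1)) u)) (Real.sqrt (1 - t)) y
      - obkX A u w (Real.sqrt (1 - t)) y ^ 2 * obkQ A (obkD (A (Pi.single α 1)) (obkD (A (Pi.single α 1)) w)) (Real.sqrt (1 - t)) y)
    (K := fun y => 2 * obkX A u w (Real.sqrt (1 - t)) y * ∑ α, obkQ A (obkD (A (Pi.single α 1)) (obkD (A (Pi.single α 1)) u)) (Real.sqrt (1 - t)) y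
      - obkX A u w (Real.sqrt (1 - t)) y ^ 2 * ∑ α, obkQ A (obkD (A (Pi.single α 1)) (obkD (A (Pi.single α 1)) w)) (Real.sqrt (1 - t)) y)
    (fun α => obk_int' A (c2 α) (g2 α) (Real.sqrt (1 - t)) (Real.sqrt t) z) (obk_int' A ck gk (Real.sqrt (1 - t)) (Real.sqrt t) z) (fun y => by
      simp only [Finset.sum_sub_distrib, Finset.sum_add_distrib, ← Finset.mul_sum]
      ring)

/-- the same with the ratio `X` and its derivatives `X1` SUPPLIED by the user (form asked by helper47) -/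
theorem obk_rat_X [DecidableEq ι] (A : (ι → ℝ) →L[ℝ] E) {u w : E → ℝ} (hu : SkaG 2 u) (hw : SkaG 2 w) (hpos : ∀ y, 0 < w y)
    {X : ℝ → E → ℝ} {X1 : ι → ℝ → E → ℝ} {M M1 : ℝ}
    (hX : ∀ r y, obkQ A u r y = obkQ A w r y * X r y)
    (hX1 : ∀ α r y, HasDerivAt (fun t : ℝ => X r (y + t • A (Pi.single α 1))) (X1 α r y) 0)
    (bX : ∀ r y, |X r y| ≤ M) (bX1 : ∀ α r y, |X1 α r y| ≤ M1) (z : E) {t : ℝ} (ht : t ∈ Icc (0 : ℝ) 1) :
    HasDerivWithinAt (fun s => obkQ A (fun y => obkQ A w (Real.sqrt (1 - s)) y * X (Real.sqrt (1 - s)) y ^ 2) (Real.sqrt s) z)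
      (obkQ A (fun y => obkQ A w (Real.sqrt (1 - t)) y * ∑ α, X1 α (Real.sqrt (1 - t)) y ^ 2) (Real.sqrt t) z)
      (Icc 0 1) t := by
  have hne : ∀ r y, obkQ A w r y ≠ 0 := fun r y => (obk_Q_pos A hw hpos r y).ne'
  have eX : X = obkX A u w := by
    funext r y
    unfold obkX
    rw [hX r y]
    field_simp [hne r y]
  subst eX
  have eX1 : ∀ α r y, X1 α r y = obkDX A u w (A (Pi.single α 1)) r y := fun α r y =>
    (hX1 α r y).unique (obk_dX A (ska_G_of_le hu (by norm_num)) (ska_G_of_le hw (by norm_num)) hpos _ r y)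
  have key := obk_rat A hu hw hpos bX (fun α r y => by rw [← eX1]; exact bX1 α r y) z ht
  simp only [eX1]
  refine key.congr_of_eventuallyEq ?_ ?_
  · refine Eventually.of_forall fun s => ?_
    show obkQ A _ _ z = obkQ A _ _ z
    congr 1
    funext y
    unfold obkX
    have := hne (Real.sqrt (1 - s)) y
    field_simp
  · show obkQ A _ _ z = obkQ A _ _ z
    congr 1
    funext y
    unfold obkX
    have := hne (Real.sqrt (1 - t)) y
    field_simp

end rat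

end Claimed.Agent.R286
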