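import Claimed.Agent.R286.Ana.Tilt
import Claimed.Agent.R286.Defs.Gh

/-!
# Row 286 (S0533), Fd/Reg : REGULARITY OF THE CONTINUATIONS ON `Defs/Gh`, GRADIENT AND HESSIAN      (owner helper251, with helper118; prefix `ghr_`, 0 sorry)

TEX[PE:lem:source] (Lemma 2.1, analytic half), on an arbitrary base `B` with `B.Ok` and an ARBITRARY list of levels (no admissibility needed here).
* `SkaBd n A`           bounded class (`C^n`, all derivatives of the orders `≤ n` bounded) + closure `ska_Bd_*`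
* `ghr_std_prob251`, `ghr_std_expm`, `ghr_inc_clm`, `ghr_inc`      the standard drivers: probability, exponential moments, `SkaInc (ghStd ι) l.inc`
* terminal level: `ghr_Z_pos`, `ghr_Gw_nonneg/sum/le_one/eq/hasFDerivAt/Bd`, `ghr_F0_hasFDerivAt`, `ghr_exp_F0`, `ghr_F0_reg`
* `ghr_F_cons : ghF B (l :: ls) = skaT (ghStd ι) l.inc l.m (ghF B ls)`,   `ghr_E_cons : ghE B (l :: ls) Φ = skaP (ghStd ι) l.inc l.m (ghF B ls) (ghE B ls Φ)`
* `ghr_F_reg`, `ghr_F_contDiff`      every continuation is a potential of every order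
* `ghr_E_G`, `ghr_E_bound`, `ghr_E_add/sub/smul/const/sum/nonneg/mono`
* `ghr_F_fderiv`  (G1)  `D ghF [v] = ghE v`;      `ghr_E_fderiv`  (G2)  `D (ghE v) [w] = ghH v w`
* `ska_P_cov`, `ska_P_var_nonneg`
-/

set_option autoImplicit false

namespace Claimed.Agent.R286

open MeasureTheory ProbabilityTheory

/-! ## the bounded class -/

section bdd

variable {E F F₂ F₃ : Type} [NormedAddCommGroup E] [NormedSpace ℝ E] [NormedAddCommGroup F] [NormedSpace ℝ F]
  [NormedAddCommGroup F₂] [NormedSpace ℝ F₂] [NormedAddCommGroup F₃] [NormedSpace ℝ F₃]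

/-- `C^n` with bounded derivatives of all the orders `≤ n` -/
def SkaBd (n : ℕ) (A : E → F) : Prop := ∃ C : ℝ, SkaGr n 0 C A

theorem ska_bd_eqns_cite : True := by
  have := @SkaBd.eq_1
  trivial

theorem ska_Bd_G {n : ℕ} {A : E → F} (h : SkaBd n A) : SkaG n A := by
  obtain ⟨C, h⟩ := h
  exact ⟨0, C, le_rfl, h⟩

theorem ska_Bd_iff {n : ℕ} {A : E → F} : SkaBd n A ↔ ContDiff ℝ n A ∧ ∃ C : ℝ, ∀ k ≤ n, ∀ x, ‖iteratedFDeriv ℝ k A x‖ ≤ C := by
  constructor
  · rintro ⟨C, h1, h2⟩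
    exact ⟨h1, C, fun k hk x => by simpa using h2 k hk x⟩
  · rintro ⟨h1, C, h2⟩
    exact ⟨C, h1, fun k hk x => by simpa using h2 k hk x⟩

theorem ska_Bd_const (n : ℕ) (a : F) : SkaBd n (fun _ : E => a) := by
  refine ska_Bd_iff.2 ⟨contDiff_const, ‖a‖, fun k _ x => ?_⟩
  rcases Nat.eq_zero_or_pos k with rfl | hk
  · simp
  · rw [iteratedFDeriv_const_of_ne (by omega)]
    simp

theorem ska_Bd_add {n : ℕ} {A B : E → F} (hA : SkaBd n A) (hB : SkaBd n B) : SkaBd n (fun x => A x + B x) := by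
  obtain ⟨a1, C, a2⟩ := ska_Bd_iff.1 hA
  obtain ⟨b1, C', b2⟩ := ska_Bd_iff.1 hB
  refine ska_Bd_iff.2 ⟨a1.add b1, C + C', fun k hk x => ?_⟩
  have hk' : ((k : ℕ) : WithTop ℕ∞) ≤ n := by exact_mod_cast hk
  rw [show (fun x => A x + B x) = A + B from rfl, iteratedFDeriv_add_apply (a1.of_le hk').contDiffAt (b1.of_le hk').contDiffAt]
  exact (norm_add_le _ _).trans (add_le_add (a2 k hk x) (b2 k hk x))

theorem ska_Bd_clm {n : ℕ} {A : E → F} (hA : SkaBd n A) (L : F →L[ℝ] F₂) : SkaBd n (fun x => L (A x)) := by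
  obtain ⟨a1, C, a2⟩ := ska_Bd_iff.1 hA
  refine ska_Bd_iff.2 ⟨L.contDiff.comp a1, ‖L‖ * C, fun k hk x => ?_⟩
  have hk' : ((k : ℕ) : WithTop ℕ∞) ≤ n := by exact_mod_cast hk
  rw [show (fun x => L (A x)) = L ∘ A from rfl, L.iteratedFDeriv_comp_left a1.contDiffAt hk']
  exact (L.norm_compContinuousMultilinearMap_le _).trans (mul_le_mul_of_nonneg_left (a2 k hk x) (norm_nonneg _))

theorem ska_Bd_neg {n : ℕ} {A : E → F} (hA : SkaBd n A) : SkaBd n (fun x => -A x) := by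
  simpa using ska_Bd_clm hA (-ContinuousLinearMap.id ℝ F)

theorem ska_Bd_sub {n : ℕ} {A B : E → F} (hA : SkaBd n A) (hB : SkaBd n B) : SkaBd n (fun x => A x - B x) := by
  simpa [sub_eq_add_neg] using ska_Bd_add hA (ska_Bd_neg hB)

theorem ska_Bd_sum {n : ℕ} {κ : Type*} (s : Finset κ) {A : κ → E → F} (hA : ∀ i ∈ s, SkaBd n (A i)) : SkaBd n (fun x => ∑ i ∈ s, A i x) := by
  classical
  induction s using Finset.induction_on with
  | empty => simpa using ska_Bd_const (E := E) n (0 : F)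
  | insert a s ha ih =>
    simp only [Finset.sum_insert ha]
    exact ska_Bd_add (hA a (Finset.mem_insert_self _ _)) (ih fun i hi => hA i (Finset.mem_insert_of_mem hi))

theorem ska_Bd_bilin {n : ℕ} (L : F →L[ℝ] F₂ →L[ℝ] F₃) {A : E → F} {B : E → F₂} (hA : SkaBd n A) (hB : SkaBd n B) : SkaBd n (fun x => L (A x) (B x)) := by
  obtain ⟨a1, C, a2⟩ := ska_Bd_iff.1 hA
  obtain ⟨b1, C', b2⟩ := ska_Bd_iff.1 hB
  have hC : 0 ≤ C := (norm_nonneg _).trans (a2 0 (Nat.zero_le _) 0)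
  have hC' : 0 ≤ C' := (norm_nonneg _).trans (b2 0 (Nat.zero_le _) 0)
  refine ska_Bd_iff.2 ⟨L.isBoundedBilinearMap.contDiff.comp (a1.prodMk b1), ‖L‖ * (2 ^ n * (C * C')), fun k hk x => ?_⟩
  have hk' : ((k : ℕ) : WithTop ℕ∞) ≤ n := by exact_mod_cast hk
  refine (L.norm_iteratedFDeriv_le_of_bilinear a1 b1 x hk').trans ?_
  refine mul_le_mul_of_nonneg_left ?_ (norm_nonneg L)
  have h2 : ∑ i ∈ Finset.range (k + 1), (k.choose i : ℝ) * ‖iteratedFDeriv ℝ i A x‖ * ‖iteratedFDeriv ℝ (k - i) B x‖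
      ≤ ∑ i ∈ Finset.range (k + 1), (k.choose i : ℝ) * (C * C') := by
    refine Finset.sum_le_sum fun i hi => ?_
    have hi' : i ≤ k := Nat.lt_succ_iff.1 (Finset.mem_range.1 hi)
    rw [mul_assoc]
    refine mul_le_mul_of_nonneg_left ?_ (Nat.cast_nonneg _)
    exact mul_le_mul (a2 i (hi'.trans hk) x) (b2 (k - i) ((Nat.sub_le _ _).trans hk) x) (norm_nonneg _) hC
  refine h2.trans ?_
  rw [← Finset.sum_mul]
  have h3 : ∑ i ∈ Finset.range (k + 1), (k.choose i : ℝ) = 2 ^ k := by exact_mod_cast Nat.sum_range_choose k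
  rw [h3]
  exact mul_le_mul_of_nonneg_right (pow_le_pow_right₀ (by norm_num) hk) (by positivity)

theorem ska_Bd_smul {n : ℕ} {a : E → ℝ} {B : E → F} (ha : SkaBd n a) (hB : SkaBd n B) : SkaBd n (fun x => a x • B x) :=
  ska_Bd_bilin (ContinuousLinearMap.lsmul ℝ ℝ) ha hB

theorem ska_Bd_mul {n : ℕ} {a b : E → ℝ} (ha : SkaBd n a) (hb : SkaBd n b) : SkaBd n (fun x => a x * b x) :=
  ska_Bd_smul ha hb

/-- one more derivative -/
theorem ska_Bd_succ {n : ℕ} {A : E → F} (hd : Differentiable ℝ A) {b : ℝ} (hb : ∀ x, ‖A x‖ ≤ b) (h' : SkaBd n (fderiv ℝ A)) : SkaBd (n + 1) A := by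
  obtain ⟨a1, C, a2⟩ := ska_Bd_iff.1 h'
  refine ska_Bd_iff.2 ⟨?_, max b C, fun k hk x => ?_⟩
  · rw [Nat.cast_succ, contDiff_succ_iff_fderiv]
    exact ⟨hd, fun h => absurd h (by simp), a1⟩
  · rcases Nat.eq_zero_or_pos k with rfl | hk0
    · rw [norm_iteratedFDeriv_zero]
      exact (hb x).trans (le_max_left _ _)
    · obtain ⟨j, rfl⟩ : ∃ j, k = j + 1 := ⟨k - 1, by omega⟩
      rw [← norm_iteratedFDeriv_fderiv]
      exact (a2 j (by omega) x).trans (le_max_right _ _)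

/-- a differentiable function with a bounded-class derivative is a potential -/
theorem ska_reg_of_fderiv {n : ℕ} {A : E → F} (hd : Differentiable ℝ A) (h' : SkaBd n (fderiv ℝ A)) : ∃ C, SkaReg (n + 1) C A := by
  obtain ⟨a1, C, a2⟩ := ska_Bd_iff.1 h'
  refine ⟨C, ?_, fun k hk1 hk x => ?_⟩
  · rw [Nat.cast_succ, contDiff_succ_iff_fderiv]
    exact ⟨hd, fun h => absurd h (by simp), a1⟩
  · obtain ⟨j, rfl⟩ : ∃ j, k = j + 1 := ⟨k - 1, by omega⟩
    rw [← norm_iteratedFDeriv_fderiv]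
    exact a2 j (by omega) x

end bdd

/-! ## the Gaussian drivers -/

section drivers

variable {ι : Type} [Fintype ι]

instance ghr_std_prob251 : IsProbabilityMeasure (ghStd ι) := by
  unfold ghStd
  infer_instance

theorem ghr_exp_abs_int (K : ℝ) : Integrable (fun x : ℝ => Real.exp (K * |x|)) (gaussianReal 0 1) := by
  have h1 := integrable_exp_mul_gaussianReal (μ := 0) (v := 1) K
  have h2 := integrable_exp_mul_gaussianReal (μ := 0) (v := 1) (-K)
  refine (h1.add h2).mono' (by fun_prop) (Filter.Eventually.of_forall fun x => ?_)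
  rw [Real.norm_eq_abs, abs_of_pos (Real.exp_pos _)]
  simp only [Pi.add_apply]
  rcases abs_cases x with ⟨h, _⟩ | ⟨h, _⟩
  · rw [h]
    linarith [Real.exp_pos (-K * x)]
  · rw [h]
    have : K * -x = -K * x := by ring
    rw [this]
    linarith [Real.exp_pos (K * x)]

theorem ghr_std_expm (K : ℝ) : Integrable (fun ξ : ι → ℝ => Real.exp (K * ∑ i, |ξ i|)) (ghStd ι) := by
  have h := Integrable.fintype_prod (μ := fun _ : ι => gaussianReal 0 1) (f := fun _ x => Real.exp (K * |x|)) fun _ => ghr_exp_abs_int K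
  refine h.congr (Filter.Eventually.of_forall fun ξ => ?_)
  simp only
  rw [← Real.exp_sum, Finset.mul_sum]

/-- every continuous linear image of the standard drivers is an admissible increment -/
theorem ghr_inc_clm {E : Type} [NormedAddCommGroup E] [NormedSpace ℝ E] (L : (ι → ℝ) →L[ℝ] E) : SkaInc (ghStd ι) L := by
  refine ⟨L.continuous.aestronglyMeasurable, fun c => ?_⟩
  refine (ghr_std_expm (|c| * ‖L‖)).mono' (by fun_prop) (Filter.Eventually.of_forall fun ξ => ?_)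
  rw [Real.norm_eq_abs, abs_of_pos (Real.exp_pos _)]
  refine Real.exp_le_exp.2 ?_
  have h1 : ‖ξ‖ ≤ ∑ i, |ξ i| := by
    refine (pi_norm_le_iff_of_nonneg (Finset.sum_nonneg fun _ _ => abs_nonneg _)).2 fun i => ?_
    rw [Real.norm_eq_abs]
    exact Finset.single_le_sum (f := fun i => |ξ i|) (fun _ _ => abs_nonneg _) (Finset.mem_univ i)
  calc c * ‖L ξ‖ ≤ |c| * ‖L ξ‖ := mul_le_mul_of_nonneg_right (le_abs_self c) (norm_nonneg _)
    _ ≤ |c| * (‖L‖ * ∑ i, |ξ i|) := mul_le_mul_of_nonneg_left ((L.le_opNorm ξ).trans (mul_le_mul_of_nonneg_left h1 (norm_nonneg _))) (abs_nonneg c)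
    _ = _ := by ring

variable {S : Type} [Fintype S]

/-- the increment of a level as a continuous linear map -/
noncomputable def ghrL (l : GhLv S ι) : (ι → ℝ) →L[ℝ] (S → ℝ) :=
  ContinuousLinearMap.pi fun s => ∑ i, l.A s i • ContinuousLinearMap.proj (R := ℝ) (φ := fun _ : ι => ℝ) i

theorem ghr_eqns_cite251 : True := by
  have := @ghrL.eq_1
  trivial

theorem ghr_L_apply (l : GhLv S ι) (ξ : ι → ℝ) : ghrL l ξ = l.inc ξ := by
  funext s
  simp [ghrL, GhLv.inc]

theorem ghr_inc (l : GhLv S ι) : SkaInc (ghStd ι) l.inc := by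
  have h := ghr_inc_clm (ghrL l)
  have e : ⇑(ghrL l) = l.inc := funext (ghr_L_apply l)
  rwa [e] at h

end drivers

/-! ## the terminal level -/

section terminal

variable {S : Type} [Fintype S]

/-- the coordinate functional -/
noncomputable abbrev ghrPr (s : S) : (S → ℝ) →L[ℝ] ℝ := ContinuousLinearMap.proj (R := ℝ) (φ := fun _ : S => ℝ) s

theorem ghr_Z_pos {B : GhB S} (hB : B.Ok) (z : S → ℝ) : 0 < ∑ s, B.w s * Real.exp (B.a * z s) := by
  refine Finset.sum_pos' (fun s _ => mul_nonneg (hB.nonneg s) (Real.exp_pos _).le) ?_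
  by_contra h
  push Not at h
  have h0 : ∀ s, B.w s = 0 := fun s => by
    have h1 := h s (Finset.mem_univ s)
    have h2 := hB.nonneg s
    have h3 := Real.exp_pos (B.a * z s)
    nlinarith
  have := hB.sum
  simp [h0] at this

theorem ghr_Gw_nonneg {B : GhB S} (hB : B.Ok) (z : S → ℝ) (s : S) : 0 ≤ ghGw B z s :=
  div_nonneg (mul_nonneg (hB.nonneg s) (Real.exp_pos _).le) (ghr_Z_pos hB z).le

theorem ghr_Gw_sum {B : GhB S} (hB : B.Ok) (z : S → ℝ) : ∑ s, ghGw B z s = 1 := by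
  simp only [ghGw]
  rw [← Finset.sum_div, div_self (ghr_Z_pos hB z).ne']

theorem ghr_Gw_le_one {B : GhB S} (hB : B.Ok) (z : S → ℝ) (s : S) : ghGw B z s ≤ 1 := by
  rw [← ghr_Gw_sum hB z]
  exact Finset.single_le_sum (f := fun s => ghGw B z s) (fun t _ => ghr_Gw_nonneg hB z t) (Finset.mem_univ s)

theorem ghr_Z_hasFDerivAt (B : GhB S) (z : S → ℝ) :
    HasFDerivAt (fun z : S → ℝ => ∑ s, B.w s * Real.exp (B.a * z s)) (∑ s, (B.w s * Real.exp (B.a * z s) * B.a) • ghrPr s) z := by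
  refine HasFDerivAt.fun_sum fun s _ => ?_
  have h := (((hasFDerivAt_apply (𝕜 := ℝ) s z).const_mul B.a).exp.const_mul (B.w s))
  refine h.congr_fderiv ?_
  simp only [smul_smul, mul_assoc]

theorem ghr_F0_hasFDerivAt {B : GhB S} (hB : B.Ok) (z : S → ℝ) : HasFDerivAt (ghF0 B) (∑ t, ghGw B z t • ghrPr t) z := by
  have h := ((ghr_Z_hasFDerivAt B z).log (ghr_Z_pos hB z).ne').const_mul B.a⁻¹
  have e : (fun z => B.a⁻¹ * Real.log (∑ s, B.w s * Real.exp (B.a * z s))) = ghF0 B := rfl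
  rw [e] at h
  refine h.congr_fderiv ?_
  ext v
  have ha := hB.pos.ne'
  have hZ := (ghr_Z_pos hB z).ne'
  simp only [FunLike.coe_sum, Finset.sum_apply, _root_.smul_apply, ContinuousLinearMap.proj_apply, smul_eq_mul, ghGw]
  rw [Finset.mul_sum, Finset.mul_sum]
  refine Finset.sum_congr rfl fun s _ => ?_
  field_simp

theorem ghr_exp_F0 {B : GhB S} (hB : B.Ok) (z : S → ℝ) : Real.exp (B.a * ghF0 B z) = ∑ s, B.w s * Real.exp (B.a * z s) := by
  rw [ghF0, ← mul_assoc, mul_inv_cancel₀ hB.pos.ne', one_mul, Real.exp_log (ghr_Z_pos hB z)]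

theorem ghr_Gw_eq {B : GhB S} (hB : B.Ok) (z : S → ℝ) (s : S) : ghGw B z s = B.w s * Real.exp (B.a * (z s - ghF0 B z)) := by
  rw [mul_sub, Real.exp_sub, ghr_exp_F0 hB, ghGw, mul_div_assoc]

theorem ghr_Gw_hasFDerivAt {B : GhB S} (hB : B.Ok) (z : S → ℝ) (s : S) :
    HasFDerivAt (fun z => ghGw B z s) ((B.a * ghGw B z s) • (ghrPr s - ∑ t, ghGw B z t • ghrPr t)) z := by
  have h := ((((hasFDerivAt_apply (𝕜 := ℝ) s z).fun_sub (ghr_F0_hasFDerivAt hB z)).const_mul B.a).exp.const_mul (B.w s))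
  have e : (fun z : S → ℝ => B.w s * Real.exp (B.a * (z s - ghF0 B z))) = fun z => ghGw B z s := funext fun z => (ghr_Gw_eq hB z s).symm
  rw [e] at h
  refine h.congr_fderiv ?_
  rw [ghr_Gw_eq hB z s, smul_smul, smul_smul]
  congr 1
  ring

theorem ghr_Gw_Bd {B : GhB S} (hB : B.Ok) (n : ℕ) : ∀ s, SkaBd n (fun z => ghGw B z s) := by
  have hd : ∀ s, Differentiable ℝ (fun z => ghGw B z s) := fun s z => (ghr_Gw_hasFDerivAt hB z s).differentiableAt
  have hb : ∀ s z, ‖ghGw B z s‖ ≤ 1 := fun s z => by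
    rw [Real.norm_eq_abs, abs_of_nonneg (ghr_Gw_nonneg hB z s)]
    exact ghr_Gw_le_one hB z s
  induction n with
  | zero =>
    intro s
    refine ska_Bd_iff.2 ⟨by rw [Nat.cast_zero, contDiff_zero]; exact (hd s).continuous, 1, fun k hk x => ?_⟩
    obtain rfl : k = 0 := Nat.le_zero.1 hk
    rw [norm_iteratedFDeriv_zero]
    exact hb s x
  | succ n ih =>
    intro s
    refine ska_Bd_succ (hd s) (hb s) ?_
    have e : fderiv ℝ (fun z => ghGw B z s) = fun z => (B.a * ghGw B z s) • (ghrPr s - ∑ t, ghGw B z t • ghrPr t) :=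
      funext fun z => (ghr_Gw_hasFDerivAt hB z s).fderiv
    rw [e]
    exact ska_Bd_smul (ska_Bd_mul (ska_Bd_const n _) (ih s)) (ska_Bd_sub (ska_Bd_const n _) (ska_Bd_sum _ fun t _ => ska_Bd_smul (ih t) (ska_Bd_const n _)))

theorem ghr_F0_reg {B : GhB S} (hB : B.Ok) (n : ℕ) : ∃ C, SkaReg (n + 1) C (ghF0 B) := by
  refine ska_reg_of_fderiv (fun z => (ghr_F0_hasFDerivAt hB z).differentiableAt) ?_
  have e : fderiv ℝ (ghF0 B) = fun z => ∑ t, ghGw B z t • ghrPr t := funext fun z => (ghr_F0_hasFDerivAt hB z).fderiv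
  rw [e]
  exact ska_Bd_sum _ fun t _ => ska_Bd_smul (ghr_Gw_Bd hB n t) (ska_Bd_const n _)

end terminal

/-! ## one more identity for the planted kernel -/

section cov

variable {E : Type} [NormedAddCommGroup E] [NormedSpace ℝ E] {Ω : Type*} [MeasurableSpace Ω] {μ : Measure Ω} {Z : Ω → E}

theorem ska_P_cov [IsProbabilityMeasure μ] (hZ : SkaInc μ Z) {n : ℕ} {C : ℝ} {G : E → ℝ} (hn : 1 ≤ n) (hG : SkaReg n C G) (m : ℝ) {k : ℕ} {a b : E → ℝ}
    (ha : SkaG k a) (hb : SkaG k b) (c₁ c₂ : ℝ) (H : E) :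
    skaP μ Z m G (fun x => (a x - c₁) * (b x - c₂)) H
      = skaP μ Z m G (fun x => a x * b x) H - c₂ * skaP μ Z m G a H - c₁ * skaP μ Z m G b H + c₁ * c₂ := by
  have e : (fun x => (a x - c₁) * (b x - c₂)) = fun x => ((a x * b x - c₂ • a x) - c₁ • b x) + c₁ * c₂ := by
    funext x
    simp only [smul_eq_mul]
    ring
  have h1 := ska_G_mul ha hb
  have h2 := ska_G_const_smul c₂ ha
  have h3 := ska_G_const_smul c₁ hb
  rw [e, ska_P_add hZ hn hG m (ska_G_sub (ska_G_sub h1 h2) h3) (ska_G_const k _), ska_P_sub hZ hn hG m (ska_G_sub h1 h2) h3,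
    ska_P_sub hZ hn hG m h1 h2, ska_P_const_smul, ska_P_const_smul, ska_P_const hZ hn hG]
  simp only [smul_eq_mul]

/-- the planted variance is nonnegative -/
theorem ska_P_var_nonneg [IsProbabilityMeasure μ] (hZ : SkaInc μ Z) {n : ℕ} {C : ℝ} {G : E → ℝ} (hn : 1 ≤ n) (hG : SkaReg n C G) (m : ℝ) {k : ℕ} {a : E → ℝ}
    (ha : SkaG k a) (H : E) : 0 ≤ skaP μ Z m G (fun x => a x * a x) H - skaP μ Z m G a H * skaP μ Z m G a H := by
  have h := ska_P_cov hZ hn hG m ha ha (skaP μ Z m G a H) (skaP μ Z m G a H) H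
  have h2 : 0 ≤ skaP μ Z m G (fun x => (a x - skaP μ Z m G a H) * (a x - skaP μ Z m G a H)) H := ska_P_nonneg m G (fun x => mul_self_nonneg _) H
  rw [h] at h2
  linarith

end cov

/-! ## all the levels -/

section levels

variable {S ι : Type} [Fintype S] [Fintype ι]

theorem ghr_F_nil (B : GhB S) : ghF (ι := ι) B [] = ghF0 B := by
  funext z
  simp only [ghF]

theorem ghr_F_cons (B : GhB S) (l : GhLv S ι) (ls : List (GhLv S ι)) : ghF B (l :: ls) = skaT (ghStd ι) l.inc l.m (ghF B ls) := by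
  funext z
  simp only [ghF, ghT, skaT]

theorem ghr_E_nil (B : GhB S) (Φ : S → ℝ) : ghE (ι := ι) B [] Φ = fun z => ∑ s, ghGw B z s * Φ s := by
  funext z
  simp only [ghE]

theorem ghr_E_cons (B : GhB S) (l : GhLv S ι) (ls : List (GhLv S ι)) (Φ : S → ℝ) :
    ghE B (l :: ls) Φ = skaP (ghStd ι) l.inc l.m (ghF B ls) (ghE B ls Φ) := by
  funext z
  simp only [ghE, ghD, skaP, ghr_F_cons, smul_eq_mul]

/-- **every continuation is a potential** (all orders) -/
theorem ghr_F_reg {B : GhB S} (hB : B.Ok) (ls : List (GhLv S ι)) (n : ℕ) : ∃ C, SkaReg (n + 1) C (ghF B ls) := by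
  induction ls with
  | nil =>
    rw [ghr_F_nil]
    exact ghr_F0_reg hB n
  | cons l ls ih =>
    obtain ⟨C, h⟩ := ih
    rw [ghr_F_cons]
    exact ska_T_reg (ghr_inc l) (by omega) h l.m

theorem ghr_F_contDiff {B : GhB S} (hB : B.Ok) (ls : List (GhLv S ι)) (n : ℕ) : ContDiff ℝ n (ghF B ls) := by
  obtain ⟨C, h⟩ := ghr_F_reg hB ls n
  exact h.1.of_le (by exact_mod_cast Nat.le_succ n)

/-- **every planted conditional mean is an observable** (all orders) -/
theorem ghr_E_G {B : GhB S} (hB : B.Ok) (ls : List (GhLv S ι)) (Φ : S → ℝ) (n : ℕ) : SkaG n (ghE B ls Φ) := by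
  refine ska_G_of_le (n := n + 1) ?_ (Nat.le_succ n)
  induction ls with
  | nil =>
    rw [ghr_E_nil]
    exact ska_Bd_G (ska_Bd_sum _ fun s _ => ska_Bd_mul (ghr_Gw_Bd hB _ s) (ska_Bd_const _ _))
  | cons l ls ih =>
    obtain ⟨C, h⟩ := ghr_F_reg hB ls n
    rw [ghr_E_cons]
    exact ska_P_G (ghr_inc l) (by omega) h l.m ih

theorem ghr_E_bound {B : GhB S} (hB : B.Ok) (ls : List (GhLv S ι)) {Φ : S → ℝ} {b : ℝ} (hb : ∀ s, |Φ s| ≤ b) (z : S → ℝ) : |ghE B ls Φ z| ≤ b := by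
  induction ls generalizing z with
  | nil =>
    rw [ghr_E_nil]
    simp only
    calc |∑ s, ghGw B z s * Φ s| ≤ ∑ s, |ghGw B z s * Φ s| := Finset.abs_sum_le_sum_abs _ _
      _ ≤ ∑ s, ghGw B z s * b := Finset.sum_le_sum fun s _ => by
          rw [abs_mul, abs_of_nonneg (ghr_Gw_nonneg hB z s)]
          exact mul_le_mul_of_nonneg_left (hb s) (ghr_Gw_nonneg hB z s)
      _ = b := by rw [← Finset.sum_mul, ghr_Gw_sum hB, one_mul]
  | cons l ls ih =>
    obtain ⟨C, h⟩ := ghr_F_reg hB ls 0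
    rw [ghr_E_cons]
    exact ska_P_bound (ghr_inc l) le_rfl h l.m (A := ghE B ls Φ) (b := b) (fun x => ih x) z

theorem ghr_E_add {B : GhB S} (hB : B.Ok) (ls : List (GhLv S ι)) (Φ Ψ : S → ℝ) (z : S → ℝ) :
    ghE B ls (fun s => Φ s + Ψ s) z = ghE B ls Φ z + ghE B ls Ψ z := by
  induction ls generalizing z with
  | nil =>
    simp only [ghr_E_nil, mul_add, Finset.sum_add_distrib]
  | cons l ls ih =>
    obtain ⟨C, h⟩ := ghr_F_reg hB ls 0
    simp only [ghr_E_cons]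
    rw [funext ih]
    exact ska_P_add (ghr_inc l) le_rfl h l.m (ghr_E_G hB ls Φ 0) (ghr_E_G hB ls Ψ 0) z

theorem ghr_E_smul (B : GhB S) (ls : List (GhLv S ι)) (c : ℝ) (Φ : S → ℝ) (z : S → ℝ) :
    ghE B ls (fun s => c * Φ s) z = c * ghE B ls Φ z := by
  induction ls generalizing z with
  | nil =>
    simp only [ghr_E_nil, Finset.mul_sum]
    exact Finset.sum_congr rfl fun s _ => by ring
  | cons l ls ih =>
    simp only [ghr_E_cons]
    rw [funext ih]
    exact ska_P_const_smul l.m _ c _ z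

theorem ghr_E_sub {B : GhB S} (hB : B.Ok) (ls : List (GhLv S ι)) (Φ Ψ : S → ℝ) (z : S → ℝ) :
    ghE B ls (fun s => Φ s - Ψ s) z = ghE B ls Φ z - ghE B ls Ψ z := by
  have h := ghr_E_add hB ls Φ (fun s => (-1) * Ψ s) z
  rw [ghr_E_smul] at h
  simp only [neg_mul, one_mul, ← sub_eq_add_neg] at h
  exact h

theorem ghr_E_const {B : GhB S} (hB : B.Ok) (ls : List (GhLv S ι)) (c : ℝ) (z : S → ℝ) : ghE B ls (fun _ => c) z = c := by
  induction ls generalizing z with
  | nil =>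
    simp only [ghr_E_nil]
    rw [← Finset.sum_mul, ghr_Gw_sum hB, one_mul]
  | cons l ls ih =>
    obtain ⟨C, h⟩ := ghr_F_reg hB ls 0
    simp only [ghr_E_cons]
    rw [funext ih]
    exact ska_P_const (ghr_inc l) le_rfl h l.m c z

theorem ghr_E_nonneg {B : GhB S} (hB : B.Ok) (ls : List (GhLv S ι)) {Φ : S → ℝ} (hΦ : ∀ s, 0 ≤ Φ s) (z : S → ℝ) : 0 ≤ ghE B ls Φ z := by
  induction ls generalizing z with
  | nil =>
    simp only [ghr_E_nil]
    exact Finset.sum_nonneg fun s _ => mul_nonneg (ghr_Gw_nonneg hB z s) (hΦ s)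
  | cons l ls ih =>
    simp only [ghr_E_cons]
    exact ska_P_nonneg l.m _ ih z

theorem ghr_E_mono {B : GhB S} (hB : B.Ok) (ls : List (GhLv S ι)) {Φ Ψ : S → ℝ} (h : ∀ s, Φ s ≤ Ψ s) (z : S → ℝ) : ghE B ls Φ z ≤ ghE B ls Ψ z := by
  have h1 := ghr_E_nonneg hB ls (Φ := fun s => Ψ s - Φ s) (fun s => sub_nonneg.2 (h s)) z
  rw [ghr_E_sub hB] at h1
  linarith

theorem ghr_E_sum {B : GhB S} (hB : B.Ok) (ls : List (GhLv S ι)) {κ : Type*} (t : Finset κ) (Φ : κ → S → ℝ) (z : S → ℝ) :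
    ghE B ls (fun s => ∑ i ∈ t, Φ i s) z = ∑ i ∈ t, ghE B ls (Φ i) z := by
  classical
  induction t using Finset.induction_on with
  | empty => simpa using ghr_E_const hB ls 0 z
  | insert a t ha ih =>
    simp only [Finset.sum_insert ha]
    rw [ghr_E_add hB, ih]

/-- **G1**: the gradient of a continuation is the planted conditional mean -/
theorem ghr_F_fderiv {B : GhB S} (hB : B.Ok) (ls : List (GhLv S ι)) (z v : S → ℝ) : fderiv ℝ (ghF B ls) z v = ghE B ls v z := by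
  induction ls generalizing z with
  | nil =>
    rw [ghr_F_nil, (ghr_F0_hasFDerivAt hB z).fderiv, ghr_E_nil]
    simp
  | cons l ls ih =>
    obtain ⟨C, h⟩ := ghr_F_reg hB ls 0
    rw [ghr_F_cons, ska_T_fderiv_apply (ghr_inc l) le_rfl h l.m z v, ghr_E_cons, funext ih]

theorem ghr_F_hasFDerivAt {B : GhB S} (hB : B.Ok) (ls : List (GhLv S ι)) (z : S → ℝ) : HasFDerivAt (ghF B ls) (fderiv ℝ (ghF B ls) z) z :=
  ((ghr_F_contDiff hB ls 1).differentiable (by simp) z).hasFDerivAt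

theorem ghr_E_hasFDerivAt {B : GhB S} (hB : B.Ok) (ls : List (GhLv S ι)) (Φ : S → ℝ) (z : S → ℝ) : HasFDerivAt (ghE B ls Φ) (fderiv ℝ (ghE B ls Φ) z) z :=
  ((ska_G_contDiff (ghr_E_G hB ls Φ 1)).differentiable (by simp) z).hasFDerivAt

/-- **G2**: the derivative of the planted conditional mean is the recursive Hessian -/
theorem ghr_E_fderiv {B : GhB S} (hB : B.Ok) (ls : List (GhLv S ι)) (v w z : S → ℝ) : fderiv ℝ (ghE B ls v) z w = ghH B ls v w z := by
  induction ls generalizing z with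
  | nil =>
    have h : HasFDerivAt (fun z => ∑ s, ghGw B z s * v s) (∑ s, v s • ((B.a * ghGw B z s) • (ghrPr s - ∑ t, ghGw B z t • ghrPr t))) z :=
      HasFDerivAt.fun_sum fun s _ => (ghr_Gw_hasFDerivAt hB z s).mul_const (v s)
    rw [ghr_E_nil, h.fderiv]
    simp only [ghH, ghC, ghr_E_nil, FunLike.coe_sum, Finset.sum_apply, _root_.smul_apply, _root_.sub_apply, ContinuousLinearMap.proj_apply, smul_eq_mul]
    rw [mul_sub, Finset.mul_sum, Finset.sum_mul, Finset.mul_sum, ← Finset.sum_sub_distrib]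
    refine Finset.sum_congr rfl fun s _ => ?_
    ring
  | cons l ls ih =>
    obtain ⟨C, h⟩ := ghr_F_reg hB ls 0
    have hH : ghH B ls v w = fun x => fderiv ℝ (ghE B ls v) x w := funext fun x => (ih x).symm
    have hHG : SkaG 0 (ghH B ls v w) := by
      rw [hH]
      exact ska_G_apply (ska_G_fderiv (ghr_E_G hB ls v 1)) w
    have hv := ghr_E_G hB ls v 0
    have hw := ghr_E_G hB ls w 0
    rw [ghr_E_cons, ska_P_fderiv_apply (ghr_inc l) le_rfl h l.m (ghr_E_G hB ls v 1) z w]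
    simp only [ih, ghr_F_fderiv hB]
    have e : ghH B (l :: ls) v w z = skaP (ghStd ι) l.inc l.m (ghF B ls) (fun x => ghH B ls v w x
        + l.m • ((ghE B ls v x - ghE B (l :: ls) v z) * (ghE B ls w x - ghE B (l :: ls) w z))) z := by
      simp only [ghH, ghD, skaP, ghr_F_cons, smul_eq_mul]
    rw [e, ska_P_add (ghr_inc l) le_rfl h l.m hHG (ska_G_const_smul _ (ska_G_mul (ska_G_sub hv (ska_G_const 0 _)) (ska_G_sub hw (ska_G_const 0 _)))),
      ska_P_const_smul, ska_P_cov (ghr_inc l) le_rfl h l.m hv hw, ghr_E_cons, ghr_E_cons]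
    simp only [smul_eq_mul]
    have e2 : (fun x => ghE B ls w x * ghE B ls v x) = fun x => ghE B ls v x * ghE B ls w x := funext fun x => mul_comm _ _
    rw [e2]
    ring

end levels

end Claimed.Agent.R286
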