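import Claimed.Agent.R286.Fd.ObsTw
import Claimed.Agent.R286.Fd.ObsU
import Claimed.Agent.R286.Gk.Split
import Claimed.Agent.R286.Defs.GhDeriv
import Claimed.Agent.R286.Fd.ClkRat
import Claimed.Agent.R286.Fd.Reg

/-!
# Row 286 (S0533), Fd/ObsK7 : THE CLOCK IDENTITY K7, K7' (PE eq. (1), line 2; Lemma 2.2)      (owner helper47; prefix `ocl_`, `ocl*`)      0 sorry

TEX[PE:lem:found-pressure] second line of (1): `dS/dt = n Δh E tr H² + Δb E‖J_b‖²` on the filled revelation, and its integrated inequality.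
PART A (generic, no heat equation)
* `ocl_deriv_integral`   differentiation under the integral sign WITHIN `Icc 0 1` (end points included), dominated derivative
* `oclPre B pre rest g z`   planted average of a function `g` of the field over the prefix `pre` (`rest` = the levels which follow)
* `ocl_path_pre`, `ocl_path_one`, `ocl_path_zero`   `ghPath` of a function of the field at a cut;   `ocl_pre_congr`, `ocl_pre_bc`, `ocl_pre_deriv`
PART B (generic clock identity; a level `l` filled at constant mass: first `ghsScale √s l`, then `ghsScale √(1-s) l` of `Gk/Split`)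
* `ocl_W`, `ocl_U`, `ocl_A_eq`   dictionary planted step `ghA`/`ghD`/`ghE`  <->  Gaussian averages `obkQ` of `Fd/ClkHeat`, `Fd/ClkRat` (helper79: analytic core `obk_rat_X`)
* **`ocl_core`**   one observable `u`, any root field `z`, no prefix:  `d/ds E_z[(E[u | cut s])²] = ∑ i, E_z[H_s(u, A · i)²]`   within `[0,1]`
* **`ocl_clock`**  the same on one planted path behind a prefix `pre`, finite family of observables
PART C (end points, SK instance)
* `ocl_A_zero`, `ocl_E_zero`, `ocl_A_one`, `ocl_scale_one`, `ocl_end_one`, `ocl_end_zero`;   `ocl_part_lv`, `ocl_split_lvs`, `ocl_S_split`, `ocl_rhs`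
* **`ocl_clock_identity`** = `ob_clock_identity` (K7), verbatim;   **`ocl_clock_ineq`** = `ob_clock_ineq` (K7'), verbatim
-/

set_option autoImplicit false
set_option linter.unusedSectionVars false

namespace Claimed.Agent.R286

open MeasureTheory ProbabilityTheory Set Filter Topology

/-! ## PART A -/

section partA

/-- differentiation under the integral sign within `Icc 0 1` -/
theorem ocl_deriv_integral {Ω : Type} [MeasurableSpace Ω] {μ : Measure Ω} {f f' : ℝ → Ω → ℝ} {bound : Ω → ℝ}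
    (hfi : ∀ s ∈ Icc (0 : ℝ) 1, Integrable (f s) μ)
    (hder : ∀ ω, ∀ s ∈ Icc (0 : ℝ) 1, HasDerivWithinAt (fun s => f s ω) (f' s ω) (Icc 0 1) s)
    (hb : ∀ s ∈ Icc (0 : ℝ) 1, ∀ ω, |f' s ω| ≤ bound ω) (hbi : Integrable bound μ) {t : ℝ} (ht : t ∈ Icc (0 : ℝ) 1) :
    HasDerivWithinAt (fun s => ∫ ω, f s ω ∂μ) (∫ ω, f' t ω ∂μ) (Icc 0 1) t := by
  rw [hasDerivWithinAt_iff_tendsto_slope]
  have hmem : ∀ᶠ s in 𝓝[Icc (0 : ℝ) 1 \ {t}] t, s ∈ Icc (0 : ℝ) 1 \ {t} := self_mem_nhdsWithin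
  have e : ∀ᶠ s in 𝓝[Icc (0 : ℝ) 1 \ {t}] t,
      ∫ ω, slope (fun s => f s ω) t s ∂μ = slope (fun s => ∫ ω, f s ω ∂μ) t s := by
    filter_upwards [hmem] with s hs
    simp only [slope_def_field]
    rw [integral_div, integral_sub (hfi s hs.1) (hfi t ht)]
  refine Tendsto.congr' e ?_
  refine tendsto_integral_filter_of_dominated_convergence bound ?_ ?_ hbi ?_
  · filter_upwards [hmem] with s hs
    simp only [slope_def_field]
    exact (((hfi s hs.1).sub (hfi t ht)).div_const _).aestronglyMeasurable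
  · filter_upwards [hmem] with s hs
    refine Eventually.of_forall fun ω => ?_
    have h1 := Convex.norm_image_sub_le_of_norm_hasDerivWithin_le (f := fun s => f s ω) (f' := fun s => f' s ω)
      (C := bound ω) (s := Icc (0 : ℝ) 1) (fun x hx => hder ω x hx) (fun x hx => by simpa using hb x hx ω)
      (convex_Icc 0 1) ht hs.1
    have hne : s - t ≠ 0 := sub_ne_zero.2 fun h => hs.2 (by simp [h])
    rw [slope_def_field, norm_div, div_le_iff₀ (norm_pos_iff.2 hne)]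
    exact h1
  · refine Eventually.of_forall fun ω => ?_
    exact (hasDerivWithinAt_iff_tendsto_slope.1 (hder ω t ht))

variable {S ι : Type} [Fintype S] [Fintype ι]

/-- planted average of a function of the field over the prefix `pre`; `rest` = the levels which follow the prefix -/
noncomputable def oclPre (B : GhB S) : List (GhLv S ι) → List (GhLv S ι) → ((S → ℝ) → ℝ) → (S → ℝ) → ℝ
  | [], _, g, z => g z
  | l :: pre, rest, g, z => ghA B l (pre ++ rest) (oclPre B pre rest g) z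

theorem ocl_a_eqns_cite : True := by
  have := @oclPre.eq_1
  have := @oclPre.eq_2
  have := @oclPre.eq_def
  have := @oclPre.induct
  trivial

/-- `ghPath` of a function of the field at the cut `0` -/
theorem ocl_path_zero {B : GhB S} (hB : B.Ok) (rest : List (GhLv S ι)) (f : (S → ℝ) → ℝ) (y : S → ℝ) :
    ghPath B rest y (fun ξ _ => f (y + ghPre rest ξ 0)) = f y := by
  simp only [obt_pre_zero, add_zero]
  exact obt_path_const hB rest y (f y)

/-- `ghPath` of a function of the field at the cut `1` -/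
theorem ocl_path_one {B : GhB S} (hB : B.Ok) (l : GhLv S ι) (rest : List (GhLv S ι)) (f : (S → ℝ) → ℝ) (y : S → ℝ) :
    ghPath B (l :: rest) y (fun ξ _ => f (y + ghPre (l :: rest) ξ 1)) = ghA B l rest f y := by
  simp only [ghPath, ghA]
  refine integral_congr_ae (Eventually.of_forall fun ξ => ?_)
  simp only [obt_pre_cons, obt_pre_zero, add_zero]
  rw [obt_path_const hB]

/-- `ghPath` of a function of the field at a cut beyond the prefix -/
theorem ocl_path_pre (B : GhB S) (pre rest : List (GhLv S ι)) (f : (S → ℝ) → ℝ) (j : ℕ) (z : S → ℝ) :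
    ghPath B (pre ++ rest) z (fun ξ _ => f (z + ghPre (pre ++ rest) ξ (pre.length + j)))
      = oclPre B pre rest (fun y => ghPath B rest y (fun ξ _ => f (y + ghPre rest ξ j))) z := by
  induction pre generalizing z with
  | nil => simp [oclPre]
  | cons l pre ih =>
    simp only [List.cons_append, ghPath, oclPre, ghA]
    refine integral_congr_ae (Eventually.of_forall fun ξ => ?_)
    simp only
    rw [← ih]
    have e : (l :: pre).length + j = (pre.length + j) + 1 := by simp; omega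
    rw [e]
    simp only [obt_pre_cons, ← add_assoc]

/-- the prefix average sees the rest only through its continuation -/
theorem ocl_pre_congr (B : GhB S) (pre : List (GhLv S ι)) {X Y : List (GhLv S ι)} (h : ghF B X = ghF B Y)
    (g : (S → ℝ) → ℝ) : oclPre B pre X g = oclPre B pre Y g := by
  induction pre with
  | nil => rfl
  | cons l pre ih =>
    funext z
    simp only [oclPre, ghA, ghD, ih]
    have h1 := ghs_F_append_congr B pre h
    have h2 := ghs_F_append_congr B (l :: pre) h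
    simp only [List.cons_append] at h2
    rw [h1, h2]

theorem ocl_nn_tail {pre rest : List (GhLv S ι)} {l : GhLv S ι} (h : GhNn ((l :: pre) ++ rest)) : GhNn (pre ++ rest) :=
  fun l' hl' => h l' (by simp only [List.cons_append, List.mem_cons]; exact Or.inr hl')

theorem ocl_pre_bc {B : GhB S} (hB : B.Ok) {pre rest : List (GhLv S ι)} (h : GhNn (pre ++ rest))
    {g : (S → ℝ) → ℝ} {M : ℝ} (hg : GhBC g M) : GhBC (oclPre B pre rest g) M := by
  induction pre with
  | nil => exact hg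
  | cons l pre ih => exact gh_b_A_bc hB (l := l) (ls := pre ++ rest) h (ih (ocl_nn_tail h))

/-- one planted step: differentiation in a parameter -/
theorem ocl_A_deriv {B : GhB S} (hB : B.Ok) {l : GhLv S ι} {ls : List (GhLv S ι)} (h : GhNn (l :: ls))
    {φ φ' : ℝ → (S → ℝ) → ℝ} {M M' : ℝ} (hφ : ∀ s ∈ Icc (0 : ℝ) 1, GhBC (φ s) M)
    (hφ' : ∀ s ∈ Icc (0 : ℝ) 1, ∀ y, |φ' s y| ≤ M')
    (hd : ∀ y, ∀ s ∈ Icc (0 : ℝ) 1, HasDerivWithinAt (fun s => φ s y) (φ' s y) (Icc 0 1) s)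
    (z : S → ℝ) {t : ℝ} (ht : t ∈ Icc (0 : ℝ) 1) :
    HasDerivWithinAt (fun s => ghA B l ls (φ s) z) (ghA B l ls (φ' t) z) (Icc 0 1) t := by
  unfold ghA
  refine ocl_deriv_integral (f := fun s ξ => ghD B l ls z ξ * φ s (z + l.inc ξ))
    (f' := fun s ξ => ghD B l ls z ξ * φ' s (z + l.inc ξ)) (bound := fun ξ => ghD B l ls z ξ * M')
    (fun s hs => gh_b_A_integrable hB h (hφ s hs) z) (fun ξ s hs => (hd _ s hs).const_mul _) (fun s hs ξ => ?_)
    ((gh_b_D_integrable hB h.tail l z).mul_const M') ht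
  rw [abs_mul, abs_of_pos (gh_b_D_pos B l ls z ξ)]
  exact mul_le_mul_of_nonneg_left (hφ' s hs _) (gh_b_D_pos B l ls z ξ).le

/-- the prefix average: differentiation in a parameter -/
theorem ocl_pre_deriv {B : GhB S} (hB : B.Ok) {pre rest : List (GhLv S ι)} (h : GhNn (pre ++ rest))
    {φ φ' : ℝ → (S → ℝ) → ℝ} {M M' : ℝ} (hφ : ∀ s ∈ Icc (0 : ℝ) 1, GhBC (φ s) M)
    (hφ' : ∀ s ∈ Icc (0 : ℝ) 1, GhBC (φ' s) M')
    (hd : ∀ y, ∀ s ∈ Icc (0 : ℝ) 1, HasDerivWithinAt (fun s => φ s y) (φ' s y) (Icc 0 1) s)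
    (z : S → ℝ) {t : ℝ} (ht : t ∈ Icc (0 : ℝ) 1) :
    HasDerivWithinAt (fun s => oclPre B pre rest (φ s) z) (oclPre B pre rest (φ' t) z) (Icc 0 1) t := by
  induction pre generalizing z t with
  | nil => exact hd z t ht
  | cons l pre ih =>
    have h' := ocl_nn_tail h
    exact ocl_A_deriv hB (l := l) (ls := pre ++ rest) h
      (φ := fun s => oclPre B pre rest (φ s)) (φ' := fun s => oclPre B pre rest (φ' s))
      (fun s hs => ocl_pre_bc hB h' (hφ s hs)) (fun s hs y => (ocl_pre_bc hB h' (hφ' s hs)).le y)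
      (fun y s hs => ih h' y hs) z ht

end partA

/-! ## PART B -/

section partB

variable {S ι : Type} [Fintype S] [Fintype ι]

/-! ### dictionary -/

theorem ocl_W {B : GhB S} (hB : B.Ok) (l : GhLv S ι) (ls : List (GhLv S ι)) (r : ℝ) (y : S → ℝ) :
    obkQ (ghsIncL l) (fun y => Real.exp (l.m * ghF B ls y)) r y = Real.exp (l.m * ghF B (ghsScale r l :: ls) y) := by
  have h := ghs_exp_m_mul_F hB (ghsScale r l) ls y
  simp only [ghs_scale_inc] at h
  rw [show (ghsScale r l).m = l.m from rfl] at h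
  rw [h]
  simp only [obkQ, ghs_incL_apply]

theorem ocl_D_eq (B : GhB S) (l : GhLv S ι) (ls : List (GhLv S ι)) (z : S → ℝ) (ξ : ι → ℝ) :
    ghD B l ls z ξ = Real.exp (-(l.m * ghF B (l :: ls) z)) * Real.exp (l.m * ghF B ls (z + l.inc ξ)) := by
  rw [ghD, ← Real.exp_add]
  congr 1
  ring

theorem ocl_A_eq' (B : GhB S) (l : GhLv S ι) (ls : List (GhLv S ι)) (r : ℝ) (f : (S → ℝ) → ℝ) (z : S → ℝ) :
    ghA B (ghsScale r l) ls f z
      = Real.exp (-(l.m * ghF B (ghsScale r l :: ls) z)) * obkQ (ghsIncL l) (fun y => Real.exp (l.m * ghF B ls y) * f y) r z := by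
  simp only [ghA, obkQ, ocl_D_eq, ghs_scale_inc, ghs_incL_apply]
  rw [← integral_const_mul]
  refine integral_congr_ae (Eventually.of_forall fun ξ => ?_)
  simp only [show (ghsScale r l).m = l.m from rfl]
  ring

theorem ocl_U (B : GhB S) (l : GhLv S ι) (ls : List (GhLv S ι)) (u : S → ℝ) (r : ℝ) (y : S → ℝ) :
    obkQ (ghsIncL l) (fun y => Real.exp (l.m * ghF B ls y) * ghE B ls u y) r y
      = Real.exp (l.m * ghF B (ghsScale r l :: ls) y) * ghE B (ghsScale r l :: ls) u y := by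
  rw [gh_b_E_cons, ocl_A_eq', ← mul_assoc, ← Real.exp_add]
  simp

/-- the planted step through the first part of a filled level -/
theorem ocl_A_eq {B : GhB S} (hB : B.Ok) (l : GhLv S ι) (ls : List (GhLv S ι)) {s : ℝ} (hs : s ∈ Icc (0 : ℝ) 1)
    (f : (S → ℝ) → ℝ) (z : S → ℝ) :
    ghA B (ghsScale (Real.sqrt s) l) (ghsScale (Real.sqrt (1 - s)) l :: ls) f z
      = Real.exp (-(l.m * ghF B (l :: ls) z))
        * obkQ (ghsIncL l) (fun y => Real.exp (l.m * ghF B (ghsScale (Real.sqrt (1 - s)) l :: ls) y) * f y) (Real.sqrt s) z := by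
  rw [ocl_A_eq']
  have h := congrFun (ghs_F_split hB l ls hs.1 hs.2) z
  simp only [ghsSplit, List.cons_append, List.nil_append] at h
  rw [h]

theorem ocl_dir [DecidableEq ι] (l : GhLv S ι) (α : ι) : ghsIncL l (Pi.single α 1) = fun s => l.A s α := by
  rw [ghs_incL_apply]
  funext s
  simp [GhLv.inc, Pi.single_apply]

/-! ### the generic clock identity -/

theorem ocl_nn_scale {l : GhLv S ι} {ls : List (GhLv S ι)} (h : GhNn (l :: ls)) (r : ℝ) : GhNn (ghsScale r l :: ls) := by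
  intro l' hl'
  rcases List.mem_cons.1 hl' with rfl | h'
  · exact h l List.mem_cons_self
  · exact h l' (List.mem_cons_of_mem _ h')

theorem ocl_nn_scale2 {l : GhLv S ι} {ls : List (GhLv S ι)} (h : GhNn (l :: ls)) (r r' : ℝ) :
    GhNn (ghsScale r l :: ghsScale r' l :: ls) := by
  intro l' hl'
  rcases List.mem_cons.1 hl' with rfl | h'
  · exact h l List.mem_cons_self
  · exact ocl_nn_scale h r' l' h'

theorem ocl_le_scale {a : ℝ} {l : GhLv S ι} {ls : List (GhLv S ι)} (h : ∀ l' ∈ l :: ls, l'.m ≤ a) (r : ℝ) :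
    ∀ l' ∈ ghsScale r l :: ls, l'.m ≤ a := by
  intro l' hl'
  rcases List.mem_cons.1 hl' with rfl | h'
  · exact h l List.mem_cons_self
  · exact h l' (List.mem_cons_of_mem _ h')

/-- TEX[PE:lem:found-pressure] (eq. (1), line 2), GENERIC DIRECTIONAL FORM: one observable `u`, any root field `z`, the level `l` filled at constant mass. -/
theorem ocl_core {B : GhB S} (hB : B.Ok) {l : GhLv S ι} {ls : List (GhLv S ι)} (h : GhNn (l :: ls))
    (ha : ∀ l' ∈ l :: ls, l'.m ≤ B.a) (u : S → ℝ) (z : S → ℝ) {t : ℝ} (ht : t ∈ Icc (0 : ℝ) 1) :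
    HasDerivWithinAt
      (fun s => ghA B (ghsScale (Real.sqrt s) l) (ghsScale (Real.sqrt (1 - s)) l :: ls)
        (fun y => ghE B (ghsScale (Real.sqrt (1 - s)) l :: ls) u y ^ 2) z)
      (ghA B (ghsScale (Real.sqrt t) l) (ghsScale (Real.sqrt (1 - t)) l :: ls)
        (fun y => ∑ i, ghH B (ghsScale (Real.sqrt (1 - t)) l :: ls) u (fun s => l.A s i) y ^ 2) z)
      (Icc 0 1) t := by
  classical
  obtain ⟨C, hC⟩ := ghr_F_reg hB ls 1
  have hw : SkaG 2 (fun y => Real.exp (l.m * ghF B ls y)) := ska_G_exp (by norm_num) hC l.m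
  have key := obk_rat_X (ghsIncL l) (u := fun y => Real.exp (l.m * ghF B ls y) * ghE B ls u y)
    (w := fun y => Real.exp (l.m * ghF B ls y)) (X := fun r y => ghE B (ghsScale r l :: ls) u y)
    (X1 := fun α r y => ghH B (ghsScale r l :: ls) u (fun s => l.A s α) y)
    (M := ‖u‖) (M1 := B.a * (‖u‖ * ∑ α, ‖fun s => l.A s α‖))
    (ska_G_mul hw (ghr_E_G hB ls u 2)) hw (fun y => Real.exp_pos _)
    (fun r y => by rw [ocl_U, ocl_W hB])
    (fun α r y => by rw [ocl_dir]; exact gh_v_hess hB u _ (ocl_nn_scale h r) y)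
    (fun r y => (gh_b_E_bc' hB u (ocl_nn_scale h r)).le y)
    (fun α r y => (gh_v_H_abs_le hB u _ (ocl_nn_scale h r) (ocl_le_scale ha r) y).trans
      (mul_le_mul_of_nonneg_left (mul_le_mul_of_nonneg_left
        (Finset.single_le_sum (f := fun α => ‖fun s => l.A s α‖) (fun _ _ => norm_nonneg _) (Finset.mem_univ α))
        (norm_nonneg _)) hB.pos.le)) z ht
  simp only [ocl_W hB] at key
  rw [ocl_A_eq hB l ls ht]
  exact (key.const_mul _).congr (fun s hs => ocl_A_eq hB l ls hs _ z) (ocl_A_eq hB l ls ht _ z)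

/-- finite sums under a planted step -/
theorem ocl_A_sum {B : GhB S} (hB : B.Ok) {l : GhLv S ι} {ls : List (GhLv S ι)} (h : GhNn (l :: ls)) {κ : Type}
    (K : Finset κ) {f : κ → (S → ℝ) → ℝ} {M : κ → ℝ} (hf : ∀ k ∈ K, GhBC (f k) (M k)) (z : S → ℝ) :
    ghA B l ls (fun y => ∑ k ∈ K, f k y) z = ∑ k ∈ K, ghA B l ls (f k) z := by
  unfold ghA
  rw [← integral_finsetSum K fun k hk => gh_b_A_integrable hB h (hf k hk) z]
  exact integral_congr_ae (Eventually.of_forall fun ξ => by simp only [Finset.mul_sum])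

theorem ocl_bc_sum {κ : Type} (K : Finset κ) {f : κ → (S → ℝ) → ℝ} {M : κ → ℝ} (hf : ∀ k ∈ K, GhBC (f k) (M k)) :
    GhBC (fun y => ∑ k ∈ K, f k y) (∑ k ∈ K, M k) :=
  ⟨continuous_finsetSum _ fun k hk => (hf k hk).cont, fun z =>
    (Finset.abs_sum_le_sum_abs _ _).trans (Finset.sum_le_sum fun k hk => (hf k hk).le z)⟩

theorem ocl_bc_sq {g : (S → ℝ) → ℝ} {M : ℝ} (h : GhBC g M) : GhBC (fun y => g y ^ 2) (M * M) := by
  simpa only [pow_two] using h.mul h

/-- bounded continuous: the square of the conditional mean -/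
theorem ocl_bc_E {B : GhB S} (hB : B.Ok) {ls : List (GhLv S ι)} (h : GhNn ls) (u : S → ℝ) :
    GhBC (fun y => ghE B ls u y ^ 2) (‖u‖ * ‖u‖) := ocl_bc_sq (gh_b_E_bc' hB u h)

/-- bounded continuous: the square of the Hessian, list free bound -/
theorem ocl_bc_H {B : GhB S} (hB : B.Ok) {ls : List (GhLv S ι)} (h : GhNn ls) (ha : ∀ l ∈ ls, l.m ≤ B.a) (u v : S → ℝ) :
    GhBC (fun y => ghH B ls u v y ^ 2) (B.a * (‖u‖ * ‖v‖) * (B.a * (‖u‖ * ‖v‖))) :=
  ocl_bc_sq ⟨gh_b_H_continuous hB u v h, gh_v_H_abs_le hB u v h ha⟩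

/-- TEX[PE:lem:found-pressure] (eq. (1), line 2), generic form on one planted path: prefix `pre`, finite family of observables `v k`;
the intermediate cut has the number `pre.length + 1`. -/
theorem ocl_clock {B : GhB S} (hB : B.Ok) (pre : List (GhLv S ι)) {l : GhLv S ι} {ls : List (GhLv S ι)}
    (h : GhNn (pre ++ l :: ls)) (ha : ∀ l' ∈ l :: ls, l'.m ≤ B.a) {κ : Type} [Fintype κ] (v : κ → S → ℝ)
    (z₀ : S → ℝ) {t : ℝ} (ht : t ∈ Icc (0 : ℝ) 1) :
    HasDerivWithinAt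
      (fun s => ghPath B (pre ++ ghsScale (Real.sqrt s) l :: ghsScale (Real.sqrt (1 - s)) l :: ls) z₀ fun ξ _ =>
        ∑ k, ghE B (ghsScale (Real.sqrt (1 - s)) l :: ls) (v k)
          (z₀ + ghPre (pre ++ ghsScale (Real.sqrt s) l :: ghsScale (Real.sqrt (1 - s)) l :: ls) ξ (pre.length + 1)) ^ 2)
      (ghPath B (pre ++ ghsScale (Real.sqrt t) l :: ghsScale (Real.sqrt (1 - t)) l :: ls) z₀ fun ξ _ =>
        ∑ k, ∑ i, ghH B (ghsScale (Real.sqrt (1 - t)) l :: ls) (v k) (fun s => l.A s i)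
          (z₀ + ghPre (pre ++ ghsScale (Real.sqrt t) l :: ghsScale (Real.sqrt (1 - t)) l :: ls) ξ (pre.length + 1)) ^ 2)
      (Icc 0 1) t := by
  have hl : GhNn (l :: ls) := fun l' hl' => h l' (List.mem_append_right _ hl')
  -- reduction of a path expectation to the prefix average over the FIXED rest `l :: ls`
  have red : ∀ s ∈ Icc (0 : ℝ) 1, ∀ f : (S → ℝ) → ℝ,
      ghPath B (pre ++ ghsScale (Real.sqrt s) l :: ghsScale (Real.sqrt (1 - s)) l :: ls) z₀ (fun ξ _ =>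
        f (z₀ + ghPre (pre ++ ghsScale (Real.sqrt s) l :: ghsScale (Real.sqrt (1 - s)) l :: ls) ξ (pre.length + 1)))
      = oclPre B pre (l :: ls) (ghA B (ghsScale (Real.sqrt s) l) (ghsScale (Real.sqrt (1 - s)) l :: ls) f) z₀ := by
    intro s hs f
    rw [ocl_path_pre B pre _ f 1 z₀]
    have e : (fun y => ghPath B (ghsScale (Real.sqrt s) l :: ghsScale (Real.sqrt (1 - s)) l :: ls) y fun ξ _ =>
        f (y + ghPre (ghsScale (Real.sqrt s) l :: ghsScale (Real.sqrt (1 - s)) l :: ls) ξ 1))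
        = ghA B (ghsScale (Real.sqrt s) l) (ghsScale (Real.sqrt (1 - s)) l :: ls) f :=
      funext fun y => ocl_path_one hB _ _ f y
    rw [e]
    exact congrFun (ocl_pre_congr B pre (ghs_F_split hB l ls hs.1 hs.2) _) z₀
  have main := ocl_pre_deriv hB (pre := pre) (rest := l :: ls) h
    (φ := fun s => ghA B (ghsScale (Real.sqrt s) l) (ghsScale (Real.sqrt (1 - s)) l :: ls)
      fun y => ∑ k, ghE B (ghsScale (Real.sqrt (1 - s)) l :: ls) (v k) y ^ 2)
    (φ' := fun s => ghA B (ghsScale (Real.sqrt s) l) (ghsScale (Real.sqrt (1 - s)) l :: ls)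
      fun y => ∑ k, ∑ i, ghH B (ghsScale (Real.sqrt (1 - s)) l :: ls) (v k) (fun s => l.A s i) y ^ 2)
    (M := ∑ k, ‖v k‖ * ‖v k‖)
    (M' := ∑ k, ∑ i, B.a * (‖v k‖ * ‖fun s => l.A s i‖) * (B.a * (‖v k‖ * ‖fun s => l.A s i‖)))
    (fun s _ => gh_b_A_bc hB (ocl_nn_scale2 hl _ _)
      (ocl_bc_sum _ fun k _ => ocl_bc_E hB (ocl_nn_scale hl _) (v k)))
    (fun s _ => gh_b_A_bc hB (ocl_nn_scale2 hl _ _)
      (ocl_bc_sum _ fun k _ => ocl_bc_sum _ fun i _ => ocl_bc_H hB (ocl_nn_scale hl _) (ocl_le_scale ha _) (v k) _))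
    (fun y s hs => ?_) z₀ ht
  · rw [red t ht fun y => ∑ k, ∑ i, ghH B (ghsScale (Real.sqrt (1 - t)) l :: ls) (v k) (fun s => l.A s i) y ^ 2]
    exact main.congr (fun s hs => red s hs fun y => ∑ k, ghE B (ghsScale (Real.sqrt (1 - s)) l :: ls) (v k) y ^ 2)
      (red t ht fun y => ∑ k, ghE B (ghsScale (Real.sqrt (1 - t)) l :: ls) (v k) y ^ 2)
  · rw [ocl_A_sum hB (ocl_nn_scale2 hl _ _) _ fun k _ =>
      ocl_bc_sum _ fun i _ => ocl_bc_H hB (ocl_nn_scale hl _) (ocl_le_scale ha _) (v k) _]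
    have e : (fun s => ghA B (ghsScale (Real.sqrt s) l) (ghsScale (Real.sqrt (1 - s)) l :: ls)
        (fun y => ∑ k, ghE B (ghsScale (Real.sqrt (1 - s)) l :: ls) (v k) y ^ 2) y)
        = fun s => ∑ k, ghA B (ghsScale (Real.sqrt s) l) (ghsScale (Real.sqrt (1 - s)) l :: ls)
        (fun y => ghE B (ghsScale (Real.sqrt (1 - s)) l :: ls) (v k) y ^ 2) y :=
      funext fun s => ocl_A_sum hB (ocl_nn_scale2 hl _ _) _ (fun k _ => ocl_bc_E hB (ocl_nn_scale hl _) (v k)) y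
    rw [e]
    exact HasDerivWithinAt.fun_sum fun k _ => ocl_core hB hl ha (v k) y hs

end partB

/-! ## PART C -/

section generic
variable {S ι : Type} [Fintype S] [Fintype ι]

theorem ocl_scale_one (l : GhLv S ι) : ghsScale 1 l = l := by
  cases l
  simp [ghsScale]

theorem ocl_F_zero (B : GhB S) (l : GhLv S ι) (ls : List (GhLv S ι)) : ghF B (ghsScale 0 l :: ls) = ghF B ls :=
  ghs_F_empty B _ ls fun s => by simp [ghs_scale_cov]

/-- an empty step does nothing -/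
theorem ocl_A_zero (B : GhB S) (l : GhLv S ι) (ls : List (GhLv S ι)) (f : (S → ℝ) → ℝ) (z : S → ℝ) :
    ghA B (ghsScale 0 l) ls f z = f z := by
  simp only [ghA, ghD, ghs_scale_inc, zero_smul, add_zero, ocl_F_zero, sub_self, mul_zero, Real.exp_zero, one_mul,
    integral_const, probReal_univ, one_smul]

theorem ocl_E_zero (B : GhB S) (l : GhLv S ι) (ls : List (GhLv S ι)) (u : S → ℝ) :
    ghE B (ghsScale 0 l :: ls) u = ghE B ls u := by
  funext z
  rw [gh_b_E_cons, ocl_A_zero]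

/-- an empty level behind a step is not seen -/
theorem ocl_A_one (B : GhB S) (l l' : GhLv S ι) (ls : List (GhLv S ι)) (f : (S → ℝ) → ℝ) (z : S → ℝ) :
    ghA B l (ghsScale 0 l' :: ls) f z = ghA B l ls f z := by
  have h2 := ghs_F_append_congr B [l] (ocl_F_zero B l' ls)
  simp only [List.cons_append, List.nil_append] at h2
  simp only [ghA, ghD, ocl_F_zero, h2]

theorem ocl_it_nonneg {B : GhB S} (ls : List (GhLv S ι)) (j : ℕ) {φ : (S → ℝ) → ℝ} (hφ : ∀ y, 0 ≤ φ y) (z : S → ℝ) :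
    0 ≤ obuIt B ls j φ z := by
  induction ls generalizing j z with
  | nil => exact hφ z
  | cons l ls ih =>
    cases j with
    | zero => exact hφ z
    | succ j => exact integral_nonneg fun ξ => mul_nonneg (gh_b_D_pos B l ls z ξ).le (ih j _)

/-- a function of the field at the cut just behind the level which follows the prefix -/
theorem ocl_path_cut1 {B : GhB S} (hB : B.Ok) (pre : List (GhLv S ι)) (l : GhLv S ι) (rest : List (GhLv S ι))
    (f : (S → ℝ) → ℝ) (z₀ : S → ℝ) :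
    ghPath B (pre ++ l :: rest) z₀ (fun ξ _ => f (z₀ + ghPre (pre ++ l :: rest) ξ (pre.length + 1)))
      = oclPre B pre (l :: rest) (ghA B l rest f) z₀ := by
  rw [ocl_path_pre B pre _ f 1 z₀]
  congr 1
  exact funext fun y => ocl_path_one hB _ _ f y

/-- a function of the field at the cut just behind the prefix -/
theorem ocl_path_cut0 {B : GhB S} (hB : B.Ok) (pre rest : List (GhLv S ι)) (f : (S → ℝ) → ℝ) (z₀ : S → ℝ) :
    ghPath B (pre ++ rest) z₀ (fun ξ _ => f (z₀ + ghPre (pre ++ rest) ξ pre.length)) = oclPre B pre rest f z₀ := by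
  have h := ocl_path_pre B pre rest f 0 z₀
  rw [add_zero] at h
  rw [h]
  congr 1
  exact funext fun y => ocl_path_zero hB _ f y

/-- the filling at `s = 1` -/
theorem ocl_end_one {B : GhB S} (hB : B.Ok) (pre : List (GhLv S ι)) (l : GhLv S ι) (ls : List (GhLv S ι))
    (f : (S → ℝ) → ℝ) (z₀ : S → ℝ) :
    ghPath B (pre ++ l :: ghsScale 0 l :: ls) z₀ (fun ξ _ => f (z₀ + ghPre (pre ++ l :: ghsScale 0 l :: ls) ξ (pre.length + 1)))
      = ghPath B (pre ++ l :: ls) z₀ (fun ξ _ => f (z₀ + ghPre (pre ++ l :: ls) ξ (pre.length + 1))) := by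
  rw [ocl_path_cut1 hB, ocl_path_cut1 hB]
  have h2 := ghs_F_append_congr B [l] (ocl_F_zero B l ls)
  simp only [List.cons_append, List.nil_append] at h2
  rw [ocl_pre_congr B pre h2]
  congr 1
  exact funext fun y => ocl_A_one B l l ls f y

/-- the filling at `s = 0` -/
theorem ocl_end_zero {B : GhB S} (hB : B.Ok) (pre : List (GhLv S ι)) (l : GhLv S ι) (ls : List (GhLv S ι))
    (f : (S → ℝ) → ℝ) (z₀ : S → ℝ) :
    ghPath B (pre ++ ghsScale 0 l :: l :: ls) z₀ (fun ξ _ => f (z₀ + ghPre (pre ++ ghsScale 0 l :: l :: ls) ξ (pre.length + 1)))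
      = ghPath B (pre ++ l :: ls) z₀ (fun ξ _ => f (z₀ + ghPre (pre ++ l :: ls) ξ pre.length)) := by
  rw [ocl_path_cut1 hB, ocl_path_cut0 hB, ocl_pre_congr B pre (ocl_F_zero B l (l :: ls))]
  congr 1
  exact funext fun y => ocl_A_zero B l (l :: ls) f y

end generic

section sk
variable {n : ℕ}

/-- a part of a revelation is the scaled level -/
theorem ocl_part_lv (n : ℕ) (e : SkInc) {t : ℝ} (ht : 0 ≤ t) : (obPart t e).lv n = ghsScale (Real.sqrt t) (e.lv n) := by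
  simp only [SkInc.lv, obPart, ghLvF, ghsScale, GhLv.mk.injEq, true_and]
  funext σ d
  rcases d with p | i <;> simp [Real.sqrt_mul ht, mul_assoc]

theorem ocl_split_lvs (n : ℕ) (P₁ : SkStp) (e : SkInc) (P₂ : SkStp) {s : ℝ} (hs : s ∈ Icc (0 : ℝ) 1) :
    skLvs n (obSplit P₁ e P₂ s)
      = skLvs n P₁ ++ ghsScale (Real.sqrt s) (e.lv n) :: ghsScale (Real.sqrt (1 - s)) (e.lv n) :: skLvs n P₂ := by
  simp only [skLvs, obSplit, List.map_append, List.map_cons]
  rw [ocl_part_lv n e hs.1, ocl_part_lv n e (by linarith [hs.2] : (0 : ℝ) ≤ 1 - s)]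

theorem ocl_split_drop (P₁ : SkStp) (e : SkInc) (P₂ : SkStp) (s : ℝ) :
    (obSplit P₁ e P₂ s).drop (P₁.length + 1) = obPart (1 - s) e :: P₂ := by
  simp [obSplit, List.drop_append]

theorem ocl_drop_lvs (n : ℕ) (P₁ : SkStp) (e : SkInc) (P₂ : SkStp) {s : ℝ} (hs : s ∈ Icc (0 : ℝ) 1) :
    skLvs n ((obSplit P₁ e P₂ s).drop (P₁.length + 1)) = ghsScale (Real.sqrt (1 - s)) (e.lv n) :: skLvs n P₂ := by
  rw [ocl_split_drop]
  simp only [skLvs, List.map_cons]
  rw [ocl_part_lv n e (by linarith [hs.2] : (0 : ℝ) ≤ 1 - s)]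

theorem ocl_len (n : ℕ) (P : SkStp) : (skLvs n P).length = P.length := by simp [skLvs]

/-- `S` at the intermediate cut in the generic vocabulary -/
theorem ocl_S_split (n : ℕ) (a : ℝ) (P₁ : SkStp) (e : SkInc) (P₂ : SkStp) (z₀ : SkCfg n → ℝ) {s : ℝ} (hs : s ∈ Icc (0 : ℝ) 1) :
    obS n a (obSplit P₁ e P₂ s) z₀ (P₁.length + 1)
      = ghPath (skBase n a)
          (skLvs n P₁ ++ ghsScale (Real.sqrt s) (e.lv n) :: ghsScale (Real.sqrt (1 - s)) (e.lv n) :: skLvs n P₂) z₀ fun ξ _ =>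
        ∑ k, ghE (skBase n a) (ghsScale (Real.sqrt (1 - s)) (e.lv n) :: skLvs n P₂) (obY k)
          (z₀ + ghPre (skLvs n P₁ ++ ghsScale (Real.sqrt s) (e.lv n) :: ghsScale (Real.sqrt (1 - s)) (e.lv n) :: skLvs n P₂) ξ
            ((skLvs n P₁).length + 1)) ^ 2 := by
  simp only [obS, obE, obXp, obX, obFld, ocl_drop_lvs n P₁ e P₂ hs, ocl_split_lvs n P₁ e P₂ hs, ocl_len]

/-- the directions of the drivers of an SK revelation -/
theorem ocl_dir_b (n : ℕ) (e : SkInc) (p : Fin n × Fin n) :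
    (fun σ => (e.lv n).A σ (Sum.inl p)) = Real.sqrt e.db • obPb p := by
  funext σ
  simp [SkInc.lv, ghLvF, obPb]

theorem ocl_dir_h (hn : 0 < n) (e : SkInc) (i : Fin n) :
    (fun σ => (e.lv n).A σ (Sum.inr i)) = (Real.sqrt e.dh * Real.sqrt n) • obY i := by
  funext σ
  have h : Real.sqrt n ≠ 0 := (Real.sqrt_pos.2 (by exact_mod_cast hn)).ne'
  simp only [SkInc.lv, ghLvF, obY, skY, skPhi, Sum.elim_inr, Pi.smul_apply, smul_eq_mul]
  field_simp

/-- pointwise form of the right side -/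
theorem ocl_rhs_pt (hn : 0 < n) (B : GhB (SkCfg n)) (e : SkInc) (hb : 0 ≤ e.db) (hh : 0 ≤ e.dh)
    (rest : List (GhLv (SkCfg n) (SkDr n))) (y : SkCfg n → ℝ) :
    ∑ k, ∑ d, ghH B rest (obY k) (fun σ => (e.lv n).A σ d) y ^ 2
      = n * e.dh * (∑ i, ∑ k, ghH B rest (obY i) (obY k) y ^ 2) + e.db * ∑ p, ∑ i, ghH B rest (obPb p) (obY i) y ^ 2 := by
  have h1 : ∀ k p, ghH B rest (obY k) (fun σ => (e.lv n).A σ (Sum.inl p)) y ^ 2 = e.db * ghH B rest (obPb p) (obY k) y ^ 2 := by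
    intro k p
    rw [ocl_dir_b, gh_v_H_symm, gh_v_H_smul, mul_pow, Real.sq_sqrt hb]
  have h2 : ∀ k i, ghH B rest (obY k) (fun σ => (e.lv n).A σ (Sum.inr i)) y ^ 2
      = n * e.dh * ghH B rest (obY i) (obY k) y ^ 2 := by
    intro k i
    rw [ocl_dir_h hn, gh_v_H_symm, gh_v_H_smul, mul_pow, mul_pow, Real.sq_sqrt hh, Real.sq_sqrt (Nat.cast_nonneg n)]
    ring
  simp only [Fintype.sum_sum_type, h1, h2, Finset.sum_add_distrib, ← Finset.mul_sum]
  rw [Finset.sum_comm (f := fun k p => ghH B rest (obPb p) (obY k) y ^ 2),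
    Finset.sum_comm (f := fun k i => ghH B rest (obY i) (obY k) y ^ 2)]
  ring

theorem ocl_nn_split (n : ℕ) {a : ℝ} {P₁ : SkStp} {e : SkInc} {P₂ : SkStp} (hP : SkAdm a (P₁ ++ e :: P₂)) (s : ℝ) :
    GhNn (skLvs n (obSplit P₁ e P₂ s)) := by
  intro l hl
  simp only [skLvs, obSplit, List.mem_map, List.mem_append, List.mem_cons] at hl
  obtain ⟨e', he', rfl⟩ := hl
  have he := (hP.2 e (by simp)).1
  rcases he' with h | rfl | rfl | h
  · exact (hP.2 e' (by simp [h])).1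
  · exact he
  · exact he
  · exact (hP.2 e' (by simp [h])).1

theorem ocl_le_tail (n : ℕ) {a : ℝ} {P₁ : SkStp} {e : SkInc} {P₂ : SkStp} (hP : SkAdm a (P₁ ++ e :: P₂)) :
    ∀ l' ∈ e.lv n :: skLvs n P₂, l'.m ≤ (skBase n a).a := by
  intro l hl
  simp only [skLvs, List.mem_map, List.mem_cons] at hl
  rcases hl with rfl | ⟨e', he', rfl⟩
  · exact (hP.2 e (by simp)).2.1
  · exact (hP.2 e' (by simp [he'])).2.1

theorem ocl_nn_all (n : ℕ) {a : ℝ} {P₁ : SkStp} {e : SkInc} {P₂ : SkStp} (hP : SkAdm a (P₁ ++ e :: P₂)) :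
    GhNn (skLvs n P₁ ++ e.lv n :: skLvs n P₂) := by
  have := obu_lvs_nn n hP
  simpa only [skLvs, List.map_append, List.map_cons] using this

/-- the right side of K7 in the generic vocabulary -/
theorem ocl_rhs (hn : 0 < n) {a : ℝ} (ha : 0 < a) (P₁ : SkStp) (e : SkInc) (P₂ : SkStp) (hP : SkAdm a (P₁ ++ e :: P₂))
    (z₀ : SkCfg n → ℝ) {t : ℝ} (ht : t ∈ Icc (0 : ℝ) 1) :
    ghPath (skBase n a)
        (skLvs n P₁ ++ ghsScale (Real.sqrt t) (e.lv n) :: ghsScale (Real.sqrt (1 - t)) (e.lv n) :: skLvs n P₂) z₀ (fun ξ _ =>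
      ∑ k, ∑ d, ghH (skBase n a) (ghsScale (Real.sqrt (1 - t)) (e.lv n) :: skLvs n P₂) (obY k) (fun σ => (e.lv n).A σ d)
        (z₀ + ghPre (skLvs n P₁ ++ ghsScale (Real.sqrt t) (e.lv n) :: ghsScale (Real.sqrt (1 - t)) (e.lv n) :: skLvs n P₂) ξ
          ((skLvs n P₁).length + 1)) ^ 2)
      = n * e.dh * obTrH2 n a (obSplit P₁ e P₂ t) z₀ (P₁.length + 1)
        + e.db * obTrJ2 n a (obSplit P₁ e P₂ t) z₀ (P₁.length + 1) := by
  have hB := obu_base_ok n ha
  obtain ⟨-, -, hb, hh⟩ := hP.2 e (by simp)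
  have hnn := ocl_nn_split n hP t
  have hl : GhNn (e.lv n :: skLvs n P₂) := fun l' hl' => ocl_nn_all n hP l' (List.mem_append_right _ hl')
  have hr := ocl_nn_scale hl (Real.sqrt (1 - t))
  have hra := ocl_le_scale (ocl_le_tail n hP) (Real.sqrt (1 - t))
  simp only [obTrH2, obTrJ2, obE, obHp, obH, obJ, obFld, ocl_drop_lvs n P₁ e P₂ ht]
  rw [← ocl_split_lvs n P₁ e P₂ ht, ocl_len]
  simp only [ocl_rhs_pt hn _ e hb hh]
  rw [obu_path_field hB hnn z₀ (P₁.length + 1) (fun y =>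
      n * e.dh * (∑ i, ∑ k, ghH (skBase n a) (ghsScale (Real.sqrt (1 - t)) (e.lv n) :: skLvs n P₂) (obY i) (obY k) y ^ 2)
        + e.db * ∑ p, ∑ i, ghH (skBase n a) (ghsScale (Real.sqrt (1 - t)) (e.lv n) :: skLvs n P₂) (obPb p) (obY i) y ^ 2),
    obu_path_field hB hnn z₀ (P₁.length + 1) (fun y =>
      ∑ i, ∑ k, ghH (skBase n a) (ghsScale (Real.sqrt (1 - t)) (e.lv n) :: skLvs n P₂) (obY i) (obY k) y ^ 2),
    obu_path_field hB hnn z₀ (P₁.length + 1) (fun y =>
      ∑ p, ∑ i, ghH (skBase n a) (ghsScale (Real.sqrt (1 - t)) (e.lv n) :: skLvs n P₂) (obPb p) (obY i) y ^ 2)]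
  have b1 : ObuBC (fun y => ∑ i, ∑ k,
      ghH (skBase n a) (ghsScale (Real.sqrt (1 - t)) (e.lv n) :: skLvs n P₂) (obY i) (obY k) y ^ 2) :=
    ⟨_, ocl_bc_sum _ fun i _ => ocl_bc_sum _ fun k _ => ocl_bc_H hB hr hra (obY i) (obY k)⟩
  have b2 : ObuBC (fun y => ∑ p, ∑ i,
      ghH (skBase n a) (ghsScale (Real.sqrt (1 - t)) (e.lv n) :: skLvs n P₂) (obPb p) (obY i) y ^ 2) :=
    ⟨_, ocl_bc_sum _ fun p _ => ocl_bc_sum _ fun i _ => ocl_bc_H hB hr hra (obPb p) (obY i)⟩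
  rw [obu_it_add' hB hnn _ (b1.const_mul _) (b2.const_mul _), obu_it_const_mul, obu_it_const_mul]

/-- K7 (= `ob_clock_identity` of `Fd/ObsC.lean`, verbatim) -/
theorem ocl_clock_identity (hn : 0 < n) {a : ℝ} (ha : 0 < a) (P₁ : SkStp) (e : SkInc) (P₂ : SkStp)
    (hP : SkAdm a (P₁ ++ e :: P₂)) (z₀ : SkCfg n → ℝ) {t : ℝ} (ht : t ∈ Icc (0 : ℝ) 1) :
    HasDerivWithinAt (fun s => obS n a (obSplit P₁ e P₂ s) z₀ (P₁.length + 1))
      (n * e.dh * obTrH2 n a (obSplit P₁ e P₂ t) z₀ (P₁.length + 1)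
        + e.db * obTrJ2 n a (obSplit P₁ e P₂ t) z₀ (P₁.length + 1))
      (Icc 0 1) t := by
  have key := ocl_clock (obu_base_ok n ha) (skLvs n P₁) (l := e.lv n) (ls := skLvs n P₂) (ocl_nn_all n hP)
    (ocl_le_tail n hP) (fun k : Fin n => obY k) z₀ ht
  rw [ocl_rhs hn ha P₁ e P₂ hP z₀ ht] at key
  exact key.congr (fun s hs => ocl_S_split n a P₁ e P₂ z₀ hs) (ocl_S_split n a P₁ e P₂ z₀ ht)

theorem ocl_S_one (n : ℕ) {a : ℝ} (ha : 0 < a) (P₁ : SkStp) (e : SkInc) (P₂ : SkStp) (z₀ : SkCfg n → ℝ) :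
    obS n a (obSplit P₁ e P₂ 1) z₀ (P₁.length + 1) = obS n a (P₁ ++ e :: P₂) z₀ (P₁.length + 1) := by
  rw [ocl_S_split n a P₁ e P₂ z₀ (by simp : (1 : ℝ) ∈ Icc (0 : ℝ) 1)]
  simp only [sub_self, Real.sqrt_one, Real.sqrt_zero, ocl_scale_one, ocl_E_zero]
  rw [ocl_end_one (obu_base_ok n ha) (skLvs n P₁) (e.lv n) (skLvs n P₂)
    (fun y => ∑ k, ghE (skBase n a) (skLvs n P₂) (obY k) y ^ 2) z₀]
  have hd : (P₁ ++ e :: P₂).drop (P₁.length + 1) = P₂ := by simp [List.drop_append]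
  simp only [obS, obE, obXp, obX, obFld, hd, ocl_len]
  simp only [skLvs, List.map_append, List.map_cons]

theorem ocl_S_zero (n : ℕ) {a : ℝ} (ha : 0 < a) (P₁ : SkStp) (e : SkInc) (P₂ : SkStp) (z₀ : SkCfg n → ℝ) :
    obS n a (obSplit P₁ e P₂ 0) z₀ (P₁.length + 1) = obS n a (P₁ ++ e :: P₂) z₀ P₁.length := by
  rw [ocl_S_split n a P₁ e P₂ z₀ (by simp : (0 : ℝ) ∈ Icc (0 : ℝ) 1)]
  simp only [sub_zero, Real.sqrt_one, Real.sqrt_zero, ocl_scale_one]
  rw [ocl_end_zero (obu_base_ok n ha) (skLvs n P₁) (e.lv n) (skLvs n P₂)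
    (fun y => ∑ k, ghE (skBase n a) (e.lv n :: skLvs n P₂) (obY k) y ^ 2) z₀]
  have hd : (P₁ ++ e :: P₂).drop P₁.length = e :: P₂ := by simp
  simp only [obS, obE, obXp, obX, obFld, hd, ocl_len]
  simp only [skLvs, List.map_append, List.map_cons]

theorem ocl_TrH2_nonneg (n : ℕ) {a : ℝ} (ha : 0 < a) {P : SkStp} (hnn : GhNn (skLvs n P)) (z₀ : SkCfg n → ℝ) (j : ℕ) :
    0 ≤ obTrH2 n a P z₀ j := by
  simp only [obTrH2, obE, obHp, obFld]
  rw [obu_path_field (obu_base_ok n ha) hnn z₀ j (fun y => ∑ i, ∑ k, obH n a (P.drop j) y i k ^ 2)]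
  exact ocl_it_nonneg _ _ (fun y => Finset.sum_nonneg fun i _ => Finset.sum_nonneg fun k _ => sq_nonneg _) _

theorem ocl_TrJ2_nonneg (n : ℕ) {a : ℝ} (ha : 0 < a) {P : SkStp} (hnn : GhNn (skLvs n P)) (z₀ : SkCfg n → ℝ) (j : ℕ) :
    0 ≤ obTrJ2 n a P z₀ j := by
  simp only [obTrJ2, obE, obFld]
  rw [obu_path_field (obu_base_ok n ha) hnn z₀ j (fun y => ∑ p, ∑ i, obJ n a (P.drop j) y p i ^ 2)]
  exact ocl_it_nonneg _ _ (fun y => Finset.sum_nonneg fun i _ => Finset.sum_nonneg fun k _ => sq_nonneg _) _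

/-- K7' (= `ob_clock_ineq` of `Fd/ObsC.lean`, verbatim) -/
theorem ocl_clock_ineq (hn : 0 < n) {a : ℝ} (ha : 0 < a) (P₁ : SkStp) (e : SkInc) (P₂ : SkStp)
    (hP : SkAdm a (P₁ ++ e :: P₂)) (z₀ : SkCfg n → ℝ) :
    n * e.dh * (∫ t in (0 : ℝ)..1, obTrH2 n a (obSplit P₁ e P₂ t) z₀ (P₁.length + 1))
      ≤ obS n a (P₁ ++ e :: P₂) z₀ (P₁.length + 1) - obS n a (P₁ ++ e :: P₂) z₀ P₁.length := by
  obtain ⟨-, -, hb, hh⟩ := hP.2 e (by simp)
  rw [← ocl_S_one n ha, ← ocl_S_zero n ha]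
  have hd := fun t (ht : t ∈ Icc (0 : ℝ) 1) => ocl_clock_identity hn ha P₁ e P₂ hP z₀ ht
  have hcont : ContinuousOn (fun s => obS n a (obSplit P₁ e P₂ s) z₀ (P₁.length + 1)) (Icc 0 1) :=
    fun t ht => (hd t ht).continuousWithinAt
  have hder : ∀ x ∈ Ioo (0 : ℝ) 1, HasDerivWithinAt (fun s => obS n a (obSplit P₁ e P₂ s) z₀ (P₁.length + 1))
      (n * e.dh * obTrH2 n a (obSplit P₁ e P₂ x) z₀ (P₁.length + 1)
        + e.db * obTrJ2 n a (obSplit P₁ e P₂ x) z₀ (P₁.length + 1)) (Ioi x) x := fun x hx =>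
    ((hd x (Ioo_subset_Icc_self hx)).hasDerivAt (Icc_mem_nhds hx.1 hx.2)).hasDerivWithinAt
  have hH := fun x => ocl_TrH2_nonneg n ha (ocl_nn_split n hP x) z₀ (P₁.length + 1)
  have hJ := fun x => ocl_TrJ2_nonneg n ha (ocl_nn_split n hP x) z₀ (P₁.length + 1)
  have hn0 : (0 : ℝ) ≤ n * e.dh := mul_nonneg (Nat.cast_nonneg n) hh
  by_cases hint : IntervalIntegrable (fun t => obTrH2 n a (obSplit P₁ e P₂ t) z₀ (P₁.length + 1)) volume 0 1
  · rw [← intervalIntegral.integral_const_mul]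
    refine intervalIntegral.integral_le_sub_of_hasDeriv_right_of_le zero_le_one hcont hder ?_ fun x _ => ?_
    · rw [integrableOn_Icc_iff_integrableOn_Ioc, ← intervalIntegrable_iff_integrableOn_Ioc_of_le zero_le_one]
      exact hint.const_mul _
    · linarith [mul_nonneg hb (hJ x)]
  · rw [intervalIntegral.integral_undef hint, mul_zero]
    have := intervalIntegral.integral_le_sub_of_hasDeriv_right_of_le (φ := fun _ => (0 : ℝ)) zero_le_one hcont hder
      (integrableOn_zero) fun x _ => add_nonneg (mul_nonneg hn0 (hH x)) (mul_nonneg hb (hJ x))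
    simpa using this

end sk

end Claimed.Agent.R286
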