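import Claimed.Agent.R286.Fd.Obs
import Claimed.Agent.R286.Fd.RegA
import Claimed.Agent.R286.Defs.SkLem

/-!
# Row 286 (S0533), Fd/ObsSp : PROOF of the contract K6 of `Fd/ObsC.lean` (Gaussian semigroup at equal mass)      (owner helper147; prefix `obp_`)      no sorry

* `obp_conv`       `∫∫ Φ (l₁.inc ξ + l₂.inc η) = ∫ Φ (l.inc ζ)` if `cov l₁ + cov l₂ = cov l`
* `obp_semigroup`  `ghF B (l₁ :: l₂ :: ls) = ghF B (l :: ls)` for three levels of the same mass with `cov l₁ + cov l₂ = cov l`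
* `obp_split_F`    = `ob_split_F` (K6), verbatim
-/

set_option autoImplicit false
set_option linter.unusedSectionVars false
set_option linter.unusedVariables false

namespace Claimed.Agent.R286

open MeasureTheory ProbabilityTheory Set

section generic
variable {S ι : Type} [Fintype S] [Fintype ι]

/-- the two levels side by side, on the doubled driver space -/
def obpJoin (l₁ l₂ : GhLv S ι) : GhLv S (ι ⊕ ι) := ⟨l₁.m, fun s => Sum.elim (l₁.A s) (l₂.A s)⟩

theorem obp_join_inc (l₁ l₂ : GhLv S ι) (ξ η : ι → ℝ) :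
    (obpJoin l₁ l₂).inc ((MeasurableEquiv.sumPiEquivProdPi fun _ : ι ⊕ ι => ℝ).symm (ξ, η))
      = l₁.inc ξ + l₂.inc η := by
  funext s
  show ∑ i : ι ⊕ ι, Sum.elim (l₁.A s) (l₂.A s) i
      * ((MeasurableEquiv.sumPiEquivProdPi fun _ : ι ⊕ ι => ℝ).symm (ξ, η)) i = _
  rw [Fintype.sum_sum_type]
  rfl

theorem obp_join_cov (l₁ l₂ : GhLv S ι) (s t : S) :
    (obpJoin l₁ l₂).cov s t = l₁.cov s t + l₂.cov s t := by
  simp [obpJoin, GhLv.cov, Fintype.sum_sum_type]

/-- convolution of two Gaussian field increments -/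
theorem obp_conv (l₁ l₂ l : GhLv S ι) (hcov : ∀ s t, l₁.cov s t + l₂.cov s t = l.cov s t)
    (Φ : (S → ℝ) → ℝ) (hΦ : Measurable Φ)
    (hint : Integrable (fun ζ => Φ ((obpJoin l₁ l₂).inc ζ)) (ghStd (ι ⊕ ι))) :
    ∫ ξ, ∫ η, Φ (l₁.inc ξ + l₂.inc η) ∂ghStd ι ∂ghStd ι = ∫ ζ, Φ (l.inc ζ) ∂ghStd ι := by
  have hmp := measurePreserving_sumPiEquivProdPi_symm (fun _ : ι ⊕ ι => gaussianReal 0 1)
  have e1 : ∫ ζ, Φ (l.inc ζ) ∂ghStd ι = ∫ ζ, Φ ((obpJoin l₁ l₂).inc ζ) ∂ghStd (ι ⊕ ι) := by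
    rw [← integral_map (gh_l_inc_meas l).aemeasurable hΦ.aestronglyMeasurable,
      ← integral_map (gh_l_inc_meas (obpJoin l₁ l₂)).aemeasurable hΦ.aestronglyMeasurable,
      gh_l_inc_congr l (obpJoin l₁ l₂) fun s t => by rw [obp_join_cov, hcov]]
  have e2 : ∫ ζ, Φ ((obpJoin l₁ l₂).inc ζ) ∂ghStd (ι ⊕ ι)
      = ∫ p : (ι → ℝ) × (ι → ℝ), Φ (l₁.inc p.1 + l₂.inc p.2) ∂(ghStd ι).prod (ghStd ι) := by
    have h := hmp.integral_comp' (fun ζ => Φ ((obpJoin l₁ l₂).inc ζ))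
    rw [show ghStd (ι ⊕ ι) = Measure.pi (fun _ : ι ⊕ ι => gaussianReal 0 1) from rfl, ← h]
    refine integral_congr_ae (Filter.Eventually.of_forall fun p => ?_)
    obtain ⟨ξ, η⟩ := p
    simp only [obp_join_inc]
  have hint2 : Integrable (fun p : (ι → ℝ) × (ι → ℝ) => Φ (l₁.inc p.1 + l₂.inc p.2))
      ((ghStd ι).prod (ghStd ι)) := by
    have h := (hmp.integrable_comp_emb
      (MeasurableEquiv.sumPiEquivProdPi fun _ : ι ⊕ ι => ℝ).symm.measurableEmbedding
      (g := fun ζ => Φ ((obpJoin l₁ l₂).inc ζ))).2 hint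
    refine h.congr (Filter.Eventually.of_forall fun p => ?_)
    obtain ⟨ξ, η⟩ := p
    simp only [Function.comp, obp_join_inc]
  rw [e1, e2, integral_prod _ hint2]

/-- **Gaussian semigroup at equal mass** -/
theorem obp_semigroup {B : GhB S} (hB : B.Ok) (l₁ l₂ l : GhLv S ι) (ls : List (GhLv S ι))
    (hm1 : l₁.m = l.m) (hm2 : l₂.m = l.m) (hcov : ∀ s t, l₁.cov s t + l₂.cov s t = l.cov s t) (z : S → ℝ) :
    ghF B (l₁ :: l₂ :: ls) z = ghF B (l :: ls) z := by
  have hF := gh_ra_F_ms hB ls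
  simp only [ghF, ghT, hm1, hm2]
  by_cases h0 : l.m = 0
  · simp only [h0, if_true]
    have := obp_conv l₁ l₂ l hcov (fun y => ghF B ls (z + y))
      (hF.cont.measurable.comp (measurable_const.add measurable_id)) (hF.int_inc (obpJoin l₁ l₂) z)
    simpa only [add_assoc] using this
  · simp only [h0, if_false]
    have hpos : ∀ y, 0 < ∫ η, Real.exp (l.m * ghF B ls (y + l₂.inc η)) ∂ghStd ι := fun y =>
      integral_exp_pos (hF.int_exp_inc l₂ y l.m)
    have e : ∀ ξ, Real.exp (l.m * (l.m⁻¹ * Real.log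
        (∫ η, Real.exp (l.m * ghF B ls (z + l₁.inc ξ + l₂.inc η)) ∂ghStd ι)))
        = ∫ η, Real.exp (l.m * ghF B ls (z + l₁.inc ξ + l₂.inc η)) ∂ghStd ι := by
      intro ξ
      rw [← mul_assoc, mul_inv_cancel₀ h0, one_mul, Real.exp_log (hpos _)]
    simp only [e]
    have := obp_conv l₁ l₂ l hcov (fun y => Real.exp (l.m * ghF B ls (z + y)))
      (Real.measurable_exp.comp (measurable_const.mul
        (hF.cont.measurable.comp (measurable_const.add measurable_id))))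
      (hF.int_exp_inc (obpJoin l₁ l₂) z l.m)
    simp only [← add_assoc] at this
    rw [this]

/-- covariance increment of a level given by features and coordinate variances -/
theorem obp_lvF_cov (Φ : S → ι → ℝ) (m : ℝ) (dv : ι → ℝ) (hdv : ∀ i, 0 ≤ dv i) (s t : S) :
    (ghLvF Φ m dv).cov s t = ∑ i, dv i * (Φ s i * Φ t i) := by
  simp only [GhLv.cov, ghLvF]
  refine Finset.sum_congr rfl fun i _ => ?_
  calc Real.sqrt (dv i) * Φ s i * (Real.sqrt (dv i) * Φ t i)
      = (Real.sqrt (dv i) * Real.sqrt (dv i)) * (Φ s i * Φ t i) := by ring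
    _ = _ := by rw [Real.mul_self_sqrt (hdv i)]

end generic

section sk
variable {n : ℕ}

theorem obp_base_ok (n : ℕ) {a : ℝ} (ha : 0 < a) : (skBase n a).Ok where
  nonneg := fun _ => by simp only [skBase, ghUnif]; positivity
  sum := by
    simp only [skBase, ghUnif, Finset.sum_const, Finset.card_univ, nsmul_eq_mul]
    exact mul_inv_cancel₀ (Nat.cast_ne_zero.2 Fintype.card_ne_zero)
  pos := ha

/-- K6 (= `ob_split_F`) -/
theorem obp_split_F (hn : 0 < n) {a : ℝ} (ha : 0 < a) (e : SkInc) (P₂ : SkStp) (hP : SkAdm a (e :: P₂))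
    {t : ℝ} (ht : t ∈ Icc (0 : ℝ) 1) (z : SkCfg n → ℝ) :
    skF n a (obPart t e :: obPart (1 - t) e :: P₂) z = skF n a (e :: P₂) z := by
  obtain ⟨-, -, hb, hh⟩ := hP.2 e (List.mem_cons_self)
  have h1t : 0 ≤ 1 - t := by linarith [ht.2]
  simp only [skF, skLvs, List.map_cons]
  refine obp_semigroup (obp_base_ok n ha) ((obPart t e).lv n) ((obPart (1 - t) e).lv n) (e.lv n)
    (List.map (SkInc.lv n) P₂) rfl rfl (fun σ τ => ?_) z
  simp only [SkInc.lv, obPart]
  rw [obp_lvF_cov _ _ _ (by rintro (p | i) <;> simp [mul_nonneg ht.1, hb, hh]),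
    obp_lvF_cov _ _ _ (by rintro (p | i) <;> simp [mul_nonneg h1t, hb, hh]),
    obp_lvF_cov _ _ _ (by rintro (p | i) <;> simp [hb, hh]), ← Finset.sum_add_distrib]
  refine Finset.sum_congr rfl fun i _ => ?_
  rcases i with p | i <;> simp only [Sum.elim_inl, Sum.elim_inr] <;> ring

end sk

end Claimed.Agent.R286
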