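import Claimed.Agent.R286.Fd.PinC
import Claimed.Agent.R286.Fd.ObsG
import Claimed.Agent.R286.Fd.ObsU
import Claimed.Agent.R286.Base.Kit
import Claimed.Agent.R286.Gh.Reg
import Claimed.Agent.R286.Defs.GhDeriv
import Claimed.Agent.R286.Defs.Tr

/-!
# Row 286 (S0533), Fd/P152 : leaves X1b (`ob_x1_convex`) and K11 (`ob_ibp`) of `Fd/ObsC`      (helper152; names `obi_*`)

* `obi_stein`      Stein's lemma on `Measure.pi gaussianReal`, coordinate `k`, for MEASURABLE functions of exponential growth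
* `obi_path_flat`  flat representation of one planted path for tests of exponential growth (generalises `pina_path_flat`)
* `obi_sum_upd`, `obi_pre_upd`   the prefix fields are affine in one driver coordinate
* `obi_den_deriv`  derivative of the telescoped density in one driver coordinate
* `obi_ibp`        K11;   `obi_x1_convex`   X1b
-/

set_option autoImplicit false

namespace Claimed.Agent.R286

open MeasureTheory ProbabilityTheory Set

/-! ## Stein's lemma, measurable version -/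

/-- one dimensional Gaussian integration by parts; `u'` only measurable -/
theorem obi_stein_one {u u' : ℝ → ℝ} (hu : ∀ x, HasDerivAt u (u' x) x) (hmu' : Measurable u') {A B : ℝ}
    (h : ∀ x, |u x| ≤ A * Real.exp (B * |x|)) (h' : ∀ x, |u' x| ≤ A * Real.exp (B * |x|)) :
    ∫ x, x * u x ∂gaussianReal 0 1 = ∫ x, u' x ∂gaussianReal 0 1 := by
  have hcu : Continuous u := continuous_iff_continuousAt.2 fun x => (hu x).continuousAt
  have i1 : Integrable u (gaussianReal 0 1) :=
    ((sk_b_ibp_pi_int1 B).const_mul A).mono' hcu.aestronglyMeasurable (ae_of_all _ h)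
  have i2 : Integrable u' (gaussianReal 0 1) :=
    ((sk_b_ibp_pi_int1 B).const_mul A).mono' hmu'.aestronglyMeasurable (ae_of_all _ h')
  have i3 : Integrable (fun x => x • u x) (gaussianReal 0 1) := by
    refine ((sk_b_ibp_pi_int1 (B + 1)).const_mul A).mono' (continuous_id.smul hcu).aestronglyMeasurable
      (ae_of_all _ fun x => ?_)
    rw [norm_smul, Real.norm_eq_abs]
    have e1 : |x| ≤ Real.exp |x| := by linarith [Real.add_one_le_exp |x|]
    calc |x| * ‖u x‖ ≤ Real.exp |x| * (A * Real.exp (B * |x|)) :=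
          mul_le_mul e1 (h x) (norm_nonneg _) (Real.exp_pos _).le
      _ = A * Real.exp ((B + 1) * |x|) := by
          rw [add_mul, one_mul, Real.exp_add]; ring
  rw [integral_gaussianReal_eq_integral_smul one_ne_zero, integral_gaussianReal_eq_integral_smul one_ne_zero]
  have key := integral_bilinear_hasDerivAt_right_eq_neg_left_of_integrable
    (L := ContinuousLinearMap.lsmul ℝ ℝ) (u := gaussianPDFReal 0 1) (v := u)
    (u' := fun x => -x * gaussianPDFReal 0 1 x) (v' := u')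
    (fun x _ => sk_b_ibp_pi_pdf x) (fun x _ => hu x)
    (by simpa using sk_b_ibp_pi_dens i2)
    (by
      have := (sk_b_ibp_pi_dens i3).neg
      refine this.congr (ae_of_all _ fun x => ?_)
      simp only [Pi.neg_apply, smul_eq_mul, ContinuousLinearMap.lsmul_apply]
      ring)
    (by simpa using sk_b_ibp_pi_dens i1)
  simp only [ContinuousLinearMap.lsmul_apply] at key
  rw [key, ← integral_neg]
  refine integral_congr_ae (ae_of_all _ fun x => ?_)
  simp only [smul_eq_mul]
  ring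

/-- **Stein's lemma** on the standard Gaussian of `κ → ℝ`, coordinate `k`; `ψ`, `ψ'` measurable of exponential growth,
`ψ'` = partial derivative of `ψ` in the coordinate `k` -/
theorem obi_stein {κ : Type} [Fintype κ] [DecidableEq κ] (k : κ) {ψ ψ' : (κ → ℝ) → ℝ}
    (hm : Measurable ψ) (hm' : Measurable ψ')
    (hd : ∀ g r, HasDerivAt (fun r : ℝ => ψ (Function.update g k r)) (ψ' (Function.update g k r)) r)
    {A B : ℝ} (h : ∀ g, |ψ g| ≤ A * Real.exp (B * ‖g‖)) (h' : ∀ g, |ψ' g| ≤ A * Real.exp (B * ‖g‖)) :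
    ∫ g, g k * ψ g ∂(Measure.pi fun _ : κ => gaussianReal 0 1)
      = ∫ g, ψ' g ∂(Measure.pi fun _ : κ => gaussianReal 0 1) := by
  have hA : 0 ≤ A := by
    have := (abs_nonneg _).trans (h 0)
    simpa using this
  have i2 : Integrable ψ' (Measure.pi fun _ : κ => gaussianReal 0 1) :=
    ((sk_b_G_conv_int (ι := κ) B).const_mul A).mono' hm'.aestronglyMeasurable (ae_of_all _ h')
  have i3 : Integrable (fun g : κ → ℝ => g k * ψ g) (Measure.pi fun _ : κ => gaussianReal 0 1) := by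
    refine ((sk_b_G_conv_int (ι := κ) (B + 1)).const_mul A).mono'
      ((measurable_pi_apply k).mul hm).aestronglyMeasurable (ae_of_all _ fun g => ?_)
    rw [norm_mul]
    have e1 : ‖g k‖ ≤ Real.exp ‖g‖ := (norm_le_pi_norm g k).trans (by linarith [Real.add_one_le_exp ‖g‖])
    calc ‖g k‖ * ‖ψ g‖ ≤ Real.exp ‖g‖ * (A * Real.exp (B * ‖g‖)) :=
          mul_le_mul e1 (h g) (norm_nonneg _) (Real.exp_pos _).le
      _ = A * Real.exp ((B + 1) * ‖g‖) := by
          rw [add_mul, one_mul, Real.exp_add]; ring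
  rw [sk_b_G_split k i3, sk_b_G_split k i2]
  refine integral_congr_ae (ae_of_all _ fun g => ?_)
  simp only [Function.update_self]
  have hbd : ∀ (φ : (κ → ℝ) → ℝ), (∀ g, |φ g| ≤ A * Real.exp (B * ‖g‖)) → ∀ x : ℝ,
      |φ (Function.update g k x)| ≤ (A * Real.exp (|B| * ‖g‖)) * Real.exp (|B| * |x|) := by
    intro φ hφ x
    refine (hφ _).trans ?_
    rw [mul_assoc, ← Real.exp_add, ← mul_add]
    refine mul_le_mul_of_nonneg_left (Real.exp_le_exp.2 ?_) hA
    calc B * ‖Function.update g k x‖ ≤ |B| * ‖Function.update g k x‖ :=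
          mul_le_mul_of_nonneg_right (le_abs_self B) (norm_nonneg _)
      _ ≤ |B| * (‖g‖ + |x|) := mul_le_mul_of_nonneg_left (sk_b_ibp_pi_upd g k x) (abs_nonneg B)
  exact obi_stein_one (u := fun x => ψ (Function.update g k x)) (u' := fun x => ψ' (Function.update g k x))
    (fun x => hd g x) (hm'.comp (measurable_update g)) (hbd ψ h) (hbd ψ' h')

/-! ## flat representation of one path, tests of exponential growth -/
section flat
variable {S ι : Type} [Fintype S] [Fintype ι]

theorem obi_den_int {B : GhB S} (hB : B.Ok) (ls : List (GhLv S ι)) (z : S → ℝ)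
    (T : (ℕ → ι → ℝ) → S → ℝ) (hT : ∀ s, Measurable fun ξ => T ξ s)
    (hTg : ∃ K M : ℝ, ∀ ξ s R, (∀ t, ‖ξ t‖ ≤ R) → |T ξ s| ≤ M * Real.exp (K * R)) (N : ℕ) (s : S) :
    Integrable (fun x : Fin N × ι → ℝ => T (ghZx N x) s * ghDen B ls z (ghZx N x) s) (ghFlat ι N) := by
  obtain ⟨K', M, hM⟩ := hTg
  obtain ⟨C, K, hC, hK, h⟩ := pina_den_le hB ls
  have hm : Measurable fun x : Fin N × ι → ℝ => T (ghZx N x) s * ghDen B ls z (ghZx N x) s :=
    ((hT s).comp (pina_ext_cont N).measurable).mul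
      ((pina_den_cont hB ls s).comp (continuous_const.prodMk (pina_ext_cont N))).measurable
  refine gh_ra_int_of_sub (ι := Fin N × ι) hm.aestronglyMeasurable ⟨K' + K, M * C, fun x => ?_⟩
  rw [abs_mul, abs_of_nonneg (pina_den_nonneg hB _ _ _ _)]
  have h1 := hM (ghZx N x) s ‖x‖ (pina_ext_norm N x)
  have h2 := h z (ghZx N x) ‖x‖ s (pina_ext_norm N x)
  calc |T (ghZx N x) s| * ghDen B ls z (ghZx N x) s
      ≤ (M * Real.exp (K' * ‖x‖)) * (C * Real.exp (K * ‖x‖)) :=
        mul_le_mul h1 h2 (pina_den_nonneg hB _ _ _ _) ((abs_nonneg _).trans h1)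
    _ = M * C * Real.exp ((K' + K) * ‖x‖) := by rw [add_mul, Real.exp_add]; ring

theorem obi_cons_norm (ξ : ι → ℝ) (η : ℕ → ι → ℝ) (R : ℝ) (h : ∀ t, ‖η t‖ ≤ R) (t : ℕ) :
    ‖ghCons ξ η t‖ ≤ ‖ξ‖ + R := by
  have hR : 0 ≤ R := (norm_nonneg _).trans (h 0)
  cases t with
  | zero => show ‖ξ‖ ≤ _; linarith
  | succ t => show ‖η t‖ ≤ _; linarith [h t, norm_nonneg ξ]

/-- PA2 for tests of exponential growth -/
theorem obi_path_flat (B : GhB S) (hB : B.Ok) (ls : List (GhLv S ι)) (z : S → ℝ)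
    (T : (ℕ → ι → ℝ) → S → ℝ) (hT : ∀ s, Measurable fun ξ => T ξ s)
    (hTg : ∃ K M : ℝ, ∀ ξ s R, (∀ t, ‖ξ t‖ ≤ R) → |T ξ s| ≤ M * Real.exp (K * R)) :
    ghPath B ls z T = ∫ x : Fin ls.length × ι → ℝ,
      ∑ s, T (ghZx ls.length x) s * ghDen B ls z (ghZx ls.length x) s ∂ghFlat ι ls.length := by
  induction ls generalizing z T with
  | nil =>
    have : IsProbabilityMeasure (ghFlat ι ([] : List (GhLv S ι)).length) := by unfold ghFlat; infer_instance
    have e : ∀ x : Fin ([] : List (GhLv S ι)).length × ι → ℝ,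
        ghZx ([] : List (GhLv S ι)).length x = fun _ _ => 0 := fun x => by
      funext t e
      simp [ghZx]
    simp_rw [e]
    rw [integral_const]
    simp only [probReal_univ, one_smul]
    show ∑ s, ghGw B z s * T (fun _ _ => 0) s = ∑ s, T (fun _ _ => 0) s * ghGw B z s
    exact Finset.sum_congr rfl fun s _ => mul_comm _ _
  | cons l ls ih =>
    show ∫ ξ, ghD B l ls z ξ * ghPath B ls (z + l.inc ξ) (fun η s => T (ghCons ξ η) s) ∂ghStd ι
      = ∫ x : Fin (ls.length + 1) × ι → ℝ,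
          ∑ s, T (ghZx (ls.length + 1) x) s * ghDen B (l :: ls) z (ghZx (ls.length + 1) x) s ∂ghFlat ι (ls.length + 1)
    rw [pina_flat_succ ls.length _ (integrable_finsetSum _ fun s _ => obi_den_int hB (l :: ls) z T hT hTg _ s)]
    refine integral_congr_ae (Filter.Eventually.of_forall fun ξ => ?_)
    show ghD B l ls z ξ * ghPath B ls (z + l.inc ξ) (fun η s => T (ghCons ξ η) s) = _
    have hg : ∃ K M : ℝ, ∀ (η : ℕ → ι → ℝ) s R, (∀ t, ‖η t‖ ≤ R) → |T (ghCons ξ η) s| ≤ M * Real.exp (K * R) := by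
      obtain ⟨K, M, h⟩ := hTg
      refine ⟨K, M * Real.exp (K * ‖ξ‖), fun η s R hR => ?_⟩
      have := h (ghCons ξ η) s (‖ξ‖ + R) (obi_cons_norm ξ η R hR)
      rwa [mul_add, Real.exp_add, ← mul_assoc] at this
    rw [ih (z + l.inc ξ) (fun η s => T (ghCons ξ η) s) (fun s => (hT s).comp (pina_cons_meas ξ)) hg,
      ← integral_const_mul]
    refine integral_congr_ae (Filter.Eventually.of_forall fun x => ?_)
    show ghD B l ls z ξ * ∑ s, T (ghCons ξ (ghZx ls.length x)) s * ghDen B ls (z + l.inc ξ) (ghZx ls.length x) s = _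
    simp_rw [pina_ext_gl]
    rw [Finset.mul_sum]
    refine Finset.sum_congr rfl fun s _ => ?_
    show _ = T (ghCons ξ (ghZx ls.length x)) s * (ghD B l ls z ξ * ghDen B ls (z + l.inc ξ) (ghZx ls.length x) s)
    ring

/-! ## the prefix fields are affine in one driver coordinate -/

omit [Fintype S] in
theorem obi_inc_upd [DecidableEq ι] (l : GhLv S ι) (y : ι → ℝ) (c : ι) (r : ℝ) :
    l.inc (Function.update y c r) = l.inc y + (r - y c) • fun s => l.A s c := by
  funext s
  simp only [GhLv.inc, Pi.add_apply, Pi.smul_apply, smul_eq_mul]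
  rw [← Finset.add_sum_erase _ _ (Finset.mem_univ c), ← Finset.add_sum_erase (a := c) _ (fun i => l.A s i * y i) (Finset.mem_univ c)]
  have : ∑ i ∈ Finset.univ.erase c, l.A s i * Function.update y c r i = ∑ i ∈ Finset.univ.erase c, l.A s i * y i :=
    Finset.sum_congr rfl fun i hi => by rw [Function.update_of_ne (Finset.ne_of_mem_erase hi)]
  rw [this, Function.update_self]
  ring

omit [Fintype S] in
theorem obi_sum_upd [DecidableEq ι] (l₁ : List (GhLv S ι)) (l : GhLv S ι) (l₂ : List (GhLv S ι)) (ξ : ℕ → ι → ℝ)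
    (c : ι) (r : ℝ) :
    ghSum (l₁ ++ l :: l₂) (Function.update ξ l₁.length (Function.update (ξ l₁.length) c r))
      = ghSum (l₁ ++ l :: l₂) ξ + (r - ξ l₁.length c) • fun s => l.A s c := by
  induction l₁ generalizing ξ with
  | nil =>
    show l.inc (Function.update ξ 0 (Function.update (ξ 0) c r) 0)
        + ghSum l₂ (fun j => Function.update ξ 0 (Function.update (ξ 0) c r) (j + 1))
      = l.inc (ξ 0) + ghSum l₂ (fun j => ξ (j + 1)) + (r - ξ 0 c) • fun s => l.A s c
    rw [Function.update_self, obi_inc_upd]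
    have : (fun j => Function.update ξ 0 (Function.update (ξ 0) c r) (j + 1)) = fun j => ξ (j + 1) := by
      funext j
      rw [Function.update_of_ne (Nat.succ_ne_zero j)]
    rw [this, add_right_comm]
  | cons l' l₁ ih =>
    show l'.inc (Function.update ξ (l₁.length + 1) (Function.update (ξ (l₁.length + 1)) c r) 0)
        + ghSum (l₁ ++ l :: l₂) (fun j => Function.update ξ (l₁.length + 1) (Function.update (ξ (l₁.length + 1)) c r) (j + 1))
      = l'.inc (ξ 0) + ghSum (l₁ ++ l :: l₂) (fun j => ξ (j + 1)) + _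
    rw [Function.update_of_ne (Nat.succ_ne_zero _).symm]
    have : (fun j => Function.update ξ (l₁.length + 1) (Function.update (ξ (l₁.length + 1)) c r) (j + 1))
        = Function.update (fun j => ξ (j + 1)) l₁.length (Function.update (ξ (l₁.length + 1)) c r) := by
      funext j
      by_cases hj : j = l₁.length
      · subst hj; simp
      · rw [Function.update_of_ne hj, Function.update_of_ne (by omega)]
    rw [this, ih (fun j => ξ (j + 1))]
    show _ = l'.inc (ξ 0) + ghSum (l₁ ++ l :: l₂) (fun j => ξ (j + 1)) + (r - ξ (l₁.length + 1) c) • fun s => l.A s c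
    rw [add_assoc]

theorem obi_pre_upd [DecidableEq ι] (l₁ : List (GhLv S ι)) (l : GhLv S ι) (l₂ : List (GhLv S ι)) (ξ : ℕ → ι → ℝ)
    (c : ι) (r : ℝ) (j : ℕ) :
    ghPre (l₁ ++ l :: l₂) (Function.update ξ l₁.length (Function.update (ξ l₁.length) c r)) j
      = ghPre (l₁ ++ l :: l₂) ξ j + if l₁.length < j then (r - ξ l₁.length c) • fun s => l.A s c else 0 := by
  by_cases hj : l₁.length < j
  · rw [if_pos hj]
    unfold ghPre
    have e : (l₁ ++ l :: l₂).take j = l₁ ++ l :: l₂.take (j - l₁.length - 1) := by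
      rw [List.take_append, List.take_of_length_le hj.le]
      obtain ⟨i, hi⟩ : ∃ i, j - l₁.length = i + 1 := ⟨j - l₁.length - 1, by omega⟩
      rw [hi, List.take_succ_cons]
      simp
    rw [e, obi_sum_upd]
  · rw [if_neg hj, add_zero]
    refine obu_pre_loc _ j _ _ fun i hi => ?_
    rw [Function.update_of_ne (by omega)]

theorem obi_sum_cont (ls : List (GhLv S ι)) : Continuous (ghSum ls) := by
  induction ls with
  | nil => exact continuous_const
  | cons l ls ih =>
    have h1 : Continuous fun ξ : ℕ → ι → ℝ => l.inc (ξ 0) := (gh_ra_inc_cont l).comp (continuous_apply 0)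
    have h2 : Continuous fun ξ : ℕ → ι → ℝ => ghSum ls fun j => ξ (j + 1) :=
      ih.comp (continuous_pi fun j => continuous_apply (j + 1))
    exact h1.add h2

theorem obi_sum_lin (ls : List (GhLv S ι)) (p q : ℝ) (ξ η : ℕ → ι → ℝ) :
    ghSum ls (p • ξ + q • η) = p • ghSum ls ξ + q • ghSum ls η := by
  induction ls generalizing ξ η with
  | nil => show (0 : S → ℝ) = p • (0 : S → ℝ) + q • (0 : S → ℝ); simp
  | cons l ls ih =>
    show l.inc (p • ξ 0 + q • η 0) + ghSum ls (p • (fun j => ξ (j + 1)) + q • fun j => η (j + 1))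
      = p • (l.inc (ξ 0) + ghSum ls fun j => ξ (j + 1)) + q • (l.inc (η 0) + ghSum ls fun j => η (j + 1))
    rw [ih, gh_ra_inc_add, gh_ra_inc_smul, gh_ra_inc_smul, smul_add, smul_add]
    abel

omit [Fintype ι] in
theorem obi_zx_lin (N : ℕ) (p q : ℝ) (x y : Fin N × ι → ℝ) :
    ghZx N (p • x + q • y) = p • ghZx N x + q • ghZx N y := by
  funext t e
  by_cases h : t < N
  · simp [ghZx, h]
  · simp [ghZx, h]

theorem obi_F_deriv {B : GhB S} (hB : B.Ok) {Q : List (GhLv S ι)} (hQ : GhNn Q) (y v : S → ℝ) (c₀ r : ℝ) :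
    HasDerivAt (fun r : ℝ => ghF B Q (y + (r - c₀) • v)) (ghE B Q v (y + (r - c₀) • v)) r :=
  HasDerivAt.comp_sub_const r c₀ ((gh_v_grad hB v hQ).at y (r - c₀))

omit [Fintype ι] in
theorem obi_zx_upd [DecidableEq ι] (N : ℕ) (x : Fin N × ι → ℝ) (t : ℕ) (ht : t < N) (c : ι) (r : ℝ) :
    ghZx N (Function.update x (⟨t, ht⟩, c) r) = Function.update (ghZx N x) t (Function.update (ghZx N x t) c r) := by
  funext t' e
  by_cases h1 : t' = t
  · subst h1
    rw [Function.update_self]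
    by_cases h2 : e = c
    · subst h2
      simp [ghZx, ht]
    · rw [Function.update_of_ne h2]
      simp only [ghZx, ht, dif_pos]
      rw [Function.update_of_ne]
      simp [h2]
  · rw [Function.update_of_ne h1]
    unfold ghZx
    by_cases h3 : t' < N
    · simp only [h3, dif_pos]
      rw [Function.update_of_ne]
      simp [h1]
    · simp only [h3, dif_neg, not_false_eq_true]

/-! ## the generic form (`fd_path_ibp` of `Fd/Contract`) -/

/-- the telescoped potential as a sum over the cuts -/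
theorem obi_R_gen (B : GhB S) (ls : List (GhLv S ι)) (μ : ℝ) (z : S → ℝ) (ξ : ℕ → ι → ℝ) :
    ghR B μ ls z ξ = (trMs B ls 0 - μ) * ghF B ls z
      + ∑ j ∈ Finset.range ls.length, (trMs B ls (j + 1) - trMs B ls j) *
          ghF B (ls.drop (j + 1)) (z + ghPre ls ξ (j + 1)) := by
  induction ls generalizing μ z ξ with
  | nil =>
    show (B.a - μ) * ghF0 B z = _
    simp [trMs, ghF]
  | cons l ls ih =>
    show (l.m - μ) * ghF B (l :: ls) z + ghR B l.m ls (z + l.inc (ξ 0)) (fun j => ξ (j + 1)) = _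
    rw [ih, List.length_cons, Finset.sum_range_succ']
    have hms : ∀ j, trMs B (l :: ls) (j + 1) = trMs B ls j := fun j => by simp [trMs]
    have hm0 : trMs B (l :: ls) 0 = l.m := by simp [trMs]
    have key : ∑ j ∈ Finset.range ls.length, (trMs B (l :: ls) (j + 1 + 1) - trMs B (l :: ls) (j + 1)) *
          ghF B ((l :: ls).drop (j + 1 + 1)) (z + ghPre (l :: ls) ξ (j + 1 + 1))
        = ∑ j ∈ Finset.range ls.length, (trMs B ls (j + 1) - trMs B ls j) *
          ghF B (ls.drop (j + 1)) (z + l.inc (ξ 0) + ghPre ls (fun j => ξ (j + 1)) (j + 1)) :=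
      Finset.sum_congr rfl fun j _ => by rw [hms, hms, add_assoc z]; rfl
    rw [key]
    have h1 : (trMs B (l :: ls) (0 + 1) - trMs B (l :: ls) 0) *
          ghF B ((l :: ls).drop (0 + 1)) (z + ghPre (l :: ls) ξ (0 + 1))
        = (trMs B ls 0 - l.m) * ghF B ls (z + l.inc (ξ 0)) := by
      have : ghPre (l :: ls) ξ (0 + 1) = l.inc (ξ 0) := by
        show l.inc (ξ 0) + ghPre ls (fun j => ξ (j + 1)) 0 = _
        rw [obt_pre_zero, add_zero]
      rw [this, hms, hm0]
      rfl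
    rw [h1, hm0]
    ring

/-- closed form of the telescoped density -/
theorem obi_den_gen {B : GhB S} (hB : B.Ok) (ls : List (GhLv S ι)) (z : S → ℝ) (ξ : ℕ → ι → ℝ) (s : S) :
    ghDen B ls z ξ s = B.w s * Real.exp (B.a * (z s + ghSum ls ξ s) - (trMs B ls 0 * ghF B ls z
      + ∑ j ∈ Finset.range ls.length, (trMs B ls (j + 1) - trMs B ls j) *
          ghF B (ls.drop (j + 1)) (z + ghPre ls ξ (j + 1)))) := by
  rw [pina_den_closed B hB 0, obi_R_gen, zero_mul, sub_zero, sub_zero]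

omit [Fintype S] [Fintype ι] in
theorem obi_nn_drop {ls : List (GhLv S ι)} (h : GhNn ls) (j : ℕ) : GhNn (ls.drop j) :=
  fun l hl => h l (List.mem_of_mem_drop hl)

/-- derivative of the telescoped density in the coordinate `c` of the driver number `l₁.length` -/
theorem obi_den_deriv_gen [DecidableEq ι] {B : GhB S} (hB : B.Ok) (l₁ : List (GhLv S ι)) (l : GhLv S ι)
    (l₂ : List (GhLv S ι)) (hnn : GhNn (l₁ ++ l :: l₂)) (z : S → ℝ) (c : ι) (ξ : ℕ → ι → ℝ) (s : S) (r : ℝ) :
    HasDerivAt (fun r : ℝ => ghDen B (l₁ ++ l :: l₂) z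
        (Function.update ξ l₁.length (Function.update (ξ l₁.length) c r)) s)
      (ghDen B (l₁ ++ l :: l₂) z (Function.update ξ l₁.length (Function.update (ξ l₁.length) c r)) s
        * (B.a * l.A s c
            - ∑ j ∈ Finset.Ioc l₁.length (l₁ ++ l :: l₂).length,
                (trMs B (l₁ ++ l :: l₂) j - trMs B (l₁ ++ l :: l₂) (j - 1)) *
                  ghE B ((l₁ ++ l :: l₂).drop j) (fun τ => l.A τ c)
                    (z + ghPre (l₁ ++ l :: l₂)
                      (Function.update ξ l₁.length (Function.update (ξ l₁.length) c r)) j))) r := by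
  have hsum := obi_sum_upd l₁ l l₂ ξ c
  have hpre := obi_pre_upd l₁ l l₂ ξ c
  set ls := l₁ ++ l :: l₂ with hls
  set v : S → ℝ := fun τ => l.A τ c with hv
  set c₀ := ξ l₁.length c with hc₀
  have hterm : ∀ j : ℕ, HasDerivAt (fun r : ℝ => (trMs B ls (j + 1) - trMs B ls j) * ghF B (ls.drop (j + 1))
        (z + ghPre ls (Function.update ξ l₁.length (Function.update (ξ l₁.length) c r)) (j + 1)))
      (if l₁.length < j + 1 then (trMs B ls (j + 1) - trMs B ls j) * ghE B (ls.drop (j + 1)) v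
        (z + ghPre ls (Function.update ξ l₁.length (Function.update (ξ l₁.length) c r)) (j + 1)) else 0) r := fun j => by
    simp only [hpre, ← add_assoc]
    by_cases hj : l₁.length < j + 1
    · simp only [if_pos hj]
      exact (obi_F_deriv hB (obi_nn_drop hnn (j + 1)) _ v c₀ r).const_mul _
    · simp only [if_neg hj]
      exact hasDerivAt_const _ _
  have hlin : HasDerivAt (fun r : ℝ => B.a * (z s + ghSum ls
      (Function.update ξ l₁.length (Function.update (ξ l₁.length) c r)) s)) (B.a * v s) r := by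
    simp only [hsum, Pi.add_apply, Pi.smul_apply, smul_eq_mul]
    have h1 : HasDerivAt (fun r : ℝ => (r - c₀) * v s) (v s) r := by
      simpa using ((hasDerivAt_id r).sub_const c₀).mul_const (v s)
    exact ((h1.const_add (ghSum ls ξ s)).const_add (z s)).const_mul B.a
  have hS := (HasDerivAt.fun_sum (u := Finset.range ls.length) fun j _ => hterm j).const_add
    (trMs B ls 0 * ghF B ls z)
  have hE := ((hlin.fun_sub hS).exp).const_mul (B.w s)
  have e1 : ∀ r : ℝ, ghDen B ls z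
      (Function.update ξ l₁.length (Function.update (ξ l₁.length) c r)) s = _ := fun r => obi_den_gen hB ls z _ s
  simp only [e1]
  refine hE.congr_deriv ?_
  have hf : ∑ j ∈ Finset.range ls.length, (if l₁.length < j + 1 then (trMs B ls (j + 1) - trMs B ls j) *
        ghE B (ls.drop (j + 1)) v
          (z + ghPre ls (Function.update ξ l₁.length (Function.update (ξ l₁.length) c r)) (j + 1)) else 0)
      = ∑ j ∈ Finset.Ioc l₁.length ls.length, (trMs B ls j - trMs B ls (j - 1)) * ghE B (ls.drop j) v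
          (z + ghPre ls (Function.update ξ l₁.length (Function.update (ξ l₁.length) c r)) j) := by
    rw [← Finset.sum_filter]
    refine Finset.sum_bij (fun j _ => j + 1) (fun j hj => ?_) (fun j _ j' _ h => by omega) (fun j hj => ?_)
      (fun j _ => by simp)
    · simp only [Finset.mem_filter, Finset.mem_range] at hj
      simp only [Finset.mem_Ioc]
      omega
    · simp only [Finset.mem_Ioc] at hj
      refine ⟨j - 1, ?_, by omega⟩
      simp only [Finset.mem_filter, Finset.mem_range]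
      omega
  rw [hf]
  ring

/-- the generic score is measurable and bounded -/
theorem obi_score_gen {B : GhB S} (hB : B.Ok) (ls : List (GhLv S ι)) (z : S → ℝ) (t : ℕ) (v : S → ℝ) :
    (∀ s, Measurable fun ξ : ℕ → ι → ℝ => B.a * v s - ∑ j ∈ Finset.Ioc t ls.length,
        (trMs B ls j - trMs B ls (j - 1)) * ghE B (ls.drop j) v (z + ghPre ls ξ j)) ∧
    ∃ K, ∀ (ξ : ℕ → ι → ℝ) s, |B.a * v s - ∑ j ∈ Finset.Ioc t ls.length,
        (trMs B ls j - trMs B ls (j - 1)) * ghE B (ls.drop j) v (z + ghPre ls ξ j)| ≤ K := by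
  constructor
  · intro s
    refine Continuous.measurable ?_
    refine continuous_const.sub (continuous_finsetSum _ fun j _ => continuous_const.mul ?_)
    refine (gh_ra_E_cont hB _ v).comp ?_
    unfold ghPre
    exact continuous_const.add (obi_sum_cont _)
  · refine ⟨B.a * ‖v‖ + ∑ j ∈ Finset.Ioc t ls.length, |trMs B ls j - trMs B ls (j - 1)| * ‖v‖, fun ξ s => ?_⟩
    refine (abs_sub _ _).trans (add_le_add ?_ ((Finset.abs_sum_le_sum_abs _ _).trans (Finset.sum_le_sum fun j _ => ?_)))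
    · rw [abs_mul, abs_of_pos hB.pos]
      exact mul_le_mul_of_nonneg_left (norm_le_pi_norm v s) hB.pos.le
    · rw [abs_mul]
      exact mul_le_mul_of_nonneg_left (gh_ra_E_bdd hB _ v _) (abs_nonneg _)

theorem obi_gr_le {M K M' K' R : ℝ} (hR : 0 ≤ R) (hM : |M| ≤ M') (hK : |K| ≤ K') :
    M * Real.exp (K * R) ≤ M' * Real.exp (K' * R) := by
  have h1 : M ≤ M' := (le_abs_self M).trans hM
  have h2 : K * R ≤ K' * R := mul_le_mul_of_nonneg_right ((le_abs_self K).trans hK) hR
  exact mul_le_mul h1 (Real.exp_le_exp.2 h2) (Real.exp_pos _).le ((abs_nonneg M).trans hM)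

/-- Gaussian integration by parts on one planted path, list written as `l₁ ++ l :: l₂`, tests of exponential growth -/
theorem obi_path_ibp_app [DecidableEq ι] {B : GhB S} (hB : B.Ok) (l₁ : List (GhLv S ι)) (l : GhLv S ι)
    (l₂ : List (GhLv S ι)) (hnn : GhNn (l₁ ++ l :: l₂)) (z : S → ℝ) (c : ι)
    (T T' : (ℕ → ι → ℝ) → S → ℝ) (hT : ∀ s, Measurable fun ξ => T ξ s) (hT' : ∀ s, Measurable fun ξ => T' ξ s)
    (hTg : ∃ K M : ℝ, ∀ ξ s R, (∀ t, ‖ξ t‖ ≤ R) → |T ξ s| ≤ M * Real.exp (K * R))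
    (hTg' : ∃ K M : ℝ, ∀ ξ s R, (∀ t, ‖ξ t‖ ≤ R) → |T' ξ s| ≤ M * Real.exp (K * R))
    (hd : ∀ ξ s r, HasDerivAt
      (fun r : ℝ => T (Function.update ξ l₁.length (Function.update (ξ l₁.length) c r)) s)
      (T' (Function.update ξ l₁.length (Function.update (ξ l₁.length) c r)) s) r) :
    ghPath B (l₁ ++ l :: l₂) z (fun ξ s => ξ l₁.length c * T ξ s)
      = ghPath B (l₁ ++ l :: l₂) z T'
        + ghPath B (l₁ ++ l :: l₂) z (fun ξ s => T ξ s * (B.a * l.A s c
            - ∑ j ∈ Finset.Ioc l₁.length (l₁ ++ l :: l₂).length,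
                (trMs B (l₁ ++ l :: l₂) j - trMs B (l₁ ++ l :: l₂) (j - 1)) *
                  ghE B ((l₁ ++ l :: l₂).drop j) (fun τ => l.A τ c) (z + ghPre (l₁ ++ l :: l₂) ξ j))) := by
  obtain ⟨hScm, KS, hScb⟩ := obi_score_gen hB (l₁ ++ l :: l₂) z l₁.length (fun τ => l.A τ c)
  have hdd := obi_den_deriv_gen hB l₁ l l₂ hnn z c
  have ht : l₁.length < (l₁ ++ l :: l₂).length := by
    rw [List.length_append, List.length_cons]
    omega
  set ls := l₁ ++ l :: l₂ with hls
  set Sc : (ℕ → ι → ℝ) → S → ℝ := fun ξ s => B.a * l.A s c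
      - ∑ j ∈ Finset.Ioc l₁.length ls.length, (trMs B ls j - trMs B ls (j - 1)) *
          ghE B (ls.drop j) (fun τ => l.A τ c) (z + ghPre ls ξ j) with hSc
  obtain ⟨K1, M1, h1⟩ := hTg
  obtain ⟨K2, M2, h2⟩ := hTg'
  obtain ⟨K, hKdef⟩ : ∃ K, K = |K1| + |K2| := ⟨_, rfl⟩
  obtain ⟨M, hMdef⟩ : ∃ M, M = |M1| + |M2| := ⟨_, rfl⟩
  have hK0 : 0 ≤ K := by rw [hKdef]; positivity
  have hM0 : 0 ≤ M := by rw [hMdef]; positivity
  have hRnn : ∀ (ξ : ℕ → ι → ℝ) R, (∀ t, ‖ξ t‖ ≤ R) → 0 ≤ R := fun ξ R h => (norm_nonneg _).trans (h 0)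
  have hK : ∀ (ξ : ℕ → ι → ℝ) s R, (∀ t, ‖ξ t‖ ≤ R) → |T ξ s| ≤ M * Real.exp (K * R) := fun ξ s R hR =>
    (h1 ξ s R hR).trans (obi_gr_le (hRnn ξ R hR) (hMdef ▸ le_add_of_nonneg_right (abs_nonneg _))
      (hKdef ▸ le_add_of_nonneg_right (abs_nonneg _)))
  have hK' : ∀ (ξ : ℕ → ι → ℝ) s R, (∀ t, ‖ξ t‖ ≤ R) → |T' ξ s| ≤ M * Real.exp (K * R) := fun ξ s R hR =>
    (h2 ξ s R hR).trans (obi_gr_le (hRnn ξ R hR) (hMdef ▸ le_add_of_nonneg_left (abs_nonneg _))
      (hKdef ▸ le_add_of_nonneg_left (abs_nonneg _)))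
  have hKS0 : ∀ s : S, 0 ≤ KS := fun s => (abs_nonneg _).trans (hScb (fun _ _ => 0) s)
  -- the three tests
  have m0 : Measurable fun ξ : ℕ → ι → ℝ => ξ l₁.length c :=
    (measurable_pi_apply c).comp (measurable_pi_apply l₁.length)
  have m1 : ∀ s, Measurable fun ξ : ℕ → ι → ℝ => ξ l₁.length c * T ξ s := fun s => m0.mul (hT s)
  have g1 : ∃ K₁ M₁ : ℝ, ∀ (ξ : ℕ → ι → ℝ) s R, (∀ t, ‖ξ t‖ ≤ R) →
      |ξ l₁.length c * T ξ s| ≤ M₁ * Real.exp (K₁ * R) := by
    refine ⟨K + 1, M, fun ξ s R hR => ?_⟩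
    rw [abs_mul, mul_comm, add_mul K, one_mul, Real.exp_add, ← mul_assoc]
    refine mul_le_mul (hK ξ s R hR) ?_ (abs_nonneg _) (by positivity)
    calc |ξ l₁.length c| ≤ ‖ξ l₁.length‖ := norm_le_pi_norm (ξ l₁.length) c
      _ ≤ R := hR _
      _ ≤ Real.exp R := by linarith [Real.add_one_le_exp R]
  have g2 : ∃ K₁ M₁ : ℝ, ∀ (ξ : ℕ → ι → ℝ) s R, (∀ t, ‖ξ t‖ ≤ R) → |T' ξ s| ≤ M₁ * Real.exp (K₁ * R) :=
    ⟨K, M, hK'⟩
  have m3 : ∀ s, Measurable fun ξ : ℕ → ι → ℝ => T ξ s * Sc ξ s := fun s => (hT s).mul (hScm s)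
  have g3 : ∃ K₁ M₁ : ℝ, ∀ (ξ : ℕ → ι → ℝ) s R, (∀ t, ‖ξ t‖ ≤ R) → |T ξ s * Sc ξ s| ≤ M₁ * Real.exp (K₁ * R) := by
    refine ⟨K, KS * M, fun ξ s R hR => ?_⟩
    rw [abs_mul, mul_comm, mul_assoc]
    exact mul_le_mul (hScb ξ s) (hK ξ s R hR) (abs_nonneg _) (hKS0 s)
  rw [obi_path_flat _ hB _ z _ m1 g1, obi_path_flat _ hB _ z T' hT' g2,
    obi_path_flat _ hB _ z (fun ξ s => T ξ s * Sc ξ s) m3 g3,
    integral_finsetSum _ fun s _ => obi_den_int hB _ z _ m1 g1 _ s,
    integral_finsetSum _ fun s _ => obi_den_int hB _ z T' hT' g2 _ s,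
    integral_finsetSum _ fun s _ => obi_den_int hB _ z _ m3 g3 _ s, ← Finset.sum_add_distrib]
  refine Finset.sum_congr rfl fun s _ => ?_
  rw [← integral_add (obi_den_int hB _ z T' hT' g2 _ s) (obi_den_int hB _ z _ m3 g3 _ s)]
  obtain ⟨C, Kd, hC, hKd, hden⟩ := pina_den_le hB ls
  have hzc := pina_ext_cont (ι := ι) ls.length
  have hdm : Measurable fun x : Fin ls.length × ι → ℝ => ghDen B ls z (ghZx ls.length x) s :=
    ((pina_den_cont hB ls s).comp (continuous_const.prodMk hzc)).measurable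
  have key := obi_stein (κ := Fin ls.length × ι) (⟨l₁.length, ht⟩, c)
    (ψ := fun x => T (ghZx ls.length x) s * ghDen B ls z (ghZx ls.length x) s)
    (ψ' := fun x => T' (ghZx ls.length x) s * ghDen B ls z (ghZx ls.length x) s
      + T (ghZx ls.length x) s * (ghDen B ls z (ghZx ls.length x) s * Sc (ghZx ls.length x) s))
    (A := (M + M + M * KS) * C) (B := K + Kd)
    (((hT s).comp hzc.measurable).mul hdm)
    ((((hT' s).comp hzc.measurable).mul hdm).add
      (((hT s).comp hzc.measurable).mul (hdm.mul ((hScm s).comp hzc.measurable))))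
    (fun g r => by
      simp only [obi_zx_upd]
      exact (hd (ghZx _ g) s r).mul (hdd (ghZx _ g) s r))
    (fun x => by
      have h2 := hden z (ghZx _ x) ‖x‖ s (pina_ext_norm _ x)
      have h0 := pina_den_nonneg hB ls z (ghZx _ x) s
      have h3 := hK (ghZx _ x) s ‖x‖ (pina_ext_norm _ x)
      have hE : 0 < Real.exp (K * ‖x‖) := Real.exp_pos _
      rw [abs_mul, abs_of_nonneg h0]
      calc |T (ghZx ls.length x) s| * ghDen B ls z (ghZx ls.length x) s
          ≤ ((M + M + M * KS) * Real.exp (K * ‖x‖)) * (C * Real.exp (Kd * ‖x‖)) := by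
            refine mul_le_mul (h3.trans ?_) h2 h0 (by have := hKS0 s; positivity)
            refine mul_le_mul_of_nonneg_right ?_ hE.le
            nlinarith [mul_nonneg hM0 (hKS0 s)]
        _ = (M + M + M * KS) * C * Real.exp ((K + Kd) * ‖x‖) := by rw [add_mul K, Real.exp_add]; ring)
    (fun x => by
      have h2 := hden z (ghZx _ x) ‖x‖ s (pina_ext_norm _ x)
      have h0 := pina_den_nonneg hB ls z (ghZx _ x) s
      have h3 := hK (ghZx _ x) s ‖x‖ (pina_ext_norm _ x)
      have h4 := hK' (ghZx _ x) s ‖x‖ (pina_ext_norm _ x)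
      have hE : 0 < Real.exp (K * ‖x‖) := Real.exp_pos _
      have e : T' (ghZx _ x) s * ghDen B ls z (ghZx ls.length x) s
          + T (ghZx _ x) s * (ghDen B ls z (ghZx ls.length x) s * Sc (ghZx _ x) s)
          = (T' (ghZx _ x) s + T (ghZx _ x) s * Sc (ghZx _ x) s) * ghDen B ls z (ghZx ls.length x) s := by ring
      rw [e, abs_mul, abs_of_nonneg h0]
      calc |T' (ghZx ls.length x) s + T (ghZx ls.length x) s * Sc (ghZx ls.length x) s|
            * ghDen B ls z (ghZx ls.length x) s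
          ≤ ((M + M + M * KS) * Real.exp (K * ‖x‖)) * (C * Real.exp (Kd * ‖x‖)) := by
            refine mul_le_mul ?_ h2 h0 (by have := hKS0 s; positivity)
            refine (abs_add_le _ _).trans ?_
            rw [abs_mul]
            have h5 := mul_le_mul h3 (hScb (ghZx _ x) s) (abs_nonneg _) (by positivity)
            nlinarith [mul_nonneg hM0 hE.le]
        _ = (M + M + M * KS) * C * Real.exp ((K + Kd) * ‖x‖) := by rw [add_mul K, Real.exp_add]; ring)
  have hx : ∀ x : Fin ls.length × ι → ℝ, ghZx ls.length x l₁.length c = x (⟨l₁.length, ht⟩, c) := fun x => by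
    simp [ghZx, ht]
  unfold ghFlat
  refine Eq.trans (integral_congr_ae (ae_of_all _ fun x => ?_)) (key.trans (integral_congr_ae (ae_of_all _ fun x => ?_)))
  · simp only [hx]
    ring
  · simp only
    ring

omit [Fintype S] in
/-- from the `ℓ¹` growth class of `Fd/CDefs` (`FdGr`) to the growth class used here -/
theorem obi_gr_of_l1 (N : ℕ) (T : (ℕ → ι → ℝ) → S → ℝ)
    (h : ∃ C c : ℝ, ∀ ξ s, |T ξ s| ≤ C * Real.exp (c * ∑ t ∈ Finset.range N, ∑ i, |ξ t i|)) :
    ∃ K M : ℝ, ∀ ξ s R, (∀ t, ‖ξ t‖ ≤ R) → |T ξ s| ≤ M * Real.exp (K * R) := by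
  obtain ⟨C, c, h⟩ := h
  refine ⟨|c| * (N * Fintype.card ι), C, fun ξ s R hR => (h ξ s).trans ?_⟩
  have hC : 0 ≤ C := by
    have := (abs_nonneg _).trans (h ξ s)
    exact nonneg_of_mul_nonneg_left this (Real.exp_pos _)
  refine mul_le_mul_of_nonneg_left (Real.exp_le_exp.2 ?_) hC
  have hs : ∑ t ∈ Finset.range N, ∑ i, |ξ t i| ≤ N * Fintype.card ι * R := by
    calc ∑ t ∈ Finset.range N, ∑ i, |ξ t i| ≤ ∑ t ∈ Finset.range N, ∑ _i : ι, R :=
          Finset.sum_le_sum fun t _ => Finset.sum_le_sum fun i _ => (norm_le_pi_norm (ξ t) i).trans (hR t)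
      _ = N * Fintype.card ι * R := by simp [mul_assoc]
  have hs0 : 0 ≤ ∑ t ∈ Finset.range N, ∑ i, |ξ t i| :=
    Finset.sum_nonneg fun t _ => Finset.sum_nonneg fun i _ => abs_nonneg _
  calc c * ∑ t ∈ Finset.range N, ∑ i, |ξ t i| ≤ |c| * ∑ t ∈ Finset.range N, ∑ i, |ξ t i| :=
        mul_le_mul_of_nonneg_right (le_abs_self c) hs0
    _ ≤ |c| * (N * Fintype.card ι * R) := mul_le_mul_of_nonneg_left hs (abs_nonneg c)
    _ = |c| * (N * Fintype.card ι) * R := by ring

/-- **Gaussian integration by parts on one planted path** (`fd_path_ibp` of `Fd/Contract`, with `FdGr`, `fdScore` unfolded) -/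
theorem obi_path_ibp [DecidableEq ι] (B : GhB S) (hB : B.Ok) (ls : List (GhLv S ι)) (hnn : GhNn ls) (z : S → ℝ) (k : ℕ)
    (hk : k < ls.length) (i : ι) (Q Q' : (ℕ → ι → ℝ) → S → ℝ)
    (hQ : (∀ s, Measurable fun ξ => Q ξ s) ∧
      ∃ C c : ℝ, ∀ ξ s, |Q ξ s| ≤ C * Real.exp (c * ∑ t ∈ Finset.range ls.length, ∑ i, |ξ t i|))
    (hQ' : (∀ s, Measurable fun ξ => Q' ξ s) ∧
      ∃ C c : ℝ, ∀ ξ s, |Q' ξ s| ≤ C * Real.exp (c * ∑ t ∈ Finset.range ls.length, ∑ i, |ξ t i|))
    (hd : ∀ ξ s, HasDerivAt (fun x : ℝ => Q (Function.update ξ k (Function.update (ξ k) i x)) s) (Q' ξ s) (ξ k i)) :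
    ghPath B ls z (fun ξ s => ξ k i * Q ξ s)
      = ghPath B ls z Q' + ghPath B ls z fun ξ s => Q ξ s * (B.a * (ls[k]).A s i
          - ∑ j ∈ Finset.Ioc k ls.length, (trMs B ls j - trMs B ls (j - 1)) *
              ghE B (ls.drop j) (fun s' => (ls[k]).A s' i) (z + ghPre ls ξ j)) := by
  have hg := obi_gr_of_l1 ls.length Q hQ.2
  have hg' := obi_gr_of_l1 ls.length Q' hQ'.2
  obtain ⟨l₁, l, l₂, hls, hlen⟩ : ∃ l₁ l l₂, ls = l₁ ++ l :: l₂ ∧ l₁.length = k :=
    ⟨ls.take k, ls[k], ls.drop (k + 1), by rw [← List.drop_eq_getElem_cons hk, List.take_append_drop],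
      by rw [List.length_take]; omega⟩
  subst hls
  subst hlen
  have hl : (l₁ ++ l :: l₂)[l₁.length] = l := by simp
  rw [hl]
  refine obi_path_ibp_app hB l₁ l l₂ hnn z i Q Q' hQ.1 hQ'.1 hg hg' fun ξ s r => ?_
  have h := hd (Function.update ξ l₁.length (Function.update (ξ l₁.length) i r)) s
  simp only [Function.update_self, Function.update_idem] at h
  exact h

end flat

/-! ## K11 -/
section sk
variable {n : ℕ}

theorem obi_lvs_app (P₁ : SkStp) (e₀ : SkInc) (P₂ : SkStp) :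
    skLvs n (P₁ ++ e₀ :: P₂) = skLvs n P₁ ++ e₀.lv n :: skLvs n P₂ := by
  simp [skLvs]

/-- closed form of the telescoped density in the SK vocabulary -/
theorem obi_den_sk {a : ℝ} (ha : 0 < a) (P : SkStp) (z₀ : SkCfg n → ℝ) (ξ : ℕ → SkDr n → ℝ) (σ : SkCfg n) :
    ghDen (skBase n a) (skLvs n P) z₀ ξ σ = (skBase n a).w σ * Real.exp (a * (z₀ σ + ghSum (skLvs n P) ξ σ)
      - ∑ j ∈ Finset.range (P.length + 1),
          skGap a P j * ghF (skBase n a) (skLvs n (P.drop j)) (obFld n P z₀ ξ j)) := by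
  rw [pina_den_closed (skBase n a) (obu_base_ok n ha) 0, pina_R_gap]
  have ea : (skBase n a).a = a := rfl
  rw [ea, zero_mul, sub_zero]
  rfl

/-- derivative of the telescoped density in the coordinate `c` of the driver number `P₁.length` -/
theorem obi_den_deriv {a : ℝ} (ha : 0 < a) (P₁ : SkStp) (e₀ : SkInc) (P₂ : SkStp)
    (hP : SkAdm a (P₁ ++ e₀ :: P₂)) (z₀ : SkCfg n → ℝ) (c : SkDr n) (ξ : ℕ → SkDr n → ℝ) (σ : SkCfg n) (r : ℝ) :
    HasDerivAt (fun r : ℝ => ghDen (skBase n a) (skLvs n (P₁ ++ e₀ :: P₂)) z₀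
        (Function.update ξ P₁.length (Function.update (ξ P₁.length) c r)) σ)
      (ghDen (skBase n a) (skLvs n (P₁ ++ e₀ :: P₂)) z₀
          (Function.update ξ P₁.length (Function.update (ξ P₁.length) c r)) σ
        * (a * (e₀.lv n).A σ c
            - ∑ j ∈ Finset.Ioc P₁.length (P₁ ++ e₀ :: P₂).length,
                skGap a (P₁ ++ e₀ :: P₂) j *
                  ghE (skBase n a) (skLvs n ((P₁ ++ e₀ :: P₂).drop j)) (fun τ => (e₀.lv n).A τ c)
                    (obFld n (P₁ ++ e₀ :: P₂) z₀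
                      (Function.update ξ P₁.length (Function.update (ξ P₁.length) c r)) j))) r := by
  set P := P₁ ++ e₀ :: P₂ with hPdef
  set v : SkCfg n → ℝ := fun τ => (e₀.lv n).A τ c with hv
  set c₀ := ξ P₁.length c with hc₀
  have hB := obu_base_ok n ha
  have hlen : (skLvs n P₁).length = P₁.length := obu_lvs_length n P₁
  have hsum : ∀ r : ℝ, ghSum (skLvs n P) (Function.update ξ P₁.length (Function.update (ξ P₁.length) c r))
      = ghSum (skLvs n P) ξ + (r - c₀) • v := fun r => by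
    have := obi_sum_upd (skLvs n P₁) (e₀.lv n) (skLvs n P₂) ξ c r
    rw [hlen, ← obi_lvs_app] at this
    exact this
  have hfld : ∀ (r : ℝ) (j : ℕ), obFld n P z₀ (Function.update ξ P₁.length (Function.update (ξ P₁.length) c r)) j
      = obFld n P z₀ ξ j + if P₁.length < j then (r - c₀) • v else 0 := fun r j => by
    have := obi_pre_upd (skLvs n P₁) (e₀.lv n) (skLvs n P₂) ξ c r j
    rw [hlen, ← obi_lvs_app] at this
    unfold obFld
    rw [this, add_assoc]
  have hterm : ∀ j : ℕ, HasDerivAt (fun r : ℝ => skGap a P j * ghF (skBase n a) (skLvs n (P.drop j))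
        (obFld n P z₀ (Function.update ξ P₁.length (Function.update (ξ P₁.length) c r)) j))
      (if P₁.length < j then skGap a P j * ghE (skBase n a) (skLvs n (P.drop j)) v
        (obFld n P z₀ (Function.update ξ P₁.length (Function.update (ξ P₁.length) c r)) j) else 0) r := fun j => by
    simp only [hfld]
    by_cases hj : P₁.length < j
    · simp only [if_pos hj]
      exact (obi_F_deriv hB (obu_lvs_nn n (obu_adm_drop hP j)) _ v c₀ r).const_mul _
    · simp only [if_neg hj]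
      exact hasDerivAt_const _ _
  have hlin : HasDerivAt (fun r : ℝ => a * (z₀ σ + ghSum (skLvs n P)
      (Function.update ξ P₁.length (Function.update (ξ P₁.length) c r)) σ)) (a * v σ) r := by
    simp only [hsum, Pi.add_apply, Pi.smul_apply, smul_eq_mul]
    have h1 : HasDerivAt (fun r : ℝ => (r - c₀) * v σ) (v σ) r := by
      simpa using ((hasDerivAt_id r).sub_const c₀).mul_const (v σ)
    exact ((h1.const_add (ghSum (skLvs n P) ξ σ)).const_add (z₀ σ)).const_mul a
  have hS := HasDerivAt.fun_sum (u := Finset.range (P.length + 1)) fun j _ => hterm j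
  have hE := ((hlin.fun_sub hS).exp).const_mul ((skBase n a).w σ)
  have e1 : ∀ r : ℝ, ghDen (skBase n a) (skLvs n P) z₀
      (Function.update ξ P₁.length (Function.update (ξ P₁.length) c r)) σ = _ := fun r => obi_den_sk ha P z₀ _ σ
  simp only [e1]
  refine hE.congr_deriv ?_
  rw [← Finset.sum_filter]
  have hf : (Finset.range (P.length + 1)).filter (fun j => P₁.length < j) = Finset.Ioc P₁.length P.length := by
    ext j
    simp only [Finset.mem_filter, Finset.mem_range, Finset.mem_Ioc]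
    omega
  rw [hf]
  ring

/-- the score is measurable and bounded -/
theorem obi_score_reg {a : ℝ} (ha : 0 < a) (P : SkStp) (z₀ : SkCfg n → ℝ) (t : ℕ) (v : SkCfg n → ℝ) :
    (∀ σ, Measurable fun ξ : ℕ → SkDr n → ℝ => a * v σ - ∑ j ∈ Finset.Ioc t P.length,
        skGap a P j * ghE (skBase n a) (skLvs n (P.drop j)) v (obFld n P z₀ ξ j)) ∧
    ∃ K, ∀ (ξ : ℕ → SkDr n → ℝ) σ, |a * v σ - ∑ j ∈ Finset.Ioc t P.length,
        skGap a P j * ghE (skBase n a) (skLvs n (P.drop j)) v (obFld n P z₀ ξ j)| ≤ K := by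
  have hB := obu_base_ok n ha
  constructor
  · intro σ
    refine Continuous.measurable ?_
    refine continuous_const.sub (continuous_finsetSum _ fun j _ => continuous_const.mul ?_)
    refine (gh_ra_E_cont hB _ v).comp ?_
    unfold obFld ghPre
    exact continuous_const.add (obi_sum_cont _)
  · refine ⟨a * ‖v‖ + ∑ j ∈ Finset.Ioc t P.length, |skGap a P j| * ‖v‖, fun ξ σ => ?_⟩
    refine (abs_sub _ _).trans (add_le_add ?_ ((Finset.abs_sum_le_sum_abs _ _).trans (Finset.sum_le_sum fun j _ => ?_)))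
    · rw [abs_mul, abs_of_pos ha]
      exact mul_le_mul_of_nonneg_left (norm_le_pi_norm v σ) ha.le
    · rw [abs_mul]
      exact mul_le_mul_of_nonneg_left (gh_ra_E_bdd hB _ v _) (abs_nonneg _)

/-- **K11**: Gaussian integration by parts under the planted law of one path -/
theorem obi_ibp {a : ℝ} (ha : 0 < a) (P₁ : SkStp) (e₀ : SkInc) (P₂ : SkStp)
    (hP : SkAdm a (P₁ ++ e₀ :: P₂)) (z₀ : SkCfg n → ℝ) (c : SkDr n)
    (T T' : (ℕ → SkDr n → ℝ) → SkCfg n → ℝ)
    (hT : ∀ σ, Measurable fun ξ => T ξ σ) (hTb : ∃ K, ∀ ξ σ, |T ξ σ| ≤ K)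
    (hT' : ∀ σ, Measurable fun ξ => T' ξ σ) (hTb' : ∃ K, ∀ ξ σ, |T' ξ σ| ≤ K)
    (hd : ∀ ξ σ r, HasDerivAt
      (fun r : ℝ => T (Function.update ξ P₁.length (Function.update (ξ P₁.length) c r)) σ)
      (T' (Function.update ξ P₁.length (Function.update (ξ P₁.length) c r)) σ) r) :
    obE n a (P₁ ++ e₀ :: P₂) z₀ (fun ξ σ => ξ P₁.length c * T ξ σ)
      = obE n a (P₁ ++ e₀ :: P₂) z₀ T'
        + obE n a (P₁ ++ e₀ :: P₂) z₀ (fun ξ σ => T ξ σ * (a * (e₀.lv n).A σ c
            - ∑ j ∈ Finset.Ioc P₁.length (P₁ ++ e₀ :: P₂).length,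
                skGap a (P₁ ++ e₀ :: P₂) j *
                  ghE (skBase n a) (skLvs n ((P₁ ++ e₀ :: P₂).drop j)) (fun τ => (e₀.lv n).A τ c)
                    (obFld n (P₁ ++ e₀ :: P₂) z₀ ξ j))) := by
  have hB := obu_base_ok n ha
  obtain ⟨hScm, KS, hScb⟩ := obi_score_reg ha (P₁ ++ e₀ :: P₂) z₀ P₁.length (fun τ => (e₀.lv n).A τ c)
  have hdd := obi_den_deriv ha P₁ e₀ P₂ hP z₀ c
  set P := P₁ ++ e₀ :: P₂ with hPdef
  set Sc : (ℕ → SkDr n → ℝ) → SkCfg n → ℝ := fun ξ σ => a * (e₀.lv n).A σ c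
      - ∑ j ∈ Finset.Ioc P₁.length P.length, skGap a P j *
          ghE (skBase n a) (skLvs n (P.drop j)) (fun τ => (e₀.lv n).A τ c) (obFld n P z₀ ξ j) with hSc
  obtain ⟨K, hK⟩ := hTb
  obtain ⟨K', hK'⟩ := hTb'
  have hK0 : 0 ≤ K := (abs_nonneg _).trans (hK (fun _ _ => 0) (fun _ => true))
  have hK0' : 0 ≤ K' := (abs_nonneg _).trans (hK' (fun _ _ => 0) (fun _ => true))
  have hKS0 : 0 ≤ KS := (abs_nonneg _).trans (hScb (fun _ _ => 0) (fun _ => true))
  have ht : P₁.length < (skLvs n P).length := by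
    rw [obu_lvs_length, hPdef, List.length_append, List.length_cons]
    omega
  -- the three tests
  have m0 : Measurable fun ξ : ℕ → SkDr n → ℝ => ξ P₁.length c :=
    (measurable_pi_apply c).comp (measurable_pi_apply P₁.length)
  have m1 : ∀ σ, Measurable fun ξ : ℕ → SkDr n → ℝ => ξ P₁.length c * T ξ σ := fun σ => m0.mul (hT σ)
  have g1 : ∃ K₁ M : ℝ, ∀ (ξ : ℕ → SkDr n → ℝ) σ R, (∀ t, ‖ξ t‖ ≤ R) → |ξ P₁.length c * T ξ σ| ≤ M * Real.exp (K₁ * R) := by
    refine ⟨1, K, fun ξ σ R hR => ?_⟩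
    rw [abs_mul, mul_comm, one_mul]
    refine mul_le_mul (hK ξ σ) ?_ (abs_nonneg _) hK0
    calc |ξ P₁.length c| ≤ ‖ξ P₁.length‖ := norm_le_pi_norm (ξ P₁.length) c
      _ ≤ R := hR _
      _ ≤ Real.exp R := by linarith [Real.add_one_le_exp R]
  have m3 : ∀ σ, Measurable fun ξ : ℕ → SkDr n → ℝ => T ξ σ * Sc ξ σ := fun σ => (hT σ).mul (hScm σ)
  have b3 : ∃ K₃, ∀ (ξ : ℕ → SkDr n → ℝ) σ, |T ξ σ * Sc ξ σ| ≤ K₃ := ⟨K * KS, fun ξ σ => by
    rw [abs_mul]
    exact mul_le_mul (hK ξ σ) (hScb ξ σ) (abs_nonneg _) hK0⟩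
  unfold obE
  rw [obi_path_flat _ hB _ z₀ _ m1 g1, pina_path_flat _ hB _ z₀ T' hT' ⟨K', hK'⟩,
    pina_path_flat _ hB _ z₀ (fun ξ σ => T ξ σ * Sc ξ σ) m3 b3,
    integral_finsetSum _ fun s _ => obi_den_int hB _ z₀ _ m1 g1 _ s,
    integral_finsetSum _ fun s _ => pina_den_int hB _ z₀ T' hT' ⟨K', hK'⟩ _ s,
    integral_finsetSum _ fun s _ => pina_den_int hB _ z₀ _ m3 b3 _ s, ← Finset.sum_add_distrib]
  refine Finset.sum_congr rfl fun s _ => ?_
  rw [← integral_add (pina_den_int hB _ z₀ T' hT' ⟨K', hK'⟩ _ s) (pina_den_int hB _ z₀ _ m3 b3 _ s)]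
  obtain ⟨C, Kd, hC, hKd, hden⟩ := pina_den_le hB (skLvs n P)
  have hzc := pina_ext_cont (ι := SkDr n) (skLvs n P).length
  have hdm : Measurable fun x : PinV n P => ghDen (skBase n a) (skLvs n P) z₀ (ghZx (skLvs n P).length x) s :=
    ((pina_den_cont hB (skLvs n P) s).comp (continuous_const.prodMk hzc)).measurable
  have key := obi_stein (κ := Fin (skLvs n P).length × SkDr n) (⟨P₁.length, ht⟩, c)
    (ψ := fun x => T (ghZx (skLvs n P).length x) s * ghDen (skBase n a) (skLvs n P) z₀ (ghZx (skLvs n P).length x) s)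
    (ψ' := fun x => T' (ghZx (skLvs n P).length x) s * ghDen (skBase n a) (skLvs n P) z₀ (ghZx (skLvs n P).length x) s
      + T (ghZx (skLvs n P).length x) s * (ghDen (skBase n a) (skLvs n P) z₀ (ghZx (skLvs n P).length x) s
          * Sc (ghZx (skLvs n P).length x) s))
    (A := (K + K' + K * KS) * C) (B := Kd)
    (((hT s).comp hzc.measurable).mul hdm)
    ((((hT' s).comp hzc.measurable).mul hdm).add
      (((hT s).comp hzc.measurable).mul (hdm.mul ((hScm s).comp hzc.measurable))))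
    (fun g r => by
      simp only [obi_zx_upd]
      exact (hd (ghZx _ g) s r).mul (hdd (ghZx _ g) s r))
    (fun x => by
      have h2 := hden z₀ (ghZx _ x) ‖x‖ s (pina_ext_norm _ x)
      have h0 := pina_den_nonneg hB (skLvs n P) z₀ (ghZx _ x) s
      rw [abs_mul, abs_of_nonneg h0, mul_assoc]
      refine mul_le_mul ((hK _ _).trans ?_) h2 h0 (by positivity)
      nlinarith [mul_nonneg hK0 hKS0])
    (fun x => by
      have h2 := hden z₀ (ghZx _ x) ‖x‖ s (pina_ext_norm _ x)
      have h0 := pina_den_nonneg hB (skLvs n P) z₀ (ghZx _ x) s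
      have e : T' (ghZx _ x) s * ghDen (skBase n a) (skLvs n P) z₀ (ghZx (skLvs n P).length x) s
          + T (ghZx _ x) s * (ghDen (skBase n a) (skLvs n P) z₀ (ghZx (skLvs n P).length x) s * Sc (ghZx _ x) s)
          = (T' (ghZx _ x) s + T (ghZx _ x) s * Sc (ghZx _ x) s)
            * ghDen (skBase n a) (skLvs n P) z₀ (ghZx (skLvs n P).length x) s := by ring
      rw [e, abs_mul, abs_of_nonneg h0, mul_assoc]
      refine mul_le_mul ?_ h2 h0 (by positivity)
      refine (abs_add_le _ _).trans ?_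
      rw [abs_mul]
      have := mul_le_mul (hK (ghZx _ x) s) (hScb (ghZx _ x) s) (abs_nonneg _) hK0
      linarith [hK' (ghZx _ x) s])
  have hx : ∀ x : PinV n P, ghZx (skLvs n P).length x P₁.length c = x (⟨P₁.length, ht⟩, c) := fun x => by
    simp [ghZx, ht]
  unfold ghFlat
  refine Eq.trans (integral_congr_ae (ae_of_all _ fun x => ?_)) (key.trans (integral_congr_ae (ae_of_all _ fun x => ?_)))
  · simp only [hx]
    ring
  · simp only
    ring

/-- **X1b**: every continuation is convex in the full vector of flat drivers -/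
theorem obi_x1_convex {a : ℝ} (ha : 0 < a) (P : SkStp) (hP : SkAdm a P) (z₀ : SkCfg n → ℝ) (j : ℕ) :
    ConvexOn ℝ Set.univ fun x : PinV n P => ghF (skBase n a) (skLvs n (P.drop j)) (z₀ + pinG n P j x) := by
  have hc := ghF_convexOn (obu_base_ok n ha) (skLvs n (P.drop j)) (obu_lvs_nn n (obu_adm_drop hP j))
  refine ⟨convex_univ, fun x _ y _ p q hp hq hpq => ?_⟩
  have e : z₀ + pinG n P j (p • x + q • y) = p • (z₀ + pinG n P j x) + q • (z₀ + pinG n P j y) := by
    unfold pinG pinX ghPre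
    rw [obi_zx_lin, obi_sum_lin, smul_add, smul_add]
    have : z₀ = p • z₀ + q • z₀ := by rw [← add_smul, hpq, one_smul]
    nth_rewrite 1 [this]
    abel
  show ghF _ _ (z₀ + pinG n P j (p • x + q • y)) ≤ _
  rw [e]
  exact hc.2 (mem_univ _) (mem_univ _) hp hq hpq

end sk

end Claimed.Agent.R286
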