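import Claimed.Agent.R286.Fd.PinC
import Claimed.Agent.R286.Fd.ObsG
import Claimed.Agent.Lib.BLLadder

/-!
# Row 286 (S0533), Fd/PinB : ASSEMBLY of PE Lemma 2.3 (+ polynomial form (A2))      (owner helper278; prefix `pinb_`)

`pinb_moments`, `pinb_variance` = the contracts K9, K10 of `Fd/ObsC.lean`, from the blocks PA, PG, PR of `Fd/PinC.lean`,
the Cauchy-Schwarz inequality G6 for `ghH` and `Lib/BLLadder` (`blg_moment`, `blg_hvar`).
-/

set_option autoImplicit false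

namespace Claimed.Agent.R286

open MeasureTheory ProbabilityTheory Set

/-- weighted Cauchy-Schwarz -/
theorem pinb_cs {α : Type*} (s : Finset α) (g c h W H : α → ℝ) (hg : ∀ j ∈ s, 0 ≤ g j) (hW : ∀ j ∈ s, 0 ≤ W j)
    (hH : ∀ j ∈ s, 0 ≤ H j) (hh : ∀ j ∈ s, h j ^ 2 ≤ W j * H j) :
    (∑ j ∈ s, g j * c j * h j) ^ 2 ≤ (∑ j ∈ s, g j * c j ^ 2 * W j) * ∑ j ∈ s, g j * H j := by
  have h1 : ∀ j ∈ s, |g j * c j * h j| ≤ Real.sqrt (g j * c j ^ 2 * W j) * Real.sqrt (g j * H j) := by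
    intro j hj
    rw [← Real.sqrt_mul (mul_nonneg (mul_nonneg (hg j hj) (sq_nonneg _)) (hW j hj))]
    apply Real.abs_le_sqrt
    have := hh j hj
    have h2 : 0 ≤ g j ^ 2 * c j ^ 2 := by positivity
    nlinarith [mul_le_mul_of_nonneg_left this h2]
  have h2 : |∑ j ∈ s, g j * c j * h j|
      ≤ ∑ j ∈ s, Real.sqrt (g j * c j ^ 2 * W j) * Real.sqrt (g j * H j) :=
    (Finset.abs_sum_le_sum_abs _ _).trans (Finset.sum_le_sum h1)
  have h3 := Finset.sum_mul_sq_le_sq_mul_sq s (fun j => Real.sqrt (g j * c j ^ 2 * W j))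
    (fun j => Real.sqrt (g j * H j))
  have e1 : ∑ j ∈ s, Real.sqrt (g j * c j ^ 2 * W j) ^ 2 = ∑ j ∈ s, g j * c j ^ 2 * W j :=
    Finset.sum_congr rfl fun j hj =>
      Real.sq_sqrt (mul_nonneg (mul_nonneg (hg j hj) (sq_nonneg _)) (hW j hj))
  have e2 : ∑ j ∈ s, Real.sqrt (g j * H j) ^ 2 = ∑ j ∈ s, g j * H j :=
    Finset.sum_congr rfl fun j hj => Real.sq_sqrt (mul_nonneg (hg j hj) (hH j hj))
  rw [e1, e2] at h3
  calc (∑ j ∈ s, g j * c j * h j) ^ 2 = |∑ j ∈ s, g j * c j * h j| ^ 2 := (sq_abs _).symm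
    _ ≤ (∑ j ∈ s, Real.sqrt (g j * c j ^ 2 * W j) * Real.sqrt (g j * H j)) ^ 2 :=
        pow_le_pow_left₀ (abs_nonneg _) h2 2
    _ ≤ _ := h3

/-- a continuous function is bounded on `[-2,2]` -/
theorem pinb_poly_bdd {q : ℝ → ℝ} (hq : Continuous q) : ∃ K : ℝ, 0 ≤ K ∧ ∀ t : ℝ, |t| ≤ 2 → |q t| ≤ K := by
  obtain ⟨K, hK⟩ := (isCompact_Icc (a := (-2 : ℝ)) (b := 2)).exists_bound_of_continuousOn
    hq.continuousOn
  refine ⟨max K 0, le_max_right _ _, fun t ht => ?_⟩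
  have := hK t (abs_le.1 ht)
  rw [Real.norm_eq_abs] at this
  exact this.trans (le_max_left _ _)

theorem pinb_adm_drop {a : ℝ} {P : SkStp} (hP : SkAdm a P) (j : ℕ) : SkAdm a (P.drop j) :=
  ⟨hP.1.sublist (List.drop_sublist j P), fun e he => hP.2 e (List.mem_of_mem_drop he)⟩

section
variable {n : ℕ}

/-- REP: a gauge invariant test is integrated by the pinned density -/
theorem pinb_rep0 {a : ℝ} (ha : 0 < a) (P : SkStp) (hP : SkAdm a P)
    (T : (ℕ → SkDr n → ℝ) → SkCfg n → ℝ) (hI : PinInv T) (hT : ∀ s, Measurable fun ξ => T ξ s)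
    (hTb : ∃ K, ∀ ξ s, |T ξ s| ≤ K) :
    obE n a P 0 T = ∫ x : PinV n P, T (pinX n P x) (skUp n) * Real.exp (-pinPhi n a P (skUp n) x)
      ∂ghFlat (SkDr n) (skLvs n P).length := by
  have h := pin_path_phi (skBase n a) (pin_base_ok n ha) (skLvs n P) (pin_adm n P hP) 0 T hT hTb
  unfold obE
  rw [h]
  have e : ∀ s : SkCfg n, (∫ x : Fin (skLvs n P).length × SkDr n → ℝ,
      T (ghZx (skLvs n P).length x) s * Real.exp (-ghPhi (skBase n a) (skLvs n P) 0 s x)
        ∂ghFlat (SkDr n) (skLvs n P).length)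
      = ∫ x : PinV n P, T (pinX n P x) (skUp n) * Real.exp (-pinPhi n a P (skUp n) x)
          ∂ghFlat (SkDr n) (skLvs n P).length := fun s => pin_gauge_int a P T hI s
  simp only [e]
  rw [← Finset.sum_mul, (pin_base_ok n ha).sum, one_mul]

theorem pinb_Z {a : ℝ} (ha : 0 < a) (P : SkStp) (hP : SkAdm a P) :
    ∫ x : PinV n P, Real.exp (-pinPhi n a P (skUp n) x) ∂ghFlat (SkDr n) (skLvs n P).length = 1 := by
  have h := pinb_rep0 (n := n) ha P hP (fun _ _ => 1) (fun _ _ _ => rfl) (fun _ => measurable_const)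
    ⟨1, fun _ _ => by simp⟩
  simp only [one_mul] at h
  rw [← h]
  exact pin_path_one (skBase n a) (pin_base_ok n ha) (skLvs n P) (pin_adm n P hP) 0

/-- REP: a gauge invariant test is integrated by the pinned law -/
theorem pinb_rep {a : ℝ} (ha : 0 < a) (P : SkStp) (hP : SkAdm a P)
    (T : (ℕ → SkDr n → ℝ) → SkCfg n → ℝ) (hI : PinInv T) (hT : ∀ s, Measurable fun ξ => T ξ s)
    (hTb : ∃ K, ∀ ξ s, |T ξ s| ≤ K) :
    obE n a P 0 T = ∫ x : PinV n P, T (pinX n P x) (skUp n) ∂pinMu n a P := by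
  rw [pinb_rep0 ha P hP T hI hT hTb]
  unfold pinMu
  rw [integral_tilted]
  have hZ := pinb_Z (n := n) ha P hP
  unfold ghFlat at hZ ⊢
  simp only [hZ, div_one, smul_eq_mul]
  exact integral_congr_ae (Filter.Eventually.of_forall fun x => mul_comm _ _)


/-! ### invariance, measurability, bounds of `pinA`, `pinJ` -/

theorem pinb_inv_A (a : ℝ) (P : SkStp) (κ : ℕ → ℝ) (f : ℕ → ℝ → ℝ) : PinInv (pinA n a P κ f) := by
  intro η ξ σ
  unfold pinA
  refine Finset.sum_congr rfl fun j _ => ?_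
  rw [pin_inv_L a P j η ξ σ]

theorem pinb_inv_J (a : ℝ) (P : SkStp) (κ : ℕ → ℝ) (f' : ℕ → ℝ → ℝ) : PinInv (pinJ n a P κ f') := by
  intro η ξ σ
  unfold pinJ
  refine Finset.sum_congr rfl fun j _ => ?_
  rw [pin_inv_L a P j η ξ σ, pin_inv_W a P j η ξ σ]

theorem pinb_meas_A (hn : 0 < n) {a : ℝ} (ha : 0 < a) (P : SkStp) (hP : SkAdm a P) (κ : ℕ → ℝ)
    (f : ℕ → ℝ → ℝ) (hfc : ∀ j, Continuous (f j)) (σ : SkCfg n) : Measurable fun ξ => pinA n a P κ f ξ σ := by
  unfold pinA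
  refine Finset.measurable_sum _ fun j _ => ?_
  exact (((hfc j).measurable.comp (pin_L_meas hn ha P hP j σ)).sub_const _).const_mul _

theorem pinb_meas_J (hn : 0 < n) {a : ℝ} (ha : 0 < a) (P : SkStp) (hP : SkAdm a P) (κ : ℕ → ℝ)
    (f' : ℕ → ℝ → ℝ) (hf' : ∀ j, Continuous (f' j)) (σ : SkCfg n) : Measurable fun ξ => pinJ n a P κ f' ξ σ := by
  unfold pinJ
  refine Finset.measurable_sum _ fun j _ => ?_
  exact ((((hf' j).measurable.comp (pin_L_meas hn ha P hP j σ)).pow_const 2).const_mul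
    _).mul (pin_W_meas hn ha P hP j σ)

theorem pinb_bdd_A (hn : 0 < n) {a : ℝ} (ha : 0 < a) (P : SkStp) (hP : SkAdm a P) (κ : ℕ → ℝ)
    (f : ℕ → ℝ → ℝ) (hfc : ∀ j, Continuous (f j)) : ∃ K, ∀ ξ (σ : SkCfg n), |pinA n a P κ f ξ σ| ≤ K := by
  choose K _ hK using fun j => pinb_poly_bdd (hfc j)
  refine ⟨∑ j ∈ Finset.range (P.length + 1), |skGap a P j * κ j| *
    (K j + |obE n a P 0 fun ξ' σ' => f j (obL n a P 0 j ξ' σ')|), fun ξ σ => ?_⟩
  unfold pinA
  refine (Finset.abs_sum_le_sum_abs _ _).trans (Finset.sum_le_sum fun j _ => ?_)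
  rw [abs_mul]
  refine mul_le_mul_of_nonneg_left ?_ (abs_nonneg _)
  exact (abs_sub _ _).trans (add_le_add (hK j _ (pin_L_bdd hn ha P hP j ξ σ)) le_rfl)

theorem pinb_nonneg_J (hn : 0 < n) {a : ℝ} (ha : 0 < a) (P : SkStp) (hP : SkAdm a P) (κ : ℕ → ℝ)
    (f' : ℕ → ℝ → ℝ) (ξ : ℕ → SkDr n → ℝ) (σ : SkCfg n) : 0 ≤ pinJ n a P κ f' ξ σ := by
  unfold pinJ
  refine Finset.sum_nonneg fun j _ => ?_
  have h1 := pin_gap_nonneg ha P hP j
  have h2 := (pin_W_bdd hn ha P hP j ξ σ).1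
  positivity

theorem pinb_bdd_J (hn : 0 < n) {a : ℝ} (ha : 0 < a) (P : SkStp) (hP : SkAdm a P) (κ : ℕ → ℝ)
    (f' : ℕ → ℝ → ℝ) (hf' : ∀ j, Continuous (f' j)) : ∃ K, ∀ ξ (σ : SkCfg n), pinJ n a P κ f' ξ σ ≤ K := by
  choose K hK0 hK using fun j => pinb_poly_bdd (hf' j)
  refine ⟨∑ j ∈ Finset.range (P.length + 1), skGap a P j * κ j ^ 2 * K j ^ 2 * (4 * a), fun ξ σ => ?_⟩
  unfold pinJ
  refine Finset.sum_le_sum fun j _ => ?_
  have h1 := pin_gap_nonneg ha P hP j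
  have h2 := pin_W_bdd hn ha P hP j ξ σ
  have h3 : (f' j (obL n a P 0 j ξ σ)) ^ 2 ≤ K j ^ 2 := by
    rw [← sq_abs]
    exact pow_le_pow_left₀ (abs_nonneg _) (hK j _ (pin_L_bdd hn ha P hP j ξ σ)) 2
  have h4 : 0 ≤ skGap a P j * κ j ^ 2 := by positivity
  calc skGap a P j * κ j ^ 2 * (f' j (obL n a P 0 j ξ σ)) ^ 2 * obW n a P 0 j ξ σ
      ≤ skGap a P j * κ j ^ 2 * K j ^ 2 * obW n a P 0 j ξ σ :=
        mul_le_mul_of_nonneg_right (mul_le_mul_of_nonneg_left h3 h4) h2.1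
    _ ≤ _ := mul_le_mul_of_nonneg_left h2.2 (by positivity)

/-- the pinned law is a probability measure -/
theorem pinb_prob {a : ℝ} (ha : 0 < a) (P : SkStp) (hP : SkAdm a P) : IsProbabilityMeasure (pinMu n a P) := by
  unfold pinMu
  refine isProbabilityMeasure_tilted ?_
  by_contra hni
  have hZ := pinb_Z (n := n) ha P hP
  unfold ghFlat at hZ
  rw [integral_undef hni] at hZ
  exact zero_ne_one hZ

/-- `pinA` is centred under the pinned law -/
theorem pinb_centred (hn : 0 < n) {a : ℝ} (ha : 0 < a) (P : SkStp) (hP : SkAdm a P) (κ : ℕ → ℝ)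
    (f : ℕ → ℝ → ℝ) (hfc : ∀ j, Continuous (f j)) : ∫ x : PinV n P, pinA n a P κ f (pinX n P x) (skUp n) ∂pinMu n a P = 0 := by
  have := pinb_prob (n := n) ha P hP
  have hrep : ∀ j, (obE n a P 0 fun ξ' σ' => f j (obL n a P 0 j ξ' σ'))
      = ∫ x : PinV n P, f j (obL n a P 0 j (pinX n P x) (skUp n)) ∂pinMu n a P := by
    intro j
    obtain ⟨K, _, hK⟩ := pinb_poly_bdd (hfc j)
    exact pinb_rep ha P hP (fun ξ' σ' => f j (obL n a P 0 j ξ' σ'))
      (fun η ξ σ => by simp only [pin_inv_L a P j η ξ σ])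
      (fun s => (hfc j).measurable.comp (pin_L_meas hn ha P hP j s))
      ⟨K, fun ξ s => hK _ (pin_L_bdd hn ha P hP j ξ s)⟩
  have hmx : Measurable (pinX n P) := by
    unfold pinX ghZx
    refine measurable_pi_lambda _ fun t => measurable_pi_lambda _ fun e => ?_
    by_cases h : t < (skLvs n P).length
    · simp only [h, dite_true]; exact measurable_pi_apply _
    · simp only [h, dite_false]; exact measurable_const
  have hint : ∀ j, Integrable (fun x : PinV n P => f j (obL n a P 0 j (pinX n P x) (skUp n)))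
      (pinMu n a P) := by
    intro j
    obtain ⟨K, _, hK⟩ := pinb_poly_bdd (hfc j)
    refine Integrable.of_bound
      (((hfc j).measurable.comp (pin_L_meas hn ha P hP j (skUp n))).comp hmx).aestronglyMeasurable
      K (Filter.Eventually.of_forall fun x => ?_)
    rw [Real.norm_eq_abs]
    exact hK _ (pin_L_bdd hn ha P hP j _ _)
  unfold pinA
  have hint2 : ∀ j ∈ Finset.range (P.length + 1), Integrable (fun x : PinV n P => skGap a P j * κ j *
      (f j (obL n a P 0 j (pinX n P x) (skUp n))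
        - obE n a P 0 fun ξ' σ' => f j (obL n a P 0 j ξ' σ'))) (pinMu n a P) :=
    fun j _ => ((hint j).sub (integrable_const _)).const_mul _
  rw [integral_finsetSum _ hint2]
  refine Finset.sum_eq_zero fun j _ => ?_
  rw [integral_const_mul, integral_sub (hint j) (integrable_const _), integral_const, hrep j]
  simp


theorem pinb_H_nonneg {a : ℝ} (ha : 0 < a) (P : SkStp) (hP : SkAdm a P) (j : ℕ) (v z : SkCfg n → ℝ) :
    0 ≤ ghH (skBase n a) (skLvs n (P.drop j)) v v z := by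
  have h := ob_g_hess_lower (skBase n a) (pin_base_ok n ha) le_rfl (skLvs n (P.drop j))
    (pin_adm n (P.drop j) (pinb_adm_drop hP j)) (pin_base_ok n ha).pos.le v z
  simpa using h

/-- the analytic inputs of `blg_moment` -/
theorem pinb_inputs (hn : 0 < n) {a : ℝ} (ha : 0 < a) (P : SkStp) (hP : SkAdm a P) (κ : ℕ → ℝ)
    (f f' : ℕ → ℝ → ℝ) (hf : ∀ j t, HasDerivAt (f j) (f' j t) t) (hf' : ∀ j, Continuous (f' j)) :
    ∃ (Φ' : PinV n P → PinV n P →L[ℝ] ℝ) (Φ'' : PinV n P → PinV n P →L[ℝ] PinV n P →L[ℝ] ℝ)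
      (A' : PinV n P → PinV n P →L[ℝ] ℝ),
      (∀ x, HasFDerivAt (pinPhi n a P (skUp n)) (Φ' x) x) ∧ (∀ x, HasFDerivAt Φ' (Φ'' x) x) ∧ Continuous Φ'' ∧
      (∀ x v, 0 ≤ Φ'' x v v) ∧
      (∀ x, HasFDerivAt (fun x : PinV n P => pinA n a P κ f (pinX n P x) (skUp n)) (A' x) x) ∧ Continuous A' ∧
      Continuous (fun x : PinV n P => pinJ n a P κ f' (pinX n P x) (skUp n)) ∧
      ∀ x v, (A' x v) ^ 2 ≤ (∑ i, v i ^ 2 + Φ'' x v v) * pinJ n a P κ f' (pinX n P x) (skUp n) := by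
  have hfc : ∀ j, Continuous (f j) := fun j => continuous_iff_continuousAt.2 fun t => (hf j t).continuousAt
  obtain ⟨Φ', Φ'', d1, d2, hc, hΦ⟩ := pin_Phi_c2 hn ha P hP (skUp n)
  choose L' hL1 hL2 hL3 using fun j => pin_L_c1 hn ha P hP j (skUp n)
  have hLc : ∀ j, Continuous fun x : PinV n P => obL n a P 0 j (pinX n P x) (skUp n) := fun j =>
    continuous_iff_continuousAt.2 fun x => (hL1 j x).continuousAt
  have hΦ0 : ∀ x v, 0 ≤ Φ'' x v v := by
    intro x v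
    rw [hΦ]
    exact Finset.sum_nonneg fun j _ => mul_nonneg (pin_gap_nonneg ha P hP j) (pinb_H_nonneg ha P hP j _ _)
  refine ⟨Φ', Φ'', fun x => ∑ j ∈ Finset.range (P.length + 1),
    (skGap a P j * κ j) • (f' j (obL n a P 0 j (pinX n P x) (skUp n)) • L' j x),
    d1, d2, hc, hΦ0, ?_, ?_, ?_, ?_⟩
  · intro x
    unfold pinA
    refine HasFDerivAt.fun_sum fun j _ => ?_
    have h1 : HasFDerivAt (fun x : PinV n P => f j (obL n a P 0 j (pinX n P x) (skUp n)))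
        (f' j (obL n a P 0 j (pinX n P x) (skUp n)) • L' j x) x :=
      (hf j _).comp_hasFDerivAt x (hL1 j x)
    exact (h1.sub_const _).const_mul _
  · refine continuous_finsetSum _ fun j _ => ?_
    exact (((hf' j).comp (hLc j)).smul (hL2 j)).const_smul (skGap a P j * κ j)
  · unfold pinJ
    refine continuous_finsetSum _ fun j _ => ?_
    exact ((((hf' j).comp (hLc j)).pow 2).const_mul _).mul (pin_W_cont hn ha P hP j (skUp n))
  · intro x v
    have hJ0 := pinb_nonneg_J hn ha P hP κ f' (pinX n P x) (skUp n)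
    have hs : 0 ≤ ∑ i, v i ^ 2 := Finset.sum_nonneg fun i _ => sq_nonneg _
    have e1 : (∑ j ∈ Finset.range (P.length + 1),
        (skGap a P j * κ j) • (f' j (obL n a P 0 j (pinX n P x) (skUp n)) • L' j x)) v
        = ∑ j ∈ Finset.range (P.length + 1), skGap a P j *
          (κ j * f' j (obL n a P 0 j (pinX n P x) (skUp n))) * L' j x v := by
      rw [_root_.sum_apply]
      refine Finset.sum_congr rfl fun j _ => ?_
      simp only [_root_.smul_apply, smul_eq_mul]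
      ring
    have cs := pinb_cs (Finset.range (P.length + 1)) (fun j => skGap a P j)
      (fun j => κ j * f' j (obL n a P 0 j (pinX n P x) (skUp n)))
      (fun j => L' j x v) (fun j => obW n a P 0 j (pinX n P x) (skUp n))
      (fun j => ghH (skBase n a) (skLvs n (P.drop j)) (pinG n P j v) (pinG n P j v)
        (obFld n P 0 (pinX n P x) j))
      (fun j _ => pin_gap_nonneg ha P hP j) (fun j _ => (pin_W_bdd hn ha P hP j _ _).1)
      (fun j _ => pinb_H_nonneg ha P hP j _ _)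
      (fun j _ => by
        rw [hL3, pin_W_eq hn ha P hP j]
        exact ob_g_hess_cs (skBase n a) (pin_base_ok n ha) (skLvs n (P.drop j))
          (pin_adm n (P.drop j) (pinb_adm_drop hP j)) _ _ _)
    rw [e1]
    have e2 : pinJ n a P κ f' (pinX n P x) (skUp n) = ∑ j ∈ Finset.range (P.length + 1), skGap a P j *
        (κ j * f' j (obL n a P 0 j (pinX n P x) (skUp n))) ^ 2 *
          obW n a P 0 j (pinX n P x) (skUp n) := by
      unfold pinJ
      refine Finset.sum_congr rfl fun j _ => ?_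
      ring
    rw [← hΦ x v, ← e2] at cs
    nlinarith [mul_nonneg hs hJ0]

/-- **PE Lemma 2.3 / (A2)**, real moments (= contract K9) -/
theorem pinb_moments (hn : 0 < n) {a : ℝ} (ha : 0 < a) (P : SkStp) (hP : SkAdm a P) (κ : ℕ → ℝ)
    (f f' : ℕ → ℝ → ℝ) (hf : ∀ j t, HasDerivAt (f j) (f' j t) t) (hf' : ∀ j, Continuous (f' j)) {p : ℝ} (hp : 2 ≤ p) :
    (obE n a P 0 fun ξ σ => |pinA n a P κ f ξ σ| ^ p) ^ (2 / p)
      ≤ (1 + p ^ 2 / 3) * (obE n a P 0 fun ξ σ => pinJ n a P κ f' ξ σ ^ (p / 2)) ^ (2 / p) := by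
  have hfc : ∀ j, Continuous (f j) := fun j => continuous_iff_continuousAt.2 fun t => (hf j t).continuousAt
  obtain ⟨Φ', Φ'', A', d1, d2, hc, hcv, hA1, hA2, hJc, hQ⟩ := pinb_inputs hn ha P hP κ f f' hf hf'
  obtain ⟨KA, hKA⟩ := pinb_bdd_A hn ha P hP κ f hfc
  obtain ⟨KJ, hKJ⟩ := pinb_bdd_J hn ha P hP κ f' hf'
  have hKA0 : 0 ≤ KA := (abs_nonneg _).trans (hKA (fun _ _ => 0) (skUp n))
  have hKJ0 : 0 ≤ KJ := (pinb_nonneg_J hn ha P hP κ f' (fun _ _ => 0) (skUp n)).trans (hKJ _ _)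
  have main := BL.blg_moment d1 d2 hc hcv hA1 hA2 hJc
    (fun x => pinb_nonneg_J hn ha P hP κ f' _ _) hQ (M := max KA KJ)
    (fun x => (hKA _ _).trans (le_max_left _ _)) (fun x => (hKJ _ _).trans (le_max_right _ _))
    (pinb_centred hn ha P hP κ f hfc) hp
  have r1 := pinb_rep ha P hP (fun ξ σ => |pinA n a P κ f ξ σ| ^ p)
    (fun η ξ σ => by simp only [pinb_inv_A a P κ f η ξ σ])
    (fun s => ((pinb_meas_A hn ha P hP κ f hfc s).abs).pow_const p)
    ⟨KA ^ p, fun ξ s => by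
      rw [abs_of_nonneg (Real.rpow_nonneg (abs_nonneg _) p)]
      exact Real.rpow_le_rpow (abs_nonneg _) (hKA ξ s) (by linarith)⟩
  have r2 := pinb_rep ha P hP (fun ξ σ => pinJ n a P κ f' ξ σ ^ (p / 2))
    (fun η ξ σ => by simp only [pinb_inv_J a P κ f' η ξ σ])
    (fun s => (pinb_meas_J hn ha P hP κ f' hf' s).pow_const (p / 2))
    ⟨KJ ^ (p / 2), fun ξ s => by
      rw [abs_of_nonneg (Real.rpow_nonneg (pinb_nonneg_J hn ha P hP κ f' ξ s) _)]
      exact Real.rpow_le_rpow (pinb_nonneg_J hn ha P hP κ f' ξ s) (hKJ ξ s) (by linarith)⟩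
  rw [r1, r2]
  exact main

/-- the case `p = 2` with `c_2 = 1` (= contract K10) -/
theorem pinb_variance (hn : 0 < n) {a : ℝ} (ha : 0 < a) (P : SkStp) (hP : SkAdm a P) (κ : ℕ → ℝ)
    (f f' : ℕ → ℝ → ℝ) (hf : ∀ j t, HasDerivAt (f j) (f' j t) t) (hf' : ∀ j, Continuous (f' j)) :
    (obE n a P 0 fun ξ σ => pinA n a P κ f ξ σ ^ 2) ≤ obE n a P 0 fun ξ σ => pinJ n a P κ f' ξ σ := by
  have hfc : ∀ j, Continuous (f j) := fun j => continuous_iff_continuousAt.2 fun t => (hf j t).continuousAt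
  obtain ⟨Φ', Φ'', A', d1, d2, hc, hcv, hA1, hA2, hJc, hQ⟩ := pinb_inputs hn ha P hP κ f f' hf hf'
  obtain ⟨KA, hKA⟩ := pinb_bdd_A hn ha P hP κ f hfc
  obtain ⟨KJ, hKJ⟩ := pinb_bdd_J hn ha P hP κ f' hf'
  have hKA0 : 0 ≤ KA := (abs_nonneg _).trans (hKA (fun _ _ => 0) (skUp n))
  have := pinb_prob (n := n) ha P hP
  have main := BL.blg_hvar d1 d2 hc hcv hA1 hA2 hJc
    (fun x => pinb_nonneg_J hn ha P hP κ f' _ _) hQ (M := max KA KJ)
    (fun x => (hKA _ _).trans (le_max_left _ _)) (fun x => (hKJ _ _).trans (le_max_right _ _))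
    (fun t => t) contDiff_id
  have hAc : Continuous fun x : PinV n P => pinA n a P κ f (pinX n P x) (skUp n) :=
    continuous_iff_continuousAt.2 fun x => (hA1 x).continuousAt
  have hmem : MemLp (fun x : PinV n P => pinA n a P κ f (pinX n P x) (skUp n)) 2 (pinMu n a P) :=
    MemLp.of_bound hAc.aestronglyMeasurable KA (Filter.Eventually.of_forall fun x => by
      rw [Real.norm_eq_abs]; exact hKA _ _)
  have hv := variance_eq_sub hmem
  have hcen := pinb_centred hn ha P hP κ f hfc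
  have r1 := pinb_rep ha P hP (fun ξ σ => pinA n a P κ f ξ σ ^ 2)
    (fun η ξ σ => by simp only [pinb_inv_A a P κ f η ξ σ])
    (fun s => (pinb_meas_A hn ha P hP κ f hfc s).pow_const 2)
    ⟨KA ^ 2, fun ξ s => by
      rw [abs_of_nonneg (sq_nonneg _), ← sq_abs]
      exact pow_le_pow_left₀ (abs_nonneg _) (hKA ξ s) 2⟩
  have r2 := pinb_rep ha P hP (fun ξ σ => pinJ n a P κ f' ξ σ) (pinb_inv_J a P κ f')
    (fun s => pinb_meas_J hn ha P hP κ f' hf' s)
    ⟨KJ, fun ξ s => by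
      rw [abs_of_nonneg (pinb_nonneg_J hn ha P hP κ f' ξ s)]; exact hKJ ξ s⟩
  rw [r1, r2]
  simp only [deriv_id'', one_pow, one_mul] at main
  change Var[fun x : PinV n P => pinA n a P κ f (pinX n P x) (skUp n); pinMu n a P] ≤ _ at main
  rw [hv] at main
  simp only [Pi.pow_apply, hcen] at main
  have main' : ∫ x : PinV n P, pinA n a P κ f (pinX n P x) (skUp n) ^ 2 ∂pinMu n a P
      ≤ ∫ x : PinV n P, pinJ n a P κ f' (pinX n P x) (skUp n) ∂pinMu n a P := by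
    have e : (0 : ℝ) ^ 2 = 0 := by norm_num
    rw [e, sub_zero] at main
    exact main
  exact main'

end

end Claimed.Agent.R286
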