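import Claimed.Agent.R286.Fd.PrC
import Claimed.Agent.R286.Defs.SkLem

/-!
# Row 286 (S0533), Fd/PrD : the derivative of the SK pressure along a segment      (owner helper97; prefix `pq_`)

Step 4 (last) of the proof of `ob_pressure_deriv` (PE Lemma 2.2, eq. (1) line 1): translation of `pd_hasDerivWithinAt` + `pc_der`
to the SK vocabulary (`skSeg`, `skPrS`, `skGap`, `skCumB/H`, `obB`, `obS`).      EXIT: `pq_pressure_deriv`.
-/

set_option autoImplicit false
set_option linter.unusedSectionVars false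

namespace Claimed.Agent.R286

open MeasureTheory ProbabilityTheory Set

section generic
variable {S ι : Type} [Fintype S] [Fintype ι] {B : GhB S}

theorem pq_it_sum (hB : B.Ok) {ls : List (GhLv S ι)} (h : GhNn ls) (j : ℕ) {κ : Type} (K : Finset κ)
    {g : κ → (S → ℝ) → ℝ} (hg : ∀ k ∈ K, ObuBC (g k)) (z : S → ℝ) :
    obuIt B ls j (fun y => ∑ k ∈ K, g k y) z = ∑ k ∈ K, obuIt B ls j (g k) z := by
  classical
  induction K using Finset.induction_on with
  | empty =>
    have := obu_it_const_mul B ls j (fun _ => 0) 0 z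
    simpa using this
  | insert a K ha ih =>
    simp only [Finset.sum_insert ha]
    rw [obu_it_add' hB h j (hg a (Finset.mem_insert_self a K))
      (ObuBC.sum K fun k hk => hg k (Finset.mem_insert_of_mem hk)),
      ih fun k hk => hg k (Finset.mem_insert_of_mem hk)]

theorem pq_cut_smul (ls : List (GhLv S ι)) (c : ℝ) (v : S → ℝ) (j : ℕ) (z : S → ℝ) :
    pcCut B ls (fun σ => c * v σ) j z = c ^ 2 * pcCut B ls v j z := by
  unfold pcCut
  rw [← obu_it_const_mul]
  congr 1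
  funext y
  rw [gh_b_E_const_mul, mul_pow]

end generic

section sk
variable {n : ℕ}

/-- the data of one level of the segment -/
def pqLv (n : ℕ) (e e' : SkInc) : PdLv (SkDr n) :=
  ⟨e.m, Sum.elim (fun _ => e.db) (fun _ => e.dh), Sum.elim (fun _ => e'.db) (fun _ => e'.dh)⟩

/-- the data of the segment -/
def pqD (n : ℕ) (P Q : SkStp) : List (PdLv (SkDr n)) := List.zipWith (pqLv n) P Q

theorem pq_lvs (s : ℝ) (P Q : SkStp) : skLvs n (skSeg s P Q) = pdLs (skPhi n) (pqD n P Q) s := by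
  unfold skLvs skSeg pdLs pqD
  rw [List.map_zipWith, List.map_zipWith]
  congr 1
  funext e e'
  unfold SkInc.lv PdLv.lv
  congr 1
  funext i
  cases i <;> rfl

theorem pq_tot_b (p : Fin n × Fin n) : ∀ P Q : SkStp, P.length = Q.length →
    pcTot (pqD n P Q) (Sum.inl p) = skTotB Q - skTotB P
  | [], [], _ => by simp [pcTot, pqD, skTotB]
  | e :: P, e' :: Q, h => by
    have ih := pq_tot_b p P Q (by simpa using h)
    simp only [pcTot, pqD, skTotB, List.zipWith_cons_cons, List.map_cons, List.sum_cons] at ih ⊢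
    rw [ih]
    simp only [pqLv, Sum.elim_inl]
    ring
  | [], _ :: _, h => by simp at h
  | _ :: _, [], h => by simp at h

theorem pq_tot_h (i : Fin n) : ∀ P Q : SkStp, P.length = Q.length →
    pcTot (pqD n P Q) (Sum.inr i) = skTotH Q - skTotH P
  | [], [], _ => by simp [pcTot, pqD, skTotH]
  | e :: P, e' :: Q, h => by
    have ih := pq_tot_h i P Q (by simpa using h)
    simp only [pcTot, pqD, skTotH, List.zipWith_cons_cons, List.map_cons, List.sum_cons] at ih ⊢
    rw [ih]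
    simp only [pqLv, Sum.elim_inr]
    ring
  | [], _ :: _, h => by simp at h
  | _ :: _, [], h => by simp at h

theorem pq_cum_eq (P Q : SkStp) (i : SkDr n) (j : ℕ) :
    pcCum (pqD n P Q) i j = pcTot (pqD n (P.take (j + 1)) (Q.take (j + 1))) i := by
  unfold pcCum pcTot pqD
  rw [List.take_zipWith]

theorem pq_cum_b (p : Fin n × Fin n) (P Q : SkStp) (h : P.length = Q.length) (j : ℕ) :
    pcCum (pqD n P Q) (Sum.inl p) j = skCumB Q (j + 1) - skCumB P (j + 1) := by
  rw [pq_cum_eq, pq_tot_b p _ _ (by simp [h])]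
  rfl

theorem pq_cum_h (i : Fin n) (P Q : SkStp) (h : P.length = Q.length) (j : ℕ) :
    pcCum (pqD n P Q) (Sum.inr i) j = skCumH Q (j + 1) - skCumH P (j + 1) := by
  rw [pq_cum_eq, pq_tot_h i _ _ (by simp [h])]
  rfl

theorem pq_seg_totB (s : ℝ) : ∀ P Q : SkStp, P.length = Q.length →
    skTotB (skSeg s P Q) = (1 - s) * skTotB P + s * skTotB Q
  | [], [], _ => by simp [skSeg, skTotB]
  | e :: P, e' :: Q, h => by
    have ih := pq_seg_totB s P Q (by simpa using h)
    simp only [skSeg, skTotB, List.zipWith_cons_cons, List.map_cons, List.sum_cons] at ih ⊢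
    rw [ih]
    ring
  | [], _ :: _, h => by simp at h
  | _ :: _, [], h => by simp at h

theorem pq_seg_totH (s : ℝ) : ∀ P Q : SkStp, P.length = Q.length →
    skTotH (skSeg s P Q) = (1 - s) * skTotH P + s * skTotH Q
  | [], [], _ => by simp [skSeg, skTotH]
  | e :: P, e' :: Q, h => by
    have ih := pq_seg_totH s P Q (by simpa using h)
    simp only [skSeg, skTotH, List.zipWith_cons_cons, List.map_cons, List.sum_cons] at ih ⊢
    rw [ih]
    ring
  | [], _ :: _, h => by simp at h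
  | _ :: _, [], h => by simp at h

theorem pq_ms_map (s : ℝ) : ∀ P Q : SkStp, P.length = Q.length →
    (pdLs (skPhi n) (pqD n P Q) s).map GhLv.m = P.map SkInc.m
  | [], [], _ => by simp [pdLs, pqD]
  | e :: P, e' :: Q, h => by
    have ih := pq_ms_map s P Q (by simpa using h)
    simp only [pdLs, pqD, List.zipWith_cons_cons, List.map_cons] at ih ⊢
    rw [ih]
    rfl
  | [], _ :: _, h => by simp at h
  | _ :: _, [], h => by simp at h

theorem pq_ms (a s : ℝ) (P Q : SkStp) (h : P.length = Q.length) (j : ℕ) :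
    pcMs (skBase n a) (pdLs (skPhi n) (pqD n P Q) s) j = skMs a P j := by
  unfold pcMs skMs
  rw [pq_ms_map s P Q h]
  rfl

theorem pq_length (s : ℝ) (P Q : SkStp) (h : P.length = Q.length) :
    (pdLs (skPhi n) (pqD n P Q) s).length = P.length := by
  simp [pdLs, pqD, List.length_zipWith, h]

theorem pq_ok : ∀ P Q : SkStp, (∀ e ∈ P, 0 ≤ e.m ∧ 0 ≤ e.db ∧ 0 ≤ e.dh) → (∀ e ∈ Q, 0 ≤ e.db ∧ 0 ≤ e.dh) →
    ∀ d ∈ pqD n P Q, 0 ≤ d.m ∧ ∀ i, 0 ≤ d.p i ∧ 0 ≤ d.q i
  | [], _, _, _ => by simp [pqD]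
  | _ :: _, [], _, _ => by simp [pqD]
  | e :: P, e' :: Q, hP, hQ => by
    intro d hd
    simp only [pqD, List.zipWith_cons_cons, List.mem_cons] at hd
    rcases hd with rfl | hd
    · obtain ⟨h1, h2, h3⟩ := hP e List.mem_cons_self
      obtain ⟨h4, h5⟩ := hQ e' List.mem_cons_self
      refine ⟨h1, fun i => ?_⟩
      cases i
      · exact ⟨h2, h4⟩
      · exact ⟨h3, h5⟩
    · exact pq_ok P Q (fun e he => hP e (List.mem_cons_of_mem _ he))
        (fun e he => hQ e (List.mem_cons_of_mem _ he)) d hd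

/-! ### the observables as sums of cuts -/

theorem pq_S {a : ℝ} (ha : 0 < a) (P : SkStp) (hP : GhNn (skLvs n P)) (z₀ : SkCfg n → ℝ) (j : ℕ) :
    obS n a P z₀ j = ∑ i, pcCut (skBase n a) (skLvs n P) (obY i) j z₀ := by
  have hB := obu_base_ok n ha
  have e := obu_path_field hB hP z₀ j
    (fun y => ∑ i, ghE (skBase n a) ((skLvs n P).drop j) (obY i) y ^ 2)
  rw [pq_it_sum hB hP j _ (fun i _ => (pc_E_bc hB (pc_nn_drop hP j) _).sq)] at e
  unfold obS obE obXp obX obFld
  rw [obu_lvs_drop]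
  exact e

theorem pq_B {a : ℝ} (ha : 0 < a) (P : SkStp) (hP : GhNn (skLvs n P)) (z₀ : SkCfg n → ℝ) (j : ℕ) :
    obB n a P z₀ j = ∑ p : Fin n × Fin n,
      pcCut (skBase n a) (skLvs n P) (fun σ => skY σ p.1 * skY σ p.2) j z₀ := by
  have hB := obu_base_ok n ha
  have e := obu_path_field hB hP z₀ j
    (fun y => ∑ p : Fin n × Fin n,
      ghE (skBase n a) ((skLvs n P).drop j) (fun σ => skY σ p.1 * skY σ p.2) y ^ 2)
  rw [pq_it_sum hB hP j _ (fun i _ => (pc_E_bc hB (pc_nn_drop hP j) _).sq)] at e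
  refine Eq.trans ?_ e
  unfold obB obE obM obFld
  rw [obu_lvs_drop]
  congr 1
  funext ξ _
  rw [Fintype.sum_prod_type]

theorem pq_feat_h (hn : 0 < n) (i : Fin n) :
    pdC (skPhi n) (Sum.inr i) = fun σ => Real.sqrt n * obY i σ := by
  have hn' : (0 : ℝ) < n := by exact_mod_cast hn
  funext σ
  simp only [pdC, skPhi, Sum.elim_inr, obY, skY]
  field_simp

theorem pq_feat_b (hn : 0 < n) (p : Fin n × Fin n) :
    pdC (skPhi n) (Sum.inl p) = fun σ => (n / Real.sqrt (2 * n)) * (skY σ p.1 * skY σ p.2) := by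
  have hn' : (0 : ℝ) < n := by exact_mod_cast hn
  funext σ
  simp only [pdC, skPhi, Sum.elim_inl, skY]
  rw [div_mul_div_comm, Real.mul_self_sqrt hn'.le]
  field_simp

theorem pq_sq_h (i : Fin n) :
    (fun σ => pdC (skPhi n) (Sum.inr i) σ * pdC (skPhi n) (Sum.inr i) σ) = fun _ => (1 : ℝ) := by
  funext σ
  simp only [pdC, skPhi, Sum.elim_inr]
  exact sk_d_sp_mul σ i

theorem pq_sq_b (hn : 0 < n) (p : Fin n × Fin n) :
    (fun σ => pdC (skPhi n) (Sum.inl p) σ * pdC (skPhi n) (Sum.inl p) σ)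
      = fun _ => (1 / (2 * n) : ℝ) := by
  have hn' : (0 : ℝ) < n := by exact_mod_cast hn
  funext σ
  simp only [pdC, skPhi, Sum.elim_inl]
  rw [div_mul_div_comm, Real.mul_self_sqrt (by positivity)]
  have : skSp σ p.1 * skSp σ p.2 * (skSp σ p.1 * skSp σ p.2)
      = (skSp σ p.1 * skSp σ p.1) * (skSp σ p.2 * skSp σ p.2) := by ring
  rw [this, sk_d_sp_mul, sk_d_sp_mul, one_mul]

theorem pq_sum_h (hn : 0 < n) {a : ℝ} (ha : 0 < a) (P : SkStp) (hP : GhNn (skLvs n P)) (w : ℕ → ℝ)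
    (z₀ : SkCfg n → ℝ) :
    ∑ i : Fin n, pcSm (skBase n a) (skLvs n P) (pdC (skPhi n) (Sum.inr i)) w z₀
      = n * ∑ j ∈ Finset.range (skLvs n P).length,
          (pcMs (skBase n a) (skLvs n P) (j + 1) - pcMs (skBase n a) (skLvs n P) j) * w j
            * obS n a P z₀ (j + 1) := by
  have hn' : (0 : ℝ) < n := by exact_mod_cast hn
  unfold pcSm
  rw [Finset.sum_comm, Finset.mul_sum]
  refine Finset.sum_congr rfl fun j _ => ?_
  rw [pq_S ha P hP, ← Finset.mul_sum]
  simp only [pq_feat_h hn, pq_cut_smul, Real.sq_sqrt hn'.le]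
  rw [← Finset.mul_sum]
  ring

theorem pq_sum_b (hn : 0 < n) {a : ℝ} (ha : 0 < a) (P : SkStp) (hP : GhNn (skLvs n P)) (w : ℕ → ℝ)
    (z₀ : SkCfg n → ℝ) :
    ∑ p : Fin n × Fin n, pcSm (skBase n a) (skLvs n P) (pdC (skPhi n) (Sum.inl p)) w z₀
      = (n / 2) * ∑ j ∈ Finset.range (skLvs n P).length,
          (pcMs (skBase n a) (skLvs n P) (j + 1) - pcMs (skBase n a) (skLvs n P) j) * w j
            * obB n a P z₀ (j + 1) := by
  have hn' : (0 : ℝ) < n := by exact_mod_cast hn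
  have hc : ((n : ℝ) / Real.sqrt (2 * n)) ^ 2 = n / 2 := by
    rw [div_pow, Real.sq_sqrt (by positivity)]
    field_simp
  unfold pcSm
  rw [Finset.sum_comm, Finset.mul_sum]
  refine Finset.sum_congr rfl fun j _ => ?_
  rw [pq_B ha P hP, ← Finset.mul_sum]
  simp only [pq_feat_b hn, pq_cut_smul, hc]
  rw [← Finset.mul_sum]
  ring

theorem pq_gap_succ (a : ℝ) (P : SkStp) (j : ℕ) : skGap a P (j + 1) = skMs a P (j + 1) - skMs a P j := by
  simp [skGap]

/-- the value of the derivative -/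
theorem pq_der (hn : 0 < n) {a : ℝ} (ha : 0 < a) (P Q : SkStp) (hP : SkAdm a P) (hQ : SkAdm a Q)
    (hl : P.length = Q.length) (z₀ : SkCfg n → ℝ) (t : ℝ) :
    pdDer (skBase n a) (skPhi n) (pqD n P Q) t z₀ / n
        - a * ((skTotB Q - skTotB P) / 4 + (skTotH Q - skTotH P) / 2)
      = -(1 / 4) * ∑ j ∈ Finset.range (P.length + 1),
          skGap a P j * obB n a (skSeg t P Q) z₀ j * (skCumB Q j - skCumB P j)
        - (1 / 2) * ∑ j ∈ Finset.range (P.length + 1),
          skGap a P j * obS n a (skSeg t P Q) z₀ j * (skCumH Q j - skCumH P j) := by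
  have hn' : (0 : ℝ) < n := by exact_mod_cast hn
  have hok := pq_ok (n := n) P Q (fun e he => ⟨(hP.2 e he).1, (hP.2 e he).2.2.1, (hP.2 e he).2.2.2⟩)
    (fun e he => ⟨(hQ.2 e he).2.2.1, (hQ.2 e he).2.2.2⟩)
  have hD : ∀ d ∈ pqD n P Q, 0 ≤ d.m := fun d hd => (hok d hd).1
  have hB := obu_base_ok n ha
  have hnn : GhNn (skLvs n (skSeg t P Q)) := by rw [pq_lvs]; exact pc_nn _ hD t
  have cb : ∀ p, pcCum (pqD n P Q) (Sum.inl p) = fun j => skCumB Q (j + 1) - skCumB P (j + 1) :=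
    fun p => funext (pq_cum_b p P Q hl)
  have ch : ∀ i, pcCum (pqD n P Q) (Sum.inr i) = fun j => skCumH Q (j + 1) - skCumH P (j + 1) :=
    fun i => funext (pq_cum_h i P Q hl)
  have ea : (skBase n a).a = a := rfl
  rw [pc_der hB _ t _ hD, Fintype.sum_sum_type]
  simp only [Finset.sum_sub_distrib, pq_sq_h, pq_sq_b hn, gh_b_E_const hB _ (pc_nn _ hD t),
    pq_tot_b _ P Q hl, pq_tot_h _ P Q hl, cb, ch, ea]
  rw [← pq_lvs, pq_sum_b hn ha _ hnn, pq_sum_h hn ha _ hnn, pq_lvs]
  simp only [pq_ms a t P Q hl, pq_length t P Q hl, Finset.sum_const, Finset.card_univ,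
    Fintype.card_prod, Fintype.card_fin, nsmul_eq_mul, Nat.cast_mul]
  rw [Finset.sum_range_succ', Finset.sum_range_succ']
  have c0 : ∀ R : SkStp, skCumB R 0 = 0 := fun R => by simp [skCumB]
  have c1 : ∀ R : SkStp, skCumH R 0 = 0 := fun R => by simp [skCumH]
  simp only [pq_gap_succ, c0, c1, sub_self, mul_zero, add_zero]
  have eB : ∑ j ∈ Finset.range P.length, (skMs a P (j + 1) - skMs a P j) * obB n a (skSeg t P Q) z₀ (j + 1)
        * (skCumB Q (j + 1) - skCumB P (j + 1))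
      = ∑ j ∈ Finset.range P.length, (skMs a P (j + 1) - skMs a P j)
        * (skCumB Q (j + 1) - skCumB P (j + 1)) * obB n a (skSeg t P Q) z₀ (j + 1) :=
    Finset.sum_congr rfl fun j _ => by ring
  have eS : ∑ j ∈ Finset.range P.length, (skMs a P (j + 1) - skMs a P j) * obS n a (skSeg t P Q) z₀ (j + 1)
        * (skCumH Q (j + 1) - skCumH P (j + 1))
      = ∑ j ∈ Finset.range P.length, (skMs a P (j + 1) - skMs a P j)
        * (skCumH Q (j + 1) - skCumH P (j + 1)) * obS n a (skSeg t P Q) z₀ (j + 1) :=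
    Finset.sum_congr rfl fun j _ => by ring
  rw [eB, eS]
  field_simp
  ring

/-- **K4 = PE eq. (1), line 1 (Lemma 2.2)** -/
theorem pq_pressure_deriv (hn : 0 < n) {a : ℝ} (ha : 0 < a) (P Q : SkStp) (hP : SkAdm a P) (hQ : SkAdm a Q)
    (hm : P.map SkInc.m = Q.map SkInc.m) (z₀ : SkCfg n → ℝ) {t : ℝ} (ht : t ∈ Icc (0 : ℝ) 1) :
    HasDerivWithinAt (fun s => skPrS n a (skSeg s P Q) z₀)
      (-(1 / 4) * ∑ j ∈ Finset.range (P.length + 1),
          skGap a P j * obB n a (skSeg t P Q) z₀ j * (skCumB Q j - skCumB P j)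
        - (1 / 2) * ∑ j ∈ Finset.range (P.length + 1),
          skGap a P j * obS n a (skSeg t P Q) z₀ j * (skCumH Q j - skCumH P j))
      (Icc 0 1) t := by
  have hl : P.length = Q.length := by
    have := congrArg List.length hm
    simpa using this
  have hok := pq_ok (n := n) P Q (fun e he => ⟨(hP.2 e he).1, (hP.2 e he).2.2.1, (hP.2 e he).2.2.2⟩)
    (fun e he => ⟨(hQ.2 e he).2.2.1, (hQ.2 e he).2.2.2⟩)
  have hB := obu_base_ok n ha
  have h1 := pd_hasDerivWithinAt (skPhi n) hB (pqD n P Q) (fun d hd => (hok d hd).2) ht z₀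
  have h2 : ∀ A A' : ℝ, HasDerivAt (fun s : ℝ => (1 - s) * A + s * A') (A' - A) t := fun A A' => by
    have := (((hasDerivAt_id t).const_sub 1).mul_const A).add ((hasDerivAt_id t).mul_const A')
    have e : A' - A = -1 * A + 1 * A' := by ring
    rw [e]
    exact this
  have h3 := ((((h2 (skTotB P) (skTotB Q)).div_const 4).add
    ((h2 (skTotH P) (skTotH Q)).div_const 2)).const_mul a).hasDerivWithinAt (s := Icc (0 : ℝ) 1)
  have h4 := (h1.div_const (n : ℝ)).sub h3
  rw [pq_der hn ha P Q hP hQ hl z₀ t] at h4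
  refine h4.congr_of_eventuallyEq ?_ ?_
  · refine Filter.Eventually.of_forall fun s => ?_
    simp only [skPrS, skF, pq_lvs, pq_seg_totB s P Q hl, pq_seg_totH s P Q hl]
    rfl
  · simp only [skPrS, skF, pq_lvs, pq_seg_totB t P Q hl, pq_seg_totH t P Q hl]
    rfl

end sk

end Claimed.Agent.R286
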