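import Claimed.Agent.R286.Fd.ObsU
import Claimed.Agent.R286.Fd.ObsG
import Claimed.Agent.R286.Fd.PinB
import Claimed.Agent.R286.Fd.ObsSp
import Claimed.Agent.R286.Fd.PrD
import Claimed.Agent.R286.Fd.P152
import Claimed.Agent.R286.Fd.ObsK7
import Claimed.Agent.R286.Fd.EntB

/-!
# Row 286 (S0533), Fd/ObsC : CONTRACTS of PE Lemma 2.1, eq. (1), Lemma 2.2, Lemma 2.3 (+ polynomial form, PE appendix)      (owner helper278)

Every `sorry` = one contract (leaf or head of a small DAG).   General terminal mass `a > 0` (PE: `a = 1`; LL (A1),(A2): `a ∈ [1,4]`).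
G = generic (any `GhB`, any levels): now in `Fd/ObsG.lean` (0 sorry);  K = SK instance.
K12 `ob_entropy` (entropy production of one revelation, two sided; = LL (D13) `L8Z_Ent`; generic forms `obn_step`, `obn_path`, abstract log-Sobolev `obn_sandwich`): `Fd/EntA.lean`, `Fd/EntB.lean` (0 sorry), imported here.
PROVERS of K*: import `Fd/ObsG` (never this file); this file imports yours and closes the contract by `exact`.
-/

set_option autoImplicit false

namespace Claimed.Agent.R286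

open MeasureTheory ProbabilityTheory Set

section sk
variable {n : ℕ}

/-- K0: geometry of the features -/
theorem ob_feat_b (hn : 0 < n) (σ τ : SkCfg n) :
    ∑ p : Fin n × Fin n, obPb p σ * obPb p τ = n * skOv σ τ ^ 2 / 2 := by
  exact obu_feat_b hn σ τ

theorem ob_feat_h (hn : 0 < n) (σ τ : SkCfg n) : ∑ i : Fin n, obY i σ * obY i τ = skOv σ τ := by
  exact obu_feat_h hn σ τ

/-- K1 (Lemma 2.1): `u C ≼ H ≼ a C` as quadratic forms; `u` = any mass below the remaining ones -/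
theorem ob_H_lower (hn : 0 < n) {a u : ℝ} (hu : 0 ≤ u) (hua : u ≤ a) (ha : 0 < a) (Q : SkStp) (hQ : SkAdm a Q)
    (hQu : ∀ e ∈ Q, u ≤ e.m) (z : SkCfg n → ℝ) (c : Fin n → ℝ) :
    u * ∑ i, ∑ k, c i * obC n a Q z i k * c k ≤ ∑ i, ∑ k, c i * obH n a Q z i k * c k := by
  rw [obu_quad_C ha Q hQ, obu_quad_H ha Q hQ]
  refine gh_b_le_H (obu_base_ok n ha) _ (u := u) hua (obu_lvs_nn n hQ) ?_ z
  intro l hl
  simp only [skLvs, List.mem_map] at hl
  obtain ⟨e, he, rfl⟩ := hl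
  exact hQu e he

theorem ob_H_upper (hn : 0 < n) {a : ℝ} (ha : 0 < a) (Q : SkStp) (hQ : SkAdm a Q) (z : SkCfg n → ℝ) (c : Fin n → ℝ) :
    ∑ i, ∑ k, c i * obH n a Q z i k * c k ≤ a * ∑ i, ∑ k, c i * obC n a Q z i k * c k := by
  rw [obu_quad_C ha Q hQ, obu_quad_H ha Q hQ]
  refine gh_b_H_le (obu_base_ok n ha) _ (obu_lvs_nn n hQ) ?_ z
  intro l hl
  simp only [skLvs, List.mem_map] at hl
  obtain ⟨e, he, rfl⟩ := hl
  exact (hQ.2 e he).2.1

/-- K2 (Lemma 2.1): overlap of two independent continuations from the cut `j` -/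
theorem ob_S_two (hn : 0 < n) {a : ℝ} (ha : 0 < a) (P : SkStp) (hP : SkAdm a P) (z₀ : SkCfg n → ℝ) (j : ℕ)
    (hj : j ≤ P.length) :
    (obT2 j).nu (skBase n a) (skLvs n P) z₀ (fun _ σ => skOv (σ 0) (σ 1)) = obS n a P z₀ j := by
  exact obt_S_two hn ha P hP z₀ j hj

theorem ob_B_two (hn : 0 < n) {a : ℝ} (ha : 0 < a) (P : SkStp) (hP : SkAdm a P) (z₀ : SkCfg n → ℝ) (j : ℕ)
    (hj : j ≤ P.length) :
    (obT2 j).nu (skBase n a) (skLvs n P) z₀ (fun _ σ => skOv (σ 0) (σ 1) ^ 2) = obB n a P z₀ j := by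
  exact obt_B_two hn ha P hP z₀ j hj

/-- K3 (Lemma 2.1): `D² = Var|X|² + 2 E XᵀCX + E tr C²` -/
theorem ob_D2_decomp (hn : 0 < n) {a : ℝ} (ha : 0 < a) (P : SkStp) (hP : SkAdm a P) (z₀ : SkCfg n → ℝ) (j : ℕ)
    (hj : j ≤ P.length) :
    obD2 n a P z₀ j
      = (obE n a P z₀ (fun ξ _ => (∑ i, obXp n a P z₀ j ξ i ^ 2) ^ 2) - obS n a P z₀ j ^ 2)
        + 2 * obE n a P z₀ (fun ξ _ => ∑ i, ∑ k, obXp n a P z₀ j ξ i * obCp n a P z₀ j ξ i k * obXp n a P z₀ j ξ k)
        + obTrC2 n a P z₀ j := by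
  exact obu_D2_decomp hn ha P hP z₀ j

/-- K4 = eq. (1), line 1 (Lemma 2.2): derivative of the pressure along the segment of two admissible step paths with the same masses;
any common source.   `skCumB · j` = matrix clock on the cut `j`. -/
theorem ob_pressure_deriv (hn : 0 < n) {a : ℝ} (ha : 0 < a) (P Q : SkStp) (hP : SkAdm a P) (hQ : SkAdm a Q)
    (hm : P.map SkInc.m = Q.map SkInc.m) (z₀ : SkCfg n → ℝ) {t : ℝ} (ht : t ∈ Icc (0 : ℝ) 1) :
    HasDerivWithinAt (fun s => skPrS n a (skSeg s P Q) z₀)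
      (-(1 / 4) * ∑ j ∈ Finset.range (P.length + 1),
          skGap a P j * obB n a (skSeg t P Q) z₀ j * (skCumB Q j - skCumB P j)
        - (1 / 2) * ∑ j ∈ Finset.range (P.length + 1),
          skGap a P j * obS n a (skSeg t P Q) z₀ j * (skCumH Q j - skCumH P j))
      (Icc 0 1) t := by
  exact pq_pressure_deriv hn ha P Q hP hQ hm z₀ ht

/-! K5 (Lemma 2.2, `L¹` Lipschitz bound of the pressure): the contract `ob_pressure_lip` had NO consumer and is WITHDRAWN (helper16, deputy head of PE Sec. 2, 05:20Z).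
The form which is used everywhere is PROVED: `exit_clk_pr_lip` (`Exit/ClkPr`, general monotone clocks) together with `exit_clk_step_pr` (`Exit/ClkLim`: step clocks have the pressure of the step path). -/

/-- K6: an intermediate cut changes neither the pressure nor the observables at the old cuts (Gaussian semigroup at equal mass) -/
theorem ob_split_F (hn : 0 < n) {a : ℝ} (ha : 0 < a) (e : SkInc) (P₂ : SkStp) (hP : SkAdm a (e :: P₂))
    {t : ℝ} (ht : t ∈ Icc (0 : ℝ) 1) (z : SkCfg n → ℝ) :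
    skF n a (obPart t e :: obPart (1 - t) e :: P₂) z = skF n a (e :: P₂) z := by
  exact obp_split_F hn ha e P₂ hP ht z

/-- K7 = eq. (1), line 2 (Lemma 2.2), EXACT form on the filled revelation `e`: `dS/dt = n Δh E tr H² + Δb E‖J_b‖²` -/
theorem ob_clock_identity (hn : 0 < n) {a : ℝ} (ha : 0 < a) (P₁ : SkStp) (e : SkInc) (P₂ : SkStp)
    (hP : SkAdm a (P₁ ++ e :: P₂)) (z₀ : SkCfg n → ℝ) {t : ℝ} (ht : t ∈ Icc (0 : ℝ) 1) :
    HasDerivWithinAt (fun s => obS n a (obSplit P₁ e P₂ s) z₀ (P₁.length + 1))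
      (n * e.dh * obTrH2 n a (obSplit P₁ e P₂ t) z₀ (P₁.length + 1)
        + e.db * obTrJ2 n a (obSplit P₁ e P₂ t) z₀ (P₁.length + 1))
      (Icc 0 1) t := by
  exact ocl_clock_identity hn ha P₁ e P₂ hP z₀ ht

/-- K7' : the integrated inequality (the only form used by PE Sec. 3, 5, 7) -/
theorem ob_clock_ineq (hn : 0 < n) {a : ℝ} (ha : 0 < a) (P₁ : SkStp) (e : SkInc) (P₂ : SkStp)
    (hP : SkAdm a (P₁ ++ e :: P₂)) (z₀ : SkCfg n → ℝ) :
    n * e.dh * (∫ t in (0 : ℝ)..1, obTrH2 n a (obSplit P₁ e P₂ t) z₀ (P₁.length + 1))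
      ≤ obS n a (P₁ ++ e :: P₂) z₀ (P₁.length + 1) - obS n a (P₁ ++ e :: P₂) z₀ P₁.length := by
  exact ocl_clock_ineq hn ha P₁ e P₂ hP z₀

/-- K8 = eq. (1), line 4: `E W = E tr (H C)` -/
theorem ob_E_W (hn : 0 < n) {a : ℝ} (ha : 0 < a) (P : SkStp) (hP : SkAdm a P) (z₀ : SkCfg n → ℝ) (j : ℕ)
    (hj : j ≤ P.length) : obE n a P z₀ (obW n a P z₀ j) = obTrHC n a P z₀ j := by
  exact obu_E_W hn ha P hP z₀ j

/-- K9 = eq. (1), line 3 (Lemma 2.3 and the polynomial form (A2) of the appendix).   ZERO root field, deterministic weights `κ j` on the cuts,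
deterministic polynomials `Pl j` (`Pl j = X`: Lemma 2.3), full unconditioned law of one path.   `c_p = 1 + p²/3`. -/
theorem ob_pinned_moments (hn : 0 < n) {a : ℝ} (ha : 0 < a) (P : SkStp) (hP : SkAdm a P) (κ : ℕ → ℝ)
    (Pl : ℕ → Polynomial ℝ) {p : ℝ} (hp : 2 ≤ p) :
    (obE n a P 0 fun ξ σ => |∑ j ∈ Finset.range (P.length + 1), skGap a P j * κ j *
        ((Pl j).eval (obL n a P 0 j ξ σ) - obE n a P 0 fun ξ' σ' => (Pl j).eval (obL n a P 0 j ξ' σ'))| ^ p) ^ (2 / p)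
      ≤ (1 + p ^ 2 / 3) *
        (obE n a P 0 fun ξ σ => (∑ j ∈ Finset.range (P.length + 1), skGap a P j * κ j ^ 2 *
          ((Pl j).derivative.eval (obL n a P 0 j ξ σ)) ^ 2 * obW n a P 0 j ξ σ) ^ (p / 2)) ^ (2 / p) := by
  exact pinb_moments hn ha P hP κ (fun j t => (Pl j).eval t) (fun j t => (Pl j).derivative.eval t)
    (fun j t => (Pl j).hasDerivAt t) (fun j => (Pl j).derivative.continuous) hp

/-- K10: the case `p = 2` with `c_2 = 1` -/
theorem ob_pinned_variance (hn : 0 < n) {a : ℝ} (ha : 0 < a) (P : SkStp) (hP : SkAdm a P) (κ : ℕ → ℝ)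
    (Pl : ℕ → Polynomial ℝ) :
    (obE n a P 0 fun ξ σ => (∑ j ∈ Finset.range (P.length + 1), skGap a P j * κ j *
        ((Pl j).eval (obL n a P 0 j ξ σ) - obE n a P 0 fun ξ' σ' => (Pl j).eval (obL n a P 0 j ξ' σ'))) ^ 2)
      ≤ obE n a P 0 fun ξ σ => ∑ j ∈ Finset.range (P.length + 1), skGap a P j * κ j ^ 2 *
          ((Pl j).derivative.eval (obL n a P 0 j ξ σ)) ^ 2 * obW n a P 0 j ξ σ := by
  exact pinb_variance hn ha P hP κ (fun j t => (Pl j).eval t) (fun j t => (Pl j).derivative.eval t)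
    (fun j t => (Pl j).hasDerivAt t) (fun j => (Pl j).derivative.continuous)

/-- K9g: the same for deterministic `C¹` functions `f j` (LL (A2); adversary note P14 A4) -/
theorem ob_pinned_moments_gen (hn : 0 < n) {a : ℝ} (ha : 0 < a) (P : SkStp) (hP : SkAdm a P) (κ : ℕ → ℝ)
    (f f' : ℕ → ℝ → ℝ) (hf : ∀ j t, HasDerivAt (f j) (f' j t) t) (hf' : ∀ j, Continuous (f' j)) {p : ℝ} (hp : 2 ≤ p) :
    (obE n a P 0 fun ξ σ => |∑ j ∈ Finset.range (P.length + 1), skGap a P j * κ j *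
        (f j (obL n a P 0 j ξ σ) - obE n a P 0 fun ξ' σ' => f j (obL n a P 0 j ξ' σ'))| ^ p) ^ (2 / p)
      ≤ (1 + p ^ 2 / 3) *
        (obE n a P 0 fun ξ σ => (∑ j ∈ Finset.range (P.length + 1), skGap a P j * κ j ^ 2 *
          (f' j (obL n a P 0 j ξ σ)) ^ 2 * obW n a P 0 j ξ σ) ^ (p / 2)) ^ (2 / p) := by
  exact pinb_moments hn ha P hP κ f f' hf hf' hp

/-- K10g -/
theorem ob_pinned_variance_gen (hn : 0 < n) {a : ℝ} (ha : 0 < a) (P : SkStp) (hP : SkAdm a P) (κ : ℕ → ℝ)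
    (f f' : ℕ → ℝ → ℝ) (hf : ∀ j t, HasDerivAt (f j) (f' j t) t) (hf' : ∀ j, Continuous (f' j)) :
    (obE n a P 0 fun ξ σ => (∑ j ∈ Finset.range (P.length + 1), skGap a P j * κ j *
        (f j (obL n a P 0 j ξ σ) - obE n a P 0 fun ξ' σ' => f j (obL n a P 0 j ξ' σ'))) ^ 2)
      ≤ obE n a P 0 fun ξ σ => ∑ j ∈ Finset.range (P.length + 1), skGap a P j * κ j ^ 2 *
          (f' j (obL n a P 0 j ξ σ)) ^ 2 * obW n a P 0 j ξ σ := by
  exact pinb_variance hn ha P hP κ f f' hf hf'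

/-! ### exits which live inside the proofs of PE Section 2 (X1 of the note P14_adv_199; IBP for PE Lemma 3.5) -/

/-- X1a: the telescoped joint density of (flat drivers, terminal spin), any root field -/
theorem ob_x1_density {a : ℝ} (ha : 0 < a) (P : SkStp) (hP : SkAdm a P) (z₀ : SkCfg n → ℝ)
    (T : (ℕ → SkDr n → ℝ) → SkCfg n → ℝ) (hT : ∀ σ, Measurable fun ξ => T ξ σ) (hTb : ∃ K, ∀ ξ σ, |T ξ σ| ≤ K) :
    obE n a P z₀ T = ∑ σ, (skBase n a).w σ * ∫ x : PinV n P, T (pinX n P x) σ *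
      Real.exp (a * (z₀ σ + ghSum (skLvs n P) (pinX n P x) σ)
        - ∑ j ∈ Finset.range (P.length + 1),
            skGap a P j * ghF (skBase n a) (skLvs n (P.drop j)) (z₀ + pinG n P j x))
      ∂ghFlat (SkDr n) (skLvs n P).length := by
  have h := pin_path_phi (skBase n a) (pin_base_ok n ha) (skLvs n P) (pin_adm n P hP) z₀ T hT hTb
  unfold obE
  rw [h]
  refine Finset.sum_congr rfl fun σ _ => ?_
  congr 1
  refine integral_congr_ae (Filter.Eventually.of_forall fun x => ?_)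
  have e : -ghPhi (skBase n a) (skLvs n P) z₀ σ x
      = a * (z₀ σ + ghSum (skLvs n P) (pinX n P x) σ)
        - ∑ j ∈ Finset.range (P.length + 1),
            skGap a P j * ghF (skBase n a) (skLvs n (P.drop j)) (z₀ + pinG n P j x) := by
    unfold ghPhi
    rw [pin_R_gap]
    have ea : (skBase n a).a = a := rfl
    rw [ea]
    unfold pinG pinX
    ring
  show T (pinX n P x) σ * Real.exp (-ghPhi (skBase n a) (skLvs n P) z₀ σ x) = _
  rw [e]

/-- X1b: every continuation is convex in the FULL vector of flat drivers -/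
theorem ob_x1_convex {a : ℝ} (ha : 0 < a) (P : SkStp) (hP : SkAdm a P) (z₀ : SkCfg n → ℝ) (j : ℕ) :
    ConvexOn ℝ Set.univ fun x : PinV n P => ghF (skBase n a) (skLvs n (P.drop j)) (z₀ + pinG n P j x) := by
  exact obi_x1_convex ha P hP z₀ j

/-- K11: Gaussian integration by parts under the planted law of one path, in the driver coordinate `c` of the revelation `e₀`
(number `P₁.length`): differentiate the telescoped density.   `T'` = partial derivative of the test in that coordinate.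
With `T` independent of that driver (`T' = 0`) this is the identity in the proof of PE Lemma 3.5:
terminal tilt `a A(σ)`, continuations `- ∑_{j > t} gap_j E[A | cut j]`. -/
theorem ob_ibp (hn : 0 < n) {a : ℝ} (ha : 0 < a) (P₁ : SkStp) (e₀ : SkInc) (P₂ : SkStp)
    (hP : SkAdm a (P₁ ++ e₀ :: P₂)) (z₀ : SkCfg n → ℝ) (c : SkDr n)
    (T T' : (ℕ → SkDr n → ℝ) → SkCfg n → ℝ)
    (hT : ∀ σ, Measurable fun ξ => T ξ σ) (hTb : ∃ K, ∀ ξ σ, |T ξ σ| ≤ K)
    (hT' : ∀ σ, Measurable fun ξ => T' ξ σ) (hTb' : ∃ K, ∀ ξ σ, |T' ξ σ| ≤ K)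
    (hd : ∀ ξ σ r, HasDerivAt
      (fun r : ℝ => T (Function.update ξ P₁.length (Function.update (ξ P₁.length) c r)) σ)
      (T' (Function.update ξ P₁.length (Function.update (ξ P₁.length) c r)) σ) r) :
    obE n a (P₁ ++ e₀ :: P₂) z₀ (fun ξ σ => ξ P₁.length c * T ξ σ)
      = obE n a (P₁ ++ e₀ :: P₂) z₀ T'
        + obE n a (P₁ ++ e₀ :: P₂) z₀ (fun ξ σ => T ξ σ * (a * (e₀.lv n).A σ c
            - ∑ j ∈ Finset.Ioc P₁.length (P₁ ++ e₀ :: P₂).length,
                skGap a (P₁ ++ e₀ :: P₂) j *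
                  ghE (skBase n a) (skLvs n ((P₁ ++ e₀ :: P₂).drop j)) (fun τ => (e₀.lv n).A τ c)
                    (obFld n (P₁ ++ e₀ :: P₂) z₀ ξ j))) := by
  exact obi_ibp ha P₁ e₀ P₂ hP z₀ c T T' hT hTb hT' hTb' hd

end sk

end Claimed.Agent.R286
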