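import Claimed.Agent.R286.Defs.SkLem
import Claimed.Agent.R286.Fd.RegA

/-!
# Row 286 (S0533), Fd/SymA : transport of hierarchies along bijections of the configuration space      (owner helper16; prefix `gh_sa_`)

Recursion friendly forms (`List.Forall₂`) of the exits `gh_sy_F/E/H/nu` of `Fd/CSym`.
-/

set_option autoImplicit false
set_option linter.unusedSectionVars false

namespace Claimed.Agent.R286

open MeasureTheory ProbabilityTheory

section one

variable {S S' ι ι' : Type} [Fintype S] [Fintype S'] [Fintype ι] [Fintype ι']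

/-- the level `l'` on `S'` is the level `l` on `S` read through `φ` -/
def GhLvIso (φ : S → S') (l : GhLv S ι) (l' : GhLv S' ι') : Prop :=
  l'.m = l.m ∧ ∀ s t, l'.cov (φ s) (φ t) = l.cov s t

theorem gh_sa_law (φ : S → S') (l : GhLv S ι) (l' : GhLv S' ι') (h : ∀ s t, l'.cov (φ s) (φ t) = l.cov s t) :
    (ghStd ι').map (fun ξ s => l'.inc ξ (φ s)) = (ghStd ι).map l.inc :=
  gh_l_law_congr (fun s i => l'.A (φ s) i) l.A h

theorem gh_sa_pb_meas (φ : S → S') (l' : GhLv S' ι') : Measurable fun (ξ : ι' → ℝ) (s : S) => l'.inc ξ (φ s) := by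
  unfold GhLv.inc; fun_prop

/-- transfer of integrals of functions of the increment -/
theorem gh_sa_int (φ : S → S') (l : GhLv S ι) (l' : GhLv S' ι') (h : ∀ s t, l'.cov (φ s) (φ t) = l.cov s t)
    (Ψ : (S → ℝ) → ℝ) (hΨ : Measurable Ψ) :
    ∫ ξ, Ψ (fun s => l'.inc ξ (φ s)) ∂ghStd ι' = ∫ ξ, Ψ (l.inc ξ) ∂ghStd ι := by
  rw [← integral_map (gh_l_inc_meas l).aemeasurable hΨ.aestronglyMeasurable,
    ← integral_map (gh_sa_pb_meas φ l').aemeasurable hΨ.aestronglyMeasurable, gh_sa_law φ l l' h]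

theorem gh_sa_F0 (φ : S ≃ S') {B : GhB S} {B' : GhB S'} (ha : B'.a = B.a) (hw : ∀ s, B'.w (φ s) = B.w s) (z' : S' → ℝ) :
    ghF0 B' z' = ghF0 B fun s => z' (φ s) := by
  unfold ghF0
  rw [ha, ← Equiv.sum_comp φ]
  simp only [hw]

theorem gh_sa_Gw (φ : S ≃ S') {B : GhB S} {B' : GhB S'} (ha : B'.a = B.a) (hw : ∀ s, B'.w (φ s) = B.w s) (z' : S' → ℝ) (s : S) :
    ghGw B' z' (φ s) = ghGw B (fun s => z' (φ s)) s := by
  unfold ghGw
  rw [ha, ← Equiv.sum_comp φ]
  simp only [hw]

/-- transport of the continuation -/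
theorem gh_sa_F (φ : S ≃ S') {B : GhB S} {B' : GhB S'} (hB : B.Ok) (ha : B'.a = B.a) (hw : ∀ s, B'.w (φ s) = B.w s) :
    ∀ {ls : List (GhLv S ι)} {ls' : List (GhLv S' ι')}, List.Forall₂ (GhLvIso φ) ls ls' → ∀ z' : S' → ℝ,
      ghF B' ls' z' = ghF B ls fun s => z' (φ s) := by
  intro ls ls' h
  induction h with
  | nil => intro z'; exact gh_sa_F0 φ ha hw z'
  | @cons l l' ls ls' hl _ ih =>
    intro z'
    simp only [ghF]
    have e : ∀ ξ : ι' → ℝ, ghF B' ls' (z' + l'.inc ξ) = ghF B ls ((fun s => z' (φ s)) + fun s => l'.inc ξ (φ s)) := by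
      intro ξ; rw [ih]; rfl
    simp only [e]
    have hc := (gh_ra_F_cont hB ls).measurable
    unfold ghT
    rw [hl.1]
    rw [gh_sa_int φ l l' hl.2 (fun y => ghF B ls ((fun s => z' (φ s)) + y)) (by fun_prop),
      gh_sa_int φ l l' hl.2 (fun y => Real.exp (l.m * ghF B ls ((fun s => z' (φ s)) + y))) (by fun_prop)]

/-- the planted density as a function of the field increment -/
noncomputable def ghDy (B : GhB S) (l : GhLv S ι) (ls : List (GhLv S ι)) (z y : S → ℝ) : ℝ :=
  Real.exp (l.m * (ghF B ls (z + y) - ghF B (l :: ls) z))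

theorem gh_sa_D_eq (B : GhB S) (l : GhLv S ι) (ls : List (GhLv S ι)) (z : S → ℝ) (ξ : ι → ℝ) :
    ghD B l ls z ξ = ghDy B l ls z (l.inc ξ) := rfl

theorem gh_sa_Dy_meas {B : GhB S} (hB : B.Ok) (l : GhLv S ι) (ls : List (GhLv S ι)) :
    Measurable fun p : (S → ℝ) × (S → ℝ) => ghDy B l ls p.1 p.2 := by
  have h1 := (gh_ra_F_cont hB ls).measurable
  have h2 := (gh_ra_F_cont hB (l :: ls)).measurable
  unfold ghDy
  fun_prop

/-- transport of the planted density -/
theorem gh_sa_D (φ : S ≃ S') {B : GhB S} {B' : GhB S'} (hB : B.Ok) (ha : B'.a = B.a) (hw : ∀ s, B'.w (φ s) = B.w s)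
    {l : GhLv S ι} {l' : GhLv S' ι'} {ls : List (GhLv S ι)} {ls' : List (GhLv S' ι')} (hl : GhLvIso φ l l')
    (h : List.Forall₂ (GhLvIso φ) ls ls') (z' : S' → ℝ) (ξ : ι' → ℝ) :
    ghD B' l' ls' z' ξ = ghDy B l ls (fun s => z' (φ s)) fun s => l'.inc ξ (φ s) := by
  unfold ghD ghDy
  rw [gh_sa_F φ hB ha hw h, gh_sa_F φ hB ha hw (List.Forall₂.cons hl h), hl.1]
  rfl

/-- transport of the planted conditional mean -/
theorem gh_sa_E (φ : S ≃ S') {B : GhB S} {B' : GhB S'} (hB : B.Ok) (ha : B'.a = B.a) (hw : ∀ s, B'.w (φ s) = B.w s) :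
    ∀ {ls : List (GhLv S ι)} {ls' : List (GhLv S' ι')}, List.Forall₂ (GhLvIso φ) ls ls' → ∀ Φ z' : S' → ℝ,
      ghE B' ls' Φ z' = ghE B ls (fun s => Φ (φ s)) fun s => z' (φ s) := by
  intro ls ls' h
  induction h with
  | nil =>
    intro Φ z'
    simp only [ghE]
    rw [← Equiv.sum_comp φ]
    simp only [gh_sa_Gw φ ha hw]
  | @cons l l' ls ls' hl h ih =>
    intro Φ z'
    simp only [ghE]
    have e : ∀ ξ : ι' → ℝ, ghD B' l' ls' z' ξ * ghE B' ls' Φ (z' + l'.inc ξ)
        = (fun y => ghDy B l ls (fun s => z' (φ s)) y * ghE B ls (fun s => Φ (φ s)) ((fun s => z' (φ s)) + y))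
          (fun s => l'.inc ξ (φ s)) := by
      intro ξ; rw [ih, gh_sa_D φ hB ha hw hl h]; rfl
    have h1 := (gh_ra_E_cont hB ls fun s => Φ (φ s)).measurable
    have h2 := gh_sa_Dy_meas hB l ls
    rw [integral_congr_ae (Filter.Eventually.of_forall e)]
    exact gh_sa_int φ l l' hl.2 (fun y => ghDy B l ls (fun s => z' (φ s)) y * ghE B ls (fun s => Φ (φ s)) ((fun s => z' (φ s)) + y))
      (by fun_prop)

/-- transport of the Hessian -/
theorem gh_sa_H (φ : S ≃ S') {B : GhB S} {B' : GhB S'} (hB : B.Ok) (ha : B'.a = B.a) (hw : ∀ s, B'.w (φ s) = B.w s) :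
    ∀ {ls : List (GhLv S ι)} {ls' : List (GhLv S' ι')}, List.Forall₂ (GhLvIso φ) ls ls' → ∀ v w z' : S' → ℝ,
      ghH B' ls' v w z' = ghH B ls (fun s => v (φ s)) (fun s => w (φ s)) fun s => z' (φ s) := by
  intro ls ls' h
  induction h with
  | nil =>
    intro v w z'
    simp only [ghH, ghC]
    have hn : List.Forall₂ (GhLvIso φ) ([] : List (GhLv S ι)) ([] : List (GhLv S' ι')) := List.Forall₂.nil
    rw [gh_sa_E φ hB ha hw hn, gh_sa_E φ hB ha hw hn, gh_sa_E φ hB ha hw hn, ha]
  | @cons l l' ls ls' hl h ih =>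
    intro v w z'
    simp only [ghH]
    have hc := List.Forall₂.cons hl h
    have e : ∀ ξ : ι' → ℝ, ghD B' l' ls' z' ξ * (ghH B' ls' v w (z' + l'.inc ξ)
          + l'.m * ((ghE B' ls' v (z' + l'.inc ξ) - ghE B' (l' :: ls') v z') * (ghE B' ls' w (z' + l'.inc ξ) - ghE B' (l' :: ls') w z')))
        = (fun y => ghDy B l ls (fun s => z' (φ s)) y * (ghH B ls (fun s => v (φ s)) (fun s => w (φ s)) ((fun s => z' (φ s)) + y)
          + l.m * ((ghE B ls (fun s => v (φ s)) ((fun s => z' (φ s)) + y) - ghE B (l :: ls) (fun s => v (φ s)) fun s => z' (φ s))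
            * (ghE B ls (fun s => w (φ s)) ((fun s => z' (φ s)) + y) - ghE B (l :: ls) (fun s => w (φ s)) fun s => z' (φ s)))))
          (fun s => l'.inc ξ (φ s)) := by
      intro ξ
      rw [ih, gh_sa_D φ hB ha hw hl h, gh_sa_E φ hB ha hw h, gh_sa_E φ hB ha hw h, gh_sa_E φ hB ha hw hc,
        gh_sa_E φ hB ha hw hc, hl.1]
      rfl
    have h1 := (gh_ra_E_cont hB ls fun s => v (φ s)).measurable
    have h1' := (gh_ra_E_cont hB ls fun s => w (φ s)).measurable
    have h2 := gh_sa_Dy_meas hB l ls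
    have h3 := (gh_ra_H_cont hB ls (fun s => v (φ s)) fun s => w (φ s)).measurable
    rw [integral_congr_ae (Filter.Eventually.of_forall e)]
    exact gh_sa_int φ l l' hl.2 (fun y => ghDy B l ls (fun s => z' (φ s)) y * (ghH B ls (fun s => v (φ s)) (fun s => w (φ s)) ((fun s => z' (φ s)) + y)
          + l.m * ((ghE B ls (fun s => v (φ s)) ((fun s => z' (φ s)) + y) - ghE B (l :: ls) (fun s => v (φ s)) fun s => z' (φ s))
            * (ghE B ls (fun s => w (φ s)) ((fun s => z' (φ s)) + y) - ghE B (l :: ls) (fun s => w (φ s)) fun s => z' (φ s)))))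
      (by fun_prop)

end one

section tree

variable {S S' ι ι' : Type} [Fintype S] [Fintype S'] [Fintype ι] [Fintype ι'] {q : ℕ}

/-- tree numbers of spin tests are measurable functions of the revealed fields -/
theorem gh_sa_nu_meas {B : GhB S} (hB : B.Ok) (P : (Fin q → S) → ℝ) :
    ∀ (ls : List (GhLv S ι)) (rep : ℕ → Fin q → Fin q),
      Measurable fun G : Fin q → S → ℝ => ghNu B ls rep G fun _ σ => P σ := by
  intro ls
  induction ls with
  | nil =>
    intro rep
    simp only [ghNu]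
    refine Finset.measurable_sum _ fun σ _ => Measurable.mul_const ?_ _
    refine Finset.measurable_prod _ fun a _ => ?_
    exact (gh_ra_Gw_cont hB (σ a)).measurable.comp (measurable_pi_apply a)
  | cons l ls ih =>
    intro rep
    simp only [ghNu]
    have h2 := gh_sa_Dy_meas hB l ls
    have h3 := gh_l_inc_meas l
    have hD : Measurable fun p : (Fin q → S → ℝ) × (Fin q → ι → ℝ) => ghDT B l ls (rep 0) p.1 p.2 := by
      unfold ghDT
      refine Finset.measurable_prod _ fun a _ => ?_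
      by_cases ha : rep 0 a = a
      · simp only [ha, if_true, gh_sa_D_eq]
        fun_prop
      · simp only [ha, if_false]
        exact measurable_const
    have hN : Measurable fun p : (Fin q → S → ℝ) × (Fin q → ι → ℝ) =>
        ghNu B ls (fun t => rep (t + 1)) (fun a => p.1 a + l.inc (p.2 (rep 0 a))) fun _ σ => P σ := by
      refine (ih fun t => rep (t + 1)).comp ?_
      fun_prop
    exact ((hD.mul hN).stronglyMeasurable.integral_prod_right').measurable

/-- the integrand of one step of the tree recursion, as a function of the field increments of the labels -/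
noncomputable def ghTh (B : GhB S) (l : GhLv S ι) (ls : List (GhLv S ι)) (r : Fin q → Fin q) (Ψ : (Fin q → S → ℝ) → ℝ)
    (G Y : Fin q → S → ℝ) : ℝ :=
  (∏ a, if r a = a then ghDy B l ls (G a) (Y a) else 1) * Ψ fun a => G a + Y (r a)

theorem gh_sa_Th_meas {B : GhB S} (hB : B.Ok) (l : GhLv S ι) (ls : List (GhLv S ι)) (r : Fin q → Fin q)
    {Ψ : (Fin q → S → ℝ) → ℝ} (hΨ : Measurable Ψ) (G : Fin q → S → ℝ) : Measurable (ghTh B l ls r Ψ G) := by
  unfold ghTh
  have h2 := gh_sa_Dy_meas hB l ls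
  refine Measurable.mul (Finset.measurable_prod _ fun a _ => ?_) (hΨ.comp (by fun_prop))
  by_cases ha : r a = a
  · simp only [ha, if_true]
    fun_prop
  · simp only [ha, if_false]
    exact measurable_const

/-- one step of the tree recursion for spin tests -/
theorem gh_sa_nu_cons (B : GhB S) (l : GhLv S ι) (ls : List (GhLv S ι)) (rep : ℕ → Fin q → Fin q) (G : Fin q → S → ℝ)
    (P : (Fin q → S) → ℝ) :
    ghNu B (l :: ls) rep G (fun _ σ => P σ)
      = ∫ W : Fin q → ι → ℝ, ghTh B l ls (rep 0) (fun G₁ => ghNu B ls (fun t => rep (t + 1)) G₁ fun _ σ => P σ) G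
          (fun a => l.inc (W a)) ∂(Measure.pi fun _ : Fin q => ghStd ι) := rfl

/-- the joint law of the increments of the labels, read through labelwise maps -/
theorem gh_sa_law_pi (φ : Fin q → S → S') (l : GhLv S ι) (l' : GhLv S' ι')
    (h : ∀ x s t, l'.cov (φ x s) (φ x t) = l.cov s t) :
    (Measure.pi fun _ : Fin q => ghStd ι').map (fun W a s => l'.inc (W a) (φ a s))
      = (Measure.pi fun _ : Fin q => ghStd ι).map fun W a => l.inc (W a) := by
  have i1 : ∀ a : Fin q, IsProbabilityMeasure ((ghStd ι').map fun ξ s => l'.inc ξ (φ a s)) := fun a =>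
    Measure.isProbabilityMeasure_map (gh_sa_pb_meas (φ a) l').aemeasurable
  have i2 : IsProbabilityMeasure ((ghStd ι).map l.inc) := Measure.isProbabilityMeasure_map (gh_l_inc_meas l).aemeasurable
  rw [Measure.pi_map_pi (μ := fun _ : Fin q => ghStd ι') (f := fun a ξ s => l'.inc ξ (φ a s))
      (fun a => (gh_sa_pb_meas (φ a) l').aemeasurable),
    Measure.pi_map_pi (μ := fun _ : Fin q => ghStd ι) (f := fun _ ξ => l.inc ξ) (fun _ => (gh_l_inc_meas l).aemeasurable)]
  congr 1
  funext a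
  exact gh_sa_law (φ a) l l' (h a)

theorem gh_sa_int_pi (φ : Fin q → S → S') (l : GhLv S ι) (l' : GhLv S' ι')
    (h : ∀ x s t, l'.cov (φ x s) (φ x t) = l.cov s t) (Θ : (Fin q → S → ℝ) → ℝ) (hΘ : Measurable Θ) :
    ∫ W, Θ (fun a s => l'.inc (W a) (φ a s)) ∂(Measure.pi fun _ : Fin q => ghStd ι')
      = ∫ W, Θ (fun a => l.inc (W a)) ∂(Measure.pi fun _ : Fin q => ghStd ι) := by
  have m1 : Measurable fun (W : Fin q → ι' → ℝ) (a : Fin q) (s : S) => l'.inc (W a) (φ a s) := by
    unfold GhLv.inc; fun_prop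
  have m2 : Measurable fun (W : Fin q → ι → ℝ) (a : Fin q) => l.inc (W a) := by
    unfold GhLv.inc; fun_prop
  rw [← integral_map m2.aemeasurable hΘ.aestronglyMeasurable, ← integral_map m1.aemeasurable hΘ.aestronglyMeasurable,
    gh_sa_law_pi φ l l' h]

/-- two maps which act in the same way on the covariance of a level act in the same way on its increments -/
theorem gh_sa_same (l : GhLv S ι) (l' : GhLv S' ι') (f g : S → S') (hff : ∀ s t, l'.cov (f s) (f t) = l.cov s t)
    (hgg : ∀ s t, l'.cov (g s) (g t) = l.cov s t) (hfg : ∀ s t, l'.cov (f s) (g t) = l.cov s t) (ξ : ι' → ℝ) (s : S) :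
    l'.inc ξ (f s) = l'.inc ξ (g s) := by
  have h0 : ∑ i, (l'.A (f s) i - l'.A (g s) i) ^ 2 = 0 := by
    have e : ∑ i, (l'.A (f s) i - l'.A (g s) i) ^ 2 = l'.cov (f s) (f s) - 2 * l'.cov (f s) (g s) + l'.cov (g s) (g s) := by
      unfold GhLv.cov
      rw [Finset.mul_sum, ← Finset.sum_sub_distrib, ← Finset.sum_add_distrib]
      exact Finset.sum_congr rfl fun i _ => by ring
    rw [e, hff, hgg, hfg]; ring
  have h1 : ∀ i, l'.A (f s) i = l'.A (g s) i := by
    intro i
    have := (Finset.sum_eq_zero_iff_of_nonneg (fun i _ => sq_nonneg (l'.A (f s) i - l'.A (g s) i))).1 h0 i (Finset.mem_univ i)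
    have := pow_eq_zero_iff (two_ne_zero) |>.1 this
    linarith
  unfold GhLv.inc
  simp only [h1]

/-- labelwise isomorphism of the remaining levels (recursion friendly) -/
def GhIsoR (φ : Fin q → S ≃ S') : (ℕ → Fin q → Fin q) → List (GhLv S ι) → List (GhLv S' ι') → Prop
  | rep, [], [] => ∀ x y, rep 0 x = rep 0 y → φ x = φ y
  | rep, l :: ls, l' :: ls' => l'.m = l.m ∧ (∀ x y, rep 0 x = rep 0 y → ∀ s t, l'.cov (φ x s) (φ y t) = l.cov s t) ∧
      GhIsoR φ (fun t => rep (t + 1)) ls ls'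
  | _, [], _ :: _ => False
  | _, _ :: _, [] => False

theorem GhIsoR.forall₂ {φ : Fin q → S ≃ S'} : ∀ {ls : List (GhLv S ι)} {ls' : List (GhLv S' ι')} {rep : ℕ → Fin q → Fin q},
    GhIsoR φ rep ls ls' → ∀ a, List.Forall₂ (GhLvIso (φ a)) ls ls'
  | [], [], _, _, _ => List.Forall₂.nil
  | _ :: _, _ :: _, _, h, a => List.Forall₂.cons ⟨h.1, h.2.1 a a rfl⟩ (GhIsoR.forall₂ h.2.2 a)
  | [], _ :: _, _, h, _ => h.elim
  | _ :: _, [], _, h, _ => h.elim

/-- **master transport theorem**, recursion friendly form -/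
theorem gh_sa_nu {φ : Fin q → S ≃ S'} {B : GhB S} {B' : GhB S'} (hB : B.Ok) (ha : B'.a = B.a)
    (hw : ∀ x s, B'.w (φ x s) = B.w s) (P : (Fin q → S') → ℝ) :
    ∀ (ls : List (GhLv S ι)) (ls' : List (GhLv S' ι')) (rep : ℕ → Fin q → Fin q), (∀ t a, rep t (rep t a) = rep t a) →
      GhIsoR φ rep ls ls' → ∀ (G : Fin q → S → ℝ) (G' : Fin q → S' → ℝ), (∀ x s, G' x (φ x s) = G x s) →
        ghNu B' ls' rep G' (fun _ σ => P σ) = ghNu B ls rep G fun _ σ => P fun x => φ x (σ x)
  | [], [], rep, hid, h, G, G', hG => by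
    simp only [ghNu]
    rw [← Equiv.sum_comp (Equiv.piCongrRight φ)]
    refine Finset.sum_congr rfl fun σ _ => ?_
    congr 1
    · refine Finset.prod_congr rfl fun a _ => ?_
      have : (Equiv.piCongrRight φ) σ a = φ a (σ a) := rfl
      rw [this, gh_sa_Gw (φ a) ha (hw a)]
      congr 1
      funext s
      exact hG a s
    · congr 1
      funext a
      have : (Equiv.piCongrRight φ) σ (rep 0 a) = φ (rep 0 a) (σ (rep 0 a)) := rfl
      rw [this, h (rep 0 a) a (hid 0 a)]
  | l :: ls, l' :: ls', rep, hid, h, G, G', hG => by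
    rw [gh_sa_nu_cons, gh_sa_nu_cons]
    have hself : ∀ x s t, l'.cov (φ x s) (φ x t) = l.cov s t := fun x => h.2.1 x x rfl
    have hΨ := gh_sa_nu_meas (ι := ι) hB (fun σ => P fun x => φ x (σ x)) ls fun t => rep (t + 1)
    rw [← gh_sa_int_pi (fun x => φ x) l l' hself _ (gh_sa_Th_meas hB l ls (rep 0) hΨ G)]
    refine integral_congr_ae (Filter.Eventually.of_forall fun W => ?_)
    show ghTh B' l' ls' (rep 0) _ G' _ = ghTh B l ls (rep 0) _ G _
    unfold ghTh
    congr 1
    · refine Finset.prod_congr rfl fun a _ => ?_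
      by_cases hra : rep 0 a = a
      · simp only [hra, if_true]
        have := gh_sa_D (φ a) hB ha (hw a) ⟨h.1, hself a⟩ (h.2.2.forall₂ a) (G' a) (W a)
        rw [gh_sa_D_eq] at this
        rw [this]
        congr 1
        funext s
        exact hG a s
      · simp only [hra, if_false]
    · refine gh_sa_nu hB ha hw P ls ls' (fun t => rep (t + 1)) (fun t a => hid (t + 1) a) h.2.2 _ _ fun x s => ?_
      show G' x (φ x s) + l'.inc (W (rep 0 x)) (φ x s) = G x s + l'.inc (W (rep 0 x)) (φ (rep 0 x) s)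
      rw [hG x s, gh_sa_same l l' (φ x) (φ (rep 0 x)) (hself x) (hself _) (h.2.1 x (rep 0 x) (hid 0 x).symm)]
  | [], _ :: _, _, _, h, _, _, _ => h.elim
  | _ :: _, [], _, _, h, _, _, _ => h.elim

end tree

section idx

variable {S S' ι ι' : Type} [Fintype S] [Fintype S'] [Fintype ι] [Fintype ι'] {q : ℕ}

/-- from hypotheses indexed by the number of the level to the recursion friendly form -/
theorem gh_sa_forall₂_of_idx (φ : S → S') : ∀ (ls : List (GhLv S ι)) (ls' : List (GhLv S' ι')),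
    ls'.map GhLv.m = ls.map GhLv.m →
    (∀ j (h : j < ls.length) (h' : j < ls'.length) (s t : S), (ls'[j]).cov (φ s) (φ t) = (ls[j]).cov s t) →
    List.Forall₂ (GhLvIso φ) ls ls'
  | [], [], _, _ => List.Forall₂.nil
  | [], _ :: _, hm, _ => by simp at hm
  | _ :: _, [], hm, _ => by simp at hm
  | l :: ls, l' :: ls', hm, hc => by
    simp only [List.map_cons, List.cons.injEq] at hm
    refine List.Forall₂.cons ⟨hm.1, fun s t => hc 0 (by simp) (by simp) s t⟩
      (gh_sa_forall₂_of_idx φ ls ls' hm.2 fun j h h' s t => ?_)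
    exact hc (j + 1) (by simpa using h) (by simpa using h') s t

theorem gh_sa_isoR_of_idx (φ : Fin q → S ≃ S') : ∀ (ls : List (GhLv S ι)) (ls' : List (GhLv S' ι')) (rep : ℕ → Fin q → Fin q),
    ls'.map GhLv.m = ls.map GhLv.m →
    (∀ x y j (h : j < ls.length) (h' : j < ls'.length), rep j x = rep j y →
      ∀ s t : S, (ls'[j]).cov (φ x s) (φ y t) = (ls[j]).cov s t) →
    (∀ x y, rep ls.length x = rep ls.length y → φ x = φ y) → GhIsoR φ rep ls ls'
  | [], [], _, _, _, ht => ht
  | [], _ :: _, _, hm, _, _ => by simp at hm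
  | _ :: _, [], _, hm, _, _ => by simp at hm
  | l :: ls, l' :: ls', rep, hm, hc, ht => by
    simp only [List.map_cons, List.cons.injEq] at hm
    refine ⟨hm.1, fun x y hxy s t => hc x y 0 (by simp) (by simp) hxy s t,
      gh_sa_isoR_of_idx φ ls ls' (fun t => rep (t + 1)) hm.2 (fun x y j h h' hxy s t => ?_) fun x y hxy => ?_⟩
    · exact hc x y (j + 1) (by simpa using h) (by simpa using h') hxy s t
    · exact ht x y (by simpa using hxy)

end idx

end Claimed.Agent.R286
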