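import Claimed.Agent.R286.Fd.SymP
import Claimed.Agent.R286.Fd.NuApi

/-!
# Row 286 (S0533), Fd/SymC : PROOF of the block CONST of the contract `Fd/CSym` (spin independent features drop out)      (owner helper147; prefix `gh_sc_`)      no sorry

Method (ruling of 16): a covariance `+ κ_j` = product with a hierarchy on the one point space.      For signs of `κ_j` of any kind both hierarchies are compared with
a third one on `S × Unit` of covariance `cov + κ⁺ = cov' + κ⁻`, which factors in two ways (`Fd/SymP`).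

* `gh_sc_F_unit`       the continuation of a hierarchy on the one point space: `z + ∑ m_j k_j / 2`
* `gh_sc_E_fst, gh_sc_H_fst, gh_sc_nu_fst`      observables of the first factor only
* `gh_sc_exists`       the third hierarchy
* `gh_sc_const_F/E/H/nu`, `gh_sc_shift_nu`      = `gh_sy_const_F/E/H/nu`, `gh_sy_shift_nu` of `Fd/CSym` (hypotheses of `GhCst` unbundled)
-/

set_option autoImplicit false
set_option linter.unusedSectionVars false
set_option linter.unusedVariables false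

namespace Claimed.Agent.R286

open MeasureTheory ProbabilityTheory

section unit

/-- the base on the one point space -/
def ghScB (a : ℝ) : GhB Unit := ⟨fun _ => 1, a⟩

theorem gh_sc_B_ok {a : ℝ} (ha : 0 < a) : (ghScB a).Ok where
  nonneg := fun _ => zero_le_one
  sum := by simp [ghScB]
  pos := ha

/-- the level of mass `m` and variance `k` on the one point space -/
noncomputable def ghScL (m k : ℝ) : GhLv Unit Unit := ⟨m, fun _ _ => Real.sqrt k⟩

theorem gh_sc_L_cov (m : ℝ) {k : ℝ} (hk : 0 ≤ k) (s t : Unit) : (ghScL m k).cov s t = k := by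
  simp [GhLv.cov, ghScL, Real.mul_self_sqrt hk]

/-- `∑ m_j k_j / 2` -/
noncomputable def ghScK : List (GhLv Unit Unit) → ℝ
  | [] => 0
  | l :: ls => l.m * l.cov () () / 2 + ghScK ls

theorem gh_sc_int_unit (g : ℝ → ℝ) : ∫ ξ : Unit → ℝ, g (ξ ()) ∂ghStd Unit = ∫ x, g x ∂gaussianReal 0 1 :=
  (measurePreserving_funUnique (gaussianReal 0 1) Unit).integral_comp' g

theorem gh_sc_gauss_exp (t : ℝ) : ∫ x, Real.exp (t * x) ∂gaussianReal 0 1 = Real.exp (t ^ 2 / 2) := by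
  have h := congrFun (mgf_id_gaussianReal (μ := 0) (v := 1)) t
  simp only [mgf, id_eq] at h
  rw [h]
  congr 1
  simp

theorem gh_sc_gauss_id : ∫ x, x ∂gaussianReal 0 1 = 0 := by
  simp

theorem gh_sc_gauss_int : Integrable (fun x : ℝ => x) (gaussianReal 0 1) :=
  (memLp_id_gaussianReal (μ := 0) (v := 1) 1).integrable le_rfl

/-- the continuation on the one point space -/
theorem gh_sc_F_unit {a : ℝ} (ha : 0 < a) : ∀ (u : List (GhLv Unit Unit)) (z : Unit → ℝ),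
    ghF (ghScB a) u z = z () + ghScK u
  | [], z => by
    simp only [ghF, ghF0, ghScB, ghScK, Finset.univ_unique, Finset.sum_singleton, one_mul, Real.log_exp, add_zero]
    rw [← mul_assoc, inv_mul_cancel₀ ha.ne', one_mul]
  | l :: u, z => by
    simp only [ghF, ghScK]
    have e : ∀ ξ : Unit → ℝ, ghF (ghScB a) u (z + l.inc ξ) = (z () + ghScK u) + l.A () () * ξ () := by
      intro ξ
      rw [gh_sc_F_unit ha u]
      simp only [Pi.add_apply, GhLv.inc, Finset.univ_unique, Finset.sum_singleton]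
      have : (default : Unit) = () := rfl
      rw [this]
      ring
    simp only [e]
    unfold ghT
    by_cases h0 : l.m = 0
    · simp only [h0, if_true]
      rw [gh_sc_int_unit (fun x => (z () + ghScK u) + l.A () () * x), integral_add (integrable_const _)
        (gh_sc_gauss_int.const_mul _), integral_const_mul]
      simp
    · simp only [h0, if_false]
      rw [gh_sc_int_unit (fun x => Real.exp (l.m * ((z () + ghScK u) + l.A () () * x)))]
      have e2 : ∀ x : ℝ, Real.exp (l.m * ((z () + ghScK u) + l.A () () * x))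
          = Real.exp (l.m * (z () + ghScK u)) * Real.exp ((l.m * l.A () ()) * x) := by
        intro x
        rw [← Real.exp_add]
        congr 1
        ring
      simp only [e2]
      rw [integral_const_mul, gh_sc_gauss_exp, ← Real.exp_add, Real.log_exp]
      simp only [GhLv.cov, Finset.univ_unique, Finset.sum_singleton]
      have : (default : Unit) = () := rfl
      rw [this]
      field_simp
      ring

end unit

section fst

variable {S₁ S₂ ι ι₁ ι₂ : Type} [Fintype S₁] [Fintype S₂] [Fintype ι] [Fintype ι₁] [Fintype ι₂] {q : ℕ}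

/-- conditional means of observables of the first factor -/
theorem gh_sc_E_fst {B : GhB (S₁ × S₂)} {B₁ : GhB S₁} {B₂ : GhB S₂} (h : GhBPrd B B₁ B₂) (hB₁ : B₁.Ok) (hB₂ : B₂.Ok)
    (Φ : S₁ → ℝ) (ls : List (GhLv (S₁ × S₂) ι)) (ls₁ : List (GhLv S₁ ι₁)) (ls₂ : List (GhLv S₂ ι₂))
    (hr : GhPrdR ls ls₁ ls₂) (z₁ : S₁ → ℝ) (z₂ : S₂ → ℝ) :
    ghE B ls (fun s => Φ s.1) (ghSpAdd z₁ z₂) = ghE B₁ ls₁ Φ z₁ := by
  have := gh_sp_E h hB₁ hB₂ Φ (fun _ => 1) ls ls₁ ls₂ hr z₁ z₂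
  simpa only [mul_one, gh_ra_E_const hB₂] using this

/-- Hessians in directions of the first factor -/
theorem gh_sc_H_fst {B : GhB (S₁ × S₂)} {B₁ : GhB S₁} {B₂ : GhB S₂} (h : GhBPrd B B₁ B₂) (hB₁ : B₁.Ok) (hB₂ : B₂.Ok)
    (v w : S₁ → ℝ) :
    ∀ (ls : List (GhLv (S₁ × S₂) ι)) (ls₁ : List (GhLv S₁ ι₁)) (ls₂ : List (GhLv S₂ ι₂)), GhPrdR ls ls₁ ls₂ →
      ∀ (z₁ : S₁ → ℝ) (z₂ : S₂ → ℝ),
        ghH B ls (fun s => v s.1) (fun s => w s.1) (ghSpAdd z₁ z₂) = ghH B₁ ls₁ v w z₁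
  | [], [], [], hr, z₁, z₂ => by
    simp only [ghH, ghC]
    rw [gh_sc_E_fst h hB₁ hB₂ (fun s => v s * w s) [] ([] : List (GhLv S₁ ι₁)) ([] : List (GhLv S₂ ι₂)) hr,
      gh_sc_E_fst h hB₁ hB₂ v [] ([] : List (GhLv S₁ ι₁)) ([] : List (GhLv S₂ ι₂)) hr,
      gh_sc_E_fst h hB₁ hB₂ w [] ([] : List (GhLv S₁ ι₁)) ([] : List (GhLv S₂ ι₂)) hr, h.a₁]
  | l :: ls, l₁ :: ls₁, l₂ :: ls₂, hr, z₁, z₂ => by
    have ih := gh_sc_H_fst h hB₁ hB₂ v w ls ls₁ ls₂ hr.2
    have hB := h.ok hB₁ hB₂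
    have h1 := (gh_ra_E_cont hB ls fun s => v s.1).measurable
    have h1' := (gh_ra_E_cont hB ls fun s => w s.1).measurable
    have h2 := gh_sa_Dy_meas hB l ls
    have h3 := (gh_ra_H_cont hB ls (fun s => v s.1) fun s => w s.1).measurable
    simp only [ghH, gh_sa_D_eq]
    rw [gh_sp_int l l₁ l₂ hr.1.2.2 (fun y => ghDy B l ls (ghSpAdd z₁ z₂) y
      * (ghH B ls (fun s => v s.1) (fun s => w s.1) (ghSpAdd z₁ z₂ + y)
        + l.m * ((ghE B ls (fun s => v s.1) (ghSpAdd z₁ z₂ + y) - ghE B (l :: ls) (fun s => v s.1) (ghSpAdd z₁ z₂))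
          * (ghE B ls (fun s => w s.1) (ghSpAdd z₁ z₂ + y) - ghE B (l :: ls) (fun s => w s.1) (ghSpAdd z₁ z₂)))))
      (by fun_prop)]
    simp only [gh_sp_add_add, ih, gh_sp_Dy h hB₁ hB₂ hr.1 hr.2, gh_sc_E_fst h hB₁ hB₂ _ ls ls₁ ls₂ hr.2,
      gh_sc_E_fst h hB₁ hB₂ _ (l :: ls) (l₁ :: ls₁) (l₂ :: ls₂) hr]
    have hone : ∫ ξ, ghDy B₂ l₂ ls₂ z₂ (l₂.inc ξ) ∂ghStd ι₂ = 1 := gh_ra_D_one hB₂ l₂ ls₂ z₂
    rw [← mul_one (∫ ξ, _ ∂ghStd ι₁), ← hone, ← integral_prod_mul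
      (fun ξ => ghDy B₁ l₁ ls₁ z₁ (l₁.inc ξ) * (ghH B₁ ls₁ v w (z₁ + l₁.inc ξ)
        + l₁.m * ((ghE B₁ ls₁ v (z₁ + l₁.inc ξ) - ghE B₁ (l₁ :: ls₁) v z₁)
          * (ghE B₁ ls₁ w (z₁ + l₁.inc ξ) - ghE B₁ (l₁ :: ls₁) w z₁))))
      (fun ξ => ghDy B₂ l₂ ls₂ z₂ (l₂.inc ξ))]
    refine integral_congr_ae (Filter.Eventually.of_forall fun p => ?_)
    simp only [hr.1.1]
    ring
  | [], [], _ :: _, hr, _, _ => hr.elim
  | [], _ :: _, _, hr, _, _ => hr.elim
  | _ :: _, [], _, hr, _, _ => hr.elim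
  | _ :: _, _ :: _, [], hr, _, _ => hr.elim

/-- tree laws of the spins of the first factor -/
theorem gh_sc_nu_fst {B : GhB (S₁ × S₂)} {B₁ : GhB S₁} {B₂ : GhB S₂} (h : GhBPrd B B₁ B₂) (hB₁ : B₁.Ok) (hB₂ : B₂.Ok)
    (P : (Fin q → S₁) → ℝ) (ls : List (GhLv (S₁ × S₂) ι)) (ls₁ : List (GhLv S₁ ι₁)) (ls₂ : List (GhLv S₂ ι₂))
    (hnn : GhNn ls₂) (rep : ℕ → Fin q → Fin q) (hr : GhPrdR ls ls₁ ls₂) (G₁ : Fin q → S₁ → ℝ) (G₂ : Fin q → S₂ → ℝ) :
    ghNu B ls rep (fun x => ghSpAdd (G₁ x) (G₂ x)) (fun _ σ => P fun x => (σ x).1) = ghNu B₁ ls₁ rep G₁ fun _ σ => P σ := by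
  have := gh_sp_nu h hB₁ hB₂ P (fun _ => 1) ls ls₁ ls₂ rep hr G₁ G₂
  simpa only [mul_one, gh_n_const B₂ hB₂ 1 ls₂ hnn] using this

end fst

section cst

variable {S ι ι' : Type} [Fintype S] [Fintype ι] [Fintype ι'] {q : ℕ}

/-- `B` read on `S × Unit` -/
def ghScP (B : GhB S) : GhB (S × Unit) := ⟨fun s => B.w s.1, B.a⟩

theorem gh_sc_P_prd (B : GhB S) : GhBPrd (ghScP B) B (ghScB B.a) where
  a₁ := rfl
  a₂ := rfl
  w := fun s => (mul_one _).symm

/-- the relation "covariances `+ κ_j`", recursion friendly -/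
def GhCstR : (ℕ → ℝ) → List (GhLv S ι) → List (GhLv S ι') → Prop
  | _, [], [] => True
  | κ, l :: ls, l' :: ls' => (l'.m = l.m ∧ ∀ s t, l'.cov s t = l.cov s t + κ 0) ∧ GhCstR (fun j => κ (j + 1)) ls ls'
  | _, _, _ => False

/-- the third hierarchy: it factors as `ls × u` and as `ls' × u'` -/
theorem gh_sc_exists : ∀ (κ : ℕ → ℝ) (ls : List (GhLv S ι)) (ls' : List (GhLv S ι')), GhCstR κ ls ls' → GhNn ls →
    ∃ (L : List (GhLv (S × Unit) (ι ⊕ Unit))) (u u' : List (GhLv Unit Unit)),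
      GhPrdR L ls u ∧ GhPrdR L ls' u' ∧ GhNn u ∧ GhNn u' ∧
        ghScK u - ghScK u' = (1 / 2) * ∑ j ∈ Finset.range ls.length, (ls.map GhLv.m).getD j 0 * κ j
  | _, [], [], _, _ => ⟨[], [], [], trivial, trivial, gh_b_nn_nil, gh_b_nn_nil, by simp [ghScK]⟩
  | κ, l :: ls, l' :: ls', hr, hnn => by
    obtain ⟨L, u, u', h1, h2, h3, h4, h5⟩ := gh_sc_exists (fun j => κ (j + 1)) ls ls' hr.2 hnn.tail
    have hp : 0 ≤ max (κ 0) 0 := le_max_right _ _
    have hq : 0 ≤ max (-κ 0) 0 := le_max_right _ _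
    have hk : max (κ 0) 0 - max (-κ 0) 0 = κ 0 := by
      rcases le_total 0 (κ 0) with h | h
      · rw [max_eq_left h, max_eq_right (by linarith)]; ring
      · rw [max_eq_right h, max_eq_left (by linarith)]; ring
    refine ⟨ghSpJ l (ghScL l.m (max (κ 0) 0)) :: L, ghScL l.m (max (κ 0) 0) :: u, ghScL l.m (max (-κ 0) 0) :: u',
      ⟨⟨rfl, rfl, fun s t => gh_sp_J_cov _ _ s t⟩, h1⟩, ⟨⟨hr.1.1, rfl, fun s t => ?_⟩, h2⟩, ?_, ?_, ?_⟩
    · rw [gh_sp_J_cov, gh_sc_L_cov _ hp, gh_sc_L_cov _ hq, hr.1.2]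
      linarith
    · intro x hx
      rcases List.mem_cons.1 hx with rfl | hx
      · exact hnn.head
      · exact h3 x hx
    · intro x hx
      rcases List.mem_cons.1 hx with rfl | hx
      · exact hnn.head
      · exact h4 x hx
    · simp only [ghScK, gh_sc_L_cov _ hp, gh_sc_L_cov _ hq, List.length_cons, List.map_cons]
      rw [Finset.sum_range_succ']
      simp only [List.getD_cons_succ, List.getD_cons_zero]
      have e : (ghScL l.m (max (κ 0) 0)).m = l.m := rfl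
      have e' : (ghScL l.m (max (-κ 0) 0)).m = l.m := rfl
      rw [e, e', mul_add, ← h5]
      have hk' : l.m * κ 0 = l.m * max (κ 0) 0 - l.m * max (-κ 0) 0 := by rw [← mul_sub, hk]
      rw [hk']
      ring
  | _, [], _ :: _, hr, _ => hr.elim
  | _, _ :: _, [], hr, _ => hr.elim

theorem gh_sc_R_of_idx : ∀ (κ : ℕ → ℝ) (ls : List (GhLv S ι)) (ls' : List (GhLv S ι')),
    ls'.map GhLv.m = ls.map GhLv.m →
    (∀ j (h : j < ls.length) (h' : j < ls'.length) (s t : S), (ls'[j]).cov s t = (ls[j]).cov s t + κ j) → GhCstR κ ls ls'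
  | _, [], [], _, _ => trivial
  | κ, l :: ls, l' :: ls', hm, hc => by
    simp only [List.map_cons, List.cons.injEq] at hm
    refine ⟨⟨hm.1, fun s t => hc 0 (by simp) (by simp) s t⟩,
      gh_sc_R_of_idx (fun j => κ (j + 1)) ls ls' hm.2 fun j h h' s t => ?_⟩
    exact hc (j + 1) (by simpa using h) (by simpa using h') s t
  | _, [], _ :: _, hm, _ => by simp at hm
  | _, _ :: _, [], hm, _ => by simp at hm

/-- = `gh_sy_const_F` -/
theorem gh_sc_const_F {B : GhB S} (hB : B.Ok) {κ : ℕ → ℝ} {ls : List (GhLv S ι)} {ls' : List (GhLv S ι')}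
    (hnn : GhNn ls) (hm : ls'.map GhLv.m = ls.map GhLv.m)
    (hc : ∀ j (h : j < ls.length) (h' : j < ls'.length) (s t : S), (ls'[j]).cov s t = (ls[j]).cov s t + κ j) (z : S → ℝ) :
    ghF B ls' z = ghF B ls z + (1 / 2) * ∑ j ∈ Finset.range ls.length, (ls.map GhLv.m).getD j 0 * κ j := by
  obtain ⟨L, u, u', h1, h2, -, -, h5⟩ := gh_sc_exists κ ls ls' (gh_sc_R_of_idx κ ls ls' hm hc) hnn
  have hU := gh_sc_B_ok hB.pos
  have e1 := gh_sp_F (gh_sc_P_prd B) hB hU L ls u h1 z 0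
  have e2 := gh_sp_F (gh_sc_P_prd B) hB hU L ls' u' h2 z 0
  rw [gh_sc_F_unit hB.pos] at e1 e2
  rw [← h5]
  linarith

/-- = `gh_sy_const_E` -/
theorem gh_sc_const_E {B : GhB S} (hB : B.Ok) {κ : ℕ → ℝ} {ls : List (GhLv S ι)} {ls' : List (GhLv S ι')}
    (hnn : GhNn ls) (hm : ls'.map GhLv.m = ls.map GhLv.m)
    (hc : ∀ j (h : j < ls.length) (h' : j < ls'.length) (s t : S), (ls'[j]).cov s t = (ls[j]).cov s t + κ j) (Φ z : S → ℝ) :
    ghE B ls' Φ z = ghE B ls Φ z := by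
  obtain ⟨L, u, u', h1, h2, -, -, -⟩ := gh_sc_exists κ ls ls' (gh_sc_R_of_idx κ ls ls' hm hc) hnn
  have hU := gh_sc_B_ok hB.pos
  rw [← gh_sc_E_fst (gh_sc_P_prd B) hB hU Φ L ls u h1 z 0, ← gh_sc_E_fst (gh_sc_P_prd B) hB hU Φ L ls' u' h2 z 0]

/-- = `gh_sy_const_H` -/
theorem gh_sc_const_H {B : GhB S} (hB : B.Ok) {κ : ℕ → ℝ} {ls : List (GhLv S ι)} {ls' : List (GhLv S ι')}
    (hnn : GhNn ls) (hm : ls'.map GhLv.m = ls.map GhLv.m)
    (hc : ∀ j (h : j < ls.length) (h' : j < ls'.length) (s t : S), (ls'[j]).cov s t = (ls[j]).cov s t + κ j) (v w z : S → ℝ) :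
    ghH B ls' v w z = ghH B ls v w z := by
  obtain ⟨L, u, u', h1, h2, -, -, -⟩ := gh_sc_exists κ ls ls' (gh_sc_R_of_idx κ ls ls' hm hc) hnn
  have hU := gh_sc_B_ok hB.pos
  rw [← gh_sc_H_fst (gh_sc_P_prd B) hB hU v w L ls u h1 z 0, ← gh_sc_H_fst (gh_sc_P_prd B) hB hU v w L ls' u' h2 z 0]

/-- = `gh_sy_const_nu` -/
theorem gh_sc_const_nu {B : GhB S} (hB : B.Ok) {κ : ℕ → ℝ} {ls : List (GhLv S ι)} {ls' : List (GhLv S ι')}
    (hnn : GhNn ls) (hm : ls'.map GhLv.m = ls.map GhLv.m)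
    (hc : ∀ j (h : j < ls.length) (h' : j < ls'.length) (s t : S), (ls'[j]).cov s t = (ls[j]).cov s t + κ j)
    (rep : ℕ → Fin q → Fin q) (G : Fin q → S → ℝ) (P : (Fin q → S) → ℝ) :
    ghNu B ls' rep G (fun _ σ => P σ) = ghNu B ls rep G fun _ σ => P σ := by
  obtain ⟨L, u, u', h1, h2, h3, h4, -⟩ := gh_sc_exists κ ls ls' (gh_sc_R_of_idx κ ls ls' hm hc) hnn
  have hU := gh_sc_B_ok hB.pos
  rw [← gh_sc_nu_fst (gh_sc_P_prd B) hB hU P L ls u h3 rep h1 G 0, ← gh_sc_nu_fst (gh_sc_P_prd B) hB hU P L ls' u' h4 rep h2 G 0]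

end cst

section shift

variable {S ι : Type} [Fintype S] [Fintype ι] {q : ℕ}

theorem gh_sc_Gw_shift (B : GhB S) (z : S → ℝ) (c : ℝ) (s : S) : ghGw B (fun s => z s + c) s = ghGw B z s := by
  unfold ghGw
  have e : ∀ t, B.w t * Real.exp (B.a * (z t + c)) = (B.w t * Real.exp (B.a * z t)) * Real.exp (B.a * c) := by
    intro t
    rw [mul_add, Real.exp_add]
    ring
  simp only [e]
  rw [← Finset.sum_mul, mul_div_mul_right _ _ (Real.exp_pos _).ne']

theorem gh_sc_D_shift {B : GhB S} (hB : B.Ok) (l : GhLv S ι) (ls : List (GhLv S ι)) (z : S → ℝ) (c : ℝ) (ξ : ι → ℝ) :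
    ghD B l ls (fun s => z s + c) ξ = ghD B l ls z ξ := by
  unfold ghD
  have e : (fun s => z s + c) + l.inc ξ = fun s => (z + l.inc ξ) s + c := by
    funext s
    simp only [Pi.add_apply]
    ring
  rw [e, gh_ra_F_shift hB, gh_ra_F_shift hB]
  congr 2
  ring

/-- = `gh_sy_shift_nu` -/
theorem gh_sc_shift_nu {B : GhB S} (hB : B.Ok) (P : (Fin q → S) → ℝ) (c : Fin q → ℝ) :
    ∀ (ls : List (GhLv S ι)) (rep : ℕ → Fin q → Fin q) (G : Fin q → S → ℝ),
      ghNu B ls rep (fun x s => G x s + c x) (fun _ σ => P σ) = ghNu B ls rep G fun _ σ => P σ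
  | [], rep, G => by
    simp only [ghNu, gh_sc_Gw_shift]
  | l :: ls, rep, G => by
    simp only [ghNu, ghDT, gh_sc_D_shift hB]
    refine integral_congr_ae (Filter.Eventually.of_forall fun W => ?_)
    simp only
    congr 1
    have e : (fun a => (fun s => G a s + c a) + l.inc (W (rep 0 a))) = fun a s => (G a + l.inc (W (rep 0 a))) s + c a := by
      funext a s
      simp only [Pi.add_apply]
      ring
    rw [e]
    exact gh_sc_shift_nu hB P c ls (fun t => rep (t + 1)) _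

end shift

theorem gh_sc_eqns_cite : True := by
  have := @ghScB.eq_1
  have := @ghScL.eq_1
  have := @ghScK.eq_1
  have := @ghScK.eq_2
  have := @ghScK.eq_def
  have := @ghScK.induct
  have := @ghScP.eq_1
  have := @GhCstR.eq_1
  have := @GhCstR.eq_2
  have := @GhCstR.eq_3
  have := @GhCstR.eq_def
  have := @GhCstR.induct
  trivial

end Claimed.Agent.R286
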