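import Claimed.Agent.R286.Defs.SkLem
import Claimed.Agent.R286.Fd.RegA
import Claimed.Agent.R286.Fd.SymA

/-!
# Row 286 (S0533), Fd/SymP : PROOF of the block PROD of the contract `Fd/CSym` (product factorisation)      (owner helper147; prefix `gh_sp_`)      no sorry

Additive covariances on `S₁ × S₂` + product prior: continuations add, conditional means and tree laws factor.

* `gh_sp_law, gh_sp_int`        the increment of a level with additive covariance = independent sum of the increments of the two factors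
* `gh_sp_law_pi, gh_sp_int_pi`  the same for `q` independent copies
* `gh_sp_F, gh_sp_E, gh_sp_nu`  recursion friendly forms (`GhPrdR`)
* `gh_sp_prod_F, gh_sp_prod_E, gh_sp_prod_nu`      the index forms = `gh_sy_prod_F/E/nu` of `Fd/CSym` (hypotheses of `GhPrd` unbundled)
-/

set_option autoImplicit false
set_option linter.unusedSectionVars false
set_option linter.unusedVariables false

namespace Claimed.Agent.R286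

open MeasureTheory ProbabilityTheory

section one

variable {S₁ S₂ ι ι₁ ι₂ : Type} [Fintype S₁] [Fintype S₂] [Fintype ι] [Fintype ι₁] [Fintype ι₂]

/-- the additive field on the product -/
def ghSpAdd (y₁ : S₁ → ℝ) (y₂ : S₂ → ℝ) : S₁ × S₂ → ℝ := fun s => y₁ s.1 + y₂ s.2

theorem gh_sp_add_add (z₁ y₁ : S₁ → ℝ) (z₂ y₂ : S₂ → ℝ) :
    ghSpAdd z₁ z₂ + ghSpAdd y₁ y₂ = ghSpAdd (z₁ + y₁) (z₂ + y₂) := by
  funext s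
  simp only [ghSpAdd, Pi.add_apply]
  ring

theorem gh_sp_add_meas : Measurable fun p : (S₁ → ℝ) × (S₂ → ℝ) => ghSpAdd p.1 p.2 := by
  unfold ghSpAdd
  fun_prop

/-- the two levels side by side -/
def ghSpJ (l₁ : GhLv S₁ ι₁) (l₂ : GhLv S₂ ι₂) : GhLv (S₁ × S₂) (ι₁ ⊕ ι₂) :=
  ⟨l₁.m, fun s => Sum.elim (l₁.A s.1) (l₂.A s.2)⟩

theorem gh_sp_J_inc (l₁ : GhLv S₁ ι₁) (l₂ : GhLv S₂ ι₂) (ξ : ι₁ → ℝ) (η : ι₂ → ℝ) :
    (ghSpJ l₁ l₂).inc ((MeasurableEquiv.sumPiEquivProdPi fun _ : ι₁ ⊕ ι₂ => ℝ).symm (ξ, η))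
      = ghSpAdd (l₁.inc ξ) (l₂.inc η) := by
  funext s
  show ∑ i : ι₁ ⊕ ι₂, Sum.elim (l₁.A s.1) (l₂.A s.2) i
      * ((MeasurableEquiv.sumPiEquivProdPi fun _ : ι₁ ⊕ ι₂ => ℝ).symm (ξ, η)) i = _
  rw [Fintype.sum_sum_type]
  rfl

theorem gh_sp_J_cov (l₁ : GhLv S₁ ι₁) (l₂ : GhLv S₂ ι₂) (s t : S₁ × S₂) :
    (ghSpJ l₁ l₂).cov s t = l₁.cov s.1 t.1 + l₂.cov s.2 t.2 := by
  simp [ghSpJ, GhLv.cov, Fintype.sum_sum_type]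

theorem gh_sp_pair_meas (l₁ : GhLv S₁ ι₁) (l₂ : GhLv S₂ ι₂) :
    Measurable fun p : (ι₁ → ℝ) × (ι₂ → ℝ) => ghSpAdd (l₁.inc p.1) (l₂.inc p.2) := by
  unfold ghSpAdd GhLv.inc
  fun_prop

/-- the increment of a level with additive covariance is the independent sum of the increments of the factors -/
theorem gh_sp_law (l : GhLv (S₁ × S₂) ι) (l₁ : GhLv S₁ ι₁) (l₂ : GhLv S₂ ι₂)
    (h : ∀ s t, l.cov s t = l₁.cov s.1 t.1 + l₂.cov s.2 t.2) :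
    (ghStd ι).map l.inc = ((ghStd ι₁).prod (ghStd ι₂)).map fun p => ghSpAdd (l₁.inc p.1) (l₂.inc p.2) := by
  have hmp := measurePreserving_sumPiEquivProdPi_symm (fun _ : ι₁ ⊕ ι₂ => gaussianReal 0 1)
  rw [gh_l_inc_congr l (ghSpJ l₁ l₂) fun s t => by rw [gh_sp_J_cov, h]]
  rw [show ghStd (ι₁ ⊕ ι₂) = Measure.pi (fun _ : ι₁ ⊕ ι₂ => gaussianReal 0 1) from rfl, ← hmp.map_eq,
    Measure.map_map (gh_l_inc_meas _) hmp.measurable]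
  have e : (ghSpJ l₁ l₂).inc ∘ (MeasurableEquiv.sumPiEquivProdPi fun _ : ι₁ ⊕ ι₂ => ℝ).symm
      = fun p => ghSpAdd (l₁.inc p.1) (l₂.inc p.2) := by
    funext p
    obtain ⟨ξ, η⟩ := p
    exact gh_sp_J_inc l₁ l₂ ξ η
  rw [e]
  rfl

theorem gh_sp_int (l : GhLv (S₁ × S₂) ι) (l₁ : GhLv S₁ ι₁) (l₂ : GhLv S₂ ι₂)
    (h : ∀ s t, l.cov s t = l₁.cov s.1 t.1 + l₂.cov s.2 t.2) (Ψ : (S₁ × S₂ → ℝ) → ℝ) (hΨ : Measurable Ψ) :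
    ∫ ξ, Ψ (l.inc ξ) ∂ghStd ι
      = ∫ p, Ψ (ghSpAdd (l₁.inc p.1) (l₂.inc p.2)) ∂(ghStd ι₁).prod (ghStd ι₂) := by
  rw [← integral_map (gh_l_inc_meas l).aemeasurable hΨ.aestronglyMeasurable,
    ← integral_map (gh_sp_pair_meas l₁ l₂).aemeasurable hΨ.aestronglyMeasurable, gh_sp_law l l₁ l₂ h]

/-- one level of the product hierarchy -/
def GhLvPrd (l : GhLv (S₁ × S₂) ι) (l₁ : GhLv S₁ ι₁) (l₂ : GhLv S₂ ι₂) : Prop :=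
  l₁.m = l.m ∧ l₂.m = l.m ∧ ∀ s t, l.cov s t = l₁.cov s.1 t.1 + l₂.cov s.2 t.2

/-- the product relation between three hierarchies, recursion friendly -/
def GhPrdR : List (GhLv (S₁ × S₂) ι) → List (GhLv S₁ ι₁) → List (GhLv S₂ ι₂) → Prop
  | [], [], [] => True
  | l :: ls, l₁ :: ls₁, l₂ :: ls₂ => GhLvPrd l l₁ l₂ ∧ GhPrdR ls ls₁ ls₂
  | _, _, _ => False

/-- the product base -/
structure GhBPrd (B : GhB (S₁ × S₂)) (B₁ : GhB S₁) (B₂ : GhB S₂) : Prop where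
  a₁ : B₁.a = B.a
  a₂ : B₂.a = B.a
  w : ∀ s, B.w s = B₁.w s.1 * B₂.w s.2

theorem GhBPrd.ok {B : GhB (S₁ × S₂)} {B₁ : GhB S₁} {B₂ : GhB S₂} (h : GhBPrd B B₁ B₂) (hB₁ : B₁.Ok) (hB₂ : B₂.Ok) :
    B.Ok where
  nonneg := fun s => by rw [h.w]; exact mul_nonneg (hB₁.nonneg _) (hB₂.nonneg _)
  sum := by
    simp only [h.w]
    rw [Fintype.sum_prod_type, ← Finset.sum_mul_sum, hB₁.sum, hB₂.sum, one_mul]
  pos := by rw [← h.a₁]; exact hB₁.pos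

theorem gh_sp_Z {B : GhB (S₁ × S₂)} {B₁ : GhB S₁} {B₂ : GhB S₂} (h : GhBPrd B B₁ B₂) (z₁ : S₁ → ℝ) (z₂ : S₂ → ℝ) :
    ∑ s, B.w s * Real.exp (B.a * ghSpAdd z₁ z₂ s)
      = (∑ s, B₁.w s * Real.exp (B₁.a * z₁ s)) * ∑ s, B₂.w s * Real.exp (B₂.a * z₂ s) := by
  rw [Fintype.sum_prod_type, Finset.sum_mul_sum, h.a₁, h.a₂]
  refine Finset.sum_congr rfl fun s _ => Finset.sum_congr rfl fun t _ => ?_
  rw [h.w]
  simp only [ghSpAdd]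
  rw [mul_add, Real.exp_add]
  ring

theorem gh_sp_F0 {B : GhB (S₁ × S₂)} {B₁ : GhB S₁} {B₂ : GhB S₂} (h : GhBPrd B B₁ B₂) (hB₁ : B₁.Ok) (hB₂ : B₂.Ok)
    (z₁ : S₁ → ℝ) (z₂ : S₂ → ℝ) : ghF0 B (ghSpAdd z₁ z₂) = ghF0 B₁ z₁ + ghF0 B₂ z₂ := by
  unfold ghF0
  rw [gh_sp_Z h, Real.log_mul (gh_ra_Z_pos hB₁ z₁).ne' (gh_ra_Z_pos hB₂ z₂).ne', h.a₁, h.a₂]
  ring

theorem gh_sp_Gw {B : GhB (S₁ × S₂)} {B₁ : GhB S₁} {B₂ : GhB S₂} (h : GhBPrd B B₁ B₂)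
    (z₁ : S₁ → ℝ) (z₂ : S₂ → ℝ) (s : S₁ × S₂) : ghGw B (ghSpAdd z₁ z₂) s = ghGw B₁ z₁ s.1 * ghGw B₂ z₂ s.2 := by
  unfold ghGw
  rw [gh_sp_Z h, h.w, h.a₁, h.a₂]
  simp only [ghSpAdd]
  rw [mul_add, Real.exp_add, div_mul_div_comm]
  congr 1
  ring

/-- `T_m` of an independent sum -/
theorem gh_sp_T {Ω₁ Ω₂ : Type} [MeasurableSpace Ω₁] [MeasurableSpace Ω₂] (μ₁ : Measure Ω₁) (μ₂ : Measure Ω₂)
    [IsProbabilityMeasure μ₁] [IsProbabilityMeasure μ₂] (m : ℝ) {f : Ω₁ → ℝ} {g : Ω₂ → ℝ}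
    (hf : Integrable f μ₁) (hg : Integrable g μ₂) (hfe : Integrable (fun x => Real.exp (m * f x)) μ₁)
    (hge : Integrable (fun x => Real.exp (m * g x)) μ₂) :
    ghT (μ₁.prod μ₂) m (fun p => f p.1 + g p.2) = ghT μ₁ m f + ghT μ₂ m g := by
  unfold ghT
  by_cases h0 : m = 0
  · simp only [h0, if_true]
    rw [integral_add (hf.comp_fst μ₂) (hg.comp_snd μ₁), integral_fun_fst, integral_fun_snd]
    simp
  · simp only [h0, if_false]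
    have e : ∀ p : Ω₁ × Ω₂, Real.exp (m * (f p.1 + g p.2)) = Real.exp (m * f p.1) * Real.exp (m * g p.2) := by
      intro p; rw [mul_add, Real.exp_add]
    simp only [e]
    rw [integral_prod_mul (fun x => Real.exp (m * f x)) (fun x => Real.exp (m * g x)),
      Real.log_mul (integral_exp_pos hfe).ne' (integral_exp_pos hge).ne']
    ring

/-- **the continuations add** -/
theorem gh_sp_F {B : GhB (S₁ × S₂)} {B₁ : GhB S₁} {B₂ : GhB S₂} (h : GhBPrd B B₁ B₂) (hB₁ : B₁.Ok) (hB₂ : B₂.Ok) :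
    ∀ (ls : List (GhLv (S₁ × S₂) ι)) (ls₁ : List (GhLv S₁ ι₁)) (ls₂ : List (GhLv S₂ ι₂)), GhPrdR ls ls₁ ls₂ →
      ∀ (z₁ : S₁ → ℝ) (z₂ : S₂ → ℝ), ghF B ls (ghSpAdd z₁ z₂) = ghF B₁ ls₁ z₁ + ghF B₂ ls₂ z₂
  | [], [], [], _, z₁, z₂ => gh_sp_F0 h hB₁ hB₂ z₁ z₂
  | l :: ls, l₁ :: ls₁, l₂ :: ls₂, hr, z₁, z₂ => by
    have ih := gh_sp_F h hB₁ hB₂ ls ls₁ ls₂ hr.2
    obtain ⟨hm₁, hm₂, hc⟩ := hr.1
    have hc0 := (gh_ra_F_cont (h.ok hB₁ hB₂) ls).measurable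
    simp only [ghF]
    have e1 : ghT (ghStd ι) l.m (fun ξ => ghF B ls (ghSpAdd z₁ z₂ + l.inc ξ))
        = ghT ((ghStd ι₁).prod (ghStd ι₂)) l.m
            fun p => ghF B ls (ghSpAdd z₁ z₂ + ghSpAdd (l₁.inc p.1) (l₂.inc p.2)) := by
      unfold ghT
      rw [gh_sp_int l l₁ l₂ hc (fun y => ghF B ls (ghSpAdd z₁ z₂ + y)) (by fun_prop),
        gh_sp_int l l₁ l₂ hc (fun y => Real.exp (l.m * ghF B ls (ghSpAdd z₁ z₂ + y))) (by fun_prop)]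
    rw [e1]
    simp only [gh_sp_add_add, ih]
    rw [hm₁, hm₂]
    exact gh_sp_T (ghStd ι₁) (ghStd ι₂) l.m (gh_ra_F_int hB₁ l₁ ls₁ z₁) (gh_ra_F_int hB₂ l₂ ls₂ z₂)
      (gh_ra_F_int_exp hB₁ l₁ ls₁ z₁ l.m) (gh_ra_F_int_exp hB₂ l₂ ls₂ z₂ l.m)
  | [], [], _ :: _, hr, _, _ => hr.elim
  | [], _ :: _, _, hr, _, _ => hr.elim
  | _ :: _, [], _, hr, _, _ => hr.elim
  | _ :: _, _ :: _, [], hr, _, _ => hr.elim

/-- the planted densities factor -/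
theorem gh_sp_Dy {B : GhB (S₁ × S₂)} {B₁ : GhB S₁} {B₂ : GhB S₂} (h : GhBPrd B B₁ B₂) (hB₁ : B₁.Ok) (hB₂ : B₂.Ok)
    {l : GhLv (S₁ × S₂) ι} {l₁ : GhLv S₁ ι₁} {l₂ : GhLv S₂ ι₂} {ls : List (GhLv (S₁ × S₂) ι)}
    {ls₁ : List (GhLv S₁ ι₁)} {ls₂ : List (GhLv S₂ ι₂)} (hl : GhLvPrd l l₁ l₂) (hr : GhPrdR ls ls₁ ls₂)
    (z₁ y₁ : S₁ → ℝ) (z₂ y₂ : S₂ → ℝ) :
    ghDy B l ls (ghSpAdd z₁ z₂) (ghSpAdd y₁ y₂) = ghDy B₁ l₁ ls₁ z₁ y₁ * ghDy B₂ l₂ ls₂ z₂ y₂ := by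
  unfold ghDy
  rw [gh_sp_add_add, gh_sp_F h hB₁ hB₂ ls ls₁ ls₂ hr, gh_sp_F h hB₁ hB₂ (l :: ls) (l₁ :: ls₁) (l₂ :: ls₂) ⟨hl, hr⟩,
    hl.1, hl.2.1, ← Real.exp_add]
  congr 1
  ring

/-- **conditional means of products factor** -/
theorem gh_sp_E {B : GhB (S₁ × S₂)} {B₁ : GhB S₁} {B₂ : GhB S₂} (h : GhBPrd B B₁ B₂) (hB₁ : B₁.Ok) (hB₂ : B₂.Ok)
    (Φ₁ : S₁ → ℝ) (Φ₂ : S₂ → ℝ) :
    ∀ (ls : List (GhLv (S₁ × S₂) ι)) (ls₁ : List (GhLv S₁ ι₁)) (ls₂ : List (GhLv S₂ ι₂)), GhPrdR ls ls₁ ls₂ →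
      ∀ (z₁ : S₁ → ℝ) (z₂ : S₂ → ℝ),
        ghE B ls (fun s => Φ₁ s.1 * Φ₂ s.2) (ghSpAdd z₁ z₂) = ghE B₁ ls₁ Φ₁ z₁ * ghE B₂ ls₂ Φ₂ z₂
  | [], [], [], _, z₁, z₂ => by
    simp only [ghE]
    rw [Fintype.sum_prod_type, Finset.sum_mul_sum]
    refine Finset.sum_congr rfl fun s _ => Finset.sum_congr rfl fun t _ => ?_
    rw [gh_sp_Gw h]
    ring
  | l :: ls, l₁ :: ls₁, l₂ :: ls₂, hr, z₁, z₂ => by
    have ih := gh_sp_E h hB₁ hB₂ Φ₁ Φ₂ ls ls₁ ls₂ hr.2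
    have hB := h.ok hB₁ hB₂
    have h1 := (gh_ra_E_cont hB ls fun s => Φ₁ s.1 * Φ₂ s.2).measurable
    have h2 := gh_sa_Dy_meas hB l ls
    simp only [ghE, gh_sa_D_eq]
    rw [gh_sp_int l l₁ l₂ hr.1.2.2 (fun y => ghDy B l ls (ghSpAdd z₁ z₂) y
      * ghE B ls (fun s => Φ₁ s.1 * Φ₂ s.2) (ghSpAdd z₁ z₂ + y)) (by fun_prop)]
    simp only [gh_sp_add_add, ih, gh_sp_Dy h hB₁ hB₂ hr.1 hr.2]
    rw [← integral_prod_mul (fun ξ => ghDy B₁ l₁ ls₁ z₁ (l₁.inc ξ) * ghE B₁ ls₁ Φ₁ (z₁ + l₁.inc ξ))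
      (fun ξ => ghDy B₂ l₂ ls₂ z₂ (l₂.inc ξ) * ghE B₂ ls₂ Φ₂ (z₂ + l₂.inc ξ))]
    refine integral_congr_ae (Filter.Eventually.of_forall fun p => ?_)
    simp only
    ring
  | [], [], _ :: _, hr, _, _ => hr.elim
  | [], _ :: _, _, hr, _, _ => hr.elim
  | _ :: _, [], _, hr, _, _ => hr.elim
  | _ :: _, _ :: _, [], hr, _, _ => hr.elim

end one

section tree

variable {S₁ S₂ ι ι₁ ι₂ : Type} [Fintype S₁] [Fintype S₂] [Fintype ι] [Fintype ι₁] [Fintype ι₂] {q : ℕ}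

theorem gh_sp_pair_pi_meas (l₁ : GhLv S₁ ι₁) (l₂ : GhLv S₂ ι₂) :
    Measurable fun (p : (Fin q → ι₁ → ℝ) × (Fin q → ι₂ → ℝ)) (a : Fin q) => ghSpAdd (l₁.inc (p.1 a)) (l₂.inc (p.2 a)) := by
  unfold ghSpAdd GhLv.inc
  fun_prop

/-- the joint law of the increments of `q` labels -/
theorem gh_sp_law_pi (l : GhLv (S₁ × S₂) ι) (l₁ : GhLv S₁ ι₁) (l₂ : GhLv S₂ ι₂)
    (h : ∀ s t, l.cov s t = l₁.cov s.1 t.1 + l₂.cov s.2 t.2) :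
    (Measure.pi fun _ : Fin q => ghStd ι).map (fun W a => l.inc (W a))
      = ((Measure.pi fun _ : Fin q => ghStd ι₁).prod (Measure.pi fun _ : Fin q => ghStd ι₂)).map
          fun p a => ghSpAdd (l₁.inc (p.1 a)) (l₂.inc (p.2 a)) := by
  have hmp := measurePreserving_arrowProdEquivProdArrow (ι₁ → ℝ) (ι₂ → ℝ) (Fin q) (fun _ => ghStd ι₁) (fun _ => ghStd ι₂)
  have i1 : IsProbabilityMeasure ((ghStd ι).map l.inc) := Measure.isProbabilityMeasure_map (gh_l_inc_meas l).aemeasurable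
  have i2 : IsProbabilityMeasure (((ghStd ι₁).prod (ghStd ι₂)).map fun p => ghSpAdd (l₁.inc p.1) (l₂.inc p.2)) :=
    Measure.isProbabilityMeasure_map (gh_sp_pair_meas l₁ l₂).aemeasurable
  rw [Measure.pi_map_pi (μ := fun _ : Fin q => ghStd ι) (f := fun _ ξ => l.inc ξ) (fun _ => (gh_l_inc_meas l).aemeasurable),
    ← hmp.map_eq, Measure.map_map (gh_sp_pair_pi_meas l₁ l₂) hmp.measurable]
  have e : (fun (p : (Fin q → ι₁ → ℝ) × (Fin q → ι₂ → ℝ)) (a : Fin q) => ghSpAdd (l₁.inc (p.1 a)) (l₂.inc (p.2 a)))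
        ∘ (MeasurableEquiv.arrowProdEquivProdArrow (ι₁ → ℝ) (ι₂ → ℝ) (Fin q))
      = fun (x : Fin q → (ι₁ → ℝ) × (ι₂ → ℝ)) (a : Fin q) => ghSpAdd (l₁.inc (x a).1) (l₂.inc (x a).2) := rfl
  rw [e, Measure.pi_map_pi (μ := fun _ : Fin q => (ghStd ι₁).prod (ghStd ι₂))
    (f := fun _ p => ghSpAdd (l₁.inc p.1) (l₂.inc p.2)) (fun _ => (gh_sp_pair_meas l₁ l₂).aemeasurable)]
  simp only [gh_sp_law l l₁ l₂ h]

theorem gh_sp_int_pi (l : GhLv (S₁ × S₂) ι) (l₁ : GhLv S₁ ι₁) (l₂ : GhLv S₂ ι₂)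
    (h : ∀ s t, l.cov s t = l₁.cov s.1 t.1 + l₂.cov s.2 t.2) (Θ : (Fin q → S₁ × S₂ → ℝ) → ℝ) (hΘ : Measurable Θ) :
    ∫ W, Θ (fun a => l.inc (W a)) ∂(Measure.pi fun _ : Fin q => ghStd ι)
      = ∫ p, Θ (fun a => ghSpAdd (l₁.inc (p.1 a)) (l₂.inc (p.2 a)))
          ∂((Measure.pi fun _ : Fin q => ghStd ι₁).prod (Measure.pi fun _ : Fin q => ghStd ι₂)) := by
  have m2 : Measurable fun (W : Fin q → ι → ℝ) (a : Fin q) => l.inc (W a) := by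
    unfold GhLv.inc; fun_prop
  rw [← integral_map m2.aemeasurable hΘ.aestronglyMeasurable,
    ← integral_map (gh_sp_pair_pi_meas l₁ l₂).aemeasurable hΘ.aestronglyMeasurable, gh_sp_law_pi l l₁ l₂ h]

/-- **on every tree the two recursions factor**, recursion friendly form -/
theorem gh_sp_nu {B : GhB (S₁ × S₂)} {B₁ : GhB S₁} {B₂ : GhB S₂} (h : GhBPrd B B₁ B₂) (hB₁ : B₁.Ok) (hB₂ : B₂.Ok)
    (P₁ : (Fin q → S₁) → ℝ) (P₂ : (Fin q → S₂) → ℝ) :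
    ∀ (ls : List (GhLv (S₁ × S₂) ι)) (ls₁ : List (GhLv S₁ ι₁)) (ls₂ : List (GhLv S₂ ι₂)) (rep : ℕ → Fin q → Fin q),
      GhPrdR ls ls₁ ls₂ → ∀ (G₁ : Fin q → S₁ → ℝ) (G₂ : Fin q → S₂ → ℝ),
        ghNu B ls rep (fun x => ghSpAdd (G₁ x) (G₂ x)) (fun _ σ => P₁ (fun x => (σ x).1) * P₂ fun x => (σ x).2)
          = ghNu B₁ ls₁ rep G₁ (fun _ σ => P₁ σ) * ghNu B₂ ls₂ rep G₂ fun _ σ => P₂ σ
  | [], [], [], rep, _, G₁, G₂ => by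
    simp only [ghNu]
    rw [← Equiv.sum_comp (Equiv.arrowProdEquivProdArrow (Fin q) (fun _ => S₁) (fun _ => S₂)).symm,
      Fintype.sum_prod_type, Finset.sum_mul_sum]
    refine Finset.sum_congr rfl fun σ₁ _ => Finset.sum_congr rfl fun σ₂ _ => ?_
    have e : ∀ a, (Equiv.arrowProdEquivProdArrow (Fin q) (fun _ => S₁) (fun _ => S₂)).symm (σ₁, σ₂) a = (σ₁ a, σ₂ a) :=
      fun _ => rfl
    simp only [e, gh_sp_Gw h, Finset.prod_mul_distrib]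
    ring
  | l :: ls, l₁ :: ls₁, l₂ :: ls₂, rep, hr, G₁, G₂ => by
    have ih := gh_sp_nu h hB₁ hB₂ P₁ P₂ ls ls₁ ls₂ (fun t => rep (t + 1)) hr.2
    have hB := h.ok hB₁ hB₂
    rw [gh_sa_nu_cons B l ls rep _ (fun σ => P₁ (fun x => (σ x).1) * P₂ fun x => (σ x).2), gh_sa_nu_cons, gh_sa_nu_cons]
    have hΨ := gh_sa_nu_meas (ι := ι) hB (fun σ => P₁ (fun x => (σ x).1) * P₂ fun x => (σ x).2) ls fun t => rep (t + 1)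
    rw [gh_sp_int_pi l l₁ l₂ hr.1.2.2 _ (gh_sa_Th_meas hB l ls (rep 0) hΨ _),
      ← integral_prod_mul
        (fun W : Fin q → ι₁ → ℝ => ghTh B₁ l₁ ls₁ (rep 0) (fun G' => ghNu B₁ ls₁ (fun t => rep (t + 1)) G' fun _ σ => P₁ σ) G₁
          fun a => l₁.inc (W a))
        (fun W : Fin q → ι₂ → ℝ => ghTh B₂ l₂ ls₂ (rep 0) (fun G' => ghNu B₂ ls₂ (fun t => rep (t + 1)) G' fun _ σ => P₂ σ) G₂
          fun a => l₂.inc (W a))]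
    refine integral_congr_ae (Filter.Eventually.of_forall fun p => ?_)
    unfold ghTh
    simp only [gh_sp_add_add, ih, gh_sp_Dy h hB₁ hB₂ hr.1 hr.2]
    have e : ∀ a : Fin q, (if rep 0 a = a then ghDy B₁ l₁ ls₁ (G₁ a) (l₁.inc (p.1 a)) * ghDy B₂ l₂ ls₂ (G₂ a) (l₂.inc (p.2 a)) else 1)
        = (if rep 0 a = a then ghDy B₁ l₁ ls₁ (G₁ a) (l₁.inc (p.1 a)) else 1)
          * (if rep 0 a = a then ghDy B₂ l₂ ls₂ (G₂ a) (l₂.inc (p.2 a)) else 1) := by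
      intro a
      split_ifs <;> simp
    simp only [e, Finset.prod_mul_distrib]
    ring
  | [], [], _ :: _, _, hr, _, _ => hr.elim
  | [], _ :: _, _, _, hr, _, _ => hr.elim
  | _ :: _, [], _, _, hr, _, _ => hr.elim
  | _ :: _, _ :: _, [], _, hr, _, _ => hr.elim

end tree

section idx

variable {S₁ S₂ ι ι₁ ι₂ : Type} [Fintype S₁] [Fintype S₂] [Fintype ι] [Fintype ι₁] [Fintype ι₂] {q : ℕ}

/-- from hypotheses indexed by the number of the level to the recursion friendly form -/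
theorem gh_sp_R_of_idx : ∀ (ls : List (GhLv (S₁ × S₂) ι)) (ls₁ : List (GhLv S₁ ι₁)) (ls₂ : List (GhLv S₂ ι₂)),
    ls₁.map GhLv.m = ls.map GhLv.m → ls₂.map GhLv.m = ls.map GhLv.m →
    (∀ j (h : j < ls.length) (h₁ : j < ls₁.length) (h₂ : j < ls₂.length) (s t : S₁ × S₂),
      (ls[j]).cov s t = (ls₁[j]).cov s.1 t.1 + (ls₂[j]).cov s.2 t.2) → GhPrdR ls ls₁ ls₂
  | [], [], [], _, _, _ => trivial
  | l :: ls, l₁ :: ls₁, l₂ :: ls₂, hm₁, hm₂, hc => by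
    simp only [List.map_cons, List.cons.injEq] at hm₁ hm₂
    refine ⟨⟨hm₁.1, hm₂.1, fun s t => hc 0 (by simp) (by simp) (by simp) s t⟩,
      gh_sp_R_of_idx ls ls₁ ls₂ hm₁.2 hm₂.2 fun j h h₁ h₂ s t => ?_⟩
    exact hc (j + 1) (by simpa using h) (by simpa using h₁) (by simpa using h₂) s t
  | [], [], _ :: _, _, hm₂, _ => by simp at hm₂
  | [], _ :: _, _, hm₁, _, _ => by simp at hm₁
  | _ :: _, [], _, hm₁, _, _ => by simp at hm₁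
  | _ :: _, _ :: _, [], _, hm₂, _ => by simp at hm₂

/-- = `gh_sy_prod_F` (hypotheses of `GhPrd` unbundled) -/
theorem gh_sp_prod_F {B : GhB (S₁ × S₂)} {B₁ : GhB S₁} {B₂ : GhB S₂} {ls : List (GhLv (S₁ × S₂) ι)}
    {ls₁ : List (GhLv S₁ ι₁)} {ls₂ : List (GhLv S₂ ι₂)} (hB₁ : B₁.Ok) (hB₂ : B₂.Ok)
    (ha₁ : B₁.a = B.a) (ha₂ : B₂.a = B.a) (hw : ∀ s, B.w s = B₁.w s.1 * B₂.w s.2)
    (hm₁ : ls₁.map GhLv.m = ls.map GhLv.m) (hm₂ : ls₂.map GhLv.m = ls.map GhLv.m)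
    (hc : ∀ j (h : j < ls.length) (h₁ : j < ls₁.length) (h₂ : j < ls₂.length) (s t : S₁ × S₂),
      (ls[j]).cov s t = (ls₁[j]).cov s.1 t.1 + (ls₂[j]).cov s.2 t.2)
    (z₁ : S₁ → ℝ) (z₂ : S₂ → ℝ) :
    ghF B ls (fun s => z₁ s.1 + z₂ s.2) = ghF B₁ ls₁ z₁ + ghF B₂ ls₂ z₂ :=
  gh_sp_F ⟨ha₁, ha₂, hw⟩ hB₁ hB₂ ls ls₁ ls₂ (gh_sp_R_of_idx ls ls₁ ls₂ hm₁ hm₂ hc) z₁ z₂

/-- = `gh_sy_prod_E` -/
theorem gh_sp_prod_E {B : GhB (S₁ × S₂)} {B₁ : GhB S₁} {B₂ : GhB S₂} {ls : List (GhLv (S₁ × S₂) ι)}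
    {ls₁ : List (GhLv S₁ ι₁)} {ls₂ : List (GhLv S₂ ι₂)} (hB₁ : B₁.Ok) (hB₂ : B₂.Ok)
    (ha₁ : B₁.a = B.a) (ha₂ : B₂.a = B.a) (hw : ∀ s, B.w s = B₁.w s.1 * B₂.w s.2)
    (hm₁ : ls₁.map GhLv.m = ls.map GhLv.m) (hm₂ : ls₂.map GhLv.m = ls.map GhLv.m)
    (hc : ∀ j (h : j < ls.length) (h₁ : j < ls₁.length) (h₂ : j < ls₂.length) (s t : S₁ × S₂),
      (ls[j]).cov s t = (ls₁[j]).cov s.1 t.1 + (ls₂[j]).cov s.2 t.2)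
    (Φ₁ z₁ : S₁ → ℝ) (Φ₂ z₂ : S₂ → ℝ) :
    ghE B ls (fun s => Φ₁ s.1 * Φ₂ s.2) (fun s => z₁ s.1 + z₂ s.2) = ghE B₁ ls₁ Φ₁ z₁ * ghE B₂ ls₂ Φ₂ z₂ :=
  gh_sp_E ⟨ha₁, ha₂, hw⟩ hB₁ hB₂ Φ₁ Φ₂ ls ls₁ ls₂ (gh_sp_R_of_idx ls ls₁ ls₂ hm₁ hm₂ hc) z₁ z₂

/-- = `gh_sy_prod_nu` -/
theorem gh_sp_prod_nu {B : GhB (S₁ × S₂)} {B₁ : GhB S₁} {B₂ : GhB S₂} {ls : List (GhLv (S₁ × S₂) ι)}
    {ls₁ : List (GhLv S₁ ι₁)} {ls₂ : List (GhLv S₂ ι₂)} (hB₁ : B₁.Ok) (hB₂ : B₂.Ok)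
    (ha₁ : B₁.a = B.a) (ha₂ : B₂.a = B.a) (hw : ∀ s, B.w s = B₁.w s.1 * B₂.w s.2)
    (hm₁ : ls₁.map GhLv.m = ls.map GhLv.m) (hm₂ : ls₂.map GhLv.m = ls.map GhLv.m)
    (hc : ∀ j (h : j < ls.length) (h₁ : j < ls₁.length) (h₂ : j < ls₂.length) (s t : S₁ × S₂),
      (ls[j]).cov s t = (ls₁[j]).cov s.1 t.1 + (ls₂[j]).cov s.2 t.2)
    (rep : ℕ → Fin q → Fin q) (G₁ : Fin q → S₁ → ℝ) (G₂ : Fin q → S₂ → ℝ)
    (P₁ : (Fin q → S₁) → ℝ) (P₂ : (Fin q → S₂) → ℝ) :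
    ghNu B ls rep (fun x s => G₁ x s.1 + G₂ x s.2) (fun _ σ => P₁ (fun x => (σ x).1) * P₂ fun x => (σ x).2)
      = ghNu B₁ ls₁ rep G₁ (fun _ σ => P₁ σ) * ghNu B₂ ls₂ rep G₂ fun _ σ => P₂ σ :=
  gh_sp_nu ⟨ha₁, ha₂, hw⟩ hB₁ hB₂ P₁ P₂ ls ls₁ ls₂ rep (gh_sp_R_of_idx ls ls₁ ls₂ hm₁ hm₂ hc) G₁ G₂

end idx

theorem gh_sp_eqns_cite : True := by
  have := @ghSpAdd.eq_1
  have := @ghSpJ.eq_1
  have := @GhLvPrd.eq_1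
  have := @GhPrdR.eq_1
  have := @GhPrdR.eq_2
  have := @GhPrdR.eq_3
  have := @GhPrdR.eq_def
  have := @GhPrdR.induct
  trivial

end Claimed.Agent.R286
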