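import Claimed.Agent.R286.Defs.GhBasic
import Claimed.Agent.R286.Defs.SkLem
import Claimed.Agent.R286.Defs.Tr
import Claimed.Agent.R286.Fd.TrB2
import Claimed.Agent.R286.Fd.SymA
import Claimed.Agent.R286.Fd.SymP
import Claimed.Agent.R286.Fd.SymC

/-!
# Row 286 (S0533), PE Section 2, CONTRACT `Fd/CSym`      OWNER helper16 (deputy head PE Sec 2; head 118; ADV 9)

THE STRUCTURAL EXPORTS "D5" of the ledger of 142 (not numbered lemmas of PE; used silently all over PE Sec 4, LL 02, 07):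
symmetries, transport, constant features, product factorisation.      Prefix `gh_sy_`, `sk_sy_`.

VOCABULARY: only the frozen base `Defs/Gh.lean`, `Defs/Sk.lean`.      Positive tree laws are `ghNu B ls rep G P` with ANY family of representatives `rep` (`GhRepOk`), so that every
statement applies verbatim to `GhTree.nu` (`rep = T.rep`), to `ghCNuF` of `Defs/Clk` (`rep = ghRepN q sh`) and to the `ℕ`-labelled trees of `Defs/Tr`.
"the labels `x, y` share the revelation `j`" is `rep j x = rep j y`; `j = ls.length` is the terminal draw.      All tests here are SPIN tests (conditional means = extra replicas).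

IMPORTS: nothing but Defs (proofs: `Defs/SkLem.gh_l_law_congr` = a Gaussian increment depends only on its covariance; A0 facts of `Fd/ObsC` / `Fd/Reg`).
WHERE THE OTHER D5 ITEMS ARE: pruning, relabelling, coincident labels, empty level, merge of equal masses, Markov at a cut, independence at the root, order symmetry of allocations: `Fd/CTr` (150/299);
marginalisation consistency of signed sums, relabelling of signed sums: `Fd/TrA5` (150).

EXITS
* `gh_sy_F, gh_sy_E, gh_sy_H`        transport of continuations, conditional means, Hessians along `φ : S ≃ S'` which preserves prior and covariances (`φ = id`: dependence on covariances only)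
* `gh_sy_nu`                         MASTER: transport of tree laws along LABELWISE equivalences `φ x : S ≃ S'` (global symmetry, gauge, site permutation, BLOCK FLIP, change of drivers, change of configuration space)
* `gh_sy_const_F/E/H/nu`             a spin independent feature (covariance `+ κ_j`) drops out
* `gh_sy_shift_nu`                   a constant added to the revealed fields drops out
* `gh_sy_prod_F/E/nu`                additive covariances on `S₁ × S₂` + product prior: the recursions factor (site / rest when the row kernel is scalar)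
* `tr_sy_nu, tr_sy_iso, tr_sy_const, tr_sy_prod`      the same for `trNu` of `Defs/Tr`
* `sk_sy_*`                          SK instances: gauge, site permutations, `ν[σ_k^a σ_k^b P] = ν[R_ab P]`
-/

set_option autoImplicit false

namespace Claimed.Agent.R286

open MeasureTheory ProbabilityTheory

section transport

variable {S S' ι ι' : Type} [Fintype S] [Fintype S'] [Fintype ι] [Fintype ι']

/-- `φ` carries the hierarchy `(B, ls)` on `S` to the hierarchy `(B', ls')` on `S'`: same terminal mass, same masses, prior and covariance increments preserved -/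
structure GhIso (φ : S ≃ S') (B : GhB S) (B' : GhB S') (ls : List (GhLv S ι)) (ls' : List (GhLv S' ι')) : Prop where
  a : B'.a = B.a
  w : ∀ s, B'.w (φ s) = B.w s
  m : ls'.map GhLv.m = ls.map GhLv.m
  cov : ∀ j (h : j < ls.length) (h' : j < ls'.length) (s t : S), (ls'[j]).cov (φ s) (φ t) = (ls[j]).cov s t

/-- transport of the continuation.      TEX[PE:found:D5-symmetry] -/
theorem gh_sy_F {φ : S ≃ S'} {B : GhB S} {B' : GhB S'} {ls : List (GhLv S ι)} {ls' : List (GhLv S' ι')}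
    (hB : B.Ok) (hnn : GhNn ls) (h : GhIso φ B B' ls ls') (z' : S' → ℝ) :
    ghF B' ls' z' = ghF B ls fun s => z' (φ s) :=
  gh_sa_F φ hB h.a h.w (gh_sa_forall₂_of_idx φ ls ls' h.m h.cov) z'

/-- transport of the planted conditional mean -/
theorem gh_sy_E {φ : S ≃ S'} {B : GhB S} {B' : GhB S'} {ls : List (GhLv S ι)} {ls' : List (GhLv S' ι')}
    (hB : B.Ok) (hnn : GhNn ls) (h : GhIso φ B B' ls ls') (Φ z' : S' → ℝ) :
    ghE B' ls' Φ z' = ghE B ls (fun s => Φ (φ s)) fun s => z' (φ s) :=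
  gh_sa_E φ hB h.a h.w (gh_sa_forall₂_of_idx φ ls ls' h.m h.cov) Φ z'

/-- transport of the Hessian -/
theorem gh_sy_H {φ : S ≃ S'} {B : GhB S} {B' : GhB S'} {ls : List (GhLv S ι)} {ls' : List (GhLv S' ι')}
    (hB : B.Ok) (hnn : GhNn ls) (h : GhIso φ B B' ls ls') (v w z' : S' → ℝ) :
    ghH B' ls' v w z' = ghH B ls (fun s => v (φ s)) (fun s => w (φ s)) fun s => z' (φ s) :=
  gh_sa_H φ hB h.a h.w (gh_sa_forall₂_of_idx φ ls ls' h.m h.cov) v w z'

/-- LABELWISE transport data for a tree law with `q` labels: each `φ x` carries `(B, ls)` to `(B', ls')`; two labels which share the revelation `j` act in the same way on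
its increment (`cov`, which for `x = y` is the invariance of the level); labels which share the terminal draw have the same map. -/
structure GhIsoT {q : ℕ} (rep : ℕ → Fin q → Fin q) (φ : Fin q → S ≃ S') (B : GhB S) (B' : GhB S')
    (ls : List (GhLv S ι)) (ls' : List (GhLv S' ι')) : Prop where
  a : B'.a = B.a
  w : ∀ x s, B'.w (φ x s) = B.w s
  m : ls'.map GhLv.m = ls.map GhLv.m
  cov : ∀ x y j (h : j < ls.length) (h' : j < ls'.length), rep j x = rep j y →
    ∀ s t : S, (ls'[j]).cov (φ x s) (φ y t) = (ls[j]).cov s t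
  term : ∀ x y, rep ls.length x = rep ls.length y → φ x = φ y

/-- **MASTER SYMMETRY / TRANSPORT THEOREM for positive tree laws** (spin tests).
`G x` = field already revealed to the label `x` (the same for the labels which share the next revelation).      TEX[PE:found:D5-symmetry] -/
theorem gh_sy_nu {q : ℕ} {rep : ℕ → Fin q → Fin q} {φ : Fin q → S ≃ S'} {B : GhB S} {B' : GhB S'}
    {ls : List (GhLv S ι)} {ls' : List (GhLv S' ι')} (hB : B.Ok) (hnn : GhNn ls) (hrep : GhRepOk rep) (h : GhIsoT rep φ B B' ls ls')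
    (G : Fin q → S → ℝ) (G' : Fin q → S' → ℝ) (hG : ∀ x s, G' x (φ x s) = G x s)
    (hG0 : ∀ x, G (rep 0 x) = G x) (hG0' : ∀ x, G' (rep 0 x) = G' x) (P : (Fin q → S') → ℝ) :
    ghNu B' ls' rep G' (fun _ σ => P σ) = ghNu B ls rep G fun _ σ => P fun x => φ x (σ x) :=
  gh_sa_nu hB h.a h.w P ls ls' rep hrep.idem (gh_sa_isoR_of_idx φ ls ls' rep h.m h.cov h.term) G G' hG

end transport

section const

variable {S ι ι' : Type} [Fintype S] [Fintype ι] [Fintype ι']

/-- the covariance increments of `ls'` are those of `ls` plus spin independent constants `κ j` -/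
structure GhCst (κ : ℕ → ℝ) (ls : List (GhLv S ι)) (ls' : List (GhLv S ι')) : Prop where
  m : ls'.map GhLv.m = ls.map GhLv.m
  cov : ∀ j (h : j < ls.length) (h' : j < ls'.length) (s t : S), (ls'[j]).cov s t = (ls[j]).cov s t + κ j

/-- a constant feature shifts the continuation by `½ ∑ m_j κ_j`.      TEX[PE:found:D5-constant-feature] -/
theorem gh_sy_const_F {B : GhB S} (hB : B.Ok) {κ : ℕ → ℝ} {ls : List (GhLv S ι)} {ls' : List (GhLv S ι')}
    (hnn : GhNn ls) (h : GhCst κ ls ls') (z : S → ℝ) :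
    ghF B ls' z = ghF B ls z + (1 / 2) * ∑ j ∈ Finset.range ls.length, (ls.map GhLv.m).getD j 0 * κ j :=
  gh_sc_const_F hB hnn h.m h.cov z

theorem gh_sy_const_E {B : GhB S} (hB : B.Ok) {κ : ℕ → ℝ} {ls : List (GhLv S ι)} {ls' : List (GhLv S ι')}
    (hnn : GhNn ls) (h : GhCst κ ls ls') (Φ z : S → ℝ) : ghE B ls' Φ z = ghE B ls Φ z :=
  gh_sc_const_E hB hnn h.m h.cov Φ z

theorem gh_sy_const_H {B : GhB S} (hB : B.Ok) {κ : ℕ → ℝ} {ls : List (GhLv S ι)} {ls' : List (GhLv S ι')}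
    (hnn : GhNn ls) (h : GhCst κ ls ls') (v w z : S → ℝ) : ghH B ls' v w z = ghH B ls v w z :=
  gh_sc_const_H hB hnn h.m h.cov v w z

/-- a constant feature does not change the tree laws of the spins ("common diagonal row noise cancels") -/
theorem gh_sy_const_nu {B : GhB S} (hB : B.Ok) {κ : ℕ → ℝ} {ls : List (GhLv S ι)} {ls' : List (GhLv S ι')}
    (hnn : GhNn ls) (h : GhCst κ ls ls') {q : ℕ} {rep : ℕ → Fin q → Fin q} (hrep : GhRepOk rep) (G : Fin q → S → ℝ)
    (hG0 : ∀ x, G (rep 0 x) = G x) (P : (Fin q → S) → ℝ) :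
    ghNu B ls' rep G (fun _ σ => P σ) = ghNu B ls rep G fun _ σ => P σ :=
  gh_sc_const_nu hB hnn h.m h.cov rep G P

/-- constants added to the revealed fields do not change the tree laws of the spins -/
theorem gh_sy_shift_nu {B : GhB S} (hB : B.Ok) {ls : List (GhLv S ι)} (hnn : GhNn ls) {q : ℕ} {rep : ℕ → Fin q → Fin q}
    (hrep : GhRepOk rep) (G : Fin q → S → ℝ) (hG0 : ∀ x, G (rep 0 x) = G x) (c : Fin q → ℝ) (hc : ∀ x, c (rep 0 x) = c x)
    (P : (Fin q → S) → ℝ) :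
    ghNu B ls rep (fun x s => G x s + c x) (fun _ σ => P σ) = ghNu B ls rep G fun _ σ => P σ :=
  gh_sc_shift_nu hB P c ls rep G

end const

section prod

variable {S₁ S₂ ι ι₁ ι₂ : Type} [Fintype S₁] [Fintype S₂] [Fintype ι] [Fintype ι₁] [Fintype ι₂]

/-- the hierarchy `(B, ls)` on `S₁ × S₂` is the independent sum of `(B₁, ls₁)` and `(B₂, ls₂)`: product prior, common masses, additive covariances -/
structure GhPrd (B : GhB (S₁ × S₂)) (B₁ : GhB S₁) (B₂ : GhB S₂) (ls : List (GhLv (S₁ × S₂) ι))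
    (ls₁ : List (GhLv S₁ ι₁)) (ls₂ : List (GhLv S₂ ι₂)) : Prop where
  a₁ : B₁.a = B.a
  a₂ : B₂.a = B.a
  w : ∀ s, B.w s = B₁.w s.1 * B₂.w s.2
  m₁ : ls₁.map GhLv.m = ls.map GhLv.m
  m₂ : ls₂.map GhLv.m = ls.map GhLv.m
  cov : ∀ j (h : j < ls.length) (h₁ : j < ls₁.length) (h₂ : j < ls₂.length) (s t : S₁ × S₂),
    (ls[j]).cov s t = (ls₁[j]).cov s.1 t.1 + (ls₂[j]).cov s.2 t.2

/-- the continuations add.      TEX[PE:found:D5-factorisation] -/
theorem gh_sy_prod_F {B : GhB (S₁ × S₂)} {B₁ : GhB S₁} {B₂ : GhB S₂} {ls : List (GhLv (S₁ × S₂) ι)}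
    {ls₁ : List (GhLv S₁ ι₁)} {ls₂ : List (GhLv S₂ ι₂)} (hB₁ : B₁.Ok) (hB₂ : B₂.Ok) (hnn : GhNn ls) (h : GhPrd B B₁ B₂ ls ls₁ ls₂)
    (z₁ : S₁ → ℝ) (z₂ : S₂ → ℝ) :
    ghF B ls (fun s => z₁ s.1 + z₂ s.2) = ghF B₁ ls₁ z₁ + ghF B₂ ls₂ z₂ :=
  gh_sp_prod_F hB₁ hB₂ h.a₁ h.a₂ h.w h.m₁ h.m₂ h.cov z₁ z₂

/-- conditional means of products factor -/
theorem gh_sy_prod_E {B : GhB (S₁ × S₂)} {B₁ : GhB S₁} {B₂ : GhB S₂} {ls : List (GhLv (S₁ × S₂) ι)}
    {ls₁ : List (GhLv S₁ ι₁)} {ls₂ : List (GhLv S₂ ι₂)} (hB₁ : B₁.Ok) (hB₂ : B₂.Ok) (hnn : GhNn ls) (h : GhPrd B B₁ B₂ ls ls₁ ls₂)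
    (Φ₁ z₁ : S₁ → ℝ) (Φ₂ z₂ : S₂ → ℝ) :
    ghE B ls (fun s => Φ₁ s.1 * Φ₂ s.2) (fun s => z₁ s.1 + z₂ s.2) = ghE B₁ ls₁ Φ₁ z₁ * ghE B₂ ls₂ Φ₂ z₂ :=
  gh_sp_prod_E hB₁ hB₂ h.a₁ h.a₂ h.w h.m₁ h.m₂ h.cov Φ₁ z₁ Φ₂ z₂

/-- **on every tree the two recursions factor** (PE cavity l.316: "the scalar-site and remaining-coordinate recursions factor at `t = 0`") -/
theorem gh_sy_prod_nu {B : GhB (S₁ × S₂)} {B₁ : GhB S₁} {B₂ : GhB S₂} {ls : List (GhLv (S₁ × S₂) ι)}
    {ls₁ : List (GhLv S₁ ι₁)} {ls₂ : List (GhLv S₂ ι₂)} (hB₁ : B₁.Ok) (hB₂ : B₂.Ok) (hnn : GhNn ls) (h : GhPrd B B₁ B₂ ls ls₁ ls₂)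
    {q : ℕ} {rep : ℕ → Fin q → Fin q} (hrep : GhRepOk rep) (G₁ : Fin q → S₁ → ℝ) (G₂ : Fin q → S₂ → ℝ)
    (hG₁ : ∀ x, G₁ (rep 0 x) = G₁ x) (hG₂ : ∀ x, G₂ (rep 0 x) = G₂ x)
    (P₁ : (Fin q → S₁) → ℝ) (P₂ : (Fin q → S₂) → ℝ) :
    ghNu B ls rep (fun x s => G₁ x s.1 + G₂ x s.2) (fun _ σ => P₁ (fun x => (σ x).1) * P₂ fun x => (σ x).2)
      = ghNu B₁ ls₁ rep G₁ (fun _ σ => P₁ σ) * ghNu B₂ ls₂ rep G₂ fun _ σ => P₂ σ :=
  gh_sp_prod_nu hB₁ hB₂ h.a₁ h.a₂ h.w h.m₁ h.m₂ h.cov rep G₁ G₂ P₁ P₂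

end prod

/-! ## the same exports for the `ℕ`-labelled trees of `Defs/Tr` -/

section tr

variable {S S' ι ι' : Type} [Fintype S] [Fintype S'] [Fintype ι] [Fintype ι'] [Inhabited S] [Inhabited S']

/-- **labelwise transport / symmetry** on an `ℕ`-labelled tree.      `φ x` acts on the label `x`; two labels act in the same way on the increments which they share;
coincident labels have the same map; the root field is carried by every `φ x`.      Contains: dependence on the covariances only (`φ = id`), global symmetries, BLOCK FLIPS.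
TEX[PE:found:D5-symmetry] -/
theorem tr_sy_nu {B : GhB S} {B' : GhB S'} {ls : List (GhLv S ι)} {ls' : List (GhLv S' ι')} (hB : B.Ok) (hnn : GhNn ls)
    {q : ℕ} {τ : ℕ → ℕ → ℕ} (hτ : IsTr ls.length q τ) (φ : ℕ → S ≃ S')
    (ha : B'.a = B.a) (hw : ∀ x, x < q → ∀ s, B'.w (φ x s) = B.w s) (hm : ls'.map GhLv.m = ls.map GhLv.m)
    (hcov : ∀ x y, x < q → y < q → ∀ j (h : j < ls.length) (h' : j < ls'.length), j < τ x y →
      ∀ s t : S, (ls'[j]).cov (φ x s) (φ y t) = (ls[j]).cov s t)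
    (hterm : ∀ x y, x < q → y < q → τ x y = ls.length + 1 → φ x = φ y)
    (z : S → ℝ) (z' : S' → ℝ) (hz : ∀ x, x < q → ∀ s, z' (φ x s) = z s) (P : (ℕ → S') → ℝ) (hP : TrUses q P) :
    trNu B' ls' q τ z' P = trNu B ls q τ z fun σ => P fun x => φ x (σ x) := by
  have hT : GhIsoT (fun t => trRep q τ t) (fun x : Fin q => φ x.1) B B' ls ls' :=
    { a := ha
      w := fun x s => hw x.1 x.2 s
      m := hm
      cov := by
        intro x y j h h' hr s t
        refine hcov x.1 y.1 x.2 y.2 j h h' ?_ s t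
        rcases (tb2_rep_iff hτ j x y).1 hr with rfl | hlt
        · rw [hτ.diag _ x.2]; omega
        · exact hlt
      term := by
        intro x y hr
        rcases (tb2_rep_iff hτ _ x y).1 hr with rfl | hlt
        · rfl
        · exact hterm x.1 y.1 x.2 y.2 (le_antisymm (hτ.le _ _ x.2 y.2) hlt) }
  unfold trNu
  rw [gh_sy_nu hB hnn (tb2_repOk hτ) hT (fun _ => z) (fun _ => z') (fun x s => hz x.1 x.2 s) (fun _ => rfl) (fun _ => rfl)
    (fun σ => P (trExt σ))]
  congr 1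
  funext _ σ
  refine hP _ _ fun i hi => ?_
  simp [trExt, hi]

/-- a global isomorphism -/
theorem tr_sy_iso {φ : S ≃ S'} {B : GhB S} {B' : GhB S'} {ls : List (GhLv S ι)} {ls' : List (GhLv S' ι')}
    (hB : B.Ok) (hnn : GhNn ls) (h : GhIso φ B B' ls ls') {q : ℕ} {τ : ℕ → ℕ → ℕ} (hτ : IsTr ls.length q τ)
    (z' : S' → ℝ) (P : (ℕ → S') → ℝ) (hP : TrUses q P) :
    trNu B' ls' q τ z' P = trNu B ls q τ (fun s => z' (φ s)) fun σ => P fun x => φ (σ x) :=
  tr_sy_nu hB hnn hτ (fun _ => φ) h.a (fun _ _ s => h.w s) h.m (fun _ _ _ _ j hj hj' _ s t => h.cov j hj hj' s t)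
    (fun _ _ _ _ _ => rfl) _ z' (fun _ _ _ => rfl) P hP

end tr

section tr2

variable {S ι ι' : Type} [Fintype S] [Fintype ι] [Fintype ι'] [Inhabited S]

/-- a spin independent feature drops out of the tree numbers.      TEX[PE:found:D5-constant-feature] -/
theorem tr_sy_const {B : GhB S} (hB : B.Ok) {κ : ℕ → ℝ} {ls : List (GhLv S ι)} {ls' : List (GhLv S ι')}
    (hnn : GhNn ls) (h : GhCst κ ls ls') {q : ℕ} {τ : ℕ → ℕ → ℕ} (hτ : IsTr ls.length q τ) (z : S → ℝ) (c : ℝ)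
    (P : (ℕ → S) → ℝ) :
    trNu B ls' q τ (fun s => z s + c) P = trNu B ls q τ z P := by
  unfold trNu
  rw [gh_sy_const_nu hB hnn h (tb2_repOk hτ) (fun _ s => z s + c) (fun _ => rfl) (fun σ => P (trExt σ))]
  exact gh_sy_shift_nu hB hnn (tb2_repOk hτ) (fun _ => z) (fun _ => rfl) (fun _ => c) (fun _ => rfl) (fun σ => P (trExt σ))

end tr2

section tr3

variable {S₁ S₂ ι ι₁ ι₂ : Type} [Fintype S₁] [Fintype S₂] [Fintype ι] [Fintype ι₁] [Fintype ι₂] [Inhabited S₁] [Inhabited S₂]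

/-- product factorisation of the tree numbers.      TEX[PE:found:D5-factorisation] -/
theorem tr_sy_prod {B : GhB (S₁ × S₂)} {B₁ : GhB S₁} {B₂ : GhB S₂} {ls : List (GhLv (S₁ × S₂) ι)}
    {ls₁ : List (GhLv S₁ ι₁)} {ls₂ : List (GhLv S₂ ι₂)} (hB₁ : B₁.Ok) (hB₂ : B₂.Ok) (hnn : GhNn ls)
    (h : GhPrd B B₁ B₂ ls ls₁ ls₂) {q : ℕ} {τ : ℕ → ℕ → ℕ} (hτ : IsTr ls.length q τ) (z₁ : S₁ → ℝ) (z₂ : S₂ → ℝ)
    (P₁ : (ℕ → S₁) → ℝ) (P₂ : (ℕ → S₂) → ℝ) (hP₁ : TrUses q P₁) (hP₂ : TrUses q P₂) :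
    trNu B ls q τ (fun s => z₁ s.1 + z₂ s.2) (fun σ => P₁ (fun x => (σ x).1) * P₂ fun x => (σ x).2)
      = trNu B₁ ls₁ q τ z₁ P₁ * trNu B₂ ls₂ q τ z₂ P₂ := by
  unfold trNu
  rw [← gh_sy_prod_nu hB₁ hB₂ hnn h (tb2_repOk hτ) (fun _ => z₁) (fun _ => z₂) (fun _ => rfl) (fun _ => rfl)
    (fun σ => P₁ (trExt σ)) (fun σ => P₂ (trExt σ))]
  congr 1
  funext _ σ
  have e₁ : P₁ (fun x => (trExt σ x).1) = P₁ (trExt fun x => (σ x).1) := by
    refine hP₁ _ _ fun i hi => ?_
    simp [trExt, hi]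
  have e₂ : P₂ (fun x => (trExt σ x).2) = P₂ (trExt fun x => (σ x).2) := by
    refine hP₂ _ _ fun i hi => ?_
    simp [trExt, hi]
  show P₁ (fun x => (trExt σ x).1) * P₂ (fun x => (trExt σ x).2) = _
  rw [e₁, e₂]

end tr3

/-! ## the SK instance -/

section sk

variable {n : ℕ}

/-- the gauge transformation `σ ↦ η σ` (coordinatewise product of spins) -/
def skGa (η : SkCfg n) : SkCfg n ≃ SkCfg n where
  toFun σ := fun i => σ i == η i
  invFun σ := fun i => σ i == η i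
  left_inv σ := by
    funext i
    show ((σ i == η i) == η i) = σ i
    cases σ i <;> cases η i <;> rfl
  right_inv σ := by
    funext i
    show ((σ i == η i) == η i) = σ i
    cases σ i <;> cases η i <;> rfl

/-- the site permutation `σ ↦ σ ∘ π` -/
def skPm (π : Equiv.Perm (Fin n)) : SkCfg n ≃ SkCfg n where
  toFun σ := fun i => σ (π i)
  invFun σ := fun i => σ (π.symm i)
  left_inv σ := by funext i; simp
  right_inv σ := by funext i; simp

theorem sk_sy_ga_sp (η σ : SkCfg n) (i : Fin n) : skSp (skGa η σ) i = skSp η i * skSp σ i := by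
  show Claims.C0461.pmSpin (σ i == η i) = Claims.C0461.pmSpin (η i) * Claims.C0461.pmSpin (σ i)
  cases σ i <;> cases η i <;> simp [Claims.C0461.pmSpin]

theorem sk_sy_ga_ov (η σ τ : SkCfg n) : skOv (skGa η σ) (skGa η τ) = skOv σ τ := by
  unfold skOv
  congr 1
  refine Finset.sum_congr rfl fun i _ => ?_
  rw [sk_sy_ga_sp, sk_sy_ga_sp]
  have := sk_d_sp_mul η i
  calc skSp η i * skSp σ i * (skSp η i * skSp τ i) = (skSp η i * skSp η i) * (skSp σ i * skSp τ i) := by ring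
    _ = _ := by rw [this, one_mul]

theorem sk_sy_pm_ov (π : Equiv.Perm (Fin n)) (σ τ : SkCfg n) : skOv (skPm π σ) (skPm π τ) = skOv σ τ := by
  unfold skOv
  congr 1
  exact Equiv.sum_comp π fun i => skSp σ i * skSp τ i

/-- the gauge group is transitive -/
theorem sk_sy_ga_trans (σ τ : SkCfg n) : ∃ η, skGa η σ = τ := by
  refine ⟨fun i => σ i == τ i, ?_⟩
  funext i
  show (σ i == (σ i == τ i)) = τ i
  cases σ i <;> cases τ i <;> rfl

theorem sk_sy_base_ok (n : ℕ) {a : ℝ} (ha : 0 < a) : (skBase n a).Ok where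
  nonneg := fun _ => by simp only [skBase, ghUnif]; positivity
  sum := by
    simp only [skBase, ghUnif, Finset.sum_const, Finset.card_univ, nsmul_eq_mul]
    exact mul_inv_cancel₀ (by positivity)
  pos := ha

theorem sk_sy_adm {a : ℝ} {P : SkStp} (hP : SkAdm a P) : GhAdm (skBase n a) 0 (skLvs n P) := by
  constructor
  · unfold skLvs
    rw [List.pairwise_map]
    exact hP.1
  · intro l hl
    unfold skLvs at hl
    obtain ⟨e, he, rfl⟩ := List.mem_map.1 hl
    exact ⟨(hP.2 e he).1, (hP.2 e he).2.1⟩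

/-- every bijection of the configurations which preserves the overlaps is a symmetry of every SK hierarchy.      TEX[PE:found:D5-symmetry] -/
theorem sk_sy_iso (hn : 0 < n) {a : ℝ} {P : SkStp} (hP : SkAdm a P) (φ : SkCfg n ≃ SkCfg n)
    (hφ : ∀ σ τ, skOv (φ σ) (φ τ) = skOv σ τ) : GhIso φ (skBase n a) (skBase n a) (skLvs n P) (skLvs n P) where
  a := rfl
  w := fun _ => rfl
  m := rfl
  cov := by
    intro j h _ s t
    have hj : j < P.length := by simpa [skLvs] using h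
    have e : (skLvs n P)[j] = (P[j]).lv n := by simp [skLvs]
    have hm := hP.2 _ (List.getElem_mem hj)
    rw [e, sk_d_cov n hn _ hm.2.2.1 hm.2.2.2, sk_d_cov n hn _ hm.2.2.1 hm.2.2.2, hφ]

/-- invariance of the SK tree numbers at zero source -/
theorem sk_sy_nu (hn : 0 < n) {a : ℝ} (ha : 0 < a) {P : SkStp} (hP : SkAdm a P) (φ : SkCfg n ≃ SkCfg n)
    (hφ : ∀ σ τ, skOv (φ σ) (φ τ) = skOv σ τ) {q : ℕ} {τ : ℕ → ℕ → ℕ} (hτ : IsTr P.length q τ)
    (Q : (ℕ → SkCfg n) → ℝ) (hQ : TrUses q Q) :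
    trNu (skBase n a) (skLvs n P) q τ 0 (fun σ => Q fun x => φ (σ x)) = trNu (skBase n a) (skLvs n P) q τ 0 Q := by
  have hτ' : IsTr (skLvs n P).length q τ := by simpa [skLvs] using hτ
  exact (tr_sy_iso (sk_sy_base_ok n ha) ((sk_sy_adm hP).ghNn le_rfl) (sk_sy_iso hn hP φ hφ) hτ' 0 Q hQ).symm

/-- the magnetisation vanishes at zero source -/
theorem sk_sy_mag (hn : 0 < n) {a : ℝ} (ha : 0 < a) {P : SkStp} (hP : SkAdm a P) (i : Fin n) :
    ghE (skBase n a) (skLvs n P) (fun σ => skSp σ i) 0 = 0 := by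
  have h := gh_sy_E (sk_sy_base_ok n ha) ((sk_sy_adm hP).ghNn le_rfl)
    (sk_sy_iso hn hP (skGa fun _ => false) (sk_sy_ga_ov _)) (fun σ => skSp σ i) 0
  have e : (fun s : SkCfg n => skSp (skGa (fun _ => false) s) i) = fun s => -skSp s i := by
    funext s
    rw [sk_sy_ga_sp]
    have : skSp (fun _ => false : SkCfg n) i = -1 := by simp [skSp, Claims.C0461.pmSpin]
    rw [this]; ring
  have z : (fun s : SkCfg n => (0 : SkCfg n → ℝ) (skGa (fun _ => false) s)) = 0 := rfl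
  rw [e, z, gh_b_E_neg] at h
  linarith

/-- **site average** (PE cavity l.295, l.697): against a test which is invariant under the site permutations a distinguished-site factor is its overlap average -/
theorem sk_sy_site (hn : 0 < n) {a : ℝ} (ha : 0 < a) {P : SkStp} (hP : SkAdm a P) {q : ℕ} {τ : ℕ → ℕ → ℕ}
    (hτ : IsTr P.length q τ) (Q : (ℕ → SkCfg n) → ℝ) (hQ : TrUses q Q)
    (hinv : ∀ (π : Equiv.Perm (Fin n)) (σ : ℕ → SkCfg n), Q (fun x => skPm π (σ x)) = Q σ) {x y : ℕ} (hx : x < q) (hy : y < q)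
    (k : Fin n) :
    trNu (skBase n a) (skLvs n P) q τ 0 (fun σ => skSp (σ x) k * skSp (σ y) k * Q σ)
      = trNu (skBase n a) (skLvs n P) q τ 0 fun σ => skOv (σ x) (σ y) * Q σ := by
  have hB := sk_sy_base_ok n ha
  have hA : GhAdm (skBase n a) 0 (skLvs n P) := sk_sy_adm hP
  have hn' : (n : ℝ) ≠ 0 := by exact_mod_cast hn.ne'
  -- independence of the site
  have h1 : ∀ k' : Fin n, trNu (skBase n a) (skLvs n P) q τ 0 (fun σ => skSp (σ x) k' * skSp (σ y) k' * Q σ)
      = trNu (skBase n a) (skLvs n P) q τ 0 (fun σ => skSp (σ x) k * skSp (σ y) k * Q σ) := by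
    intro k'
    have hU : TrUses q (fun σ : ℕ → SkCfg n => skSp (σ x) k * skSp (σ y) k * Q σ) := by
      intro σ σ' h
      simp only
      rw [h x hx, h y hy, hQ σ σ' h]
    have := sk_sy_nu hn ha hP (skPm (Equiv.swap k k')) (sk_sy_pm_ov _) hτ _ hU
    rw [← this]
    congr 1
    funext σ
    rw [hinv]
    have e : ∀ ρ : SkCfg n, skSp (skPm (Equiv.swap k k') ρ) k = skSp ρ k' := by
      intro ρ
      show Claims.C0461.pmSpin (ρ (Equiv.swap k k' k)) = _
      rw [Equiv.swap_apply_left]; rfl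
    rw [e, e]
  -- linearity
  rw [tr_nu_eq_sum hB hA q τ 0 (fun σ => skOv (σ x) (σ y) * Q σ)]
  have h2 : ∀ σ₀ : Fin q → SkCfg n, trPr (skBase n a) (skLvs n P) q τ 0 σ₀ * (skOv (trExt σ₀ x) (trExt σ₀ y) * Q (trExt σ₀))
      = (n : ℝ)⁻¹ * ∑ k' : Fin n, trPr (skBase n a) (skLvs n P) q τ 0 σ₀ * (skSp (trExt σ₀ x) k' * skSp (trExt σ₀ y) k' * Q (trExt σ₀)) := by
    intro σ₀
    unfold skOv
    rw [Finset.mul_sum, div_eq_mul_inv, Finset.sum_mul, Finset.sum_mul, Finset.mul_sum]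
    refine Finset.sum_congr rfl fun k' _ => by ring
  simp only [h2]
  rw [← Finset.mul_sum, Finset.sum_comm]
  have h3 : ∀ k' : Fin n, ∑ σ₀ : Fin q → SkCfg n, trPr (skBase n a) (skLvs n P) q τ 0 σ₀ * (skSp (trExt σ₀ x) k' * skSp (trExt σ₀ y) k' * Q (trExt σ₀))
      = trNu (skBase n a) (skLvs n P) q τ 0 (fun σ => skSp (σ x) k * skSp (σ y) k * Q σ) := by
    intro k'
    rw [← h1 k', tr_nu_eq_sum hB hA q τ 0 (fun σ => skSp (σ x) k' * skSp (σ y) k' * Q σ)]
  simp only [h3, Finset.sum_const, Finset.card_univ, Fintype.card_fin, nsmul_eq_mul]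
  field_simp

end sk

theorem gh_sy_eqns_cite : True := by
  have := @skGa.eq_1
  have := @skPm.eq_1
  trivial

end Claimed.Agent.R286
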