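import Claimed.Agent.R286.Exit.ClkLim
import Claimed.Agent.R286.Exit.ClkPr
import Claimed.Agent.R286.Exit.ClkSus
import Claimed.Agent.R286.Exit.ClkStat
import Claimed.Agent.R286.Exit.ClkLip

/-!
# Row 286 (S0533), Fd/CClk : the CLOCK API = exits (G0)-(G5) of PE Prop 2.14      (owner helper42)

The statements live in `Exit/ClkLim` (G0, C1), `Exit/ClkPr` (G1, C3), `Exit/ClkSus` (G2, C5), `Exit/ClkStat` (G3, G4, C4), `Exit/ClkLip` (G5, C2);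
vocabulary `Fd/ClkDefs`.      This file collects them and keeps the SHORT NAMES `ck_*` of the first version (sorry free: aliases of the exits).
-/

set_option autoImplicit false

namespace Claimed.Agent.R286

open MeasureTheory Filter Topology Set

variable {n : ℕ} {a : ℝ}

theorem ck_pr_deriv (hn : 0 < n) (ha : 0 < a) {b0 h0 b1 h1 : ℝ → ℝ} (h0' : CkAdm a b0 h0) (h1' : CkAdm a b1 h1)
    {θ : ℝ} (hθ : θ ∈ Icc (0 : ℝ) 1) :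
    HasDerivWithinAt (fun s => skCPr n a (ckSeg s b0 b1) (ckSeg s h0 h1)) (ckDPr n a b0 h0 b1 h1 θ) (Icc 0 1) θ :=
  (exit_clk_pr_deriv hn ha h0' h1').1 θ hθ

theorem ck_pr_deriv_cont (hn : 0 < n) (ha : 0 < a) {b0 h0 b1 h1 : ℝ → ℝ} (h0' : CkAdm a b0 h0) (h1' : CkAdm a b1 h1) :
    ContinuousOn (ckDPr n a b0 h0 b1 h1) (Icc 0 1) :=
  (exit_clk_pr_deriv hn ha h0' h1').2

theorem ck_pr_lip (hn : 0 < n) (ha : 0 < a) {b h b' h' : ℝ → ℝ} (h1 : CkAdm a b h) (h2 : CkAdm a b' h') :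
    |skCPr n a b h - skCPr n a b' h'|
      ≤ (1 / 4) * (∫ u in (0 : ℝ)..a, |b u - b' u|) + (1 / 2) * ∫ u in (0 : ℝ)..a, |h u - h' u| :=
  exit_clk_pr_lip hn ha h1 h2

theorem ck_clock_inf (hn : 0 < n) (ha : 0 < a) {b h : ℝ → ℝ} (hbh : CkAdm a b h) {p p' : GhPos} (hp : p.Ok a)
    (hp' : p'.Ok a) (hpp : p ≤ p') (c : ℝ) (hc : ∀ r : GhPos, r.Ok a → p ≤ r → r ≤ p' → c ≤ ckH2 n a b h r) :
    n * c * (ghAt a h p' - ghAt a h p) ≤ skCS n a b h p' - skCS n a b h p :=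
  exit_clk_sus_inf hn ha hbh hp hp' hpp c hc

theorem ck_clock_int (hn : 0 < n) (ha : 0 < a) {b h : ℝ → ℝ} (hbh : CkAdm a b h) {u v : ℝ} (hu : 0 ≤ u) (huv : u ≤ v)
    (hv : v ≤ a) (g : ℝ → ℝ) (hg0 : ∀ w ∈ Icc u v, 0 ≤ g w) (hgi : IntervalIntegrable g volume u v)
    (hgh : ∀ s t, u ≤ s → s ≤ t → t ≤ v → ∫ w in s..t, g w ≤ h t - h s) :
    n * ∫ w in u..v, g w * ckH2 n a b h (ghPosA w) ≤ skCS n a b h (ghPosA v) - skCS n a b h (ghPosA u) :=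
  exit_clk_sus_int hn ha hbh hu huv hv g hg0 hgi hgh

theorem ck_SB (hn : 0 < n) (ha : 0 < a) {b h : ℝ → ℝ} (hbh : CkAdm a b h) {p p' : GhPos} (hp : p.Ok a) (hp' : p'.Ok a)
    (hpp : p ≤ p') :
    0 ≤ skCS n a b h p ∧ skCS n a b h p ≤ skCS n a b h p' ∧ skCB n a b h p ≤ skCB n a b h p' ∧
      skCS n a b h p ^ 2 ≤ skCB n a b h p ∧ skCB n a b h p ≤ 1 :=
  exit_clk_SB hn ha hbh hp hp' hpp

theorem ck_D2 (hn : 0 < n) (ha : 0 < a) {b h : ℝ → ℝ} (hbh : CkAdm a b h) {p : GhPos} (hp : p.Ok a) :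
    0 ≤ ckVx n a b h p ∧ 0 ≤ ckC2 n a b h p ∧ ckC2 n a b h p ≤ 1 ∧
      skCB n a b h p - skCS n a b h p ^ 2 ≤ ckVx n a b h p + 2 * Real.sqrt (ckC2 n a b h p) + ckC2 n a b h p ∧
      ckVx n a b h p + ckC2 n a b h p ≤ skCB n a b h p - skCS n a b h p ^ 2 :=
  exit_clk_D2 hn ha hbh hp

theorem ck_H2 (hn : 0 < n) (ha : 0 < a) {b h : ℝ → ℝ} (hbh : CkAdm a b h) {p : GhPos} (hp : p.Ok a) :
    p.u ^ 2 * ckC2 n a b h p ≤ ckH2 n a b h p ∧ ckH2 n a b h p ≤ a ^ 2 * ckC2 n a b h p :=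
  exit_clk_H2 hn ha hbh hp

theorem ck_intble (hn : 0 < n) (ha : 0 < a) {b h : ℝ → ℝ} (hbh : CkAdm a b h) :
    IntervalIntegrable (fun u => skCS n a b h (ghPosA u)) volume 0 a ∧
    IntervalIntegrable (fun u => skCB n a b h (ghPosA u)) volume 0 a ∧
    IntervalIntegrable (fun u => ckH2 n a b h (ghPosA u)) volume 0 a ∧
    IntervalIntegrable (fun u => ckC2 n a b h (ghPosA u)) volume 0 a ∧
    IntervalIntegrable (fun u => ckVx n a b h (ghPosA u)) volume 0 a :=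
  exit_clk_intble hn ha hbh

theorem ck_Vx (hn : 0 < n) (ha : 0 < a) {b h : ℝ → ℝ} (hbh : CkAdm a b h) {p : GhPos} (hp : p.Ok a) {ρ : ℝ} (hρ : 0 < ρ)
    (h1 : 0 < p.u - ρ) (h2 : p.u + ρ < a) :
    Real.sqrt (ckVx n a b h p) ≤ (skCS n a b h (ghPosA (p.u + ρ)) - skCS n a b h (ghPosA (p.u - ρ)))
      + 4 / ρ * Real.sqrt (∫ v in (p.u - ρ)..(p.u + ρ), ckH2 n a b h (ghPosA v) / v) :=
  exit_clk_Vx hn ha hbh hp hρ h1 h2

theorem ck_nu_lip (hn : 0 < n) (ha : 0 < a) {b h b' h' : ℝ → ℝ} (h1 : CkAdm a b h) (h2 : CkAdm a b' h') (q : ℕ)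
    (τ : ℕ → ℕ → WithTop GhPos) (hτ : GhIsRT a q τ) (P : (Fin q → SkCfg n) → ℝ) (K δb δh : ℝ) (hP : ∀ σ, |P σ| ≤ K)
    (hb : ∀ u ∈ Icc 0 a, |b u - b' u| ≤ δb) (hh : ∀ u ∈ Icc 0 a, |h u - h' u| ≤ δh) :
    |skCNu n a b h q τ P - skCNu n a b' h' q τ P| ≤ 2 * q * (q + 1) * a ^ 2 * n * (δb / 2 + δh) * K :=
  exit_clk_nu_lip hn ha h1 h2 q τ hτ P K δb δh hP hb hh

theorem ck_step_pr (hn : 0 < n) (ha : 0 < a) (P : SkStp) (hP : SkAdm a P) :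
    skCPr n a (skClkB P) (skClkH P) = skPr n a P :=
  (exit_clk_step_pr hn ha P hP 0).2.1

theorem ck_step_adm (hn : 0 < n) (ha : 0 < a) (P : SkStp) (hP : SkAdm a P) : CkAdm a (skClkB P) (skClkH P) :=
  (exit_clk_step_pr hn ha P hP (0 : SkCfg n → ℝ)).1

end Claimed.Agent.R286
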