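import Claimed.Agent.R286.Fd.ObsC
import Claimed.Agent.R286.Fd.CTr

/-!
# Row 286, unit Fd: the two definitions of `Fd/Contract.lean` (owner helper118), in a file of their own so that the provers of the exits (`Fd/P147.lean`, `Fd/P9.lean`) can import them.
-/

set_option autoImplicit false

namespace Claimed.Agent.R286

open MeasureTheory ProbabilityTheory

section path
variable {S ι : Type} [Fintype S] [Fintype ι]

/-- growth class of the tests of one path: measurable in the drivers, at most exponential in the drivers of the first `N` levels -/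
def FdGr (N : ℕ) (Q : (ℕ → ι → ℝ) → S → ℝ) : Prop :=
  (∀ s, Measurable fun ξ => Q ξ s) ∧ ∃ C c : ℝ, ∀ ξ s, |Q ξ s| ≤ C * Real.exp (c * ∑ t ∈ Finset.range N, ∑ i, |ξ t i|)

/-- the score of the planted path law in the driver `(k, i)`; `α = A_k(·, i)`:
`a α(σ) - ∑_{k < j ≤ N} (m_j - m_{j-1}) E[α | cut j]`      (telescoped density of the proof of PE Lemma 2.3; `m_N = a`) -/
noncomputable def fdScore (B : GhB S) (ls : List (GhLv S ι)) (z : S → ℝ) (k : ℕ) (α : S → ℝ) (ξ : ℕ → ι → ℝ) (s : S) : ℝ :=
  B.a * α s - ∑ j ∈ Finset.Ioc k ls.length, (trMs B ls j - trMs B ls (j - 1)) * ghE B (ls.drop j) α (z + ghPre ls ξ j)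

end path

theorem fd_contract_eqns_cite : True := by
  have := @FdGr.eq_1
  have := @fdScore.eq_1
  trivial

end Claimed.Agent.R286
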