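import Claimed.Agent.R286.Fd.RegA
import Claimed.Agent.R286.Fd.ObsTw

/-!
# Row 286 (S0533), Fd/P147 : PROOFS of exits of the section contract `Fd/Contract.lean` (head 118)      (owner helper147; prefix `fd7_`)      no sorry

* `fd7_amass_lip`    = `fd_amass_lip`  (P6, terminal mass: monotone, Lipschitz, uniformly in the field and in the hierarchy)
* `fd7_T_deriv`      `∂_μ T_μ X = μ⁻¹ (E_μ X - T_μ X)` on any probability space (all exponential moments);      `fd7_T_deriv_bd` crude bound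
* `fd7_step_deriv`   differentiation in a parameter through one level (family of monotone shift-commuting functions, uniformly Lipschitz in the parameter)
* `fd7_T_lip`        `T_m` is a contraction for the uniform distance;      `fd7_base_lip`  the mass of one level: locally Lipschitz uniformly in the field
* `fd7_mass_deriv`   = `fd_mass_deriv` (P6, derivative in the mass of one level)
-/

set_option autoImplicit false
set_option linter.unusedSectionVars false
set_option linter.unusedVariables false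

namespace Claimed.Agent.R286

open MeasureTheory ProbabilityTheory

section amass
variable {S ι : Type} [Fintype S] [Fintype ι]

/-- two functions at distance `≤ δ`, ordered: the same after one level -/
theorem fd7_T_sandwich {f g : (S → ℝ) → ℝ} (hf : GhMS f) (hg : GhMS g) {δ : ℝ} (h : ∀ y, f y ≤ g y ∧ g y ≤ f y + δ)
    (l : GhLv S ι) (z : S → ℝ) :
    ghT (ghStd ι) l.m (fun ξ => f (z + l.inc ξ)) ≤ ghT (ghStd ι) l.m (fun ξ => g (z + l.inc ξ)) ∧
      ghT (ghStd ι) l.m (fun ξ => g (z + l.inc ξ)) ≤ ghT (ghStd ι) l.m (fun ξ => f (z + l.inc ξ)) + δ := by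
  refine ⟨gh_ra_T_mono (hf.int_inc l z) (hg.int_inc l z) (hf.int_exp_inc l z _) (hg.int_exp_inc l z _) fun ξ => (h _).1, ?_⟩
  rw [← gh_ra_T_add (hf.int_inc l z) (hf.int_exp_inc l z _) δ]
  refine gh_ra_T_mono (hg.int_inc l z) ((hf.int_inc l z).add (integrable_const δ)) (hg.int_exp_inc l z _) ?_ fun ξ => (h _).2
  have e : (fun ξ => Real.exp (l.m * (f (z + l.inc ξ) + δ))) = fun ξ => Real.exp (l.m * f (z + l.inc ξ)) * Real.exp (l.m * δ) := by
    funext ξ; rw [mul_add, Real.exp_add]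
  rw [e]
  exact (hf.int_exp_inc l z _).mul_const _

/-- the terminal continuation is nondecreasing in the terminal mass -/
theorem fd7_F0_mono (w : S → ℝ) {a a' : ℝ} (ha : 0 < a) (haa : a ≤ a') (hB : (⟨w, a⟩ : GhB S).Ok) (z : S → ℝ) :
    ghF0 ⟨w, a⟩ z ≤ ghF0 ⟨w, a'⟩ z := by
  have ha' : 0 < a' := ha.trans_le haa
  have hB' : (⟨w, a'⟩ : GhB S).Ok := ⟨hB.nonneg, hB.sum, ha'⟩
  have hZ := gh_ra_Z_pos hB z
  have hZ' := gh_ra_Z_pos hB' z
  simp only at hZ hZ'
  unfold ghF0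
  simp only
  have hp : 1 ≤ a' / a := (one_le_div ha).2 haa
  have h1 := Real.rpow_arith_mean_le_arith_mean_rpow Finset.univ w (fun s => Real.exp (a * z s)) (fun s _ => hB.nonneg s) hB.sum
    (fun s _ => (Real.exp_pos _).le) hp
  have e : ∀ s, Real.exp (a * z s) ^ (a' / a) = Real.exp (a' * z s) := by
    intro s
    rw [← Real.exp_mul]
    congr 1
    field_simp
  simp only [e] at h1
  have h2 := Real.log_le_log (Real.rpow_pos_of_pos hZ _) h1
  rw [Real.log_rpow hZ] at h2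
  rw [inv_mul_le_iff₀ ha]
  calc Real.log (∑ s, w s * Real.exp (a * z s)) = (a / a') * (a' / a * Real.log (∑ s, w s * Real.exp (a * z s))) := by
        field_simp
    _ ≤ (a / a') * Real.log (∑ s, w s * Real.exp (a' * z s)) := mul_le_mul_of_nonneg_left h2 (by positivity)
    _ = a * (a'⁻¹ * Real.log (∑ s, w s * Real.exp (a' * z s))) := by field_simp

/-- Lipschitz bound of the terminal continuation in the terminal mass (no derivative: `Z(a') ≤ e^{(a'-a) max z} Z(a)`, `Z(a) ≥ c e^{a max z}`) -/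
theorem fd7_F0_lip (w : S → ℝ) {a a' c : ℝ} (ha : 0 < a) (haa : a ≤ a') (hB : (⟨w, a⟩ : GhB S).Ok) (hc : 0 < c) (hw : ∀ s, c ≤ w s)
    (z : S → ℝ) : ghF0 ⟨w, a'⟩ z ≤ ghF0 ⟨w, a⟩ z + (a' - a) * Real.log (1 / c) / a ^ 2 := by
  have ha' : 0 < a' := ha.trans_le haa
  have hB' : (⟨w, a'⟩ : GhB S).Ok := ⟨hB.nonneg, hB.sum, ha'⟩
  have hZ := gh_ra_Z_pos hB z
  have hZ' := gh_ra_Z_pos hB' z
  simp only at hZ hZ'
  have hne : Nonempty S := by
    by_contra hcon
    rw [not_nonempty_iff] at hcon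
    have := hB.sum
    simp at this
  obtain ⟨s₀, -, hs₀⟩ := Finset.exists_max_image (Finset.univ : Finset S) z Finset.univ_nonempty
  have hM : ∀ s, z s ≤ z s₀ := fun s => hs₀ s (Finset.mem_univ s)
  have hw1 : w s₀ ≤ 1 := by
    have := Finset.single_le_sum (f := w) (fun s _ => hB.nonneg s) (Finset.mem_univ s₀)
    rwa [hB.sum] at this
  have hL : 0 ≤ Real.log (1 / c) := Real.log_nonneg (by rw [le_div_iff₀ hc]; linarith [hw s₀])
  set L := Real.log (1 / c) with hLdef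
  set Λ := Real.log (∑ s, w s * Real.exp (a * z s)) with hΛ
  set Λ' := Real.log (∑ s, w s * Real.exp (a' * z s)) with hΛ'
  -- upper bound of `Z(a')`
  have h1 : Λ' ≤ (a' - a) * z s₀ + Λ := by
    have : ∑ s, w s * Real.exp (a' * z s) ≤ Real.exp ((a' - a) * z s₀) * ∑ s, w s * Real.exp (a * z s) := by
      rw [Finset.mul_sum]
      refine Finset.sum_le_sum fun s _ => ?_
      have e : Real.exp (a' * z s) = Real.exp ((a' - a) * z s) * Real.exp (a * z s) := by
        rw [← Real.exp_add]; congr 1; ring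
      rw [e]
      have h3 : Real.exp ((a' - a) * z s) ≤ Real.exp ((a' - a) * z s₀) :=
        Real.exp_le_exp.2 (mul_le_mul_of_nonneg_left (hM s) (by linarith))
      calc w s * (Real.exp ((a' - a) * z s) * Real.exp (a * z s))
          = Real.exp ((a' - a) * z s) * (w s * Real.exp (a * z s)) := by ring
        _ ≤ _ := mul_le_mul_of_nonneg_right h3 (mul_nonneg (hB.nonneg s) (Real.exp_pos _).le)
    have h2 := Real.log_le_log hZ' this
    rwa [Real.log_mul (Real.exp_pos _).ne' hZ.ne', Real.log_exp] at h2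
  -- lower bound of `Z(a)`
  have h2 : a * z s₀ ≤ Λ + L := by
    have : c * Real.exp (a * z s₀) ≤ ∑ s, w s * Real.exp (a * z s) :=
      (mul_le_mul_of_nonneg_right (hw s₀) (Real.exp_pos _).le).trans
        (Finset.single_le_sum (f := fun s => w s * Real.exp (a * z s))
          (fun s _ => mul_nonneg (hB.nonneg s) (Real.exp_pos _).le) (Finset.mem_univ s₀))
    have h3 := Real.log_le_log (mul_pos hc (Real.exp_pos _)) this
    rw [Real.log_mul hc.ne' (Real.exp_pos _).ne', Real.log_exp] at h3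
    have : L = -Real.log c := by rw [hLdef, one_div, Real.log_inv]
    linarith
  have h3 : z s₀ ≤ (Λ + L) / a := by rw [le_div_iff₀ ha]; linarith
  have h4 : Λ' ≤ (a' - a) * ((Λ + L) / a) + Λ :=
    h1.trans (by linarith [mul_le_mul_of_nonneg_left h3 (by linarith : 0 ≤ a' - a)])
  show a'⁻¹ * Λ' ≤ a⁻¹ * Λ + (a' - a) * L / a ^ 2
  have h5 : a'⁻¹ * Λ' ≤ a'⁻¹ * ((a' - a) * ((Λ + L) / a) + Λ) := mul_le_mul_of_nonneg_left h4 (by positivity)
  have h6 : a'⁻¹ * ((a' - a) * ((Λ + L) / a) + Λ) = a⁻¹ * Λ + (a' - a) * L / (a * a') := by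
    field_simp
    ring
  have h7 : (a' - a) * L / (a * a') ≤ (a' - a) * L / a ^ 2 := by
    apply div_le_div_of_nonneg_left (mul_nonneg (by linarith) hL) (by positivity)
    nlinarith
  linarith

/-- = `fd_amass_lip` (no hypothesis on the masses of the levels is needed) -/
theorem fd7_amass_lip (w : S → ℝ) {a a' c : ℝ} (ha : 0 < a) (haa : a ≤ a') (hB : (⟨w, a⟩ : GhB S).Ok) (hc : 0 < c) (hw : ∀ s, c ≤ w s)
    (ls : List (GhLv S ι)) (z : S → ℝ) :
    0 ≤ ghF ⟨w, a'⟩ ls z - ghF ⟨w, a⟩ ls z ∧ ghF ⟨w, a'⟩ ls z - ghF ⟨w, a⟩ ls z ≤ (a' - a) * Real.log (1 / c) / a ^ 2 := by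
  have hB' : (⟨w, a'⟩ : GhB S).Ok := ⟨hB.nonneg, hB.sum, ha.trans_le haa⟩
  have key : ∀ (ls : List (GhLv S ι)) (y : S → ℝ), ghF ⟨w, a⟩ ls y ≤ ghF ⟨w, a'⟩ ls y ∧
      ghF ⟨w, a'⟩ ls y ≤ ghF ⟨w, a⟩ ls y + (a' - a) * Real.log (1 / c) / a ^ 2 := by
    intro ls
    induction ls with
    | nil => exact fun y => ⟨fd7_F0_mono w ha haa hB y, fd7_F0_lip w ha haa hB hc hw y⟩
    | cons l ls ih => exact fun y => fd7_T_sandwich (gh_ra_F_ms hB ls) (gh_ra_F_ms hB' ls) ih l y
  have := key ls z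
  exact ⟨by linarith [this.1], by linarith [this.2]⟩

end amass

section massd
variable {S ι : Type} [Fintype S] [Fintype ι]

theorem fd7_exp_sub_le (a b : ℝ) : |Real.exp a - Real.exp b| ≤ Real.exp (max a b) * |a - b| := by
  have key : ∀ a b : ℝ, b ≤ a → |Real.exp a - Real.exp b| ≤ Real.exp (max a b) * |a - b| := by
    intro a b h
    rw [max_eq_left h, abs_of_nonneg (sub_nonneg.2 (Real.exp_le_exp.2 h)), abs_of_nonneg (sub_nonneg.2 h)]
    have h1 := Real.add_one_le_exp (b - a)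
    have h2 : Real.exp b = Real.exp a * Real.exp (b - a) := by rw [← Real.exp_add]; congr 1; ring
    rw [h2]
    nlinarith [Real.exp_pos a]
  rcases le_total b a with h | h
  · exact key a b h
  · rw [abs_sub_comm, max_comm, abs_sub_comm a b]
    exact key b a h

/-- a pointwise derivative in a parameter of measurable functions is measurable -/
theorem fd7_meas_of_deriv {G : ℝ → (S → ℝ) → ℝ} {g : (S → ℝ) → ℝ} {m : ℝ} (hG : ∀ μ, Measurable (G μ))
    (hd : ∀ y, HasDerivAt (fun μ => G μ y) (g y) m) : Measurable g := by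
  have hu : Filter.Tendsto (fun n : ℕ => (1 : ℝ) / ((n : ℝ) + 1)) Filter.atTop (nhdsWithin 0 {0}ᶜ) := by
    refine tendsto_nhdsWithin_iff.2 ⟨tendsto_one_div_add_atTop_nhds_zero_nat, Filter.Eventually.of_forall fun n => ?_⟩
    simp only [Set.mem_compl_iff, Set.mem_singleton_iff]
    positivity
  refine measurable_of_tendsto_metrizable
    (f := fun (n : ℕ) y => ((1 : ℝ) / ((n : ℝ) + 1))⁻¹ • (G (m + (1 : ℝ) / ((n : ℝ) + 1)) y - G m y)) (fun n => ?_) ?_
  · exact ((hG _).sub (hG _)).const_smul (((1 : ℝ) / ((n : ℝ) + 1))⁻¹)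
  · exact tendsto_pi_nhds.2 fun y => (hd y).tendsto_slope_zero.comp hu

/-- `T_m` is a contraction for the uniform distance -/
theorem fd7_T_lip {f g : (S → ℝ) → ℝ} (hf : GhMS f) (hg : GhMS g) {δ : ℝ} (h : ∀ y, |f y - g y| ≤ δ) (l : GhLv S ι) (z : S → ℝ) :
    |ghT (ghStd ι) l.m (fun ξ => f (z + l.inc ξ)) - ghT (ghStd ι) l.m (fun ξ => g (z + l.inc ξ))| ≤ δ := by
  have key : ∀ {f g : (S → ℝ) → ℝ}, GhMS f → GhMS g → (∀ y, f y ≤ g y + δ) →
      ghT (ghStd ι) l.m (fun ξ => f (z + l.inc ξ)) ≤ ghT (ghStd ι) l.m (fun ξ => g (z + l.inc ξ)) + δ := by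
    intro f g hf hg h
    rw [← gh_ra_T_add (hg.int_inc l z) (hg.int_exp_inc l z _) δ]
    refine gh_ra_T_mono (hf.int_inc l z) ((hg.int_inc l z).add (integrable_const δ)) (hf.int_exp_inc l z _) ?_ fun ξ => h _
    have e : (fun ξ => Real.exp (l.m * (g (z + l.inc ξ) + δ))) = fun ξ => Real.exp (l.m * g (z + l.inc ξ)) * Real.exp (l.m * δ) := by
      funext ξ; rw [mul_add, Real.exp_add]
    rw [e]
    exact (hg.int_exp_inc l z _).mul_const _
  have h1 := key hf hg fun y => by linarith [(abs_le.1 (h y)).2]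
  have h2 := key hg hf fun y => by linarith [(abs_le.1 (h y)).1]
  exact abs_le.2 ⟨by linarith, by linarith⟩

/-- **differentiation in a parameter through one level** -/
theorem fd7_step_deriv {G : ℝ → (S → ℝ) → ℝ} {g : (S → ℝ) → ℝ} {m ε C : ℝ} (hε : 0 < ε) (hC : 0 ≤ C)
    (hG : ∀ μ, GhMS (G μ)) (hd : ∀ y, HasDerivAt (fun μ => G μ y) (g y) m)
    (hL : ∀ μ ∈ Metric.ball m ε, ∀ μ' ∈ Metric.ball m ε, ∀ y, |G μ y - G μ' y| ≤ C * |μ - μ'|)
    (l : GhLv S ι) (z : S → ℝ) :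
    HasDerivAt (fun μ => ghT (ghStd ι) l.m fun ξ => G μ (z + l.inc ξ))
      (∫ ξ, Real.exp (l.m * (G m (z + l.inc ξ) - ghT (ghStd ι) l.m fun ξ => G m (z + l.inc ξ))) * g (z + l.inc ξ) ∂ghStd ι) m := by
  have hgm : Measurable g := fd7_meas_of_deriv (fun μ => (hG μ).cont.measurable) hd
  have hinc : Measurable fun ξ : ι → ℝ => z + l.inc ξ := (gh_ra_inc_cont l).measurable.const_add z
  have hmem : m ∈ Metric.ball m ε := Metric.mem_ball_self hε
  by_cases h0 : l.m = 0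
  · simp only [ghT, h0, if_true, zero_mul, Real.exp_zero, one_mul]
    refine (hasDerivAt_integral_of_dominated_loc_of_lip (bound := fun _ => C) (Metric.ball_mem_nhds m hε)
      (Filter.Eventually.of_forall fun μ => ((hG μ).cont_inc l z).aestronglyMeasurable) ((hG m).int_inc l z)
      (hgm.comp hinc).aestronglyMeasurable (Filter.Eventually.of_forall fun ξ => ?_) (integrable_const C)
      (Filter.Eventually.of_forall fun ξ => hd _)).2
    refine LipschitzOnWith.of_dist_le_mul fun μ hμ μ' hμ' => ?_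
    rw [Real.dist_eq, Real.dist_eq]
    simpa [abs_of_nonneg hC] using hL μ hμ μ' hμ' (z + l.inc ξ)
  · simp only [ghT, h0, if_false]
    set c := l.m with hc
    have hI := (hG m).int_exp_inc l z c
    have hpos := integral_exp_pos hI
    have hb : ∀ μ ∈ Metric.ball m ε, ∀ y, c * G μ y ≤ c * G m y + |c| * (C * ε) := by
      intro μ hμ y
      have h1 := hL μ hμ m hmem y
      have h2 : |μ - m| ≤ ε := by rw [← Real.dist_eq]; exact (Metric.mem_ball.1 hμ).le
      have h3 : |G μ y - G m y| ≤ C * ε := h1.trans (mul_le_mul_of_nonneg_left h2 hC)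
      have h4 : c * (G μ y - G m y) ≤ |c| * (C * ε) :=
        calc c * (G μ y - G m y) ≤ |c * (G μ y - G m y)| := le_abs_self _
          _ = |c| * |G μ y - G m y| := abs_mul _ _
          _ ≤ _ := mul_le_mul_of_nonneg_left h3 (abs_nonneg _)
      linarith
    have key := (hasDerivAt_integral_of_dominated_loc_of_lip
      (F := fun μ ξ => Real.exp (c * G μ (z + l.inc ξ)))
      (F' := fun ξ => Real.exp (c * G m (z + l.inc ξ)) * (c * g (z + l.inc ξ)))
      (bound := fun ξ => Real.exp (|c| * (C * ε)) * (|c| * C) * Real.exp (c * G m (z + l.inc ξ))) (Metric.ball_mem_nhds m hε)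
      (Filter.Eventually.of_forall fun μ =>
        (Real.continuous_exp.comp (continuous_const.mul ((hG μ).cont_inc l z))).aestronglyMeasurable) hI
      ((Real.continuous_exp.comp (continuous_const.mul ((hG m).cont_inc l z))).measurable.mul
        ((hgm.comp hinc).const_mul c)).aestronglyMeasurable
      (Filter.Eventually.of_forall fun ξ => ?_) (hI.const_mul _)
      (Filter.Eventually.of_forall fun ξ => ((hd (z + l.inc ξ)).const_mul c).exp)).2
    · have h2 := (key.log hpos.ne').const_mul c⁻¹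
      refine h2.congr_deriv ?_
      rw [div_eq_mul_inv, ← mul_assoc, mul_comm c⁻¹, mul_assoc, ← integral_mul_const]
      refine integral_congr_ae (Filter.Eventually.of_forall fun ξ => ?_)
      simp only
      rw [mul_sub, Real.exp_sub, ← mul_assoc c c⁻¹, mul_inv_cancel₀ h0, one_mul, Real.exp_log hpos]
      field_simp
    · refine LipschitzOnWith.of_dist_le_mul fun μ hμ μ' hμ' => ?_
      rw [Real.dist_eq, Real.dist_eq]
      have hbn : 0 ≤ Real.exp (|c| * (C * ε)) * (|c| * C) * Real.exp (c * G m (z + l.inc ξ)) := by positivity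
      simp only [Real.coe_nnabs, abs_of_nonneg hbn]
      refine (fd7_exp_sub_le _ _).trans ?_
      have h1 : Real.exp (max (c * G μ (z + l.inc ξ)) (c * G μ' (z + l.inc ξ)))
          ≤ Real.exp (|c| * (C * ε)) * Real.exp (c * G m (z + l.inc ξ)) := by
        rw [← Real.exp_add]
        exact Real.exp_le_exp.2 (max_le (by linarith [hb μ hμ (z + l.inc ξ)]) (by linarith [hb μ' hμ' (z + l.inc ξ)]))
      have h2 : |c * G μ (z + l.inc ξ) - c * G μ' (z + l.inc ξ)| ≤ |c| * (C * |μ - μ'|) := by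
        rw [← mul_sub, abs_mul]
        exact mul_le_mul_of_nonneg_left (hL μ hμ μ' hμ' _) (abs_nonneg _)
      calc Real.exp (max (c * G μ (z + l.inc ξ)) (c * G μ' (z + l.inc ξ))) * |c * G μ (z + l.inc ξ) - c * G μ' (z + l.inc ξ)|
          ≤ (Real.exp (|c| * (C * ε)) * Real.exp (c * G m (z + l.inc ξ))) * (|c| * (C * |μ - μ'|)) :=
            mul_le_mul h1 h2 (abs_nonneg _) (by positivity)
        _ = _ := by ring

end massd

section Tmass
variable {Ω : Type} [MeasurableSpace Ω] {P : Measure Ω} [IsProbabilityMeasure P]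

theorem fd7_expset {X : Ω → ℝ} (hX : ∀ t, Integrable (fun ω => Real.exp (t * X ω)) P) (t : ℝ) :
    t ∈ interior (integrableExpSet X P) := by
  have : integrableExpSet X P = Set.univ := Set.eq_univ_of_forall fun t => hX t
  rw [this, interior_univ]
  exact Set.mem_univ t

/-- `exp (m T_m X) = E exp (m X)` -/
theorem fd7_exp_T {X : Ω → ℝ} (hX : ∀ t, Integrable (fun ω => Real.exp (t * X ω)) P) {m : ℝ} (hm : m ≠ 0) :
    Real.exp (m * ghT P m X) = ∫ ω, Real.exp (m * X ω) ∂P := by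
  unfold ghT
  rw [if_neg hm, ← mul_assoc, mul_inv_cancel₀ hm, one_mul, Real.exp_log (integral_exp_pos (hX m))]

/-- **derivative of `T_μ X` in the mass**: `∂_μ T_μ X = μ⁻¹ (E_μ X - T_μ X)` -/
theorem fd7_T_deriv {X : Ω → ℝ} (hX : ∀ t, Integrable (fun ω => Real.exp (t * X ω)) P) {m : ℝ} (hm : m ≠ 0) :
    HasDerivAt (fun μ => ghT P μ X) (∫ ω, Real.exp (m * (X ω - ghT P m X)) * ((X ω - ghT P m X) / m) ∂P) m := by
  have h1 : HasDerivAt (mgf X P) (∫ ω, X ω * Real.exp (m * X ω) ∂P) m := hasDerivAt_mgf (fd7_expset hX m)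
  have hpos : 0 < mgf X P m := integral_exp_pos (hX m)
  have h2 : HasDerivAt (fun μ : ℝ => μ⁻¹ * Real.log (mgf X P μ))
      (-(m ^ 2)⁻¹ * Real.log (mgf X P m) + m⁻¹ * ((∫ ω, X ω * Real.exp (m * X ω) ∂P) / mgf X P m)) m :=
    (hasDerivAt_inv hm).mul (h1.log hpos.ne')
  have h3 : (fun μ => ghT P μ X) =ᶠ[nhds m] fun μ : ℝ => μ⁻¹ * Real.log (mgf X P μ) := by
    filter_upwards [isOpen_ne.mem_nhds hm] with μ hμ
    unfold ghT
    rw [if_neg hμ]
    rfl
  refine (h2.congr_of_eventuallyEq h3).congr_deriv ?_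
  have hi1 : Integrable (fun ω => X ω * Real.exp (m * X ω)) P := by
    simpa using integrable_pow_mul_exp_of_mem_interior_integrableExpSet (fd7_expset hX m) 1
  set T := ghT P m X with hT
  have hE : Real.exp (m * T) = mgf X P m := fd7_exp_T hX hm
  have hlog : Real.log (mgf X P m) = m * T := by rw [← hE, Real.log_exp]
  have e : ∀ ω, Real.exp (m * (X ω - T)) * ((X ω - T) / m)
      = (m * mgf X P m)⁻¹ * (X ω * Real.exp (m * X ω)) - (T * (m * mgf X P m)⁻¹) * Real.exp (m * X ω) := by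
    intro ω
    rw [mul_sub, Real.exp_sub, hE]
    field_simp
  simp_rw [e]
  rw [integral_sub (hi1.const_mul _) ((hX m).const_mul _), integral_const_mul, integral_const_mul, hlog]
  have : ∫ ω, Real.exp (m * X ω) ∂P = mgf X P m := rfl
  rw [this]
  field_simp
  ring

theorem fd7_mul_exp_le (u : ℝ) : |Real.exp u * u| ≤ Real.exp (2 * u) + 1 := by
  rw [abs_mul, abs_of_pos (Real.exp_pos u)]
  rcases le_total 0 u with h | h
  · rw [abs_of_nonneg h]
    have h1 : u ≤ Real.exp u := by linarith [Real.add_one_le_exp u]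
    have h2 : Real.exp (2 * u) = Real.exp u * Real.exp u := by rw [← Real.exp_add]; congr 1; ring
    rw [h2]
    nlinarith [Real.exp_pos u]
  · rw [abs_of_nonpos h]
    have h1 : -u ≤ Real.exp (-u) := by linarith [Real.add_one_le_exp (-u)]
    have h2 : Real.exp u * Real.exp (-u) = 1 := by rw [← Real.exp_add]; simp
    have h3 : Real.exp u * -u ≤ 1 := by
      rw [← h2]; exact mul_le_mul_of_nonneg_left h1 (Real.exp_pos u).le
    linarith [Real.exp_pos (2 * u)]

/-- crude bound of the derivative in the mass -/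
theorem fd7_T_deriv_bd {X : Ω → ℝ} (hX : ∀ t, Integrable (fun ω => Real.exp (t * X ω)) P) {m : ℝ} (hm : m ≠ 0) :
    |∫ ω, Real.exp (m * (X ω - ghT P m X)) * ((X ω - ghT P m X) / m) ∂P|
      ≤ (m ^ 2)⁻¹ * ((∫ ω, Real.exp (2 * m * X ω) ∂P) / (∫ ω, Real.exp (m * X ω) ∂P) ^ 2 + 1) := by
  set T := ghT P m X with hT
  have hE : Real.exp (m * T) = ∫ ω, Real.exp (m * X ω) ∂P := fd7_exp_T hX hm
  have hi : Integrable (fun ω => (m ^ 2)⁻¹ * (Real.exp (2 * m * X ω) * (Real.exp (m * T) ^ 2)⁻¹ + 1)) P :=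
    (((hX (2 * m)).mul_const _).add (integrable_const 1)).const_mul _
  have hle : ∀ ω, ‖Real.exp (m * (X ω - T)) * ((X ω - T) / m)‖
      ≤ (m ^ 2)⁻¹ * (Real.exp (2 * m * X ω) * (Real.exp (m * T) ^ 2)⁻¹ + 1) := by
    intro ω
    have h1 := fd7_mul_exp_le (m * (X ω - T))
    have e1 : Real.exp (m * (X ω - T)) * ((X ω - T) / m) = (m ^ 2)⁻¹ * (Real.exp (m * (X ω - T)) * (m * (X ω - T))) := by
      field_simp
    have e2 : Real.exp (2 * (m * (X ω - T))) = Real.exp (2 * m * X ω) * (Real.exp (m * T) ^ 2)⁻¹ := by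
      rw [← Real.exp_nat_mul, ← Real.exp_neg, ← Real.exp_add]
      congr 1
      push_cast
      ring
    rw [Real.norm_eq_abs, e1, abs_mul, abs_of_nonneg (by positivity : (0:ℝ) ≤ (m ^ 2)⁻¹), ← e2]
    exact mul_le_mul_of_nonneg_left h1 (by positivity)
  calc |∫ ω, Real.exp (m * (X ω - T)) * ((X ω - T) / m) ∂P|
      ≤ ∫ ω, (m ^ 2)⁻¹ * (Real.exp (2 * m * X ω) * (Real.exp (m * T) ^ 2)⁻¹ + 1) ∂P := by
        rw [← Real.norm_eq_abs]
        exact norm_integral_le_of_norm_le hi (Filter.Eventually.of_forall hle)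
    _ = _ := by
        rw [integral_const_mul, integral_add ((hX (2 * m)).mul_const _) (integrable_const 1), integral_mul_const, hE]
        simp [div_eq_mul_inv]

end Tmass

section massfin
variable {S ι : Type} [Fintype S] [Fintype ι]

theorem fd7_ratio_bd {f : (S → ℝ) → ℝ} (hf : GhMS f) (l : GhLv S ι) (y : S → ℝ) {μ R : ℝ} (h : 2 * |μ| * l.K ≤ R) :
    (∫ ξ, Real.exp (2 * μ * f (y + l.inc ξ)) ∂ghStd ι) / (∫ ξ, Real.exp (μ * f (y + l.inc ξ)) ∂ghStd ι) ^ 2
      ≤ (∫ ξ : ι → ℝ, Real.exp (R * ‖ξ‖) ∂ghStd ι) / (∫ ξ : ι → ℝ, Real.exp (-R * ‖ξ‖) ∂ghStd ι) ^ 2 := by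
  have hK := gh_ra_K_nonneg l
  have hJ1 := gh_ra_int_exp_norm (ι := ι) R
  have hJ2 := gh_ra_int_exp_norm (ι := ι) (-R)
  have hp1 := integral_exp_pos hJ1
  have hp2 := integral_exp_pos hJ2
  have hb : ∀ (t : ℝ) (ξ : ι → ℝ), |t * (f (y + l.inc ξ) - f y)| ≤ |t| * l.K * ‖ξ‖ := by
    intro t ξ
    rw [abs_mul, mul_assoc]
    exact mul_le_mul_of_nonneg_left (hf.inc_le l y ξ) (abs_nonneg _)
  have hN : ∫ ξ, Real.exp (2 * μ * f (y + l.inc ξ)) ∂ghStd ι
      ≤ Real.exp (2 * μ * f y) * ∫ ξ : ι → ℝ, Real.exp (R * ‖ξ‖) ∂ghStd ι := by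
    rw [← integral_const_mul]
    refine integral_mono (hf.int_exp_inc l y _) (hJ1.const_mul _) fun ξ => ?_
    simp only
    rw [← Real.exp_add]
    apply Real.exp_le_exp.2
    have h1 := (abs_le.1 (hb (2 * μ) ξ)).2
    have h2 : |2 * μ| * l.K * ‖ξ‖ ≤ R * ‖ξ‖ := by
      apply mul_le_mul_of_nonneg_right _ (norm_nonneg _)
      rw [abs_mul, abs_two]; exact h
    linarith
  have hD : Real.exp (μ * f y) * ∫ ξ : ι → ℝ, Real.exp (-R * ‖ξ‖) ∂ghStd ι
      ≤ ∫ ξ, Real.exp (μ * f (y + l.inc ξ)) ∂ghStd ι := by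
    rw [← integral_const_mul]
    refine integral_mono (hJ2.const_mul _) (hf.int_exp_inc l y _) fun ξ => ?_
    simp only
    rw [← Real.exp_add]
    apply Real.exp_le_exp.2
    have h1 := (abs_le.1 (hb μ ξ)).1
    have h2 : |μ| * l.K * ‖ξ‖ ≤ R * ‖ξ‖ := by
      apply mul_le_mul_of_nonneg_right _ (norm_nonneg _)
      nlinarith [abs_nonneg μ]
    linarith
  have hD2 : (Real.exp (μ * f y) * ∫ ξ : ι → ℝ, Real.exp (-R * ‖ξ‖) ∂ghStd ι) ^ 2
      ≤ (∫ ξ, Real.exp (μ * f (y + l.inc ξ)) ∂ghStd ι) ^ 2 := pow_le_pow_left₀ (by positivity) hD 2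
  calc (∫ ξ, Real.exp (2 * μ * f (y + l.inc ξ)) ∂ghStd ι) / (∫ ξ, Real.exp (μ * f (y + l.inc ξ)) ∂ghStd ι) ^ 2
      ≤ (Real.exp (2 * μ * f y) * ∫ ξ : ι → ℝ, Real.exp (R * ‖ξ‖) ∂ghStd ι)
          / (Real.exp (μ * f y) * ∫ ξ : ι → ℝ, Real.exp (-R * ‖ξ‖) ∂ghStd ι) ^ 2 :=
        div_le_div₀ (by positivity) hN (by positivity) hD2
    _ = _ := by
        have e : Real.exp (2 * μ * f y) = Real.exp (μ * f y) ^ 2 := by
          rw [← Real.exp_nat_mul]; congr 1; push_cast; ring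
        rw [e, mul_pow, mul_div_mul_left _ _ (by positivity)]

/-- the mass of one level: Lipschitz near `m > 0`, uniformly in the field -/
theorem fd7_base_lip {f : (S → ℝ) → ℝ} (hf : GhMS f) (l : GhLv S ι) {m : ℝ} (hm : 0 < m) :
    ∃ C : ℝ, 0 ≤ C ∧ ∀ μ ∈ Metric.ball m (m / 2), ∀ μ' ∈ Metric.ball m (m / 2), ∀ y : S → ℝ,
      |ghT (ghStd ι) μ (fun ξ => f (y + l.inc ξ)) - ghT (ghStd ι) μ' (fun ξ => f (y + l.inc ξ))| ≤ C * |μ - μ'| := by
  set R := 3 * m * l.K with hR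
  set Q := (∫ ξ : ι → ℝ, Real.exp (R * ‖ξ‖) ∂ghStd ι) / (∫ ξ : ι → ℝ, Real.exp (-R * ‖ξ‖) ∂ghStd ι) ^ 2 with hQ
  have hQ0 : 0 ≤ Q := div_nonneg (integral_nonneg fun _ => (Real.exp_pos _).le) (sq_nonneg _)
  refine ⟨4 / m ^ 2 * (Q + 1), by positivity, fun μ hμ μ' hμ' y => ?_⟩
  have hX : ∀ t, Integrable (fun ξ => Real.exp (t * f (y + l.inc ξ))) (ghStd ι) := fun t => hf.int_exp_inc l y t
  have hball : ∀ x ∈ Metric.ball m (m / 2), m / 2 < x ∧ x < 3 * m / 2 := by
    intro x hx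
    rw [Metric.mem_ball, Real.dist_eq] at hx
    have := abs_lt.1 hx
    exact ⟨by linarith [this.1], by linarith [this.2]⟩
  have := Convex.norm_image_sub_le_of_norm_hasDerivWithin_le (s := Metric.ball m (m / 2))
    (f := fun x => ghT (ghStd ι) x (fun ξ => f (y + l.inc ξ)))
    (f' := fun x => ∫ ξ, Real.exp (x * (f (y + l.inc ξ) - ghT (ghStd ι) x fun ξ => f (y + l.inc ξ)))
      * ((f (y + l.inc ξ) - ghT (ghStd ι) x fun ξ => f (y + l.inc ξ)) / x) ∂ghStd ι)
    (C := 4 / m ^ 2 * (Q + 1))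
    (fun x hx => (fd7_T_deriv hX (by linarith [(hball x hx).1] : x ≠ 0)).hasDerivWithinAt)
    (fun x hx => ?_) (convex_ball _ _) hμ' hμ
  · simpa only [Real.norm_eq_abs] using this
  · obtain ⟨h1, h2⟩ := hball x hx
    have hx0 : 0 < x := by linarith
    rw [Real.norm_eq_abs]
    refine (fd7_T_deriv_bd hX hx0.ne').trans ?_
    have h3 : (x ^ 2)⁻¹ ≤ 4 / m ^ 2 := by
      rw [inv_le_comm₀ (by positivity) (by positivity), inv_div]
      nlinarith
    have h4 := fd7_ratio_bd hf l y (μ := x) (R := R) (by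
      rw [abs_of_pos hx0, hR]
      nlinarith [gh_ra_K_nonneg l])
    exact mul_le_mul h3 (by linarith) (add_nonneg (div_nonneg (integral_nonneg fun _ => (Real.exp_pos _).le) (sq_nonneg _)) zero_le_one)
      (by positivity)

/-- = `fd_mass_deriv` (no hypothesis on the other masses is needed) -/
theorem fd7_mass_deriv (B : GhB S) (hB : B.Ok) (l₁ : List (GhLv S ι)) (A : S → ι → ℝ) (l₂ : List (GhLv S ι)) {m : ℝ} (hm : 0 < m)
    (z : S → ℝ) :
    HasDerivAt (fun μ : ℝ => ghF B (l₁ ++ ⟨μ, A⟩ :: l₂) z)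
      (ghPath B (l₁ ++ ⟨m, A⟩ :: l₂) z fun ξ _ =>
        (ghF B l₂ (z + ghPre (l₁ ++ ⟨m, A⟩ :: l₂) ξ (l₁.length + 1))
          - ghF B (⟨m, A⟩ :: l₂) (z + ghPre (l₁ ++ ⟨m, A⟩ :: l₂) ξ l₁.length)) / m) m := by
  obtain ⟨C, hC, hlip⟩ := fd7_base_lip (gh_ra_F_ms hB l₂) (⟨m, A⟩ : GhLv S ι) hm
  have key : ∀ l₁ : List (GhLv S ι),
      (∀ μ ∈ Metric.ball m (m / 2), ∀ μ' ∈ Metric.ball m (m / 2), ∀ y : S → ℝ,
        |ghF B (l₁ ++ ⟨μ, A⟩ :: l₂) y - ghF B (l₁ ++ ⟨μ', A⟩ :: l₂) y| ≤ C * |μ - μ'|) ∧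
      ∀ z : S → ℝ, HasDerivAt (fun μ : ℝ => ghF B (l₁ ++ ⟨μ, A⟩ :: l₂) z)
        (ghPath B (l₁ ++ ⟨m, A⟩ :: l₂) z fun ξ _ =>
          (ghF B l₂ (z + ghPre (l₁ ++ ⟨m, A⟩ :: l₂) ξ (l₁.length + 1))
            - ghF B (⟨m, A⟩ :: l₂) (z + ghPre (l₁ ++ ⟨m, A⟩ :: l₂) ξ l₁.length)) / m) m := by
    intro l₁
    induction l₁ with
    | nil =>
      refine ⟨hlip, fun z => ?_⟩
      have h1 := fd7_T_deriv (P := ghStd ι) (X := fun ξ => ghF B l₂ (z + (⟨m, A⟩ : GhLv S ι).inc ξ))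
        (fun t => (gh_ra_F_ms hB l₂).int_exp_inc _ z t) hm.ne'
      refine HasDerivAt.congr_deriv h1 ?_
      simp only [List.nil_append, List.length_nil, ghPath, obt_pre_zero, zero_add, add_zero]
      refine integral_congr_ae (Filter.Eventually.of_forall fun ξ => ?_)
      simp only
      have e : ∀ η : ℕ → ι → ℝ, ghPre ((⟨m, A⟩ : GhLv S ι) :: l₂) (ghCons ξ η) 1 = (⟨m, A⟩ : GhLv S ι).inc ξ := by
        intro η
        have := obt_pre_cons (⟨m, A⟩ : GhLv S ι) l₂ ξ η 0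
        rw [obt_pre_zero, add_zero] at this
        exact this
      simp only [e, obt_path_const hB]
      rfl
    | cons l l₁ ih =>
      obtain ⟨ih1, ih2⟩ := ih
      refine ⟨fun μ hμ μ' hμ' y => ?_, fun z => ?_⟩
      · exact fd7_T_lip (gh_ra_F_ms hB _) (gh_ra_F_ms hB _) (ih1 μ hμ μ' hμ') l y
      · have h1 := fd7_step_deriv (G := fun μ => ghF B (l₁ ++ ⟨μ, A⟩ :: l₂)) (half_pos hm) hC (fun μ => gh_ra_F_ms hB _) ih2 ih1 l z
        refine HasDerivAt.congr_deriv h1 ?_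
        simp only [List.cons_append, List.length_cons, ghPath]
        refine integral_congr_ae (Filter.Eventually.of_forall fun ξ => ?_)
        simp only [obt_pre_cons, add_assoc]
        rfl
  exact (key l₁).2 z

end massfin

end Claimed.Agent.R286
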