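import Claimed.Agent.R286.Fd.PinDefs
import Claimed.Agent.R286.Fd.RegA
import Claimed.Agent.R286.Fd.ObsTw

/-!
# Row 286 (S0533), Fd/PinA : block PA of `Fd/PinC` (one path = explicit density on the flat Gaussian drivers)      (helper63; names `pina_*`)
-/

set_option autoImplicit false

namespace Claimed.Agent.R286

open MeasureTheory ProbabilityTheory Set

section PA
variable {S ι : Type} [Fintype S] [Fintype ι]

/-- PA1 -/
theorem pina_den_closed (B : GhB S) (hB : B.Ok) (μ : ℝ) (ls : List (GhLv S ι)) (z : S → ℝ) (ξ : ℕ → ι → ℝ) (s : S) :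
    ghDen B ls z ξ s
      = B.w s * Real.exp (B.a * (z s + ghSum ls ξ s) - ghR B μ ls z ξ - μ * ghF B ls z) := by
  induction ls generalizing μ z ξ with
  | nil =>
    have hZ := gh_ra_Z_pos hB z
    have ha := hB.pos.ne'
    show ghGw B z s = B.w s * Real.exp (B.a * (z s + (0 : S → ℝ) s) - (B.a - μ) * ghF0 B z - μ * ghF0 B z)
    have e : B.a * (z s + (0 : S → ℝ) s) - (B.a - μ) * ghF0 B z - μ * ghF0 B z
        = B.a * z s - Real.log (∑ t, B.w t * Real.exp (B.a * z t)) := by
      unfold ghF0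
      simp only [Pi.zero_apply, add_zero]
      field_simp
      ring
    rw [e, Real.exp_sub, Real.exp_log hZ]
    unfold ghGw
    ring
  | cons l ls ih =>
    show ghD B l ls z (ξ 0) * ghDen B ls (z + l.inc (ξ 0)) (fun j => ξ (j + 1)) s
      = B.w s * Real.exp (B.a * (z s + (l.inc (ξ 0) + ghSum ls fun j => ξ (j + 1)) s)
          - ((l.m - μ) * ghF B (l :: ls) z + ghR B l.m ls (z + l.inc (ξ 0)) (fun j => ξ (j + 1)))
          - μ * ghF B (l :: ls) z)
    rw [ih l.m]
    unfold ghD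
    rw [mul_left_comm, ← Real.exp_add]
    congr 2
    simp only [Pi.add_apply]
    ring

/-- glue one driver in front of flat drivers -/
def pinaGl (N : ℕ) (p : (ι → ℝ) × (Fin N × ι → ℝ)) : Fin (N + 1) × ι → ℝ :=
  fun q => Fin.cases (p.1 q.2) (fun t => p.2 (t, q.2)) q.1

theorem pina_gl_meas (N : ℕ) : Measurable (pinaGl (ι := ι) N) := by
  refine measurable_pi_lambda _ fun q => ?_
  obtain ⟨t, e⟩ := q
  induction t using Fin.cases with
  | zero => exact (measurable_pi_apply e).comp measurable_fst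
  | succ t => exact (measurable_pi_apply (t, e)).comp measurable_snd

theorem pina_gl_map (N : ℕ) : ((ghStd ι).prod (ghFlat ι N)).map (pinaGl N) = ghFlat ι (N + 1) := by
  unfold ghFlat
  symm
  refine Measure.pi_eq fun s hs => ?_
  rw [Measure.map_apply (pina_gl_meas N) (MeasurableSet.univ_pi hs)]
  have e : pinaGl N ⁻¹' (Set.pi univ s)
      = (Set.pi univ fun e : ι => s (0, e)) ×ˢ (Set.pi univ fun q : Fin N × ι => s (q.1.succ, q.2)) := by
    ext p
    simp only [mem_preimage, mem_pi, mem_univ, true_implies, mem_prod, Prod.forall]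
    constructor
    · intro h
      exact ⟨fun e => h 0 e, fun t e => h t.succ e⟩
    · rintro ⟨h0, h1⟩ t e
      induction t using Fin.cases with
      | zero => exact h0 e
      | succ t => exact h1 t e
  rw [e, Measure.prod_prod]
  unfold ghStd
  rw [Measure.pi_pi, Measure.pi_pi, Fintype.prod_prod_type,
    Fintype.prod_prod_type (f := fun i => gaussianReal 0 1 (s i)), Fin.prod_univ_succ]

theorem pina_ext_gl (N : ℕ) (ξ : ι → ℝ) (x : Fin N × ι → ℝ) :
    ghZx (N + 1) (pinaGl N (ξ, x)) = ghCons ξ (ghZx N x) := by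
  funext t e
  cases t with
  | zero => simp [ghZx, ghCons, pinaGl]
  | succ t =>
    by_cases h : t < N
    · have h' : t + 1 < N + 1 := by omega
      simp only [ghZx, ghCons, pinaGl, h, h', dif_pos]
      rfl
    · have h' : ¬ t + 1 < N + 1 := by omega
      simp only [ghZx, ghCons, h, h', dif_neg, not_false_eq_true]

theorem pina_ext_cont (N : ℕ) : Continuous (ghZx (ι := ι) N) := by
  refine continuous_pi fun t => continuous_pi fun e => ?_
  unfold ghZx
  by_cases h : t < N
  · simp only [h, dif_pos]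
    exact continuous_apply _
  · simp only [h, dif_neg, not_false_eq_true]
    exact continuous_const

theorem pina_ext_norm (N : ℕ) (x : Fin N × ι → ℝ) (t : ℕ) : ‖ghZx N x t‖ ≤ ‖x‖ := by
  refine (pi_norm_le_iff_of_nonneg (norm_nonneg _)).2 fun e => ?_
  unfold ghZx
  by_cases h : t < N
  · simp only [h, dif_pos]
    exact norm_le_pi_norm x _
  · simp only [h, dif_neg, not_false_eq_true, norm_zero]
    exact norm_nonneg _

theorem pina_den_nonneg {B : GhB S} (hB : B.Ok) (ls : List (GhLv S ι)) (z : S → ℝ) (ξ : ℕ → ι → ℝ) (s : S) :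
    0 ≤ ghDen B ls z ξ s := by
  induction ls generalizing z ξ with
  | nil => exact gh_ra_Gw_nonneg hB z s
  | cons l ls ih => exact mul_nonneg (gh_ra_D_pos B l ls z _).le (ih _ _)

theorem pina_den_cont {B : GhB S} (hB : B.Ok) (ls : List (GhLv S ι)) (s : S) :
    Continuous fun p : (S → ℝ) × (ℕ → ι → ℝ) => ghDen B ls p.1 p.2 s := by
  induction ls with
  | nil => exact (gh_ra_Gw_cont hB s).comp continuous_fst
  | cons l ls ih =>
    have h0 : Continuous fun p : (S → ℝ) × (ℕ → ι → ℝ) => p.2 0 := (continuous_apply 0).comp continuous_snd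
    have h1 : Continuous fun p : (S → ℝ) × (ℕ → ι → ℝ) => ghD B l ls p.1 (p.2 0) :=
      (gh_ra_D_cont hB l ls).comp (continuous_fst.prodMk h0)
    have h2 : Continuous fun p : (S → ℝ) × (ℕ → ι → ℝ) => (fun j => p.2 (j + 1) : ℕ → ι → ℝ) :=
      continuous_pi fun j => (continuous_apply (j + 1)).comp continuous_snd
    have h3 : Continuous fun p : (S → ℝ) × (ℕ → ι → ℝ) => p.1 + l.inc (p.2 0) :=
      continuous_fst.add ((gh_ra_inc_cont l).comp h0)
    exact h1.mul (ih.comp (h3.prodMk h2))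

theorem pina_den_le {B : GhB S} (hB : B.Ok) (ls : List (GhLv S ι)) :
    ∃ C K : ℝ, 0 ≤ C ∧ 0 ≤ K ∧ ∀ (z : S → ℝ) (ξ : ℕ → ι → ℝ) (R : ℝ) (s : S), (∀ t, ‖ξ t‖ ≤ R) →
      ghDen B ls z ξ s ≤ C * Real.exp (K * R) := by
  induction ls with
  | nil =>
    refine ⟨1, 0, zero_le_one, le_rfl, fun z ξ R s _ => ?_⟩
    have := gh_ra_Gw_le_one hB z s
    show ghGw B z s ≤ _
    simpa using this
  | cons l ls ih =>
    obtain ⟨C, K, hC, hK, h⟩ := ih
    obtain ⟨D, hD0, hD⟩ := gh_ra_D_le hB l ls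
    refine ⟨D * C, |l.m| * l.K + K, mul_nonneg hD0.le hC,
      add_nonneg (mul_nonneg (abs_nonneg _) (gh_ra_K_nonneg l)) hK, fun z ξ R s hR => ?_⟩
    have h1 : ghD B l ls z (ξ 0) ≤ D * Real.exp (|l.m| * l.K * R) :=
      (hD z (ξ 0)).trans (mul_le_mul_of_nonneg_left (Real.exp_le_exp.2
        (mul_le_mul_of_nonneg_left (hR 0) (mul_nonneg (abs_nonneg _) (gh_ra_K_nonneg l)))) hD0.le)
    have h2 := h (z + l.inc (ξ 0)) (fun j => ξ (j + 1)) R s fun t => hR (t + 1)
    calc ghDen B (l :: ls) z ξ s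
        = ghD B l ls z (ξ 0) * ghDen B ls (z + l.inc (ξ 0)) (fun j => ξ (j + 1)) s := rfl
      _ ≤ (D * Real.exp (|l.m| * l.K * R)) * (C * Real.exp (K * R)) :=
          mul_le_mul h1 h2 (pina_den_nonneg hB _ _ _ _) (mul_pos hD0 (Real.exp_pos _)).le
      _ = D * C * Real.exp ((|l.m| * l.K + K) * R) := by
          rw [add_mul, Real.exp_add]; ring

theorem pina_den_int {B : GhB S} (hB : B.Ok) (ls : List (GhLv S ι)) (z : S → ℝ)
    (T : (ℕ → ι → ℝ) → S → ℝ) (hT : ∀ s, Measurable fun ξ => T ξ s) (hTb : ∃ K, ∀ ξ s, |T ξ s| ≤ K) (N : ℕ) (s : S) :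
    Integrable (fun x : Fin N × ι → ℝ => T (ghZx N x) s * ghDen B ls z (ghZx N x) s) (ghFlat ι N) := by
  obtain ⟨M, hM⟩ := hTb
  obtain ⟨C, K, hC, hK, h⟩ := pina_den_le hB ls
  have hm : Measurable fun x : Fin N × ι → ℝ => T (ghZx N x) s * ghDen B ls z (ghZx N x) s :=
    ((hT s).comp (pina_ext_cont N).measurable).mul
      ((pina_den_cont hB ls s).comp (continuous_const.prodMk (pina_ext_cont N))).measurable
  refine gh_ra_int_of_sub (ι := Fin N × ι) hm.aestronglyMeasurable ⟨K, M * C, fun x => ?_⟩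
  rw [abs_mul, abs_of_nonneg (pina_den_nonneg hB _ _ _ _), mul_assoc]
  exact mul_le_mul (hM _ _) (h z _ ‖x‖ s (pina_ext_norm N x)) (pina_den_nonneg hB _ _ _ _)
    ((abs_nonneg _).trans (hM (fun _ _ => 0) s))

/-- one step of Fubini on the flat drivers -/
theorem pina_flat_succ (N : ℕ) (f : (Fin (N + 1) × ι → ℝ) → ℝ) (hf : Integrable f (ghFlat ι (N + 1))) :
    ∫ y, f y ∂ghFlat ι (N + 1) = ∫ ξ, ∫ x, f (pinaGl N (ξ, x)) ∂ghFlat ι N ∂ghStd ι := by
  have : SFinite (ghFlat ι N) := by unfold ghFlat; infer_instance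
  have : SFinite (ghStd ι) := by unfold ghStd; infer_instance
  rw [← pina_gl_map N] at hf ⊢
  rw [integral_map (pina_gl_meas N).aemeasurable hf.aestronglyMeasurable]
  exact integral_prod _ ((integrable_map_measure hf.aestronglyMeasurable (pina_gl_meas N).aemeasurable).1 hf)

theorem pina_cons_meas (ξ : ι → ℝ) : Measurable (ghCons ξ : (ℕ → ι → ℝ) → ℕ → ι → ℝ) := by
  refine measurable_pi_lambda _ fun t => ?_
  cases t with
  | zero => exact measurable_const
  | succ t => exact measurable_pi_apply t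

/-- PA2 -/
theorem pina_path_flat (B : GhB S) (hB : B.Ok) (ls : List (GhLv S ι)) (z : S → ℝ)
    (T : (ℕ → ι → ℝ) → S → ℝ) (hT : ∀ s, Measurable fun ξ => T ξ s) (hTb : ∃ K, ∀ ξ s, |T ξ s| ≤ K) :
    ghPath B ls z T = ∫ x : Fin ls.length × ι → ℝ,
      ∑ s, T (ghZx ls.length x) s * ghDen B ls z (ghZx ls.length x) s ∂ghFlat ι ls.length := by
  induction ls generalizing z T with
  | nil =>
    have : IsProbabilityMeasure (ghFlat ι ([] : List (GhLv S ι)).length) := by unfold ghFlat; infer_instance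
    have e : ∀ x : Fin ([] : List (GhLv S ι)).length × ι → ℝ,
        ghZx ([] : List (GhLv S ι)).length x = fun _ _ => 0 := fun x => by
      funext t e
      simp [ghZx]
    simp_rw [e]
    rw [integral_const]
    simp only [probReal_univ, one_smul]
    show ∑ s, ghGw B z s * T (fun _ _ => 0) s = ∑ s, T (fun _ _ => 0) s * ghGw B z s
    exact Finset.sum_congr rfl fun s _ => mul_comm _ _
  | cons l ls ih =>
    show ∫ ξ, ghD B l ls z ξ * ghPath B ls (z + l.inc ξ) (fun η s => T (ghCons ξ η) s) ∂ghStd ι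
      = ∫ x : Fin (ls.length + 1) × ι → ℝ,
          ∑ s, T (ghZx (ls.length + 1) x) s * ghDen B (l :: ls) z (ghZx (ls.length + 1) x) s ∂ghFlat ι (ls.length + 1)
    rw [pina_flat_succ ls.length _ (integrable_finsetSum _ fun s _ => pina_den_int hB (l :: ls) z T hT hTb _ s)]
    refine integral_congr_ae (Filter.Eventually.of_forall fun ξ => ?_)
    show ghD B l ls z ξ * ghPath B ls (z + l.inc ξ) (fun η s => T (ghCons ξ η) s) = _
    rw [ih (z + l.inc ξ) (fun η s => T (ghCons ξ η) s) (fun s => (hT s).comp (pina_cons_meas ξ))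
      (hTb.imp fun K h η s => h _ s), ← integral_const_mul]
    refine integral_congr_ae (Filter.Eventually.of_forall fun x => ?_)
    show ghD B l ls z ξ * ∑ s, T (ghCons ξ (ghZx ls.length x)) s * ghDen B ls (z + l.inc ξ) (ghZx ls.length x) s = _
    simp_rw [pina_ext_gl]
    rw [Finset.mul_sum]
    refine Finset.sum_congr rfl fun s _ => ?_
    show _ = T (ghCons ξ (ghZx ls.length x)) s * (ghD B l ls z ξ * ghDen B ls (z + l.inc ξ) (ghZx ls.length x) s)
    ring

/-- PA3 -/
theorem pina_path_phi (B : GhB S) (hB : B.Ok) (ls : List (GhLv S ι)) (z : S → ℝ)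
    (T : (ℕ → ι → ℝ) → S → ℝ) (hT : ∀ s, Measurable fun ξ => T ξ s) (hTb : ∃ K, ∀ ξ s, |T ξ s| ≤ K) :
    ghPath B ls z T = ∑ s, B.w s *
      ∫ x : Fin ls.length × ι → ℝ, T (ghZx ls.length x) s * Real.exp (-ghPhi B ls z s x) ∂ghFlat ι ls.length := by
  rw [pina_path_flat B hB ls z T hT hTb, integral_finsetSum _ fun s _ => pina_den_int hB ls z T hT hTb _ s]
  refine Finset.sum_congr rfl fun s _ => ?_
  rw [← integral_const_mul]
  refine integral_congr_ae (Filter.Eventually.of_forall fun x => ?_)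
  show T (ghZx ls.length x) s * ghDen B ls z (ghZx ls.length x) s
    = B.w s * (T (ghZx ls.length x) s * Real.exp (-ghPhi B ls z s x))
  rw [pina_den_closed B hB 0]
  unfold ghPhi
  have e : B.a * (z s + ghSum ls (ghZx ls.length x) s) - ghR B 0 ls z (ghZx ls.length x) - 0 * ghF B ls z
      = -(-(B.a * (z s + ghSum ls (ghZx ls.length x) s)) + ghR B 0 ls z (ghZx ls.length x)) := by ring
  rw [e]
  ring

/-- PA4 -/
theorem pina_path_one (B : GhB S) (hB : B.Ok) (ls : List (GhLv S ι)) (z : S → ℝ) :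
    ghPath B ls z (fun _ _ => 1) = 1 := obt_path_const hB ls z 1

end PA

/-- PA5, any previous mass -/
theorem pina_R_gap_aux (n : ℕ) (a : ℝ) (P : SkStp) (μ : ℝ) (z : SkCfg n → ℝ) (ξ : ℕ → SkDr n → ℝ) :
    ghR (skBase n a) μ (skLvs n P) z ξ
      = (skMs a P 0 - μ) * ghF (skBase n a) (skLvs n P) z
        + ∑ j ∈ Finset.range P.length, (skMs a P (j + 1) - skMs a P j) *
            ghF (skBase n a) (skLvs n (P.drop (j + 1))) (z + ghPre (skLvs n P) ξ (j + 1)) := by
  induction P generalizing μ z ξ with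
  | nil =>
    show ((skBase n a).a - μ) * ghF0 (skBase n a) z = _
    simp [skMs, skLvs, skBase, ghUnif, ghF]
  | cons e P ih =>
    show ((e.lv n).m - μ) * ghF (skBase n a) (e.lv n :: skLvs n P) z
        + ghR (skBase n a) (e.lv n).m (skLvs n P) (z + (e.lv n).inc (ξ 0)) (fun j => ξ (j + 1)) = _
    rw [ih, List.length_cons, Finset.sum_range_succ']
    have key : ∑ j ∈ Finset.range P.length, (skMs a (e :: P) (j + 1 + 1) - skMs a (e :: P) (j + 1)) *
          ghF (skBase n a) (skLvs n ((e :: P).drop (j + 1 + 1))) (z + ghPre (skLvs n (e :: P)) ξ (j + 1 + 1))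
        = ∑ j ∈ Finset.range P.length, (skMs a P (j + 1) - skMs a P j) *
          ghF (skBase n a) (skLvs n (P.drop (j + 1)))
            (z + (e.lv n).inc (ξ 0) + ghPre (skLvs n P) (fun j => ξ (j + 1)) (j + 1)) :=
      Finset.sum_congr rfl fun j _ => by rw [add_assoc z]; rfl
    rw [key]
    have h1 : (skMs a (e :: P) (0 + 1) - skMs a (e :: P) 0) *
          ghF (skBase n a) (skLvs n ((e :: P).drop (0 + 1))) (z + ghPre (skLvs n (e :: P)) ξ (0 + 1))
        = (skMs a P 0 - e.m) * ghF (skBase n a) (skLvs n P) (z + (e.lv n).inc (ξ 0)) := by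
      have : ghPre (skLvs n (e :: P)) ξ (0 + 1) = (e.lv n).inc (ξ 0) := by
        show (e.lv n).inc (ξ 0) + ghPre (skLvs n P) (fun j => ξ (j + 1)) 0 = _
        rw [obt_pre_zero, add_zero]
      rw [this]
      rfl
    rw [h1]
    show (e.m - μ) * ghF (skBase n a) (e.lv n :: skLvs n P) z + _
      = (e.m - μ) * ghF (skBase n a) (e.lv n :: skLvs n P) z + _
    have hm : (e.lv n).m = e.m := rfl
    rw [hm]
    ring

/-- PA5 -/
theorem pina_R_gap (n : ℕ) (a : ℝ) (P : SkStp) (z : SkCfg n → ℝ) (ξ : ℕ → SkDr n → ℝ) :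
    ghR (skBase n a) 0 (skLvs n P) z ξ
      = ∑ j ∈ Finset.range (P.length + 1),
          skGap a P j * ghF (skBase n a) (skLvs n (P.drop j)) (z + ghPre (skLvs n P) ξ j) := by
  rw [pina_R_gap_aux, Finset.sum_range_succ', add_comm]
  congr 1
  simp [skGap, obt_pre_zero]

theorem pina_eqns_cite : True := by
  have := @pinaGl.eq_1
  trivial

end Claimed.Agent.R286
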