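import Claimed.Agent.R286.Fd.PinDefs
import Claimed.Agent.R286.Defs.GhDeriv

/-!
# Row 286 (S0533), Fd/PinG : block PG of PE Lemma 2.3, GAUGE SYMMETRY      (helper126; prefix `ping_`; sorry free)

No admissibility, no integrability: sign flips of the drivers preserve the standard Gaussian, the flip of the spins preserves the uniform prior.
* `ping_F, ping_E, ping_H`   continuations, planted means, Hessians under the gauge action on fields
* `ping_gauge_int = pin_gauge_int`, `ping_inv_L = pin_inv_L`, `ping_inv_W = pin_inv_W`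
-/

set_option autoImplicit false

namespace Claimed.Agent.R286

open MeasureTheory ProbabilityTheory

section signs

/-- sign flips preserve the standard Gaussian on a finite product -/
theorem ping_mp {κ : Type} [Fintype κ] (sg : κ → ℝ) (hsg : ∀ e, sg e * sg e = 1) :
    MeasurePreserving (fun (x : κ → ℝ) e => sg e * x e) (Measure.pi fun _ : κ => gaussianReal 0 1)
      (Measure.pi fun _ : κ => gaussianReal 0 1) := by
  refine measurePreserving_pi (fun _ : κ => gaussianReal 0 1) (fun _ : κ => gaussianReal 0 1)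
    (f := fun e x => sg e * x) fun e => ⟨by fun_prop, ?_⟩
  rw [gaussianReal_map_const_mul]
  congr 1
  · simp
  · have : sg e ^ 2 = 1 := by rw [sq]; exact hsg e
    ext
    simp [this]

/-- the flip as a measurable equivalence -/
def pingEq {κ : Type} (sg : κ → ℝ) (hsg : ∀ e, sg e * sg e = 1) : (κ → ℝ) ≃ᵐ (κ → ℝ) where
  toFun x e := sg e * x e
  invFun x e := sg e * x e
  left_inv x := by
    funext e
    show sg e * (sg e * x e) = x e
    rw [← mul_assoc, hsg, one_mul]
  right_inv x := by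
    funext e
    show sg e * (sg e * x e) = x e
    rw [← mul_assoc, hsg, one_mul]
  measurable_toFun := by
    refine measurable_pi_lambda _ fun e => ?_
    exact measurable_const.mul (measurable_pi_apply e)
  measurable_invFun := by
    refine measurable_pi_lambda _ fun e => ?_
    exact measurable_const.mul (measurable_pi_apply e)

theorem ping_eqns_cite : True := by
  have := @pingEq.eq_1
  trivial

/-- change of variables, no measurability needed -/
theorem ping_integral {κ : Type} [Fintype κ] (sg : κ → ℝ) (hsg : ∀ e, sg e * sg e = 1) (f : (κ → ℝ) → ℝ) :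
    ∫ x, f (fun e => sg e * x e) ∂(Measure.pi fun _ : κ => gaussianReal 0 1)
      = ∫ x, f x ∂(Measure.pi fun _ : κ => gaussianReal 0 1) :=
  (ping_mp sg hsg).integral_comp (pingEq sg hsg).measurableEmbedding f

end signs

variable {n : ℕ}

theorem ping_pm (b c : Bool) :
    Claims.C0461.pmSpin (b == c) = Claims.C0461.pmSpin b * Claims.C0461.pmSpin c := by
  cases b <;> cases c <;> simp [Claims.C0461.pmSpin]

theorem ping_pm_sq (b : Bool) : Claims.C0461.pmSpin b * Claims.C0461.pmSpin b = 1 := by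
  cases b <;> simp [Claims.C0461.pmSpin]

theorem ping_beq (b c : Bool) : (b == (b == c)) = c := by
  cases b <;> cases c <;> rfl

theorem ping_sp (η σ : SkCfg n) (i : Fin n) : skSp (skFl η σ) i = skSp η i * skSp σ i :=
  ping_pm (η i) (σ i)

theorem ping_sp_sq (η : SkCfg n) (i : Fin n) : skSp η i * skSp η i = 1 := ping_pm_sq (η i)

theorem ping_invol (η σ : SkCfg n) : skFl η (skFl η σ) = σ := by
  funext i
  exact ping_beq (η i) (σ i)

theorem ping_up (σ : SkCfg n) : skFl σ (skUp n) = σ := by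
  funext i
  show (σ i == true) = σ i
  simp

/-- the flip of the spins as a permutation -/
def pingPerm (η : SkCfg n) : SkCfg n ≃ SkCfg n where
  toFun := skFl η
  invFun := skFl η
  left_inv := ping_invol η
  right_inv := ping_invol η

theorem ping_eqns_cite2 : True := by
  have := @pingPerm.eq_1
  trivial

theorem ping_sum (η : SkCfg n) (f : SkCfg n → ℝ) : ∑ σ, f (skFl η σ) = ∑ σ, f σ :=
  (pingPerm η).sum_comp f

theorem ping_sg_sq (η : SkCfg n) (e : SkDr n) : skFlSg η e * skFlSg η e = 1 := by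
  rcases e with p | i
  · simp only [skFlSg, Sum.elim_inl]
    have h1 := ping_sp_sq η p.1
    have h2 := ping_sp_sq η p.2
    calc skSp η p.1 * skSp η p.2 * (skSp η p.1 * skSp η p.2)
        = (skSp η p.1 * skSp η p.1) * (skSp η p.2 * skSp η p.2) := by ring
      _ = 1 := by rw [h1, h2, one_mul]
  · simp only [skFlSg, Sum.elim_inr]
    exact ping_sp_sq η i

theorem ping_phi (η σ : SkCfg n) (e : SkDr n) : skPhi n (skFl η σ) e = skFlSg η e * skPhi n σ e := by
  rcases e with p | i
  · simp only [skPhi, skFlSg, Sum.elim_inl, ping_sp]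
    ring
  · simp only [skPhi, skFlSg, Sum.elim_inr, ping_sp]

theorem ping_inc (η : SkCfg n) (e : SkInc) (ξ : SkDr n → ℝ) :
    (e.lv n).inc (skFlD η ξ) = skFlZ η ((e.lv n).inc ξ) := by
  funext σ
  simp only [GhLv.inc, skFlZ, SkInc.lv, ghLvF, skFlD, ping_phi]
  exact Finset.sum_congr rfl fun d _ => by ring

theorem ping_Z_add (η : SkCfg n) (z z' : SkCfg n → ℝ) : skFlZ η z + skFlZ η z' = skFlZ η (z + z') := rfl

theorem ping_Z_zero (η : SkCfg n) : skFlZ η (0 : SkCfg n → ℝ) = 0 := rfl

theorem ping_std (η : SkCfg n) (f : (SkDr n → ℝ) → ℝ) :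
    ∫ ξ, f (skFlD η ξ) ∂ghStd (SkDr n) = ∫ ξ, f ξ ∂ghStd (SkDr n) :=
  ping_integral (skFlSg η) (ping_sg_sq η) f

theorem ping_T (η : SkCfg n) (m : ℝ) (f : (SkDr n → ℝ) → ℝ) :
    ghT (ghStd (SkDr n)) m (fun ξ => f (skFlD η ξ)) = ghT (ghStd (SkDr n)) m f := by
  unfold ghT
  rw [ping_std η f, ping_std η fun ξ => Real.exp (m * f ξ)]

/-- the continuation is gauge invariant -/
theorem ping_F (a : ℝ) (η : SkCfg n) : ∀ (Q : SkStp) (z : SkCfg n → ℝ),
    ghF (skBase n a) (skLvs n Q) (skFlZ η z) = ghF (skBase n a) (skLvs n Q) z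
  | [], z => by
      simp only [skLvs, List.map_nil, ghF, ghF0, skBase, ghUnif, skFlZ]
      rw [ping_sum η fun σ => ((Fintype.card (SkCfg n) : ℝ))⁻¹ * Real.exp (a * z σ)]
  | e :: Q, z => by
      simp only [skLvs, List.map_cons, ghF]
      rw [← ping_T η]
      congr 1
      funext ξ
      rw [ping_inc, ping_Z_add]
      exact ping_F a η Q _

theorem ping_D (a : ℝ) (η : SkCfg n) (e : SkInc) (Q : SkStp) (z : SkCfg n → ℝ) (ξ : SkDr n → ℝ) :
    ghD (skBase n a) (e.lv n) (skLvs n Q) (skFlZ η z) (skFlD η ξ)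
      = ghD (skBase n a) (e.lv n) (skLvs n Q) z ξ := by
  unfold ghD
  rw [ping_inc, ping_Z_add, ping_F a η Q]
  have := ping_F a η (e :: Q) z
  simp only [skLvs, List.map_cons] at this
  simp only [skLvs]
  rw [this]

theorem ping_Gw (a : ℝ) (η : SkCfg n) (z : SkCfg n → ℝ) (σ : SkCfg n) :
    ghGw (skBase n a) (skFlZ η z) σ = ghGw (skBase n a) z (skFl η σ) := by
  simp only [ghGw, skBase, ghUnif, skFlZ]
  rw [ping_sum η fun σ => ((Fintype.card (SkCfg n) : ℝ))⁻¹ * Real.exp (a * z σ)]

/-- planted means under the gauge action -/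
theorem ping_E (a : ℝ) (η : SkCfg n) (Φ : SkCfg n → ℝ) : ∀ (Q : SkStp) (z : SkCfg n → ℝ),
    ghE (skBase n a) (skLvs n Q) Φ (skFlZ η z) = ghE (skBase n a) (skLvs n Q) (skFlZ η Φ) z
  | [], z => by
      simp only [skLvs, List.map_nil, ghE, ping_Gw]
      rw [← ping_sum η fun σ => ghGw (skBase n a) z σ * skFlZ η Φ σ]
      refine Finset.sum_congr rfl fun σ _ => ?_
      simp only [skFlZ, ping_invol]
  | e :: Q, z => by
      simp only [skLvs, List.map_cons, ghE]
      rw [← ping_std η]
      refine integral_congr_ae (Filter.Eventually.of_forall fun ξ => ?_)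
      simp only
      have h1 := ping_D a η e Q z ξ
      simp only [skLvs] at h1
      rw [h1, ping_inc, ping_Z_add]
      have h2 := ping_E a η Φ Q (z + (e.lv n).inc ξ)
      simp only [skLvs] at h2
      rw [h2]

theorem ping_C (a : ℝ) (η : SkCfg n) (v w : SkCfg n → ℝ) (Q : SkStp) (z : SkCfg n → ℝ) :
    ghC (skBase n a) (skLvs n Q) v w (skFlZ η z)
      = ghC (skBase n a) (skLvs n Q) (skFlZ η v) (skFlZ η w) z := by
  unfold ghC
  rw [ping_E, ping_E, ping_E]
  rfl

/-- Hessians under the gauge action -/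
theorem ping_H (a : ℝ) (η : SkCfg n) (v w : SkCfg n → ℝ) : ∀ (Q : SkStp) (z : SkCfg n → ℝ),
    ghH (skBase n a) (skLvs n Q) v w (skFlZ η z)
      = ghH (skBase n a) (skLvs n Q) (skFlZ η v) (skFlZ η w) z
  | [], z => by
      have h := ping_C a η v w [] z
      simp only [skLvs, List.map_nil] at h
      simp only [skLvs, List.map_nil, ghH]
      rw [h]
  | e :: Q, z => by
      have hv := ping_E a η v (e :: Q) z
      have hw := ping_E a η w (e :: Q) z
      simp only [skLvs, List.map_cons] at hv hw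
      simp only [skLvs, List.map_cons, ghH]
      rw [← ping_std η]
      refine integral_congr_ae (Filter.Eventually.of_forall fun ξ => ?_)
      simp only
      have h1 := ping_D a η e Q z ξ
      have h2 := ping_H a η v w Q (z + (e.lv n).inc ξ)
      have h3 := ping_E a η v Q (z + (e.lv n).inc ξ)
      have h4 := ping_E a η w Q (z + (e.lv n).inc ξ)
      simp only [skLvs] at h1 h2 h3 h4
      rw [h1, ping_inc, ping_Z_add, h2, h3, h4, hv, hw]

theorem ping_Y (η σ : SkCfg n) (i : Fin n) : skY (skFl η σ) i = skSp η i * skY σ i := by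
  simp only [skY, ping_sp]
  ring

theorem ping_obY (η : SkCfg n) (i : Fin n) : skFlZ η (obY i) = skSp η i • obY i := by
  funext σ
  simp only [skFlZ, obY, ping_Y, Pi.smul_apply, smul_eq_mul]

theorem ping_X (a : ℝ) (η : SkCfg n) (Q : SkStp) (z : SkCfg n → ℝ) (i : Fin n) :
    obX n a Q (skFlZ η z) i = skSp η i * obX n a Q z i := by
  unfold obX
  rw [ping_E, ping_obY, gh_v_E_smul]

theorem ping_obH (a : ℝ) (η : SkCfg n) (Q : SkStp) (z : SkCfg n → ℝ) (i k : Fin n) :
    obH n a Q (skFlZ η z) i k = skSp η i * skSp η k * obH n a Q z i k := by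
  unfold obH
  rw [ping_H, ping_obY, ping_obY, gh_v_H_smul, gh_v_H_symm, gh_v_H_smul, gh_v_H_symm]
  ring

theorem ping_Sum (η : SkCfg n) : ∀ (P : SkStp) (ξ : ℕ → SkDr n → ℝ),
    ghSum (skLvs n P) (skFlS η ξ) = skFlZ η (ghSum (skLvs n P) ξ)
  | [], ξ => rfl
  | e :: P, ξ => by
      simp only [skLvs, List.map_cons, ghSum]
      have h := ping_Sum η P fun j => ξ (j + 1)
      simp only [skLvs] at h
      rw [← ping_Z_add, ← h, ← ping_inc]
      rfl

theorem ping_Fld (η : SkCfg n) (P : SkStp) (ξ : ℕ → SkDr n → ℝ) (j : ℕ) :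
    obFld n P 0 (skFlS η ξ) j = skFlZ η (obFld n P 0 ξ j) := by
  unfold obFld ghPre
  have e : (skLvs n P).take j = skLvs n (P.take j) := by simp [skLvs, List.map_take]
  rw [e, ping_Sum, ← ping_Z_add, ping_Z_zero]

theorem ping_Xp (a : ℝ) (η : SkCfg n) (P : SkStp) (j : ℕ) (ξ : ℕ → SkDr n → ℝ) (i : Fin n) :
    obXp n a P 0 j (skFlS η ξ) i = skSp η i * obXp n a P 0 j ξ i := by
  unfold obXp
  rw [ping_Fld, ping_X]

theorem ping_Hp (a : ℝ) (η : SkCfg n) (P : SkStp) (j : ℕ) (ξ : ℕ → SkDr n → ℝ) (i k : Fin n) :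
    obHp n a P 0 j (skFlS η ξ) i k = skSp η i * skSp η k * obHp n a P 0 j ξ i k := by
  unfold obHp
  rw [ping_Fld, ping_obH]

/-- PG2 -/
theorem ping_inv_L (a : ℝ) (P : SkStp) (j : ℕ) : PinInv (obL n a P 0 j) := by
  intro η ξ σ
  unfold obL
  congr 1
  · refine Finset.sum_congr rfl fun i _ => ?_
    rw [ping_Y, ping_Xp]
    have h := ping_sp_sq η i
    calc skSp η i * skY σ i * (skSp η i * obXp n a P 0 j ξ i)
        = (skSp η i * skSp η i) * (skY σ i * obXp n a P 0 j ξ i) := by ring
      _ = _ := by rw [h, one_mul]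
  · congr 1
    refine Finset.sum_congr rfl fun i _ => ?_
    rw [ping_Xp]
    have h := ping_sp_sq η i
    calc (skSp η i * obXp n a P 0 j ξ i) ^ 2
        = (skSp η i * skSp η i) * obXp n a P 0 j ξ i ^ 2 := by ring
      _ = _ := by rw [h, one_mul]

/-- PG3 -/
theorem ping_inv_W (a : ℝ) (P : SkStp) (j : ℕ) : PinInv (obW n a P 0 j) := by
  intro η ξ σ
  unfold obW
  refine Finset.sum_congr rfl fun i _ => Finset.sum_congr rfl fun k _ => ?_
  rw [ping_Y, ping_Y, ping_Xp, ping_Xp, ping_Hp]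
  have hi := ping_sp_sq η i
  have hk := ping_sp_sq η k
  calc (skSp η i * skY σ i - skSp η i * obXp n a P 0 j ξ i)
        * (skSp η i * skSp η k * obHp n a P 0 j ξ i k)
        * (skSp η k * skY σ k - skSp η k * obXp n a P 0 j ξ k)
      = (skSp η i * skSp η i) * (skSp η k * skSp η k)
        * ((skY σ i - obXp n a P 0 j ξ i) * obHp n a P 0 j ξ i k * (skY σ k - obXp n a P 0 j ξ k)) := by
        ring
    _ = _ := by rw [hi, hk, one_mul, one_mul]

theorem ping_R (a : ℝ) (η : SkCfg n) : ∀ (Q : SkStp) (μ : ℝ) (z : SkCfg n → ℝ) (ξ : ℕ → SkDr n → ℝ),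
    ghR (skBase n a) μ (skLvs n Q) (skFlZ η z) (skFlS η ξ) = ghR (skBase n a) μ (skLvs n Q) z ξ
  | [], μ, z, ξ => by
      have h := ping_F a η [] z
      simp only [skLvs, List.map_nil, ghF] at h
      simp only [skLvs, List.map_nil, ghR]
      rw [h]
  | e :: Q, μ, z, ξ => by
      have h := ping_F a η (e :: Q) z
      simp only [skLvs, List.map_cons] at h
      have h2 := ping_R a η Q (e.lv n).m (z + (e.lv n).inc (ξ 0)) fun j => ξ (j + 1)
      simp only [skLvs] at h2
      simp only [skLvs, List.map_cons, ghR]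
      rw [h]
      congr 1
      rw [← h2, ← ping_Z_add, ← ping_inc]
      rfl

theorem ping_Ext (η : SkCfg n) (N : ℕ) (x : Fin N × SkDr n → ℝ) :
    ghZx N (fun p => skFlSg η p.2 * x p) = skFlS η (ghZx N x) := by
  funext t e
  simp only [ghZx, skFlS, skFlD]
  split_ifs <;> simp

theorem ping_Phi (a : ℝ) (η : SkCfg n) (P : SkStp) (s : SkCfg n) (x : PinV n P) :
    pinPhi n a P (skFl η s) (fun p => skFlSg η p.2 * x p) = pinPhi n a P s x := by
  unfold pinPhi ghPhi
  rw [ping_Ext, ping_Sum]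
  have h := ping_R a η P 0 0 (ghZx (skLvs n P).length x)
  rw [ping_Z_zero] at h
  rw [h]
  simp only [skFlZ, ping_invol, Pi.zero_apply]

/-- PG1 -/
theorem ping_gauge_int (a : ℝ) (P : SkStp) (T : (ℕ → SkDr n → ℝ) → SkCfg n → ℝ) (hT : PinInv T)
    (σ : SkCfg n) :
    ∫ x : PinV n P, T (pinX n P x) σ * Real.exp (-pinPhi n a P σ x) ∂ghFlat (SkDr n) (skLvs n P).length
      = ∫ x : PinV n P, T (pinX n P x) (skUp n) * Real.exp (-pinPhi n a P (skUp n) x)
          ∂ghFlat (SkDr n) (skLvs n P).length := by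
  have h := ping_integral (κ := Fin (skLvs n P).length × SkDr n) (fun p => skFlSg σ p.2)
    (fun p => ping_sg_sq σ p.2) (fun x : PinV n P => T (pinX n P x) σ * Real.exp (-pinPhi n a P σ x))
  unfold ghFlat
  rw [← h]
  refine integral_congr_ae (Filter.Eventually.of_forall fun x => ?_)
  simp only
  have h1 : pinX n P (fun p => skFlSg σ p.2 * x p) = skFlS σ (pinX n P x) := ping_Ext σ _ x
  have h2 := ping_Phi a σ P (skUp n) x
  rw [ping_up] at h2
  have h3 := hT σ (pinX n P x) (skUp n)
  rw [ping_up] at h3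
  rw [h1, h2, h3]

end Claimed.Agent.R286
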