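import Claimed.Agent.R286.Fd.PinA
import Claimed.Agent.R286.Gh.Reg

/-!
# Row 286 (S0533), Fd/PinR : block PR0-PR3 of `Fd/PinC.lean` (regularity of the pinned potential, of `L` and of `W` in the flat drivers)      (helper10; prefix `pinr_`)      0 sorry

`pinr_W_eq` (PR0), `pinr_Phi_c2` (PR1), `pinr_L_c1` (PR2), `pinr_W_cont` (PR3).
Tools: second derivative of `F ∘ (linear map)`, of a finite combination; `fderiv (fderiv ghF) z w v = ghH v w z` (from `Gh/Reg.lean`, helper131).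
-/

set_option autoImplicit false
set_option linter.unusedSectionVars false

namespace Claimed.Agent.R286

open MeasureTheory ProbabilityTheory

noncomputable section

/-! ### calculus -/

section calculus

variable {E V : Type*} [NormedAddCommGroup E] [NormedSpace ℝ E]
  [NormedAddCommGroup V] [NormedSpace ℝ V]

theorem pinr_d2_eq {f : E → ℝ} {f' : E → E →L[ℝ] ℝ} {f'' : E →L[ℝ] E →L[ℝ] ℝ} {x : E}
    (h1 : ∀ y, HasFDerivAt f (f' y) y) (h2 : HasFDerivAt f' f'' x) :
    fderiv ℝ (fderiv ℝ f) x = f'' := by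
  have : fderiv ℝ f = f' := funext fun y => (h1 y).fderiv
  rw [this]; exact h2.fderiv

theorem pinr_hasFDerivAt {F : V → ℝ} (hF : ContDiff ℝ 2 F) (H : V) :
    HasFDerivAt F (fderiv ℝ F H) H :=
  (hF.differentiable (by norm_num)).differentiableAt.hasFDerivAt

theorem pinr_hasFDerivAt_fderiv {F : V → ℝ} (hF : ContDiff ℝ 2 F) (H : V) :
    HasFDerivAt (fderiv ℝ F) (fderiv ℝ (fderiv ℝ F) H) H :=
  ((hF.fderiv_right (m := 1) (by norm_num)).differentiable (by norm_num)).differentiableAt.hasFDerivAt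

theorem pinr_d2_continuous {F : V → ℝ} (hF : ContDiff ℝ 2 F) : Continuous (fderiv ℝ (fderiv ℝ F)) :=
  ((hF.fderiv_right (m := 1) (by norm_num)).fderiv_right (m := 0) (by norm_num)).continuous

theorem pinr_hasFDerivAt_comp {F : V → ℝ} (hF : ContDiff ℝ 2 F) (P : E →L[ℝ] V) (x : E) :
    HasFDerivAt (fun x => F (P x)) ((fderiv ℝ F (P x)).comp P) x :=
  (pinr_hasFDerivAt hF (P x)).comp x P.hasFDerivAt

theorem pinr_hasFDerivAt_comp2 {F : V → ℝ} (hF : ContDiff ℝ 2 F) (P : E →L[ℝ] V) (x : E) :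
    HasFDerivAt (fun y => (fderiv ℝ F (P y)).comp P)
      ((((ContinuousLinearMap.compL ℝ E V ℝ).flip P).comp (fderiv ℝ (fderiv ℝ F) (P x))).comp P)
      x := by
  have a := (pinr_hasFDerivAt_fderiv hF (P x)).comp x P.hasFDerivAt
  exact (((ContinuousLinearMap.compL ℝ E V ℝ).flip P).hasFDerivAt).comp x a

theorem pinr_fderiv2_comp {F : V → ℝ} (hF : ContDiff ℝ 2 F) (P : E →L[ℝ] V) (x v v' : E) :
    fderiv ℝ (fderiv ℝ fun x => F (P x)) x v v'
      = fderiv ℝ (fderiv ℝ F) (P x) (P v) (P v') := by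
  rw [pinr_d2_eq (fun y => pinr_hasFDerivAt_comp hF P y) (pinr_hasFDerivAt_comp2 hF P x)]
  simp

theorem pinr_fderiv_comp1 {Λ : V → ℝ} (hΛ : ContDiff ℝ 1 Λ) (P : E →L[ℝ] V) (x v : E) :
    fderiv ℝ (fun x => Λ (P x)) x v = fderiv ℝ Λ (P x) (P v) := by
  have := ((hΛ.differentiable (by norm_num)).differentiableAt (x := P x)).hasFDerivAt.comp x
    P.hasFDerivAt
  have h2 := this.fderiv
  have h3 : (Λ ∘ ⇑P) = fun x => Λ (P x) := rfl
  rw [h3] at h2
  rw [h2]; rfl

variable {R : Type*}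

theorem pinr_pot_contDiff (t : Finset R) (w : R → ℝ) (G : R → E → ℝ) (hG : ∀ r, ContDiff ℝ 2 (G r))
    (ℓ : E →L[ℝ] ℝ) : ContDiff ℝ 2 fun x => ∑ r ∈ t, w r * G r x - ℓ x :=
  (ContDiff.sum fun r _ => contDiff_const.mul (hG r)).sub ℓ.contDiff

theorem pinr_d2_pot (t : Finset R) (w : R → ℝ) (G : R → E → ℝ) (hG : ∀ r, ContDiff ℝ 2 (G r))
    (ℓ : E →L[ℝ] ℝ) (x v : E) :
    fderiv ℝ (fderiv ℝ fun x => ∑ r ∈ t, w r * G r x - ℓ x) x v v
      = ∑ r ∈ t, w r * fderiv ℝ (fderiv ℝ (G r)) x v v := by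
  have h1 : ∀ y, HasFDerivAt (fun x => ∑ r ∈ t, w r * G r x - ℓ x)
      (∑ r ∈ t, w r • fderiv ℝ (G r) y - ℓ) y := fun y =>
    (HasFDerivAt.fun_sum fun r _ => (pinr_hasFDerivAt (hG r) y).const_mul (w r)).sub ℓ.hasFDerivAt
  have h2 : HasFDerivAt (fun y => ∑ r ∈ t, w r • fderiv ℝ (G r) y - ℓ)
      (∑ r ∈ t, w r • fderiv ℝ (fderiv ℝ (G r)) x) x :=
    (HasFDerivAt.fun_sum fun r _ => (pinr_hasFDerivAt_fderiv (hG r) x).const_smul (w r)).sub_const ℓ
  rw [pinr_d2_eq h1 h2]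
  simp [sum_apply, smul_apply]

end calculus

/-! ### the continuations -/

section gh

variable {S ι : Type} [Fintype S] [Fintype ι] {B : GhB S}

theorem pinr_F_cd (hB : B.Ok) (ls : List (GhLv S ι)) : ContDiff ℝ 2 (ghF B ls) := by
  exact_mod_cast contDiff_infty.1 (ghF_contDiff hB ls) 2

theorem pinr_E_cd (hB : B.Ok) (ls : List (GhLv S ι)) (v : S → ℝ) : ContDiff ℝ 1 (ghE B ls v) := by
  exact_mod_cast contDiff_infty.1 (ghE_contDiff hB ls v) 1

/-- `D² ghF (z)[w, v] = ghH v w z` -/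
theorem pinr_hess_eq (hB : B.Ok) (ls : List (GhLv S ι)) (z v w : S → ℝ) :
    fderiv ℝ (fderiv ℝ (ghF B ls)) z w v = ghH B ls v w z := by
  have h1 : HasFDerivAt (fun y => fderiv ℝ (ghF B ls) y v)
      ((ContinuousLinearMap.apply ℝ ℝ v).comp (fderiv ℝ (fderiv ℝ (ghF B ls)) z)) z :=
    ((ContinuousLinearMap.apply ℝ ℝ v).hasFDerivAt).comp z (pinr_hasFDerivAt_fderiv (pinr_F_cd hB ls) z)
  have h2 : (fun y => fderiv ℝ (ghF B ls) y v) = ghE B ls v := funext fun y => ghF_fderiv hB ls y v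
  rw [h2] at h1
  rw [← ghE_fderiv hB ls v w z, h1.fderiv]
  rfl

/-- `ghH` of finite combinations -/
theorem pinr_H_sum (hB : B.Ok) (ls : List (GhLv S ι)) {C : Type*} [Fintype C] (c : C → ℝ) (Y : C → S → ℝ)
    (z : S → ℝ) :
    ghH B ls (fun t => ∑ i, c i * Y i t) (fun t => ∑ i, c i * Y i t) z
      = ∑ i, ∑ k, c i * ghH B ls (Y i) (Y k) z * c k := by
  have e : (fun t => ∑ i, c i * Y i t) = ∑ i, c i • Y i := by
    funext t; simp [Finset.sum_apply]
  rw [e, ← pinr_hess_eq hB]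
  simp only [map_sum, map_smul, sum_apply, smul_apply, smul_eq_mul, pinr_hess_eq hB]
  refine Finset.sum_congr rfl fun i _ => ?_
  rw [Finset.mul_sum]
  refine Finset.sum_congr rfl fun k _ => by ring

theorem pinr_H_continuous (hB : B.Ok) (ls : List (GhLv S ι)) (v w : S → ℝ) : Continuous (ghH B ls v w) := by
  have : ghH B ls v w = fun z => fderiv ℝ (fderiv ℝ (ghF B ls)) z w v :=
    funext fun z => (pinr_hess_eq hB ls z v w).symm
  rw [this]
  exact ((pinr_d2_continuous (pinr_F_cd hB ls)).clm_apply continuous_const).clm_apply continuous_const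

end gh

/-! ### linearity of the prefix fields in the flat drivers -/

section lin

variable {S ι : Type} [Fintype S] [Fintype ι]

theorem pinr_inc_add (l : GhLv S ι) (ξ η : ι → ℝ) : l.inc (ξ + η) = l.inc ξ + l.inc η := by
  funext s; simp only [GhLv.inc, Pi.add_apply, mul_add, Finset.sum_add_distrib]

theorem pinr_inc_smul (l : GhLv S ι) (c : ℝ) (ξ : ι → ℝ) : l.inc (c • ξ) = c • l.inc ξ := by
  funext s
  simp only [GhLv.inc, Pi.smul_apply, smul_eq_mul, Finset.mul_sum]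
  exact Finset.sum_congr rfl fun i _ => by ring

theorem pinr_sum_add (ls : List (GhLv S ι)) (ξ η : ℕ → ι → ℝ) :
    ghSum ls (ξ + η) = ghSum ls ξ + ghSum ls η := by
  induction ls generalizing ξ η with
  | nil => simp [ghSum]
  | cons l ls ih =>
    simp only [ghSum]
    have : (fun j => (ξ + η) (j + 1)) = (fun j => ξ (j + 1)) + fun j => η (j + 1) := rfl
    rw [this, ih, Pi.add_apply, pinr_inc_add]
    abel

theorem pinr_sum_smul (ls : List (GhLv S ι)) (c : ℝ) (ξ : ℕ → ι → ℝ) :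
    ghSum ls (c • ξ) = c • ghSum ls ξ := by
  induction ls generalizing ξ with
  | nil => simp [ghSum]
  | cons l ls ih =>
    simp only [ghSum]
    have : (fun j => (c • ξ) (j + 1)) = c • fun j => ξ (j + 1) := rfl
    rw [this, ih, Pi.smul_apply, pinr_inc_smul, smul_add]

theorem pinr_ext_add (N : ℕ) (x y : Fin N × ι → ℝ) : ghZx N (x + y) = ghZx N x + ghZx N y := by
  funext t e
  by_cases h : t < N <;> simp [ghZx, h]

theorem pinr_ext_smul (N : ℕ) (c : ℝ) (x : Fin N × ι → ℝ) : ghZx N (c • x) = c • ghZx N x := by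
  funext t e
  by_cases h : t < N <;> simp [ghZx, h]

/-- the field revealed by the first `j` levels, as a continuous linear map of the flat drivers -/
def pinrPre (ls : List (GhLv S ι)) (N j : ℕ) : (Fin N × ι → ℝ) →L[ℝ] (S → ℝ) :=
  LinearMap.toContinuousLinearMap
    { toFun := fun x => ghPre ls (ghZx N x) j
      map_add' := fun x y => by simp only [ghPre, pinr_ext_add, pinr_sum_add]
      map_smul' := fun c x => by simp only [ghPre, pinr_ext_smul, pinr_sum_smul, RingHom.id_apply] }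

theorem pinrPre_apply (ls : List (GhLv S ι)) (N j : ℕ) (x : Fin N × ι → ℝ) :
    pinrPre ls N j x = ghPre ls (ghZx N x) j := rfl

end lin

/-! ### the SK statements -/

section sk

variable {n : ℕ}

theorem pinr_base_ok (n : ℕ) {a : ℝ} (ha : 0 < a) : (skBase n a).Ok := by
  refine ⟨fun s => ?_, ?_, ha⟩
  · simp only [skBase, ghUnif]; positivity
  · simp only [skBase, ghUnif, Finset.sum_const, Finset.card_univ, nsmul_eq_mul]
    exact mul_inv_cancel₀ (by exact_mod_cast Fintype.card_ne_zero)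

/-- PR0 -/
theorem pinr_W_eq {a : ℝ} (ha : 0 < a) (P : SkStp) (j : ℕ) (ξ : ℕ → SkDr n → ℝ) (σ : SkCfg n) :
    obW n a P 0 j ξ σ = ghH (skBase n a) (skLvs n (P.drop j)) (pinDir n a P j ξ σ) (pinDir n a P j ξ σ)
      (obFld n P 0 ξ j) :=
  (pinr_H_sum (pinr_base_ok n ha) (skLvs n (P.drop j)) (fun i => skY σ i - obXp n a P 0 j ξ i)
    (fun i => obY i) (obFld n P 0 ξ j)).symm

/-- the prefix map of the SK path -/
def pinrG (n : ℕ) (P : SkStp) (j : ℕ) : PinV n P →L[ℝ] (SkCfg n → ℝ) :=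
  pinrPre (skLvs n P) (skLvs n P).length j

theorem pinrG_apply (P : SkStp) (j : ℕ) (x : PinV n P) : pinrG n P j x = pinG n P j x := rfl

theorem pinr_fld (P : SkStp) (j : ℕ) (x : PinV n P) : obFld n P 0 (pinX n P x) j = pinrG n P j x := by
  simp [obFld, pinrG_apply, pinG]

/-- the linear part of the pinned potential -/
def pinrEll (n : ℕ) (a : ℝ) (P : SkStp) (σ : SkCfg n) : PinV n P →L[ℝ] ℝ :=
  a • (ContinuousLinearMap.proj (R := ℝ) (φ := fun _ : SkCfg n => ℝ) σ).comp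
    (pinrG n P (skLvs n P).length)

theorem pinr_Phi_eq (a : ℝ) (P : SkStp) (σ : SkCfg n) :
    pinPhi n a P σ = fun x => ∑ j ∈ Finset.range (P.length + 1),
      skGap a P j * ghF (skBase n a) (skLvs n (P.drop j)) (pinrG n P j x) - pinrEll n a P σ x := by
  funext x
  have e1 : pinrEll n a P σ x = a * ghSum (skLvs n P) (ghZx (skLvs n P).length x) σ := by
    simp [pinrEll, pinrG, pinrPre_apply, ghPre]
  rw [e1, pinPhi, ghPhi, pina_R_gap]
  have e2 : (skBase n a).a = a := rfl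
  simp only [e2, Pi.zero_apply, zero_add, pinrG, pinrPre_apply]
  ring

/-- PR1 -/
theorem pinr_Phi_c2 {a : ℝ} (ha : 0 < a) (P : SkStp) (σ : SkCfg n) :
    ∃ (Φ' : PinV n P → PinV n P →L[ℝ] ℝ) (Φ'' : PinV n P → PinV n P →L[ℝ] PinV n P →L[ℝ] ℝ),
      (∀ x, HasFDerivAt (pinPhi n a P σ) (Φ' x) x) ∧ (∀ x, HasFDerivAt Φ' (Φ'' x) x) ∧ Continuous Φ'' ∧
      ∀ x v, Φ'' x v v = ∑ j ∈ Finset.range (P.length + 1),
        skGap a P j * ghH (skBase n a) (skLvs n (P.drop j)) (pinG n P j v) (pinG n P j v)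
          (obFld n P 0 (pinX n P x) j) := by
  have hB := pinr_base_ok n ha
  have hG : ∀ j : ℕ, ContDiff ℝ 2 fun x : PinV n P =>
      ghF (skBase n a) (skLvs n (P.drop j)) (pinrG n P j x) := fun j =>
    (pinr_F_cd hB _).comp (pinrG n P j).contDiff
  have hΦ : ContDiff ℝ 2 (pinPhi n a P σ) := by
    rw [pinr_Phi_eq]
    exact pinr_pot_contDiff _ _ _ hG _
  refine ⟨fderiv ℝ (pinPhi n a P σ), fderiv ℝ (fderiv ℝ (pinPhi n a P σ)), pinr_hasFDerivAt hΦ,
    pinr_hasFDerivAt_fderiv hΦ, pinr_d2_continuous hΦ, fun x v => ?_⟩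
  rw [pinr_Phi_eq, pinr_d2_pot _ _ _ hG]
  refine Finset.sum_congr rfl fun j _ => ?_
  rw [pinr_fderiv2_comp (pinr_F_cd hB _), pinr_hess_eq hB, pinr_fld]
  rfl

/-- `L` as a function of the revealed field (`Q` = the remaining path) -/
def pinrLam (n : ℕ) (a : ℝ) (Q : SkStp) (σ : SkCfg n) (z : SkCfg n → ℝ) : ℝ :=
  ∑ i, skY σ i * ghE (skBase n a) (skLvs n Q) (obY i) z
    - (∑ i, ghE (skBase n a) (skLvs n Q) (obY i) z ^ 2) / 2

theorem pinr_L_eq (a : ℝ) (P : SkStp) (j : ℕ) (x : PinV n P) (σ : SkCfg n) :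
    obL n a P 0 j (pinX n P x) σ = pinrLam n a (P.drop j) σ (pinrG n P j x) := by
  simp only [obL, obXp, obX, pinr_fld, pinrLam]

theorem pinr_Lam_cd {a : ℝ} (ha : 0 < a) (Q : SkStp) (σ : SkCfg n) : ContDiff ℝ 1 (pinrLam n a Q σ) := by
  have hB := pinr_base_ok n ha
  unfold pinrLam
  refine ContDiff.sub (ContDiff.sum fun i _ => contDiff_const.mul (pinr_E_cd hB _ _)) ?_
  exact (ContDiff.sum fun i _ => (pinr_E_cd hB _ _).pow 2).div_const _

theorem pinr_H_sum_left {S ι : Type} [Fintype S] [Fintype ι] {B : GhB S} (hB : B.Ok) (ls : List (GhLv S ι))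
    {C : Type*} [Fintype C] (c : C → ℝ) (Y : C → S → ℝ) (η z : S → ℝ) :
    ghH B ls (fun t => ∑ i, c i * Y i t) η z = ∑ i, c i * ghH B ls (Y i) η z := by
  have e : (fun t => ∑ i, c i * Y i t) = ∑ i, c i • Y i := by
    funext t; simp [Finset.sum_apply]
  rw [e, ← pinr_hess_eq hB, map_sum]
  refine Finset.sum_congr rfl fun i _ => ?_
  rw [map_smul, smul_eq_mul, pinr_hess_eq hB]

theorem pinr_Lam_fderiv {a : ℝ} (ha : 0 < a) (Q : SkStp) (σ : SkCfg n) (z η : SkCfg n → ℝ) :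
    fderiv ℝ (pinrLam n a Q σ) z η
      = ghH (skBase n a) (skLvs n Q)
          (fun τ => ∑ i, (skY σ i - ghE (skBase n a) (skLvs n Q) (obY i) z) * skY τ i) η z := by
  have hB := pinr_base_ok n ha
  have hE : ∀ i : Fin n, HasFDerivAt (ghE (skBase n a) (skLvs n Q) (obY i))
      (fderiv ℝ (ghE (skBase n a) (skLvs n Q) (obY i)) z) z := fun i =>
    ((pinr_E_cd hB _ _).differentiable (by norm_num)).differentiableAt.hasFDerivAt
  have h1 : HasFDerivAt (pinrLam n a Q σ)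
      (∑ i, skY σ i • fderiv ℝ (ghE (skBase n a) (skLvs n Q) (obY i)) z
        - (2 : ℝ)⁻¹ • ∑ i, ((2 : ℕ) * ghE (skBase n a) (skLvs n Q) (obY i) z ^ (2 - 1)) •
            fderiv ℝ (ghE (skBase n a) (skLvs n Q) (obY i)) z) z := by
    unfold pinrLam
    refine HasFDerivAt.sub (HasFDerivAt.fun_sum fun i _ => (hE i).const_mul (skY σ i)) ?_
    have := (HasFDerivAt.fun_sum (u := Finset.univ) fun i _ => (hE i).pow 2).const_mul (2 : ℝ)⁻¹
    simpa [div_eq_inv_mul] using this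
  have h2 := pinr_H_sum_left hB (skLvs n Q)
    (fun i => skY σ i - ghE (skBase n a) (skLvs n Q) (obY i) z) (fun i => obY i) η z
  rw [h1.fderiv]
  refine Eq.trans ?_ h2.symm
  simp only [sub_apply, smul_apply, sum_apply, smul_eq_mul, Finset.mul_sum,
    ← Finset.sum_sub_distrib, ghE_fderiv hB]
  refine Finset.sum_congr rfl fun i _ => ?_
  push_cast
  ring

/-- PR2 -/
theorem pinr_L_c1 {a : ℝ} (ha : 0 < a) (P : SkStp) (j : ℕ) (σ : SkCfg n) :
    ∃ L' : PinV n P → PinV n P →L[ℝ] ℝ,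
      (∀ x, HasFDerivAt (fun x : PinV n P => obL n a P 0 j (pinX n P x) σ) (L' x) x) ∧ Continuous L' ∧
      ∀ x v, L' x v = ghH (skBase n a) (skLvs n (P.drop j)) (pinDir n a P j (pinX n P x) σ) (pinG n P j v)
        (obFld n P 0 (pinX n P x) j) := by
  have e : (fun x : PinV n P => obL n a P 0 j (pinX n P x) σ)
      = fun x => pinrLam n a (P.drop j) σ (pinrG n P j x) := funext fun x => pinr_L_eq a P j x σ
  have hc : ContDiff ℝ 1 fun x : PinV n P => pinrLam n a (P.drop j) σ (pinrG n P j x) :=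
    (pinr_Lam_cd ha _ σ).comp (pinrG n P j).contDiff
  rw [e]
  refine ⟨fderiv ℝ fun x : PinV n P => pinrLam n a (P.drop j) σ (pinrG n P j x),
    fun x => (hc.differentiable (by norm_num)).differentiableAt.hasFDerivAt,
    hc.continuous_fderiv (by norm_num), fun x v => ?_⟩
  rw [pinr_fderiv_comp1 (pinr_Lam_cd ha _ σ), pinr_Lam_fderiv ha]
  have e2 : pinDir n a P j (pinX n P x) σ = fun τ => ∑ i, (skY σ i
      - ghE (skBase n a) (skLvs n (P.drop j)) (obY i) (pinrG n P j x)) * skY τ i := by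
    funext τ
    simp only [pinDir, obXp, obX, pinr_fld]
  rw [e2, pinr_fld]
  rfl

/-- PR3 -/
theorem pinr_W_cont {a : ℝ} (ha : 0 < a) (P : SkStp) (j : ℕ) (σ : SkCfg n) :
    Continuous fun x : PinV n P => obW n a P 0 j (pinX n P x) σ := by
  have hB := pinr_base_ok n ha
  have hX : ∀ i, Continuous fun x : PinV n P => obXp n a P 0 j (pinX n P x) i := fun i => by
    simp only [obXp, obX, pinr_fld]
    exact (pinr_E_cd hB _ _).continuous.comp (pinrG n P j).continuous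
  have hH : ∀ i k, Continuous fun x : PinV n P => obHp n a P 0 j (pinX n P x) i k := fun i k => by
    simp only [obHp, obH, pinr_fld]
    exact (pinr_H_continuous hB _ _ _).comp (pinrG n P j).continuous
  unfold obW
  exact continuous_finsetSum _ fun i _ => continuous_finsetSum _ fun k _ =>
    ((continuous_const.sub (hX i)).mul (hH i k)).mul (continuous_const.sub (hX k))

end sk

end

end Claimed.Agent.R286
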