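import Claimed.Agent.R286.Fd.PinDefs
import Claimed.Agent.R286.Fd.PinG
import Claimed.Agent.R286.Fd.PinA
import Claimed.Agent.R286.Fd.PinR

/-!
# Row 286 (S0533), Fd/PinC : CONTRACTS of the DAG of PE Lemma 2.3      (architect helper278)

Blocks (each block = ONE file for ONE prover: prove the statements in the file named below under your own names, then replace the `sorry` here by `exact`):
* PA  (`Fd/PinA.lean`)   one path = explicit density on the flat Gaussian drivers (Fubini, induction on the list); exit X1 for LL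
* PG  (`Fd/PinG.lean`)   gauge symmetry
* PR  (`Fd/PinR.lean`, helper171)   regularity of the pinned potential and of `L`, `W` in the flat drivers = the inputs of `Lib/BLLadder.blg_moment`
The assembly (`Fd/PinB.lean`, helper278) proves `ob_pinned_moments`, `ob_pinned_variance` from these + `blg_moment`, `blg_var`.
-/

set_option autoImplicit false

namespace Claimed.Agent.R286

open MeasureTheory ProbabilityTheory Set

/-! ## PA : one path as an explicit density -/
section PA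
variable {S ι : Type} [Fintype S] [Fintype ι]

/-- PA1: telescoping of the product of the transition densities (pure algebra; any `μ`) -/
theorem pin_den_closed (B : GhB S) (hB : B.Ok) (μ : ℝ) (ls : List (GhLv S ι)) (z : S → ℝ) (ξ : ℕ → ι → ℝ) (s : S) :
    ghDen B ls z ξ s
      = B.w s * Real.exp (B.a * (z s + ghSum ls ξ s) - ghR B μ ls z ξ - μ * ghF B ls z) := by
  exact pina_den_closed B hB μ ls z ξ s

/-- PA2: Fubini along the list -/
theorem pin_path_flat (B : GhB S) (hB : B.Ok) (ls : List (GhLv S ι)) (hls : GhAdm B 0 ls) (z : S → ℝ)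
    (T : (ℕ → ι → ℝ) → S → ℝ) (hT : ∀ s, Measurable fun ξ => T ξ s) (hTb : ∃ K, ∀ ξ s, |T ξ s| ≤ K) :
    ghPath B ls z T = ∫ x : Fin ls.length × ι → ℝ,
      ∑ s, T (ghZx ls.length x) s * ghDen B ls z (ghZx ls.length x) s ∂ghFlat ι ls.length := by
  exact pina_path_flat B hB ls z T hT hTb

/-- PA3: the pinned form: sum over the terminal spin of integrals against `exp (-Φ_s)` -/
theorem pin_path_phi (B : GhB S) (hB : B.Ok) (ls : List (GhLv S ι)) (hls : GhAdm B 0 ls) (z : S → ℝ)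
    (T : (ℕ → ι → ℝ) → S → ℝ) (hT : ∀ s, Measurable fun ξ => T ξ s) (hTb : ∃ K, ∀ ξ s, |T ξ s| ≤ K) :
    ghPath B ls z T = ∑ s, B.w s *
      ∫ x : Fin ls.length × ι → ℝ, T (ghZx ls.length x) s * Real.exp (-ghPhi B ls z s x) ∂ghFlat ι ls.length := by
  exact pina_path_phi B hB ls z T hT hTb

/-- PA4: the planted law is normalised -/
theorem pin_path_one (B : GhB S) (hB : B.Ok) (ls : List (GhLv S ι)) (hls : GhAdm B 0 ls) (z : S → ℝ) :
    ghPath B ls z (fun _ _ => 1) = 1 := by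
  exact pina_path_one B hB ls z

/-- PA5: the telescoped potential in the SK vocabulary -/
theorem pin_R_gap (n : ℕ) (a : ℝ) (P : SkStp) (z : SkCfg n → ℝ) (ξ : ℕ → SkDr n → ℝ) :
    ghR (skBase n a) 0 (skLvs n P) z ξ
      = ∑ j ∈ Finset.range (P.length + 1),
          skGap a P j * ghF (skBase n a) (skLvs n (P.drop j)) (z + ghPre (skLvs n P) ξ j) := by
  exact pina_R_gap n a P z ξ

end PA

/-! ## PG : gauge symmetry (zero root field) -/
section PG
variable {n : ℕ}

/-- PG1: the pinned integral of a gauge invariant test does not depend on the pinned spin -/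
theorem pin_gauge_int (a : ℝ) (P : SkStp) (T : (ℕ → SkDr n → ℝ) → SkCfg n → ℝ) (hT : PinInv T) (σ : SkCfg n) :
    ∫ x : PinV n P, T (pinX n P x) σ * Real.exp (-pinPhi n a P σ x) ∂ghFlat (SkDr n) (skLvs n P).length
      = ∫ x : PinV n P, T (pinX n P x) (skUp n) * Real.exp (-pinPhi n a P (skUp n) x)
          ∂ghFlat (SkDr n) (skLvs n P).length := by
  exact ping_gauge_int a P T hT σ

/-- PG2, PG3: `L` and `W` are gauge invariant -/
theorem pin_inv_L (a : ℝ) (P : SkStp) (j : ℕ) : PinInv (obL n a P 0 j) := by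
  exact ping_inv_L a P j

theorem pin_inv_W (a : ℝ) (P : SkStp) (j : ℕ) : PinInv (obW n a P 0 j) := by
  exact ping_inv_W a P j

end PG

/-! ## PR : regularity in the flat drivers (inputs of `blg_moment`) -/
section PR
variable {n : ℕ}

/-- PR0: `W = H(d,d)` (bilinearity of `ghH`) -/
theorem pin_W_eq (hn : 0 < n) {a : ℝ} (ha : 0 < a) (P : SkStp) (hP : SkAdm a P) (j : ℕ) (ξ : ℕ → SkDr n → ℝ)
    (σ : SkCfg n) :
    obW n a P 0 j ξ σ = ghH (skBase n a) (skLvs n (P.drop j)) (pinDir n a P j ξ σ) (pinDir n a P j ξ σ)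
      (obFld n P 0 ξ j) := by
  exact pinr_W_eq ha P j ξ σ

/-- PR1: the pinned potential is twice differentiable with continuous second derivative `Φ'' = ∑_j gap_j H_j(G_j' ·, G_j' ·)` -/
theorem pin_Phi_c2 (hn : 0 < n) {a : ℝ} (ha : 0 < a) (P : SkStp) (hP : SkAdm a P) (σ : SkCfg n) :
    ∃ (Φ' : PinV n P → PinV n P →L[ℝ] ℝ) (Φ'' : PinV n P → PinV n P →L[ℝ] PinV n P →L[ℝ] ℝ),
      (∀ x, HasFDerivAt (pinPhi n a P σ) (Φ' x) x) ∧ (∀ x, HasFDerivAt Φ' (Φ'' x) x) ∧ Continuous Φ'' ∧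
      ∀ x v, Φ'' x v v = ∑ j ∈ Finset.range (P.length + 1),
        skGap a P j * ghH (skBase n a) (skLvs n (P.drop j)) (pinG n P j v) (pinG n P j v)
          (obFld n P 0 (pinX n P x) j) := by
  exact pinr_Phi_c2 ha P σ

/-- PR2: `L` is `C¹` in the flat drivers, with gradient `H(d, G_j' ·)` -/
theorem pin_L_c1 (hn : 0 < n) {a : ℝ} (ha : 0 < a) (P : SkStp) (hP : SkAdm a P) (j : ℕ) (σ : SkCfg n) :
    ∃ L' : PinV n P → PinV n P →L[ℝ] ℝ,
      (∀ x, HasFDerivAt (fun x : PinV n P => obL n a P 0 j (pinX n P x) σ) (L' x) x) ∧ Continuous L' ∧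
      ∀ x v, L' x v = ghH (skBase n a) (skLvs n (P.drop j)) (pinDir n a P j (pinX n P x) σ) (pinG n P j v)
        (obFld n P 0 (pinX n P x) j) := by
  exact pinr_L_c1 ha P j σ

/-- PR3: `W` is continuous in the flat drivers -/
theorem pin_W_cont (hn : 0 < n) {a : ℝ} (ha : 0 < a) (P : SkStp) (hP : SkAdm a P) (j : ℕ) (σ : SkCfg n) :
    Continuous fun x : PinV n P => obW n a P 0 j (pinX n P x) σ := by
  exact pinr_W_cont ha P j σ

theorem pinc_sum_cont {S ι : Type} [Fintype S] [Fintype ι] (ls : List (GhLv S ι)) :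
    Continuous fun ξ : ℕ → ι → ℝ => ghSum ls ξ := by
  induction ls with
  | nil => exact continuous_const
  | cons l ls ih =>
    exact ((gh_ra_inc_cont l).comp (continuous_apply 0)).add
      (ih.comp (continuous_pi fun j => continuous_apply (j + 1)))

theorem pinc_fld_cont (P : SkStp) (j : ℕ) : Continuous fun ξ : ℕ → SkDr n → ℝ => obFld n P 0 ξ j :=
  continuous_const.add (pinc_sum_cont _)

theorem pinc_X_cont {a : ℝ} (ha : 0 < a) (P : SkStp) (j : ℕ) (i : Fin n) :
    Continuous fun ξ : ℕ → SkDr n → ℝ => obXp n a P 0 j ξ i :=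
  (gh_ra_E_cont (obt_base_ok n ha) _ _).comp (pinc_fld_cont P j)

theorem pinc_H_cont {a : ℝ} (ha : 0 < a) (P : SkStp) (j : ℕ) (i k : Fin n) :
    Continuous fun ξ : ℕ → SkDr n → ℝ => obHp n a P 0 j ξ i k :=
  (gh_ra_H_cont (obt_base_ok n ha) _ _ _).comp (pinc_fld_cont P j)

theorem pinc_Y_sq (hn : 0 < n) (σ : SkCfg n) : ∑ i, skY σ i ^ 2 = 1 := by
  have hn' : (0 : ℝ) < n := by exact_mod_cast hn
  have h : ∀ i, skY σ i ^ 2 = 1 / n := fun i => by
    unfold skY
    have hs : skSp σ i * skSp σ i = 1 := by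
      unfold skSp Claims.C0461.pmSpin
      cases σ i <;> simp
    rw [div_pow, Real.sq_sqrt hn'.le, sq, hs]
  simp only [h, Finset.sum_const, Finset.card_univ, Fintype.card_fin, nsmul_eq_mul]
  field_simp

theorem pinc_X_sq (hn : 0 < n) {a : ℝ} (ha : 0 < a) (Q : SkStp) (z : SkCfg n → ℝ) : ∑ i, obX n a Q z i ^ 2 ≤ 1 := by
  have hB := obt_base_ok n ha
  calc ∑ i, obX n a Q z i ^ 2 ≤ ∑ i, ghE (skBase n a) (skLvs n Q) (fun σ => obY i σ * obY i σ) z :=
        Finset.sum_le_sum fun i _ => gh_ra_E_sq_le hB _ _ z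
    _ = ghE (skBase n a) (skLvs n Q) (fun σ => ∑ i, obY i σ * obY i σ) z := by
        have := gh_ra_E_sum hB (skLvs n Q) Finset.univ (fun i σ => obY i σ * obY i σ) z
        rw [← this]
        congr 1
        funext σ
        simp
    _ = ghE (skBase n a) (skLvs n Q) (fun _ => 1) z := by
        congr 1
        funext σ
        have := pinc_Y_sq hn σ
        simpa [obY, sq] using this
    _ = 1 := gh_ra_E_const hB _ 1 z

/-- PR4: measurability and bounds on the sequence space -/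
theorem pin_L_meas (hn : 0 < n) {a : ℝ} (ha : 0 < a) (P : SkStp) (hP : SkAdm a P) (j : ℕ) (σ : SkCfg n) :
    Measurable fun ξ : ℕ → SkDr n → ℝ => obL n a P 0 j ξ σ := by
  refine Continuous.measurable ?_
  unfold obL
  exact (continuous_finsetSum _ fun i _ => continuous_const.mul (pinc_X_cont ha P j i)).sub
    ((continuous_finsetSum _ fun i _ => (pinc_X_cont ha P j i).pow 2).div_const 2)

theorem pin_W_meas (hn : 0 < n) {a : ℝ} (ha : 0 < a) (P : SkStp) (hP : SkAdm a P) (j : ℕ) (σ : SkCfg n) :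
    Measurable fun ξ : ℕ → SkDr n → ℝ => obW n a P 0 j ξ σ := by
  refine Continuous.measurable ?_
  unfold obW
  exact continuous_finsetSum _ fun i _ => continuous_finsetSum _ fun k _ =>
    ((continuous_const.sub (pinc_X_cont ha P j i)).mul (pinc_H_cont ha P j i k)).mul
      (continuous_const.sub (pinc_X_cont ha P j k))

theorem pin_L_bdd (hn : 0 < n) {a : ℝ} (ha : 0 < a) (P : SkStp) (hP : SkAdm a P) (j : ℕ) (ξ : ℕ → SkDr n → ℝ)
    (σ : SkCfg n) : |obL n a P 0 j ξ σ| ≤ 2 := by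
  have hY := pinc_Y_sq hn σ
  have hX : ∑ i, obXp n a P 0 j ξ i ^ 2 ≤ 1 := pinc_X_sq hn ha _ _
  have hX0 : 0 ≤ ∑ i, obXp n a P 0 j ξ i ^ 2 := Finset.sum_nonneg fun i _ => sq_nonneg _
  have h1 : |∑ i, skY σ i * obXp n a P 0 j ξ i| ≤ (∑ i, skY σ i ^ 2 + ∑ i, obXp n a P 0 j ξ i ^ 2) / 2 := by
    rw [← Finset.sum_add_distrib, Finset.sum_div]
    refine (Finset.abs_sum_le_sum_abs _ _).trans (Finset.sum_le_sum fun i _ => ?_)
    rw [abs_le]
    constructor <;> nlinarith [sq_nonneg (skY σ i - obXp n a P 0 j ξ i), sq_nonneg (skY σ i + obXp n a P 0 j ξ i)]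
  unfold obL
  rw [abs_le] at h1 ⊢
  constructor <;> linarith [h1.1, h1.2]

theorem pin_W_bdd (hn : 0 < n) {a : ℝ} (ha : 0 < a) (P : SkStp) (hP : SkAdm a P) (j : ℕ) (ξ : ℕ → SkDr n → ℝ)
    (σ : SkCfg n) : 0 ≤ obW n a P 0 j ξ σ ∧ obW n a P 0 j ξ σ ≤ 4 * a := by
  have hB := obt_base_ok n ha
  have hmem : ∀ l ∈ skLvs n (P.drop j), 0 ≤ l.m ∧ l.m ≤ a := by
    intro l hl
    obtain ⟨e, he, rfl⟩ := List.mem_map.1 hl
    have := hP.2 e (List.mem_of_mem_drop he)
    exact ⟨this.1, this.2.1⟩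
  have hnn : GhNn (skLvs n (P.drop j)) := fun l hl => (hmem l hl).1
  rw [pinr_W_eq ha P j ξ σ]
  set d := pinDir n a P j ξ σ with hd
  set z := obFld n P 0 ξ j with hz
  refine ⟨gh_b_H_nonneg hB d hnn z, ?_⟩
  have h1 := gh_b_H_le hB d hnn (fun l hl => (hmem l hl).2) z
  have ha' : (skBase n a).a = a := rfl
  rw [ha'] at h1
  have hX : ∑ i, obXp n a P 0 j ξ i ^ 2 ≤ 1 := pinc_X_sq hn ha _ _
  have hdb : ∀ τ, d τ * d τ ≤ 4 := by
    intro τ
    have hY := pinc_Y_sq hn σ
    have hYτ := pinc_Y_sq hn τ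
    have hcs := Finset.sum_mul_sq_le_sq_mul_sq Finset.univ (fun i => skY σ i - obXp n a P 0 j ξ i) (fun i => skY τ i)
    have h2 : ∑ i, (skY σ i - obXp n a P 0 j ξ i) ^ 2 ≤ 4 := by
      calc ∑ i, (skY σ i - obXp n a P 0 j ξ i) ^ 2 ≤ ∑ i, (2 * skY σ i ^ 2 + 2 * obXp n a P 0 j ξ i ^ 2) :=
            Finset.sum_le_sum fun i _ => by nlinarith [sq_nonneg (skY σ i + obXp n a P 0 j ξ i)]
        _ = 2 * ∑ i, skY σ i ^ 2 + 2 * ∑ i, obXp n a P 0 j ξ i ^ 2 := by
            rw [Finset.sum_add_distrib, Finset.mul_sum, Finset.mul_sum]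
        _ ≤ 4 := by linarith
    rw [hYτ, mul_one] at hcs
    have : d τ = ∑ i, (skY σ i - obXp n a P 0 j ξ i) * skY τ i := rfl
    rw [this, ← sq]
    linarith
  have h3 : ghC (skBase n a) (skLvs n (P.drop j)) d d z ≤ 4 := by
    unfold ghC
    have e1 := gh_ra_E_mono hB (skLvs n (P.drop j)) (Φ := fun s => d s * d s) (Ψ := fun _ => 4) hdb z
    rw [gh_ra_E_const hB] at e1
    nlinarith [mul_self_nonneg (ghE (skBase n a) (skLvs n (P.drop j)) d z)]
  nlinarith

/-- admissible gaps are nonnegative -/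
theorem pin_ms_lt (a : ℝ) (P : SkStp) {j : ℕ} (h : j < P.length) : skMs a P j = (P[j]'h).m := by
  unfold skMs
  rw [List.getD_eq_getElem _ _ (by simpa using h)]
  simp

theorem pin_ms_ge (a : ℝ) (P : SkStp) {j : ℕ} (h : P.length ≤ j) : skMs a P j = a := by
  unfold skMs
  rw [List.getD_eq_default _ _ (by simpa using h)]

theorem pin_ms_bd {a : ℝ} (ha : 0 < a) (P : SkStp) (hP : SkAdm a P) (j : ℕ) : 0 ≤ skMs a P j ∧ skMs a P j ≤ a := by
  rcases lt_or_ge j P.length with h | h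
  · rw [pin_ms_lt a P h]
    exact ⟨(hP.2 _ (List.getElem_mem h)).1, (hP.2 _ (List.getElem_mem h)).2.1⟩
  · rw [pin_ms_ge a P h]
    exact ⟨ha.le, le_rfl⟩

theorem pin_gap_nonneg {a : ℝ} (ha : 0 < a) (P : SkStp) (hP : SkAdm a P) (j : ℕ) : 0 ≤ skGap a P j := by
  unfold skGap
  rcases Nat.eq_zero_or_pos j with rfl | hj
  · simpa using (pin_ms_bd ha P hP 0).1
  · rw [if_neg hj.ne']
    rcases lt_or_ge j P.length with h | h
    · have h1 : j - 1 < P.length := by omega
      rw [pin_ms_lt a P h, pin_ms_lt a P h1]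
      have := List.pairwise_iff_getElem.1 hP.1 (j - 1) j h1 h (by omega)
      linarith
    · rw [pin_ms_ge a P h]
      have := (pin_ms_bd ha P hP (j - 1)).2
      linarith

/-- admissibility in the two vocabularies -/
theorem pin_adm (n : ℕ) {a : ℝ} (P : SkStp) (hP : SkAdm a P) : GhAdm (skBase n a) 0 (skLvs n P) := by
  constructor
  · unfold skLvs
    rw [List.pairwise_map]
    exact hP.1
  · intro l hl
    unfold skLvs at hl
    obtain ⟨e, he, rfl⟩ := List.mem_map.1 hl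
    exact ⟨(hP.2 e he).1, (hP.2 e he).2.1⟩

theorem pin_base_ok (n : ℕ) {a : ℝ} (ha : 0 < a) : (skBase n a).Ok where
  nonneg := fun _ => by simp only [skBase, ghUnif]; positivity
  sum := by
    simp only [skBase, ghUnif, Finset.sum_const, Finset.card_univ, nsmul_eq_mul]
    exact mul_inv_cancel₀ (by positivity)
  pos := ha

end PR

end Claimed.Agent.R286
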