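import Claimed.Agent.R286.Fd.ObsC
import Claimed.Agent.R286.Fd.CTr
import Claimed.Agent.R286.Fd.CSym
import Claimed.Agent.R286.Fd.CClk
import Claimed.Agent.R286.Fd.PinC
import Claimed.Agent.R286.Fd.CDefs
import Claimed.Agent.R286.Fd.P147
import Claimed.Agent.R286.Gk.HeatT

/-!
# Row 286 (S0533), unit Fd = PE Section 2 (foundations.tex): THE SECTION CONTRACT      (head helper118, deputy helper16; this file: owner helper118, prefix `fd_`)

This file COLLECTS the exits of the section (imports) and adds the exits which are used by later sections but are no displayed lemma (below).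

## Vocabulary (frozen, 207): `Defs/Gh` (76), `Defs/Sk` (273), `Defs/Tr` (150: N-tables, THE allocation calculus), `Defs/Clk` (76), `Fd/Obs` (278), `Fd/ClkDefs` (42).
`Defs/Plc` + `Fd/PlcLem` (42) = proved one-label kernel on `GhTree q`; bridge `tr_nu_of_ghTree`, `trOf` (`Fd/TrB1`), Plc forms: 42 (`Fd/TrPlc`).

## EXITS (statement file : architect : content : TeX)
* `Fd/ObsG`, `Fd/ObsC` : 278 : L2.1 (grad = `ghE`, Hess = `ghH`, `uC ≼ H ≼ aC`, tower, two leaves, `D²`), (1) lines 1-4, L2.2 (segment derivative, `L¹` Lipschitz, clock identity), L2.3 (+ polynomial form (A2))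
      TEX[PE:lem:found-source] TEX[PE:lem:found-pressure] TEX[PE:lem:found-moments]
* `Fd/PinDefs`, `Fd/PinC` : 10 : telescoped pinned density, gauge invariance, convexity in the drivers (X1 of 199)      TEX[PE:lem:found-moments]
* `Fd/TrA1-6` : 150 : pure combinatorics: L2.6 (row sum, TV, collapse), L2.8 (split density), L2.11 (cut layer), order symmetry, relabelling, MARGINALISATION CONSISTENCY
      TEX[PE:lem:found-attachment] TEX[PE:lem:found-split-density] TEX[PE:lem:found-cut-truncation]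
* `Fd/TrB1-6` : 150 : positive laws: probability vector, Hölder, comap (prune / perm / del / coincide), cut (Markov), indep, empty levels, cov_congr, symmetries, product, L2.12 coupling
      TEX[PE:lem:found-coupling]
* `Fd/TrC1-4` : 150 (engine `Fd/P02*` 299, `Fd/Slot*` 134) : source slots, Cor 2.10, **(2)**, pressure derivative, iterated (2), L2.9 Taylor + two-sided comparison, merge
      TEX[PE:prop:found-replica] TEX[PE:lem:found-taylor] TEX[PE:cor:found-source-bounds]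
* `Fd/CSym` : 16 : D5 of 142: transport along bijections (gauge, site permutation, block flip, change of drivers), constant kernels, product models, SK forms
* `Exit/Clk*` (collected by `Fd/CClk`) : 42 + 150, layer C 262 : Prop 2.14 as NUMBERS: G0 existence (uniform in the cuts), G1 pressure `C¹` on segments + `L¹` Lipschitz, G2 susceptibility,
      G3 S, B, D², traces, G4 concentration of `|X|²`, G5 Lipschitz in the clocks + fork modulus      TEX[PE:prop:found-limits]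
* this file : 118 : P6 = derivative / monotonicity / mesh-free Lipschitz bound in the MASS of a level and in the terminal mass (for LL 03), fresh label in N-table form, Gaussian IBP on one planted path + score, mgf of a planted step (both for PE L3.5), ranges / monotonicity of `S, B`, `E L = S/2`.

## INSTANCES of the abstract interfaces of the consumers (243 #3; owners named by 118, 15 Oct 02:50Z)
`CmPr.Ok` 226 | `CmNum.Ok` 144 (step-level `master`: 294) | `CmGeo.clock` 251 + 255 | `MvIface n` 71 (`Fd/InstMv`) | `PPath.Ok, Proj, Pin, PClk` 76 (`Fd/InstPath`) | Plc forms for `Cav/*` 42.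

## IMPORTS of the section: Mathlib; `Tst/Base, Step` (131: THE class of regular functions), `Gh/Reg` (131), `Defs/GhBasic, GhDeriv` (71), `Fd/RegA` (144), `Gk/Heat` (119), `Lib/GhMeas, GhMart` (225), `Fd/Law` (76),
Brascamp-Lieb `Lib/BLVar, BLLadder` (169, 171), Prékopa `Lib/PL*`.      Nothing from the later sections.

## DROPPED
TEXDROP[PE:rem:found-single-pin] a rule of use (marginalise, then Hölder under the positive law): = `tr_nu_comap` + `tr_nu_holder` at the users.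
TEXDROP[PE:remark@foundations:484] a warning, no statement.
TEXDROP[PE:lem:found-boundary-tests] telescoping product + Hölder: typed at the users (`Cav/Prod`, `Cav/Hol`); claimed by 144 if a shared form is wanted.
-/

set_option autoImplicit false

namespace Claimed.Agent.R286

open MeasureTheory ProbabilityTheory

section fresh
variable {S ι : Type} [Fintype S] [Fintype ι] [Inhabited S]

/-- FRESH LABEL ("conditional means in `P` can be represented by independent additional replicas at their specified prefixes"):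
the planted conditional mean of `φ` given the field revealed to the label `x` by the first `t` levels = a new label attached to `x` at depth `t`.
Raw form: `gh_n_att` (`Fd/NuApiC`).      TEX[PE:prop:found-replica] -/
theorem fd_fresh (B : GhB S) (hB : B.Ok) (ls : List (GhLv S ι)) (hls : GhAdm B 0 ls) {q : ℕ} {τ : ℕ → ℕ → ℕ}
    (hτ : IsTr ls.length q τ) (z : S → ℝ) (P : (ℕ → S) → ℝ) (hP : TrUses q P) (φ : S → ℝ) (x : Fin q) {t : ℕ} (ht : t ≤ ls.length) :
    ghNu B ls (fun k => trRep q τ k) (fun _ => z)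
        (fun η σ => P (trExt σ) * ghE B (ls.drop t) φ (z + ghPre ls (fun k => η k x) t))
      = trNu B ls (q + 1) (trAtt ls.length q τ x.1 t) z fun σ => P σ * φ (σ q) := by
  rw [ghs_tr_att B ls hτ x t z φ P hP]
  exact (gh_n_att B hB φ ls (hls.ghNn le_rfl) t ht (fun k => trRep q τ k) (tb2_repOk hτ) x (fun _ => z)
    (fun _ _ _ => rfl) (fun _ σ => P (trExt σ))).symm

end fresh

section path
variable {S ι : Type} [Fintype S] [Fintype ι]

/-- GAUSSIAN INTEGRATION BY PARTS on one planted path (used by PE Lemma 3.5; G1 of 247).      TEX[PE:lem:found-moments] -/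
theorem fd_path_ibp [DecidableEq ι] (B : GhB S) (hB : B.Ok) (ls : List (GhLv S ι)) (hls : GhAdm B 0 ls) (z : S → ℝ) (k : ℕ)
    (hk : k < ls.length) (i : ι) (Q Q' : (ℕ → ι → ℝ) → S → ℝ) (hQ : FdGr ls.length Q) (hQ' : FdGr ls.length Q')
    (hd : ∀ ξ s, HasDerivAt (fun x : ℝ => Q (Function.update ξ k (Function.update (ξ k) i x)) s) (Q' ξ s) (ξ k i)) :
    ghPath B ls z (fun ξ s => ξ k i * Q ξ s)
      = ghPath B ls z Q' + ghPath B ls z fun ξ s => Q ξ s * fdScore B ls z k (fun s' => (ls[k]).A s' i) ξ s := by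
  exact obi_path_ibp B hB ls (hls.ghNn le_rfl) z k hk i Q Q' hQ hQ' hd

/-- integral against `ghStd` as a Lebesgue integral (every `g`) -/
theorem fd_std_integral (g : (ι → ℝ) → ℝ) :
    ∫ ξ, g ξ ∂ghStd ι = ∫ ξ : ι → ℝ, (∏ i, gaussianPDFReal 0 1 (ξ i)) * g ξ := by
  unfold ghStd
  rw [Claimed.Agent.BL.bl_pi_gaussian_eq_withDensity,
    integral_withDensity_eq_integral_toReal_smul (by fun_prop) (Filter.Eventually.of_forall fun _ => ENNReal.ofReal_lt_top)]
  refine integral_congr_ae (Filter.Eventually.of_forall fun ξ => ?_)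
  simp only [smul_eq_mul]
  rw [ENNReal.toReal_ofReal (Finset.prod_nonneg fun i _ => gaussianPDFReal_nonneg 0 1 _)]

/-- Cameron-Martin on `ghStd` (every `f`) -/
theorem fd_cm (c : ι → ℝ) (f : (ι → ℝ) → ℝ) :
    ∫ ξ, Real.exp (∑ i, c i * ξ i) * f ξ ∂ghStd ι = Real.exp ((∑ i, c i ^ 2) / 2) * ∫ ξ, f (ξ + c) ∂ghStd ι := by
  rw [fd_std_integral, fd_std_integral, ← integral_const_mul,
    ← integral_add_right_eq_self (μ := (volume : Measure (ι → ℝ))) _ c]
  refine integral_congr_ae (Filter.Eventually.of_forall fun ξ => ?_)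
  simp only
  rw [← mul_assoc, ← mul_assoc]
  congr 1
  simp only [gaussianPDFReal, sub_zero, NNReal.coe_one, mul_one, Pi.add_apply]
  rw [Finset.prod_mul_distrib, Finset.prod_mul_distrib, ← Real.exp_sum, ← Real.exp_sum, mul_assoc, ← Real.exp_add,
    mul_left_comm, ← Real.exp_add]
  congr 2
  rw [Finset.sum_div, ← Finset.sum_add_distrib, ← Finset.sum_add_distrib]
  refine Finset.sum_congr rfl fun i _ => ?_
  ring

/-- moment generating function of the driver of one planted step (Cameron-Martin; innovation bound of PE Lemma 3.5) -/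
theorem fd_step_mgf (B : GhB S) (hB : B.Ok) (l : GhLv S ι) (ls : List (GhLv S ι)) (hls : GhAdm B 0 (l :: ls)) (z : S → ℝ) (c : ι → ℝ) :
    ∫ ξ, ghD B l ls z ξ * Real.exp (∑ i, c i * ξ i) ∂ghStd ι
      = Real.exp ((∑ i, c i ^ 2) / 2 + l.m * (ghF B (l :: ls) (z + l.inc c) - ghF B (l :: ls) z)) := by
  have hn : GhNn (l :: ls) := hls.ghNn le_rfl
  simp_rw [mul_comm (ghD B l ls z _)]
  rw [fd_cm c (fun ξ => ghD B l ls z ξ), Real.exp_add]
  congr 1
  have e : ∀ ξ, ghD B l ls z (ξ + c)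
      = ghD B l ls (z + l.inc c) ξ * Real.exp (l.m * (ghF B (l :: ls) (z + l.inc c) - ghF B (l :: ls) z)) := by
    intro ξ
    unfold ghD
    rw [← Real.exp_add, gh_b_inc_add]
    congr 1
    have : z + (l.inc ξ + l.inc c) = z + l.inc c + l.inc ξ := by abel
    rw [this]
    ring
  simp_rw [e]
  rw [integral_mul_const, gh_b_D_integral hB hn.tail l, one_mul]

end path

section it
variable {S ι : Type} [Fintype S] [Fintype ι]

/-- Jensen for one planted step -/
theorem fd_A_sq_le {B : GhB S} (hB : B.Ok) {l : GhLv S ι} {ls : List (GhLv S ι)} (h : GhNn (l :: ls))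
    {g : (S → ℝ) → ℝ} {M : ℝ} (hg : GhBC g M) (z : S → ℝ) :
    ghA B l ls g z ^ 2 ≤ ghA B l ls (fun y => g y ^ 2) z := by
  have h0 : 0 ≤ ghA B l ls (fun y => (g y - ghA B l ls g z) ^ 2) z := gh_b_A_nonneg hB h (fun y => sq_nonneg _) z
  have e : (fun y => (g y - ghA B l ls g z) ^ 2)
      = fun y => (g y ^ 2 - (2 * ghA B l ls g z) * g y) + ghA B l ls g z ^ 2 := by funext y; ring
  have hg2 : GhBC (fun y => g y ^ 2) (M * M) := by simpa only [sq] using hg.mul hg
  rw [e, gh_b_A_add hB h (hg2.sub (hg.const_mul _)) (gh_b_bc_const _), gh_b_A_sub hB h hg2 (hg.const_mul _),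
    gh_b_A_const_mul, gh_b_A_const hB h] at h0
  nlinarith

theorem fd_A_sum {B : GhB S} (hB : B.Ok) {l : GhLv S ι} {ls : List (GhLv S ι)} (h : GhNn (l :: ls)) {κ : Type}
    (K : Finset κ) {g : κ → (S → ℝ) → ℝ} (hg : ∀ k ∈ K, ObuBC (g k)) (z : S → ℝ) :
    ghA B l ls (fun y => ∑ k ∈ K, g k y) z = ∑ k ∈ K, ghA B l ls (g k) z := by
  unfold ghA
  simp_rw [Finset.mul_sum]
  exact integral_finsetSum _ fun k hk => by
    obtain ⟨M, hM⟩ := hg k hk
    exact gh_b_A_integrable hB h hM z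

theorem fd_it_mono {B : GhB S} (hB : B.Ok) {φ ψ : (S → ℝ) → ℝ} (hφ : ObuBC φ) (hψ : ObuBC ψ) (hle : ∀ y, φ y ≤ ψ y) :
    ∀ {ls : List (GhLv S ι)}, GhNn ls → ∀ (j : ℕ) (z : S → ℝ), obuIt B ls j φ z ≤ obuIt B ls j ψ z
  | [], _, _, z => hle z
  | _ :: _, _, 0, z => hle z
  | l :: ls, hn, j + 1, z => by
      obtain ⟨M, hM⟩ := hφ
      obtain ⟨M', hM'⟩ := hψ
      exact gh_b_A_mono hB hn (obu_it_bc hB hn.tail j hM) (obu_it_bc hB hn.tail j hM')
        (fun y => fd_it_mono hB ⟨M, hM⟩ ⟨M', hM'⟩ hle hn.tail j y) z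

theorem fd_it_const {B : GhB S} (hB : B.Ok) (c : ℝ) :
    ∀ {ls : List (GhLv S ι)}, GhNn ls → ∀ (j : ℕ) (z : S → ℝ), obuIt B ls j (fun _ => c) z = c
  | [], _, _, _ => rfl
  | _ :: _, _, 0, _ => rfl
  | l :: ls, hn, j + 1, z => by
      have : obuIt B ls j (fun _ => c) = fun _ => c := funext fun y => fd_it_const hB c hn.tail j y
      simp only [obuIt]
      rw [this, gh_b_A_const hB hn]

/-- Jensen for the `j`-fold planted average -/
theorem fd_it_sq_le {B : GhB S} (hB : B.Ok) {φ : (S → ℝ) → ℝ} (hφ : ObuBC φ) :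
    ∀ {ls : List (GhLv S ι)}, GhNn ls → ∀ (j : ℕ) (z : S → ℝ), obuIt B ls j φ z ^ 2 ≤ obuIt B ls j (fun y => φ y ^ 2) z
  | [], _, _, _ => le_rfl
  | _ :: _, _, 0, _ => le_rfl
  | l :: ls, hn, j + 1, z => by
      obtain ⟨M, hM⟩ := hφ
      obtain ⟨M2, hM2⟩ := (ObuBC.sq ⟨M, hM⟩ : ObuBC fun y => φ y ^ 2)
      have h1 := obu_it_bc hB hn.tail j hM
      obtain ⟨M3, hM3⟩ := (ObuBC.sq ⟨M, h1⟩ : ObuBC fun y => obuIt B ls j φ y ^ 2)
      exact (fd_A_sq_le hB hn h1 z).trans (gh_b_A_mono hB hn hM3 (obu_it_bc hB hn.tail j hM2)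
        (fun y => fd_it_sq_le hB ⟨M, hM⟩ hn.tail j y) z)

theorem fd_sq_bc {B : GhB S} (hB : B.Ok) {κ : Type} [Fintype κ] (v : κ → S → ℝ) {ls : List (GhLv S ι)} (h : GhNn ls) :
    ObuBC fun y => ∑ k, ghE B ls (v k) y ^ 2 :=
  ObuBC.sum _ fun k _ => ObuBC.sq ⟨_, gh_b_E_bc' hB (v k) h⟩

theorem fd_nn_drop {ls : List (GhLv S ι)} (h : GhNn ls) (j : ℕ) : GhNn (ls.drop j) :=
  fun l hl => h l (List.mem_of_mem_drop hl)

/-- the expected squared norm of a vector of planted conditional means increases along the cuts -/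
theorem fd_sq_mono {B : GhB S} (hB : B.Ok) {κ : Type} [Fintype κ] (v : κ → S → ℝ) :
    ∀ {ls : List (GhLv S ι)}, GhNn ls → ∀ (j : ℕ) (z : S → ℝ),
      obuIt B ls j (fun y => ∑ k, ghE B (ls.drop j) (v k) y ^ 2) z
        ≤ obuIt B ls (j + 1) (fun y => ∑ k, ghE B (ls.drop (j + 1)) (v k) y ^ 2) z
  | [], _, _, _ => by simp [obuIt]
  | l :: ls, hn, 0, z => by
      have e : obuIt B ls 0 (fun y => ∑ k, ghE B ls (v k) y ^ 2) = fun y => ∑ k, ghE B ls (v k) y ^ 2 :=
        funext fun y => obu_it_zero B ls _ y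
      simp only [obuIt, List.drop_zero, List.drop_succ_cons]
      rw [e, fd_A_sum hB hn _ (fun k _ => ObuBC.sq ⟨_, gh_b_E_bc' hB (v k) hn.tail⟩)]
      exact Finset.sum_le_sum fun k _ => fd_A_sq_le hB hn (gh_b_E_bc' hB (v k) hn.tail) z
  | l :: ls, hn, j + 1, z => by
      simp only [obuIt, List.drop_succ_cons]
      obtain ⟨M, hM⟩ := fd_sq_bc hB v (fd_nn_drop hn.tail j)
      obtain ⟨M', hM'⟩ := fd_sq_bc hB v (fd_nn_drop hn.tail (j + 1))
      exact gh_b_A_mono hB hn (obu_it_bc hB hn.tail j hM) (obu_it_bc hB hn.tail (j + 1) hM')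
        (fun y => fd_sq_mono hB v hn.tail j y) z

theorem fd_sq_mono' {B : GhB S} (hB : B.Ok) {κ : Type} [Fintype κ] (v : κ → S → ℝ) {ls : List (GhLv S ι)} (h : GhNn ls)
    (z : S → ℝ) {j j' : ℕ} (hj : j ≤ j') :
    obuIt B ls j (fun y => ∑ k, ghE B (ls.drop j) (v k) y ^ 2) z
      ≤ obuIt B ls j' (fun y => ∑ k, ghE B (ls.drop j') (v k) y ^ 2) z := by
  induction j', hj using Nat.le_induction with
  | base => exact le_rfl
  | succ m _ ih => exact ih.trans (fd_sq_mono hB v h m z)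

/-- range of the expected squared norm for a normalised family -/
theorem fd_sq_range {B : GhB S} (hB : B.Ok) {κ : Type} [Fintype κ] (v : κ → S → ℝ) (hv : ∀ s, ∑ k, v k s ^ 2 = 1)
    {ls : List (GhLv S ι)} (h : GhNn ls) (j : ℕ) (z : S → ℝ) :
    0 ≤ obuIt B ls j (fun y => ∑ k, ghE B (ls.drop j) (v k) y ^ 2) z
      ∧ obuIt B ls j (fun y => ∑ k, ghE B (ls.drop j) (v k) y ^ 2) z ≤ 1 := by
  have hd := fd_nn_drop h j
  have hbc := fd_sq_bc hB v hd
  constructor
  · have := fd_it_mono hB ⟨_, gh_b_bc_const 0⟩ hbc (fun y => Finset.sum_nonneg fun k _ => sq_nonneg _) h j z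
    rwa [fd_it_const hB 0 h] at this
  · have := fd_it_mono hB hbc ⟨_, gh_b_bc_const 1⟩ (fun y => ?_) h j z
    · rwa [fd_it_const hB 1 h] at this
    · calc ∑ k, ghE B (ls.drop j) (v k) y ^ 2 ≤ ∑ k, ghE B (ls.drop j) (fun s => v k s * v k s) y :=
            Finset.sum_le_sum fun k _ => by
              have := gh_b_C_nonneg hB (v k) hd y
              unfold ghC at this
              nlinarith
        _ = ghE B (ls.drop j) (fun s => ∑ k, v k s * v k s) y := (gh_b_E_sum hB _ _ hd y).symm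
        _ = 1 := by
            have : (fun s => ∑ k, v k s * v k s) = fun _ => (1 : ℝ) := funext fun s => by
              rw [← hv s]; exact Finset.sum_congr rfl fun k _ => (sq _).symm
            rw [this, gh_b_E_const hB 1 hd]

theorem fd_path_nonneg {B : GhB S} (hB : B.Ok) : ∀ (ls : List (GhLv S ι)) (z : S → ℝ) (T : (ℕ → ι → ℝ) → S → ℝ),
    (∀ ξ s, 0 ≤ T ξ s) → 0 ≤ ghPath B ls z T
  | [], z, T, h => Finset.sum_nonneg fun s _ => mul_nonneg (gh_b_Gw_nonneg hB z s) (h _ s)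
  | l :: ls, z, T, h => integral_nonneg fun ξ =>
      mul_nonneg (gh_b_D_pos B l ls z ξ).le (fd_path_nonneg hB ls _ _ fun η s => h _ s)

end it

section ranges
variable {n : ℕ}

theorem fd_S_eq {a : ℝ} (ha : 0 < a) (P : SkStp) (hP : SkAdm a P) (z₀ : SkCfg n → ℝ) (j : ℕ) :
    obS n a P z₀ j = obuIt (skBase n a) (skLvs n P) j
      (fun y => ∑ i, ghE (skBase n a) ((skLvs n P).drop j) (obY i) y ^ 2) z₀ := by
  unfold obS obE obXp obX obFld
  rw [obu_lvs_drop]
  exact obu_path_field (obu_base_ok n ha) (obu_lvs_nn n hP) z₀ j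
    (fun y => ∑ i, ghE (skBase n a) ((skLvs n P).drop j) (obY i) y ^ 2)

theorem fd_B_eq {a : ℝ} (ha : 0 < a) (P : SkStp) (hP : SkAdm a P) (z₀ : SkCfg n → ℝ) (j : ℕ) :
    obB n a P z₀ j = obuIt (skBase n a) (skLvs n P) j
      (fun y => ∑ p : Fin n × Fin n, ghE (skBase n a) ((skLvs n P).drop j) (fun σ => skY σ p.1 * skY σ p.2) y ^ 2) z₀ := by
  unfold obB obE obM obFld
  rw [obu_lvs_drop]
  simp_rw [Fintype.sum_prod_type]
  exact obu_path_field (obu_base_ok n ha) (obu_lvs_nn n hP) z₀ j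
    (fun y => ∑ i, ∑ k, ghE (skBase n a) ((skLvs n P).drop j) (fun σ => skY σ i * skY σ k) y ^ 2)

theorem fd_Y_sq (hn : 0 < n) (σ : SkCfg n) : ∑ i : Fin n, obY i σ ^ 2 = 1 := by
  have h := obu_feat_h hn σ σ
  have hn' : (n : ℝ) ≠ 0 := by exact_mod_cast hn.ne'
  have h1 : skOv σ σ = 1 := by
    unfold skOv
    have : ∀ i, skSp σ i * skSp σ i = 1 := fun i => by
      unfold skSp Claims.C0461.pmSpin
      cases σ i <;> simp
    simp only [this, Finset.sum_const, Finset.card_univ, Fintype.card_fin, nsmul_eq_mul, mul_one]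
    exact div_self hn'
  rw [← h1, ← h]
  exact Finset.sum_congr rfl fun i _ => sq _

theorem fd_YY_sq (hn : 0 < n) (σ : SkCfg n) : ∑ p : Fin n × Fin n, (skY σ p.1 * skY σ p.2) ^ 2 = 1 := by
  have h := fd_Y_sq hn σ
  simp only [obY] at h
  rw [Fintype.sum_prod_type]
  simp_rw [mul_pow, ← Finset.mul_sum, h, mul_one, h]

/-- `0 ≤ S ≤ 1`      TEX[PE:lem:found-source] -/
theorem fd_S_range (hn : 0 < n) {a : ℝ} (ha : 0 < a) (P : SkStp) (hP : SkAdm a P) (z₀ : SkCfg n → ℝ) (j : ℕ) :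
    0 ≤ obS n a P z₀ j ∧ obS n a P z₀ j ≤ 1 := by
  rw [fd_S_eq ha P hP]
  exact fd_sq_range (obu_base_ok n ha) (fun i => obY i) (fd_Y_sq hn) (obu_lvs_nn n hP) j z₀

/-- `S² ≤ B ≤ 1` -/
theorem fd_B_range (hn : 0 < n) {a : ℝ} (ha : 0 < a) (P : SkStp) (hP : SkAdm a P) (z₀ : SkCfg n → ℝ) (j : ℕ) :
    obS n a P z₀ j ^ 2 ≤ obB n a P z₀ j ∧ obB n a P z₀ j ≤ 1 := by
  have hB := obu_base_ok n ha
  have hls := obu_lvs_nn n hP
  constructor
  · have hd := obu_D2_decomp hn ha P hP z₀ j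
    have h1 : obS n a P z₀ j ^ 2 ≤ obE n a P z₀ (fun ξ _ => (∑ i, obXp n a P z₀ j ξ i ^ 2) ^ 2) := by
      rw [fd_S_eq ha P hP]
      have e : obE n a P z₀ (fun ξ _ => (∑ i, obXp n a P z₀ j ξ i ^ 2) ^ 2)
          = obuIt (skBase n a) (skLvs n P) j
            (fun y => (∑ i, ghE (skBase n a) ((skLvs n P).drop j) (obY i) y ^ 2) ^ 2) z₀ := by
        unfold obE obXp obX obFld
        rw [obu_lvs_drop]
        exact obu_path_field hB hls z₀ j
          (fun y => (∑ i, ghE (skBase n a) ((skLvs n P).drop j) (obY i) y ^ 2) ^ 2)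
      rw [e]
      exact fd_it_sq_le hB (fd_sq_bc hB (fun i => obY i) (fd_nn_drop hls j)) hls j z₀
    have h2 : 0 ≤ obE n a P z₀
        (fun ξ _ => ∑ i, ∑ k, obXp n a P z₀ j ξ i * obCp n a P z₀ j ξ i k * obXp n a P z₀ j ξ k) := by
      refine fd_path_nonneg hB _ _ _ fun ξ _ => ?_
      unfold obCp
      rw [obu_quad_C ha (P.drop j) (obu_adm_drop hP j)]
      exact gh_b_C_nonneg hB _ (obu_lvs_nn n (obu_adm_drop hP j)) _
    have h3 : 0 ≤ obTrC2 n a P z₀ j :=
      fd_path_nonneg hB _ _ _ fun ξ _ => Finset.sum_nonneg fun i _ => Finset.sum_nonneg fun k _ => sq_nonneg _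
    unfold obD2 at hd
    linarith
  · rw [fd_B_eq ha P hP]
    exact (fd_sq_range hB (fun p : Fin n × Fin n => fun σ => skY σ p.1 * skY σ p.2) (fd_YY_sq hn) hls j z₀).2

/-- `S` is nondecreasing along the cuts (martingale property) -/
theorem fd_S_mono (hn : 0 < n) {a : ℝ} (ha : 0 < a) (P : SkStp) (hP : SkAdm a P) (z₀ : SkCfg n → ℝ) {j j' : ℕ} (h : j ≤ j') :
    obS n a P z₀ j ≤ obS n a P z₀ j' := by
  rw [fd_S_eq ha P hP, fd_S_eq ha P hP]
  exact fd_sq_mono' (obu_base_ok n ha) (fun i => obY i) (obu_lvs_nn n hP) z₀ h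

/-- `B` is nondecreasing along the cuts -/
theorem fd_B_mono (hn : 0 < n) {a : ℝ} (ha : 0 < a) (P : SkStp) (hP : SkAdm a P) (z₀ : SkCfg n → ℝ) {j j' : ℕ} (h : j ≤ j') :
    obB n a P z₀ j ≤ obB n a P z₀ j' := by
  rw [fd_B_eq ha P hP, fd_B_eq ha P hP]
  exact fd_sq_mono' (obu_base_ok n ha) (fun p : Fin n × Fin n => fun σ => skY σ p.1 * skY σ p.2) (obu_lvs_nn n hP) z₀ h

/-- `E L = S / 2` -/
theorem fd_E_L (hn : 0 < n) {a : ℝ} (ha : 0 < a) (P : SkStp) (hP : SkAdm a P) (z₀ : SkCfg n → ℝ) (j : ℕ) :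
    obE n a P z₀ (obL n a P z₀ j) = obS n a P z₀ j / 2 := by
  have hB := obu_base_ok n ha
  have hls := obu_lvs_nn n hP
  have hd : GhNn (skLvs n (P.drop j)) := obu_lvs_nn n (obu_adm_drop hP j)
  have hloc : ∀ ξ ξ' : ℕ → SkDr n → ℝ, (∀ t, t < j → ξ t = ξ' t) → obL n a P z₀ j ξ = obL n a P z₀ j ξ' := by
    intro ξ ξ' h
    funext σ
    unfold obL obXp obFld
    rw [obu_pre_loc (skLvs n P) j ξ ξ' h]
  unfold obE obS
  rw [obu_tower_gen hB hls z₀ j (obL n a P z₀ j) hloc, div_eq_inv_mul]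
  unfold obE
  rw [← obu_path_const_mul]
  congr 1
  funext ξ _
  rw [← obu_lvs_drop]
  have e : obL n a P z₀ j ξ = fun σ => (∑ i, obXp n a P z₀ j ξ i * obY i σ) - (∑ i, obXp n a P z₀ j ξ i ^ 2) / 2 := by
    funext σ
    unfold obL obY
    congr 1
    exact Finset.sum_congr rfl fun i _ => mul_comm _ _
  rw [e, gh_b_E_sub hB _ _ hd, gh_b_E_sum hB _ _ hd, gh_b_E_const hB _ hd]
  simp_rw [gh_b_E_const_mul]
  have e2 : ∀ i, ghE (skBase n a) (skLvs n (P.drop j)) (obY i) (z₀ + ghPre (skLvs n P) ξ j) = obXp n a P z₀ j ξ i :=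
    fun i => rfl
  simp_rw [e2]
  have e3 : ∑ i, obXp n a P z₀ j ξ i * obXp n a P z₀ j ξ i = ∑ i, obXp n a P z₀ j ξ i ^ 2 :=
    Finset.sum_congr rfl fun i _ => (sq _).symm
  rw [e3]
  ring

end ranges

section mass
variable {S ι : Type} [Fintype S] [Fintype ι]

/-- P6 (262, 272): DERIVATIVE IN THE MASS OF ONE LEVEL.      `∂_μ T_μ F = μ⁻¹ (E_μ F - T_μ F)`, transported to the root by the planted chain. -/
theorem fd_mass_deriv (B : GhB S) (hB : B.Ok) (l₁ : List (GhLv S ι)) (A : S → ι → ℝ) (l₂ : List (GhLv S ι)) {m : ℝ} (hm : 0 < m)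
    (hnn : ∀ l ∈ l₁ ++ l₂, 0 ≤ l.m) (z : S → ℝ) :
    HasDerivAt (fun μ : ℝ => ghF B (l₁ ++ ⟨μ, A⟩ :: l₂) z)
      (ghPath B (l₁ ++ ⟨m, A⟩ :: l₂) z fun ξ _ =>
        (ghF B l₂ (z + ghPre (l₁ ++ ⟨m, A⟩ :: l₂) ξ (l₁.length + 1))
          - ghF B (⟨m, A⟩ :: l₂) (z + ghPre (l₁ ++ ⟨m, A⟩ :: l₂) ξ l₁.length)) / m) m :=
  fd7_mass_deriv B hB l₁ A l₂ hm z

/-- P6: the continuation is nondecreasing in the mass of each level -/
theorem fd_mass_mono (B : GhB S) (hB : B.Ok) (l₁ : List (GhLv S ι)) (A : S → ι → ℝ) (l₂ : List (GhLv S ι)) {m m' : ℝ} (hm : 0 ≤ m)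
    (hmm : m ≤ m') (hnn : ∀ l ∈ l₁ ++ l₂, 0 ≤ l.m) (z : S → ℝ) :
    ghF B (l₁ ++ ⟨m, A⟩ :: l₂) z ≤ ghF B (l₁ ++ ⟨m', A⟩ :: l₂) z :=
  fd_mass_mono_pf B hB l₁ A l₂ hm hmm hnn z

/-- P6, MESH FREE Lipschitz bound in the mass of a level: `∂_μ T_μ F = μ⁻² Ent ≤ ½ E_μ|Aᵀ∇F|² ≤ ½ max_s ΔK(s,s)`
(Gaussian log-Sobolev along the filled level; = "PDE comparison and bounded gradients" of LL 03 l.172) -/
theorem fd_mass_lip (B : GhB S) (hB : B.Ok) (l₁ : List (GhLv S ι)) (A : S → ι → ℝ) (l₂ : List (GhLv S ι)) {m m' K : ℝ} (hm : 0 ≤ m)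
    (hmm : m ≤ m') (hnn : ∀ l ∈ l₁ ++ l₂, 0 ≤ l.m) (hK : ∀ s, ∑ i, A s i ^ 2 ≤ K) (z : S → ℝ) :
    ghF B (l₁ ++ ⟨m', A⟩ :: l₂) z - ghF B (l₁ ++ ⟨m, A⟩ :: l₂) z ≤ (m' - m) * K / 2 :=
  fd_mass_lip_pf B hB l₁ A l₂ hm hmm hnn hK z

/-- P6, terminal mass: `0 ≤ ∂_a F = a⁻² Ent(Gibbs | w) ≤ a⁻² log (1 / min w)`, uniformly in the field and in the hierarchy -/
theorem fd_amass_lip (w : S → ℝ) {a a' c : ℝ} (ha : 0 < a) (haa : a ≤ a') (hB : (⟨w, a⟩ : GhB S).Ok) (hc : 0 < c) (hw : ∀ s, c ≤ w s)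
    (ls : List (GhLv S ι)) (hnn : ∀ l ∈ ls, 0 ≤ l.m) (z : S → ℝ) :
    0 ≤ ghF ⟨w, a'⟩ ls z - ghF ⟨w, a⟩ ls z ∧ ghF ⟨w, a'⟩ ls z - ghF ⟨w, a⟩ ls z ≤ (a' - a) * Real.log (1 / c) / a ^ 2 :=
  fd7_amass_lip w ha haa hB hc hw ls z

end mass

end Claimed.Agent.R286
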