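import Claimed.Agent.R286.Fd.TrA3

/-!
# Row 286 (S0533), Fd/TrKit9b : PE Lemma 2.8 (split densities), discrete form     (owner helper9)
No sorry.  `tk9_split_density` = the statement `tr_split_density` of Fd/TrA4, verbatim.
Core: `tk9_fork_density` : a tree without fork at the depth `j` gets one by `k` signed attachments with total variation `≤ C (m_j - m_{j-1})`.
-/

set_option autoImplicit false

namespace Claimed.Agent.R286

/-- a node without fork has one child -/
theorem tk9_deg_one {N q : ℕ} {τ : ℕ → ℕ → ℕ} (hτ : IsTr N q τ) {x j : ℕ} (hx : x < q) (hj : j ≤ N)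
    (hf : ∀ u v, u < q → v < q → τ u v ≠ j) : trDeg q τ j x = 1 := by
  obtain ⟨c, -, -, -, h⟩ := tk9_rep_filter hτ hx (j := j + 1) (by omega)
  unfold trDeg
  have : (Finset.range q).filter (fun y => j ≤ τ x y ∧ trIsMin τ (j + 1) y)
      = (Finset.range q).filter (fun y => j + 1 ≤ τ x y ∧ trIsMin τ (j + 1) y) := by
    apply Finset.filter_congr
    intro y hy
    rw [Finset.mem_range] at hy
    have := hf x y hx hy
    constructor
    · rintro ⟨a, b⟩; exact ⟨by omega, b⟩
    · rintro ⟨a, b⟩; exact ⟨by omega, b⟩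
  rw [this, h, Finset.card_singleton]

theorem tk9_absK_mono' {N q : ℕ} {τ : ℕ → ℕ → ℕ} {ms : ℕ → ℝ} (k : ℕ) (Φ Ψ : (ℕ → ℕ → ℕ) → ℝ)
    (h : ∀ τ', Φ τ' ≤ Ψ τ') : trAbsK ms N k q τ Φ ≤ trAbsK ms N k q τ Ψ := by
  induction k generalizing q τ with
  | zero => exact h τ
  | succ k ih => exact tk9_abs_mono _ _ fun x j _ _ => ih

/-- an attachment at a depth `≠ j` creates no fork of depth `j` -/
theorem tk9_att_nofork {N q : ℕ} {τ : ℕ → ℕ → ℕ} {x j j' : ℕ} (hx : x < q) (hj : j ≤ N) (hjj : j' ≠ j)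
    (hf : ∀ u v, u < q → v < q → τ u v ≠ j) : ∀ u v, u < q + 1 → v < q + 1 → trAtt N q τ x j' u v ≠ j := by
  have cs : ∀ y, y < q + 1 → y = q ∨ (y < q ∧ y ≠ q) := fun y hy => by omega
  intro u v hu hv
  rcases cs u hu with rfl | ⟨hu, hu'⟩ <;> rcases cs v hv with rfl | ⟨hv, hv'⟩
  · simp only [trAtt, if_true]; omega
  · simp only [trAtt, if_true, if_neg hv']; have := hf x v hx hv; omega
  · simp only [trAtt, if_true, if_neg hu']; have := hf u x hu hx; omega
  · simp only [trAtt, if_neg hu', if_neg hv']; exact hf u v hu hv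

theorem tk9_fork_density (k : ℕ) : ∀ (q : ℕ) (a : ℝ), ∃ C : ℝ, 0 ≤ C ∧ ∀ (N : ℕ) (τ : ℕ → ℕ → ℕ) (ms : ℕ → ℝ),
    IsTr N q τ → IsMs N ms → ms N ≤ a → ∀ j, j ≤ N → (∀ u v, u < q → v < q → τ u v ≠ j) →
    ∀ Ψ : (ℕ → ℕ → ℕ) → ℝ, (∀ τ', 0 ≤ Ψ τ' ∧ Ψ τ' ≤ 1) →
      (∀ τ', (∀ u v, u < q + k → v < q + k → τ' u v ≠ j) → Ψ τ' = 0) →
      trAbsK ms N k q τ Ψ ≤ C * (ms j - trPm ms j) := by
  induction k with
  | zero =>
    intro q a
    refine ⟨0, le_rfl, ?_⟩
    intro N τ ms _ _ _ j _ hf Ψ _ h0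
    simp only [trAbsK, zero_mul]
    exact le_of_eq (h0 τ hf)
  | succ k ih =>
    intro q a
    obtain ⟨C', hC', ih⟩ := ih (q + 1) a
    refine ⟨2 * q * |a| * C' + q * ((2 * |a|) ^ k * ∏ i ∈ Finset.range k, (((q + 1 : ℕ) : ℝ) + i)), by positivity, ?_⟩
    intro N τ ms hτ hms ha j hj hf Ψ hΨ h0
    have hδ : 0 ≤ ms j - trPm ms j := sub_nonneg.2 (tk9_pm_le hms hj)
    have haN : 0 ≤ ms N := hms.nonneg N
    have haA : ms N ≤ |a| := le_trans ha (le_abs_self a)
    obtain ⟨T, hT⟩ : ∃ T, T = (2 * |a|) ^ k * ∏ i ∈ Finset.range k, (((q + 1 : ℕ) : ℝ) + i) := ⟨_, rfl⟩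
    rw [← hT]
    have hT0 : 0 ≤ T := by rw [hT]; positivity
    obtain ⟨δ, hδe⟩ : ∃ δ, δ = ms j - trPm ms j := ⟨_, rfl⟩
    rw [← hδe] at hδ ⊢
    have habs : (fun τ' => |Ψ τ'|) = Ψ := funext fun τ' => abs_of_nonneg (hΨ τ').1
    have key : ∀ x j', x < q → j' ≤ N + 1 →
        |trWt ms N q τ x j'| * trAbsK ms N k (q + 1) (trAtt N q τ x j') Ψ
          ≤ |trWt ms N q τ x j'| * (C' * δ) + (if j' = j then δ * T else 0) := by
      intro x j' hx hj'
      by_cases hjj : j' = j
      · subst hjj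
        rw [if_pos rfl]
        have h1 : |trWt ms N q τ x j'| ≤ δ := by
          unfold trWt
          have hne : j' ≠ N + 1 := by omega
          rw [tk9_deg_one hτ hx hj hf]
          simp only [if_neg hne]
          split_ifs
          · rw [hδe, Nat.cast_one, one_mul, abs_sub_comm, abs_of_nonneg (by rw [← hδe]; exact hδ)]
          · rw [abs_zero]; exact hδ
        have h2 : trAbsK ms N k (q + 1) (trAtt N q τ x j') Ψ ≤ T := by
          have := tk9_absK_le (tk9_att_isTr hτ hx hj') hms k Ψ 1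
            (fun τ' _ => by rw [abs_of_nonneg (hΨ τ').1]; exact (hΨ τ').2)
          rw [habs, mul_one] at this
          refine le_trans this ?_
          rw [hT]
          apply mul_le_mul_of_nonneg_right _ (by positivity)
          exact pow_le_pow_left₀ (by positivity) (by linarith) k
        have h3 : 0 ≤ |trWt ms N q τ x j'| * (C' * δ) := by positivity
        have h4 : |trWt ms N q τ x j'| * trAbsK ms N k (q + 1) (trAtt N q τ x j') Ψ ≤ δ * T :=
          le_trans (mul_le_mul_of_nonneg_left h2 (abs_nonneg _)) (mul_le_mul_of_nonneg_right h1 hT0)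
        linarith
      · rw [if_neg hjj, add_zero]
        apply mul_le_mul_of_nonneg_left _ (abs_nonneg _)
        rw [hδe]
        exact ih N _ ms (tk9_att_isTr hτ hx hj') hms ha j hj (tk9_att_nofork hx hj hjj hf) Ψ hΨ
          (fun τ' h => h0 τ' (by rwa [show q + (k + 1) = q + 1 + k by ring]))
    simp only [trAbsK, trAbs]
    calc ∑ x ∈ Finset.range q, ∑ j' ∈ Finset.range (N + 2),
          |trWt ms N q τ x j'| * trAbsK ms N k (q + 1) (trAtt N q τ x j') Ψ
        ≤ ∑ x ∈ Finset.range q, ∑ j' ∈ Finset.range (N + 2),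
          (|trWt ms N q τ x j'| * (C' * δ) + (if j' = j then δ * T else 0)) := by
          refine Finset.sum_le_sum fun x hx => Finset.sum_le_sum fun j' hj' => ?_
          rw [Finset.mem_range] at hx hj'
          exact key x j' hx (by omega)
      _ = (∑ x ∈ Finset.range q, ∑ j' ∈ Finset.range (N + 2), |trWt ms N q τ x j'|) * (C' * δ) + q * (δ * T) := by
          simp_rw [Finset.sum_add_distrib, Finset.sum_mul]
          congr 1
          rw [Finset.sum_congr rfl (g := fun _ => δ * T)]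
          · rw [Finset.sum_const, Finset.card_range, nsmul_eq_mul]
          · intro x _
            rw [Finset.sum_ite_eq', if_pos (by rw [Finset.mem_range]; omega)]
      _ ≤ (2 * q * |a|) * (C' * δ) + q * (δ * T) := by
          have h5 : ∑ x ∈ Finset.range q, ∑ j' ∈ Finset.range (N + 2), |trWt ms N q τ x j'| ≤ 2 * q * |a| :=
            le_trans (tk9_tv_le hτ hms) (mul_le_mul_of_nonneg_left haA (by positivity))
          have h6 : 0 ≤ C' * δ := mul_nonneg hC' hδ
          have := mul_le_mul_of_nonneg_right h5 h6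
          linarith
      _ = (2 * q * |a| * C' + q * T) * δ := by ring

/-- TEX[PE:lem:found-split-density] Lemma 2.8 (split densities), discrete -/
theorem tk9_split_density (q k : ℕ) (a : ℝ) : ∃ C : ℝ, ∀ (N : ℕ) (τ : ℕ → ℕ → ℕ) (ms : ℕ → ℝ), IsTr N q τ → IsMs N ms → ms N ≤ a →
    ∀ x y j : ℕ, x < q + k → q ≤ y → y < q + k → x ≠ y → j ≤ N → (∀ u v, u < q → v < q → τ u v ≠ j) →
      trAbsK ms N k q τ (fun τ' => if τ' x y = j then 1 else 0) ≤ C * (ms j - trPm ms j) := by
  obtain ⟨C, -, h⟩ := tk9_fork_density k q a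
  refine ⟨C, ?_⟩
  intro N τ ms hτ hms ha x y j hx _ hy _ hj hf
  refine h N τ ms hτ hms ha j hj hf _ ?_ ?_
  · intro τ'
    split_ifs <;> norm_num
  · intro τ' h'
    rw [if_neg (h' x y hx hy)]

end Claimed.Agent.R286
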