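import Claimed.Agent.R286.Fd.TrA5

/-!
# Row 286 (S0533), Fd/TrA4 : signed attachment weights, PURE COMBINATORICS (order of allocation (symmetry of the signed measure in the new labels), PE Lemma 2.8 split densities)
architect helper150;  OWNER / PROVER of this file: helper210.
No probability.  Statements checked on thousands of random trees (origin/helper150:notes/R286/tr_comb.py, prune.py).

* `tr_sum_swap`, `tr_abs_swap` : order of allocation of two labels (signed measure, total variation): term by term bijection;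
* `tr_sumK_perm`               : any permutation of the `k` new labels (adjacent transpositions + `tr_sumK_relabel` of TrA5);
* `trw_forks_bound`            : total variation of the allocations of `k` labels creating forks at ALL the depths of `J`
                                 (none an old fork depth) `≤ C ∏_{j ∈ J} (m_j - m_{j-1})`; no reordering of the allocations is needed
                                 ("first creation" induction): valid for every position of the pairs in the sequence of labels;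
* `tr_split_density`           : Lemma 2.8;   `tr_split_density_multi` : joint density of several pairs with DISTINCT split depths.
-/

set_option autoImplicit false

namespace Claimed.Agent.R286

open Finset

/-! ### the enlarged tree -/

section att
variable {N q : ℕ} {τ : ℕ → ℕ → ℕ} {x j : ℕ}

theorem trw_att_old {y z : ℕ} (hy : y < q) (hz : z < q) : trAtt N q τ x j y z = τ y z := by
  simp [trAtt, hy.ne, hz.ne]

theorem trw_att_nl {z : ℕ} (hz : z < q) : trAtt N q τ x j q z = min j (τ x z) := by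
  simp [trAtt, hz.ne]

theorem trw_att_nr {y : ℕ} (hy : y < q) : trAtt N q τ x j y q = min j (τ y x) := by
  simp [trAtt, hy.ne]

theorem trw_att_nn : trAtt N q τ x j q q = N + 1 := by simp [trAtt]

theorem trw_isMin_old {y k : ℕ} (hy : y < q) : trIsMin (trAtt N q τ x j) k y ↔ trIsMin τ k y := by
  unfold trIsMin
  constructor
  · intro h z hz
    have := h z hz
    rwa [trw_att_old hy (hz.trans hy)] at this
  · intro h z hz
    rw [trw_att_old hy (hz.trans hy)]
    exact h z hz

theorem trw_isMin_new (hτ : IsTr N q τ) (hx : x < q) (hj : j ≤ N + 1) {k : ℕ} :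
    trIsMin (trAtt N q τ x j) k q ↔ j < k := by
  unfold trIsMin
  constructor
  · intro h
    have := h x hx
    rw [trw_att_nl hx, hτ.diag x hx] at this
    omega
  · intro h z hz
    rw [trw_att_nl hz]
    omega

theorem trw_deg_old (hτ : IsTr N q τ) (hx : x < q) (hj : j ≤ N + 1) {y k : ℕ} (hy : y < q) :
    trDeg (q + 1) (trAtt N q τ x j) k y = trDeg q τ k y + (if k = j ∧ j ≤ τ y x then 1 else 0) := by
  unfold trDeg
  rw [Finset.range_add_one, Finset.filter_insert]
  have hcongr : ((Finset.range q).filter fun y' => k ≤ trAtt N q τ x j y y' ∧ trIsMin (trAtt N q τ x j) (k + 1) y')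
      = (Finset.range q).filter fun y' => k ≤ τ y y' ∧ trIsMin τ (k + 1) y' := by
    apply Finset.filter_congr
    intro y' hy'
    rw [Finset.mem_range] at hy'
    rw [trw_att_old hy hy', trw_isMin_old hy']
  rw [hcongr, trw_att_nr hy]
  have hiff := trw_isMin_new (k := k + 1) hτ hx hj
  by_cases h : k = j ∧ j ≤ τ y x
  · have h' : k ≤ min j (τ y x) ∧ trIsMin (trAtt N q τ x j) (k + 1) q := ⟨by omega, hiff.mpr (by omega)⟩
    rw [if_pos h', if_pos h, Finset.card_insert_of_notMem]
    simp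
  · have h' : ¬ (k ≤ min j (τ y x) ∧ trIsMin (trAtt N q τ x j) (k + 1) q) := by
      rintro ⟨h1, h2⟩
      have := hiff.mp h2
      omega
    rw [if_neg h', if_neg h, add_zero]

theorem trw_deg_new (hτ : IsTr N q τ) (hx : x < q) (hj : j ≤ N + 1) {k : ℕ} (hjk : j < k) (hk : k ≤ N + 1) :
    trDeg (q + 1) (trAtt N q τ x j) k q = 1 := by
  unfold trDeg
  rw [Finset.range_add_one, Finset.filter_insert]
  have hempty : ((Finset.range q).filter fun y' => k ≤ trAtt N q τ x j q y' ∧ trIsMin (trAtt N q τ x j) (k + 1) y') = ∅ := by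
    apply Finset.filter_eq_empty_iff.mpr
    intro y' hy'
    rw [Finset.mem_range] at hy'
    rw [trw_att_nl hy']
    omega
  rw [hempty, trw_att_nn, if_pos ⟨hk, (trw_isMin_new hτ hx hj).mpr (by omega)⟩]
  simp

/-- weight of an OLD node in the enlarged tree -/
theorem trw_wt_old (ms : ℕ → ℝ) (hτ : IsTr N q τ) (hx : x < q) (hj : j ≤ N + 1) {y k : ℕ} (hy : y < q) :
    trWt ms N (q + 1) (trAtt N q τ x j) y k
      = if trIsMin τ k y then
          (if k = N + 1 then ms N else trPm ms k - ((trDeg q τ k y : ℝ) + (if k = j ∧ j ≤ τ y x then 1 else 0)) * ms k)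
        else 0 := by
  unfold trWt
  by_cases h : trIsMin τ k y
  · rw [if_pos h, if_pos ((trw_isMin_old hy).mpr h), trw_deg_old hτ hx hj hy]
    push_cast
    rfl
  · rw [if_neg h, if_neg (fun h' => h ((trw_isMin_old hy).mp h'))]

/-- weight of the nodes on the branch of the new label -/
theorem trw_wt_new (ms : ℕ → ℝ) (hτ : IsTr N q τ) (hx : x < q) (hj : j ≤ N + 1) {k : ℕ} (hk : k ≤ N + 1) :
    trWt ms N (q + 1) (trAtt N q τ x j) q k
      = if j < k then (if k = N + 1 then ms N else trPm ms k - ms k) else 0 := by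
  unfold trWt
  by_cases h : j < k
  · rw [if_pos h, if_pos ((trw_isMin_new hτ hx hj).mpr h), trw_deg_new hτ hx hj h hk]
    simp
  · rw [if_neg h, if_neg (fun h' => h ((trw_isMin_new hτ hx hj).mp h'))]

/-- two least leaves of the same node are equal -/
theorem trw_min_unique (hτ : IsTr N q τ) {y k : ℕ} (hx : x < q) (hy : y < q) (h1 : trIsMin τ k x) (h2 : trIsMin τ k y)
    (h : k ≤ τ y x) : x = y := by
  rcases lt_trichotomy x y with h' | h' | h'
  · have := h2 x h'
    omega
  · exact h'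
  · have := h1 y h'
    rw [hτ.symm x y hx hy] at this
    omega

/-- **symmetry of the weights of two successive attachments at old nodes** -/
theorem trw_wt_symm (ms : ℕ → ℝ) (hτ : IsTr N q τ) (hx : x < q) (hj : j ≤ N + 1) {y k : ℕ} (hy : y < q) (hk : k ≤ N + 1) :
    trWt ms N q τ x j * trWt ms N (q + 1) (trAtt N q τ x j) y k
      = trWt ms N q τ y k * trWt ms N (q + 1) (trAtt N q τ y k) x j := by
  rw [trw_wt_old ms hτ hx hj hy, trw_wt_old ms hτ hy hk hx]
  unfold trWt
  by_cases h1 : trIsMin τ j x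
  · by_cases h2 : trIsMin τ k y
    · simp only [if_pos h1, if_pos h2]
      by_cases h3 : k = j ∧ j ≤ τ y x
      · obtain ⟨rfl, h3⟩ := h3
        have hxy : x = y := trw_min_unique hτ hx hy h1 h2 h3
        subst hxy
        rfl
      · have h4 : ¬ (j = k ∧ k ≤ τ x y) := by
          rw [hτ.symm x y hx hy]
          omega
        simp only [if_neg h3, if_neg h4, add_zero]
        exact mul_comm _ _
    · simp only [if_neg h2, mul_zero, zero_mul]
  · simp only [if_neg h1, mul_zero, zero_mul]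

/-- the tree with two new labels does not depend on the order (old nodes) -/
theorem trw_att_att_swap {y k : ℕ} (hx : x < q) (hy : y < q) {a b : ℕ} (ha : a < q + 2) (hb : b < q + 2) :
    trAtt N (q + 1) (trAtt N q τ x j) y k a b
      = trAtt N (q + 1) (trAtt N q τ y k) x j (Equiv.swap q (q + 1) a) (Equiv.swap q (q + 1) b) := by
  have ha' : a < q ∨ a = q ∨ a = q + 1 := by omega
  have hb' : b < q ∨ b = q ∨ b = q + 1 := by omega
  have hsw : ∀ c, c < q → Equiv.swap q (q + 1) c = c := fun c hc =>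
    Equiv.swap_apply_of_ne_of_ne (by omega) (by omega)
  rcases ha' with ha' | rfl | rfl <;> rcases hb' with hb' | rfl | rfl
  all_goals
    (try simp only [Equiv.swap_apply_left, Equiv.swap_apply_right]) <;>
    (try rw [hsw _ ha']) <;>
    (try rw [hsw _ hb']) <;>
    first
      | (simp only [trAtt]; done)
      | (simp only [trAtt]; split_ifs <;> omega)

/-- the tree with two new labels on the same new branch is symmetric -/
theorem trw_att_att_self {k : ℕ} (hx : x < q) (hjk : j < k) {a b : ℕ} (ha : a < q + 2) (hb : b < q + 2) :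
    trAtt N (q + 1) (trAtt N q τ x j) q k a b
      = trAtt N (q + 1) (trAtt N q τ x j) q k (Equiv.swap q (q + 1) a) (Equiv.swap q (q + 1) b) := by
  have ha' : a < q ∨ a = q ∨ a = q + 1 := by omega
  have hb' : b < q ∨ b = q ∨ b = q + 1 := by omega
  have hsw : ∀ c, c < q → Equiv.swap q (q + 1) c = c := fun c hc =>
    Equiv.swap_apply_of_ne_of_ne (by omega) (by omega)
  rcases ha' with ha' | rfl | rfl <;> rcases hb' with hb' | rfl | rfl
  all_goals
    (try simp only [Equiv.swap_apply_left, Equiv.swap_apply_right]) <;>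
    (try rw [hsw _ ha']) <;>
    (try rw [hsw _ hb']) <;>
    first
      | (simp only [trAtt]; done)
      | (simp only [trAtt]; split_ifs <;> omega)

end att

/-- reordering of a fourfold sum -/
theorem trw_sum4 (A B : Finset ℕ) (f : ℕ → ℕ → ℕ → ℕ → ℝ) :
    ∑ x ∈ A, ∑ j ∈ B, ∑ y ∈ A, ∑ k ∈ B, f x j y k = ∑ x ∈ A, ∑ j ∈ B, ∑ y ∈ A, ∑ k ∈ B, f y k x j := by
  calc ∑ x ∈ A, ∑ j ∈ B, ∑ y ∈ A, ∑ k ∈ B, f x j y k
      = ∑ p ∈ A ×ˢ B, ∑ r ∈ A ×ˢ B, f p.1 p.2 r.1 r.2 := by
        rw [Finset.sum_product]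
        refine Finset.sum_congr rfl fun x _ => Finset.sum_congr rfl fun j _ => ?_
        rw [Finset.sum_product]
    _ = ∑ r ∈ A ×ˢ B, ∑ p ∈ A ×ˢ B, f p.1 p.2 r.1 r.2 := Finset.sum_comm
    _ = ∑ x ∈ A, ∑ j ∈ B, ∑ y ∈ A, ∑ k ∈ B, f y k x j := by
        rw [Finset.sum_product]
        refine Finset.sum_congr rfl fun x _ => Finset.sum_congr rfl fun j _ => ?_
        rw [Finset.sum_product]

/-- abstract core of the exchange of two allocations -/
theorem trw_core {N q : ℕ} (w1 : ℕ → ℕ → ℝ) (w2 : ℕ → ℕ → ℕ → ℕ → ℝ) (T : ℕ → ℕ → ℕ → ℕ → (ℕ → ℕ → ℕ))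
    (Φ Ψ : (ℕ → ℕ → ℕ) → ℝ)
    (h1 : ∀ x j y k, x < q → y < q → j < N + 2 → k < N + 2 →
        w1 x j * w2 x j y k * Φ (T x j y k) = w1 y k * w2 y k x j * Ψ (T y k x j))
    (h2 : ∀ x j k, x < q → j < N + 2 → k < N + 2 → w2 x j q k * Φ (T x j q k) = w2 x j q k * Ψ (T x j q k)) :
    ∑ x ∈ range q, ∑ j ∈ range (N + 2), w1 x j * (∑ y ∈ range (q + 1), ∑ k ∈ range (N + 2), w2 x j y k * Φ (T x j y k))
      = ∑ x ∈ range q, ∑ j ∈ range (N + 2),
          w1 x j * (∑ y ∈ range (q + 1), ∑ k ∈ range (N + 2), w2 x j y k * Ψ (T x j y k)) := by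
  simp only [Finset.sum_range_succ _ q, mul_add, Finset.sum_add_distrib]
  congr 1
  · simp only [Finset.mul_sum]
    rw [trw_sum4 (range q) (range (N + 2)) fun x j y k => w1 x j * (w2 x j y k * Ψ (T x j y k))]
    refine Finset.sum_congr rfl fun x hx => Finset.sum_congr rfl fun j hj => Finset.sum_congr rfl fun y hy =>
      Finset.sum_congr rfl fun k hk => ?_
    rw [Finset.mem_range] at hx hj hy hk
    rw [← mul_assoc, ← mul_assoc]
    exact h1 x j y k hx hy hj hk
  · refine Finset.sum_congr rfl fun x hx => Finset.sum_congr rfl fun j hj => ?_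
    congr 1
    refine Finset.sum_congr rfl fun k hk => ?_
    rw [Finset.mem_range] at hx hj hk
    exact h2 x j k hx hj hk

/-- order of allocation: the signed measure on trees with two new labels is symmetric -/
theorem tr_sum_swap {N q : ℕ} {τ : ℕ → ℕ → ℕ} {ms : ℕ → ℝ} (hτ : IsTr N q τ)
    (Φ : (ℕ → ℕ → ℕ) → ℝ)
    (hΦ : ∀ τ₁ τ₂ : ℕ → ℕ → ℕ, (∀ y z, y < q + 2 → z < q + 2 → τ₁ y z = τ₂ y z) → Φ τ₁ = Φ τ₂) :
    (trSum ms N q τ fun τ₁ => trSum ms N (q + 1) τ₁ Φ)
      = trSum ms N q τ fun τ₁ => trSum ms N (q + 1) τ₁ fun τ₂ =>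
          Φ fun y z => τ₂ (Equiv.swap q (q + 1) y) (Equiv.swap q (q + 1) z) := by
  unfold trSum
  refine trw_core (fun x j => trWt ms N q τ x j) (fun x j y k => trWt ms N (q + 1) (trAtt N q τ x j) y k)
    (fun x j y k => trAtt N (q + 1) (trAtt N q τ x j) y k) Φ
    (fun τ₂ => Φ fun y z => τ₂ (Equiv.swap q (q + 1) y) (Equiv.swap q (q + 1) z)) ?_ ?_
  · intro x j y k hx hy hj hk
    rw [trw_wt_symm ms hτ hx (by omega) hy (by omega)]
    congr 1
    exact hΦ _ _ fun a b ha hb => trw_att_att_swap hx hy ha hb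
  · intro x j k hx hj hk
    rw [trw_wt_new ms hτ hx (by omega) (by omega)]
    by_cases h : j < k
    · congr 1
      exact hΦ _ _ fun a b ha hb => trw_att_att_self hx h ha hb
    · rw [if_neg h, zero_mul, zero_mul]

/-- the same for the total variation -/
theorem tr_abs_swap {N q : ℕ} {τ : ℕ → ℕ → ℕ} {ms : ℕ → ℝ} (hτ : IsTr N q τ)
    (Φ : (ℕ → ℕ → ℕ) → ℝ)
    (hΦ : ∀ τ₁ τ₂ : ℕ → ℕ → ℕ, (∀ y z, y < q + 2 → z < q + 2 → τ₁ y z = τ₂ y z) → Φ τ₁ = Φ τ₂) :
    (trAbs ms N q τ fun τ₁ => trAbs ms N (q + 1) τ₁ Φ)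
      = trAbs ms N q τ fun τ₁ => trAbs ms N (q + 1) τ₁ fun τ₂ =>
          Φ fun y z => τ₂ (Equiv.swap q (q + 1) y) (Equiv.swap q (q + 1) z) := by
  unfold trAbs
  refine trw_core (fun x j => |trWt ms N q τ x j|) (fun x j y k => |trWt ms N (q + 1) (trAtt N q τ x j) y k|)
    (fun x j y k => trAtt N (q + 1) (trAtt N q τ x j) y k) Φ
    (fun τ₂ => Φ fun y z => τ₂ (Equiv.swap q (q + 1) y) (Equiv.swap q (q + 1) z)) ?_ ?_
  · intro x j y k hx hy hj hk
    rw [← abs_mul, ← abs_mul, trw_wt_symm ms hτ hx (by omega) hy (by omega)]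
    congr 1
    exact hΦ _ _ fun a b ha hb => trw_att_att_swap hx hy ha hb
  · intro x j k hx hj hk
    rw [trw_wt_new ms hτ hx (by omega) (by omega)]
    by_cases h : j < k
    · congr 1
      exact hΦ _ _ fun a b ha hb => trw_att_att_self hx h ha hb
    · rw [if_neg h, abs_zero, zero_mul, zero_mul]

/-! ### permutations of the new labels -/

/-- a permutation which fixes the labels outside a window maps the labels below the top of the window to such labels -/
theorem trw_perm_lt {q k : ℕ} (e : Equiv.Perm ℕ) (he : ∀ y, y < q ∨ q + k ≤ y → e y = y) {y : ℕ} (hy : y < q + k) :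
    e y < q + k := by
  by_contra h
  have h1 : e (e y) = e y := he _ (Or.inr (by omega))
  have h2 : e y = y := e.injective h1
  omega

/-- exchange of two successive new labels at any position of the sequence of allocations -/
theorem trw_sumK_adj {N q : ℕ} {τ : ℕ → ℕ → ℕ} {ms : ℕ → ℝ} (hτ : IsTr N q τ) (i r : ℕ) (Φ : (ℕ → ℕ → ℕ) → ℝ)
    (hΦ : ∀ τ₁ τ₂ : ℕ → ℕ → ℕ, (∀ y z, y < q + (i + (2 + r)) → z < q + (i + (2 + r)) → τ₁ y z = τ₂ y z) → Φ τ₁ = Φ τ₂) :
    trSumK ms N (i + (2 + r)) q τ Φ = trSumK ms N (i + (2 + r)) q τ fun τ' =>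
      Φ fun y z => τ' (Equiv.swap (q + i) (q + i + 1) y) (Equiv.swap (q + i) (q + i + 1) z) := by
  set s : Equiv.Perm ℕ := Equiv.swap (q + i) (q + i + 1) with hs
  have hs_lt : ∀ y n, q + i + 2 ≤ n → y < n → s y < n := by
    intro y n hn hy
    rw [hs, Equiv.swap_apply_def]
    split_ifs <;> omega
  have hs_fix : ∀ y, q + i + 2 ≤ y → s y = y := fun y hy =>
    Equiv.swap_apply_of_ne_of_ne (by omega) (by omega)
  rw [tr_sumK_add i (2 + r), tr_sumK_add i (2 + r)]
  refine tr_sumK_congr hτ i _ _ fun τi hτi _ => ?_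
  rw [tr_sumK_add 2 r, tr_sumK_add 2 r]
  have hF : ∀ τ₁ τ₂ : ℕ → ℕ → ℕ, (∀ y z, y < q + i + 2 → z < q + i + 2 → τ₁ y z = τ₂ y z) →
      trSumK ms N r (q + i + 2) τ₁ Φ = trSumK ms N r (q + i + 2) τ₂ Φ := fun τ₁ τ₂ h =>
    tr_sumK_tree_congr h r Φ fun T₁ T₂ hT => hΦ T₁ T₂ fun y z hy hz => hT y z (by omega) (by omega)
  have hswap := tr_sum_swap (ms := ms) hτi (fun τ'' => trSumK ms N r (q + i + 2) τ'' Φ) hF
  calc trSumK ms N 2 (q + i) τi (fun τ'' => trSumK ms N r (q + i + 2) τ'' Φ)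
      = trSumK ms N 2 (q + i) τi (fun τ'' => trSumK ms N r (q + i + 2) (fun y z => τ'' (s y) (s z)) Φ) := hswap
    _ = trSumK ms N 2 (q + i) τi (fun τ'' => trSumK ms N r (q + i + 2) τ'' fun τ' => Φ fun y z => τ' (s y) (s z)) := by
        refine tr_sumK_congr hτi 2 _ _ fun τ₂ hτ₂ _ => ?_
        have hrel := tr_sumK_relabel (ms := ms) hτ₂ r (fun T => Φ fun y z => T (s y) (s z))
          (fun T₁ T₂ hT => hΦ _ _ fun y z hy hz =>
            hT _ _ (hs_lt y _ (by omega) (by omega)) (hs_lt z _ (by omega) (by omega))) s hs_fix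
        rw [← hrel]
        congr 1
        funext τ'
        simp

/-- order of allocation, `k` labels: any permutation of the new labels -/
theorem tr_sumK_perm {N q : ℕ} {τ : ℕ → ℕ → ℕ} {ms : ℕ → ℝ} (hτ : IsTr N q τ) (k : ℕ)
    (Φ : (ℕ → ℕ → ℕ) → ℝ)
    (hΦ : ∀ τ₁ τ₂ : ℕ → ℕ → ℕ, (∀ y z, y < q + k → z < q + k → τ₁ y z = τ₂ y z) → Φ τ₁ = Φ τ₂)
    (e : Equiv.Perm ℕ) (he : ∀ y, y < q ∨ q + k ≤ y → e y = y) :
    trSumK ms N k q τ Φ = trSumK ms N k q τ fun τ' => Φ fun y z => τ' (e y) (e z) := by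
  induction k generalizing q τ Φ e with
  | zero =>
    simp only [trSumK]
    exact hΦ _ _ fun y z hy hz => by rw [he y (Or.inl (by omega)), he z (Or.inl (by omega))]
  | succ k ih =>
    have key : ∀ d : ℕ, ∀ (Φ : (ℕ → ℕ → ℕ) → ℝ),
        (∀ τ₁ τ₂ : ℕ → ℕ → ℕ, (∀ y z, y < q + (k + 1) → z < q + (k + 1) → τ₁ y z = τ₂ y z) → Φ τ₁ = Φ τ₂) →
        ∀ e : Equiv.Perm ℕ, (∀ y, y < q ∨ q + (k + 1) ≤ y → e y = y) → e q = q + d →
          trSumK ms N (k + 1) q τ Φ = trSumK ms N (k + 1) q τ fun τ' => Φ fun y z => τ' (e y) (e z) := by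
      intro d
      induction d with
      | zero =>
        intro Φ hΦ e he heq
        simp only [trSumK, trSum]
        refine Finset.sum_congr rfl fun x hx => Finset.sum_congr rfl fun j hj => ?_
        rw [Finset.mem_range] at hx hj
        congr 1
        refine ih (tr_att_isTr hτ hx (by omega)) Φ (fun τ₁ τ₂ h => hΦ τ₁ τ₂ fun y z hy hz => h y z (by omega) (by omega)) e ?_
        intro y hy
        rcases hy with hy | hy
        · rcases Nat.lt_succ_iff_lt_or_eq.mp hy with hy | rfl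
          · exact he y (Or.inl hy)
          · simpa using heq
        · exact he y (Or.inr (by omega))
      | succ d ihd =>
        intro Φ hΦ e he heq
        have hdk : q + (d + 1) < q + (k + 1) := heq ▸ trw_perm_lt e he (by omega)
        obtain ⟨r, hr⟩ : ∃ r, k + 1 = d + (2 + r) := ⟨k - 1 - d, by omega⟩
        set s : Equiv.Perm ℕ := Equiv.swap (q + d) (q + d + 1) with hs
        set e' : Equiv.Perm ℕ := e.trans s with he'
        have he'fix : ∀ y, y < q ∨ q + (k + 1) ≤ y → e' y = y := by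
          intro y hy
          rw [he', Equiv.trans_apply, he y hy, hs]
          exact Equiv.swap_apply_of_ne_of_ne (by omega) (by omega)
        have he'q : e' q = q + d := by
          rw [he', Equiv.trans_apply, heq, hs]
          exact Equiv.swap_apply_right _ _
        have h1 := ihd Φ hΦ e' he'fix he'q
        have hΨ : ∀ τ₁ τ₂ : ℕ → ℕ → ℕ, (∀ y z, y < q + (d + (2 + r)) → z < q + (d + (2 + r)) → τ₁ y z = τ₂ y z) →
            (fun τ' : ℕ → ℕ → ℕ => Φ fun y z => τ' (e' y) (e' z)) τ₁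
              = (fun τ' : ℕ → ℕ → ℕ => Φ fun y z => τ' (e' y) (e' z)) τ₂ := by
          intro τ₁ τ₂ h
          refine hΦ _ _ fun y z hy hz => h _ _ ?_ ?_
          · rw [← hr]; exact trw_perm_lt e' he'fix hy
          · rw [← hr]; exact trw_perm_lt e' he'fix hz
        have h2 := trw_sumK_adj (ms := ms) hτ d r (fun τ' => Φ fun y z => τ' (e' y) (e' z)) hΨ
        rw [← hr] at h2
        rw [h1, h2]
        congr 1
        funext τ'
        congr 1
        funext y z
        have hse : ∀ y, s (e' y) = e y := fun y => by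
          rw [he', Equiv.trans_apply, hs, Equiv.swap_apply_self]
        show τ' (s (e' y)) (s (e' z)) = τ' (e y) (e z)
        rw [hse, hse]
    obtain ⟨d, hd⟩ : ∃ d, e q = q + d := by
      have : q ≤ e q := by
        by_contra h
        have h1 : e (e q) = e q := he _ (Or.inl (by omega))
        have h2 : e q = q := e.injective h1
        omega
      exact ⟨e q - q, by omega⟩
    exact key d Φ hΦ e he hd

/-- monotonicity of the total variation sums -/
theorem trw_abs_mono (ms : ℕ → ℝ) (N q : ℕ) (τ : ℕ → ℕ → ℕ) {Φ Ψ : (ℕ → ℕ → ℕ) → ℝ} (h : ∀ τ', Φ τ' ≤ Ψ τ') :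
    trAbs ms N q τ Φ ≤ trAbs ms N q τ Ψ := by
  unfold trAbs
  exact Finset.sum_le_sum fun x _ => Finset.sum_le_sum fun j _ => mul_le_mul_of_nonneg_left (h _) (abs_nonneg _)

theorem trw_absK_mono (ms : ℕ → ℝ) (N : ℕ) (k : ℕ) : ∀ (q : ℕ) (τ : ℕ → ℕ → ℕ) {Φ Ψ : (ℕ → ℕ → ℕ) → ℝ},
    (∀ τ', Φ τ' ≤ Ψ τ') → trAbsK ms N k q τ Φ ≤ trAbsK ms N k q τ Ψ := by
  induction k with
  | zero => intro q τ Φ Ψ h; exact h τ
  | succ k ih =>
    intro q τ Φ Ψ h
    exact trw_abs_mono ms N q τ fun τ' => ih (q + 1) τ' h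

theorem trw_absK_nonneg (ms : ℕ → ℝ) (N : ℕ) (k : ℕ) : ∀ (q : ℕ) (τ : ℕ → ℕ → ℕ) {Φ : (ℕ → ℕ → ℕ) → ℝ},
    (∀ τ', 0 ≤ Φ τ') → 0 ≤ trAbsK ms N k q τ Φ := by
  induction k with
  | zero => intro q τ Φ h; exact h τ
  | succ k ih =>
    intro q τ Φ h
    simp only [trAbsK, trAbs]
    exact Finset.sum_nonneg fun _ _ => Finset.sum_nonneg fun _ _ => mul_nonneg (abs_nonneg _) (ih _ _ h)

/-- the mass step is nonnegative -/
theorem trw_step_nonneg {N : ℕ} {ms : ℕ → ℝ} (hms : IsMs N ms) {j : ℕ} (hj : j ≤ N) : 0 ≤ ms j - trPm ms j := by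
  unfold trPm
  split_ifs with h
  · simpa using hms.nonneg j
  · have := hms.mono (j - 1) j (by omega) hj
    linarith

/-- total variation of one label -/
theorem trw_abs_one {N q : ℕ} {τ : ℕ → ℕ → ℕ} {ms : ℕ → ℝ} (hτ : IsTr N q τ) (hms : IsMs N ms) :
    ∑ x ∈ range q, ∑ j ∈ range (N + 2), |trWt ms N q τ x j| ≤ 2 * ms N * q := by
  have h := tr_absK_le hτ hms 1 (fun _ => 1) 1 (fun _ _ => by simp)
  simpa [trAbsK, trAbs] using h

/-- without a fork at depth `j` every node of depth `j` has exactly one child -/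
theorem trw_deg_one {N q : ℕ} {τ : ℕ → ℕ → ℕ} (hτ : IsTr N q τ) {x j : ℕ} (hx : x < q) (hj : j ≤ N)
    (hno : ∀ y z, y < q → z < q → τ y z ≠ j) (hmin : trIsMin τ j x) : trDeg q τ j x = 1 := by
  unfold trDeg
  have : ((Finset.range q).filter fun y => j ≤ τ x y ∧ trIsMin τ (j + 1) y) = {x} := by
    ext y
    simp only [Finset.mem_filter, Finset.mem_range, Finset.mem_singleton]
    constructor
    · rintro ⟨hy, h1, h2⟩
      have h3 : τ x y ≠ j := hno x y hx hy
      rcases lt_trichotomy y x with h | h | h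
      · have := hmin y h
        omega
      · exact h
      · have := h2 x h
        rw [hτ.symm y x hy hx] at this
        omega
    · rintro rfl
      refine ⟨hx, ?_, fun z hz => ?_⟩
      · rw [hτ.diag y hx]; omega
      · have := hmin z hz
        omega
  rw [this, Finset.card_singleton]

/-- weight of a node of depth `j` when there is no fork at depth `j` -/
theorem trw_wt_le_step {N q : ℕ} {τ : ℕ → ℕ → ℕ} {ms : ℕ → ℝ} (hτ : IsTr N q τ) (hms : IsMs N ms) {x j : ℕ} (hx : x < q)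
    (hj : j ≤ N) (hno : ∀ y z, y < q → z < q → τ y z ≠ j) : |trWt ms N q τ x j| ≤ ms j - trPm ms j := by
  have h0 := trw_step_nonneg hms hj
  unfold trWt
  by_cases hmin : trIsMin τ j x
  · rw [if_pos hmin, if_neg (by omega), trw_deg_one hτ hx hj hno hmin]
    rw [Nat.cast_one, one_mul, abs_sub_comm, abs_of_nonneg h0]
  · rw [if_neg hmin, abs_zero]
    exact h0

/-- an attachment at another depth creates no fork at depth `j` -/
theorem trw_att_nofork {N q : ℕ} {τ : ℕ → ℕ → ℕ} {x i j : ℕ} (hx : x < q) (hj : j ≤ N) (hij : i ≠ j)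
    (hno : ∀ y z, y < q → z < q → τ y z ≠ j) : ∀ y z, y < q + 1 → z < q + 1 → trAtt N q τ x i y z ≠ j := by
  intro y z hy hz
  have hy' : y < q ∨ y = q := by omega
  have hz' : z < q ∨ z = q := by omega
  rcases hy' with hy' | rfl <;> rcases hz' with hz' | rfl
  · rw [trw_att_old hy' hz']; exact hno y z hy' hz'
  · rw [trw_att_nr hy']
    have := hno y x hy' hx
    omega
  · rw [trw_att_nl hz']
    have := hno x z hx hz'
    omega
  · rw [trw_att_nn]; omega

/-- **creation of forks at prescribed depths**: the total variation of the allocations of `k` labels which produce, for every depth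
`j ∈ J` (none of them a fork depth of the old tree), a pair splitting exactly at the depth `j`, is at most `C ∏ (m_j - m_{j-1})` -/
theorem trw_forks_bound (a : ℝ) (r k : ℕ) : ∀ p : ℕ, ∃ C : ℝ, 0 ≤ C ∧ ∀ (N : ℕ) (τ : ℕ → ℕ → ℕ) (ms : ℕ → ℝ), IsTr N p τ →
    IsMs N ms → ms N ≤ a → ∀ J : Finset ℕ, J.card ≤ r → (∀ j ∈ J, j ≤ N) → (∀ j ∈ J, ∀ y z, y < p → z < p → τ y z ≠ j) →
      trAbsK ms N k p τ (Set.indicator {τ' | ∀ j ∈ J, ∃ y z, y < p + k ∧ z < p + k ∧ τ' y z = j} fun _ => (1 : ℝ))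
        ≤ C * ∏ j ∈ J, (ms j - trPm ms j) := by
  induction k with
  | zero =>
    intro p
    refine ⟨1, zero_le_one, fun N τ ms _ hms _ J _ hJN hno => ?_⟩
    have hprod : 0 ≤ ∏ j ∈ J, (ms j - trPm ms j) := Finset.prod_nonneg fun j hj => trw_step_nonneg hms (hJN j hj)
    simp only [trAbsK]
    by_cases hmem : τ ∈ {τ' : ℕ → ℕ → ℕ | ∀ j ∈ J, ∃ y z, y < p + 0 ∧ z < p + 0 ∧ τ' y z = j}
    · have hJ : J = ∅ := by
        apply Finset.eq_empty_of_forall_notMem
        intro j hj
        obtain ⟨y, z, hy, hz, h⟩ := hmem j hj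
        exact hno j hj y z hy hz h
      rw [Set.indicator_of_mem hmem, hJ]
      simp
    · rw [Set.indicator_of_notMem hmem]
      linarith
  | succ k ih =>
    intro p
    obtain ⟨C', hC', hih⟩ := ih (p + 1)
    refine ⟨(2 * |a| * p + p * r) * C', by positivity, fun N τ ms hτ hms ha J hJr hJN hno => ?_⟩
    have hδ : ∀ j ∈ J, 0 ≤ ms j - trPm ms j := fun j hj => trw_step_nonneg hms (hJN j hj)
    set Pd : ℝ := ∏ j ∈ J, (ms j - trPm ms j) with hPd
    have hPd0 : 0 ≤ Pd := Finset.prod_nonneg hδ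
    have hpk : p + (k + 1) = p + 1 + k := by omega
    rw [hpk]
    -- termwise bound
    have hterm : ∀ x ∈ range p, ∀ i ∈ range (N + 2),
        |trWt ms N p τ x i| * trAbsK ms N k (p + 1) (trAtt N p τ x i)
            (Set.indicator {τ' | ∀ j ∈ J, ∃ y z, y < p + 1 + k ∧ z < p + 1 + k ∧ τ' y z = j} fun _ => (1 : ℝ))
          ≤ |trWt ms N p τ x i| * (C' * Pd) + (if i ∈ J then C' * Pd else 0) := by
      intro x hx i hi
      rw [Finset.mem_range] at hx hi
      have htr : IsTr N (p + 1) (trAtt N p τ x i) := tr_att_isTr hτ hx (by omega)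
      by_cases hiJ : i ∈ J
      · rw [if_pos hiJ]
        have h1 : trAbsK ms N k (p + 1) (trAtt N p τ x i)
            (Set.indicator {τ' | ∀ j ∈ J, ∃ y z, y < p + 1 + k ∧ z < p + 1 + k ∧ τ' y z = j} fun _ => (1 : ℝ))
            ≤ C' * ∏ j ∈ J.erase i, (ms j - trPm ms j) := by
          refine le_trans (trw_absK_mono ms N k (p + 1) _ fun τ' => ?_)
            (hih N _ ms htr hms ha (J.erase i) ((Finset.card_erase_le).trans hJr)
              (fun j hj => hJN j (Finset.mem_of_mem_erase hj))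
              (fun j hj => trw_att_nofork hx (hJN j (Finset.mem_of_mem_erase hj)) (Finset.ne_of_mem_erase hj).symm
                (hno j (Finset.mem_of_mem_erase hj))))
          have hsub : {τ' : ℕ → ℕ → ℕ | ∀ j ∈ J, ∃ y z, y < p + 1 + k ∧ z < p + 1 + k ∧ τ' y z = j}
              ⊆ {τ' : ℕ → ℕ → ℕ | ∀ j ∈ J.erase i, ∃ y z, y < p + 1 + k ∧ z < p + 1 + k ∧ τ' y z = j} :=
            fun τ'' h j hj => h j (Finset.mem_of_mem_erase hj)
          exact Set.indicator_le_indicator_of_subset hsub (fun _ => zero_le_one) τ'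
        have h2 := trw_wt_le_step hτ hms hx (hJN i hiJ) (hno i hiJ)
        have h3 : 0 ≤ |trWt ms N p τ x i| * (C' * Pd) := by positivity
        have h5 : 0 ≤ ∏ j ∈ J.erase i, (ms j - trPm ms j) :=
          Finset.prod_nonneg fun j hj => hδ j (Finset.mem_of_mem_erase hj)
        have h4 : |trWt ms N p τ x i| * trAbsK ms N k (p + 1) (trAtt N p τ x i)
            (Set.indicator {τ' | ∀ j ∈ J, ∃ y z, y < p + 1 + k ∧ z < p + 1 + k ∧ τ' y z = j} fun _ => (1 : ℝ))
            ≤ (ms i - trPm ms i) * (C' * ∏ j ∈ J.erase i, (ms j - trPm ms j)) :=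
          mul_le_mul h2 h1 (trw_absK_nonneg ms N k (p + 1) _ fun τ' => Set.indicator_nonneg (fun _ _ => zero_le_one) τ')
            (hδ i hiJ)
        have h6 : (ms i - trPm ms i) * (C' * ∏ j ∈ J.erase i, (ms j - trPm ms j)) = C' * Pd := by
          rw [hPd, ← Finset.mul_prod_erase J _ hiJ]
          ring
        linarith
      · rw [if_neg hiJ, add_zero]
        refine mul_le_mul_of_nonneg_left (hih N _ ms htr hms ha J hJr hJN fun j hj => ?_) (abs_nonneg _)
        exact trw_att_nofork hx (hJN j hj) (fun h => hiJ (h ▸ hj)) (hno j hj)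
    calc trAbsK ms N (k + 1) p τ
          (Set.indicator {τ' | ∀ j ∈ J, ∃ y z, y < p + 1 + k ∧ z < p + 1 + k ∧ τ' y z = j} fun _ => (1 : ℝ))
        = ∑ x ∈ range p, ∑ i ∈ range (N + 2), |trWt ms N p τ x i| * trAbsK ms N k (p + 1) (trAtt N p τ x i)
            (Set.indicator {τ' | ∀ j ∈ J, ∃ y z, y < p + 1 + k ∧ z < p + 1 + k ∧ τ' y z = j} fun _ => (1 : ℝ)) := rfl
      _ ≤ ∑ x ∈ range p, ∑ i ∈ range (N + 2), (|trWt ms N p τ x i| * (C' * Pd) + (if i ∈ J then C' * Pd else 0)) :=
          Finset.sum_le_sum fun x hx => Finset.sum_le_sum fun i hi => hterm x hx i hi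
      _ = (∑ x ∈ range p, ∑ i ∈ range (N + 2), |trWt ms N p τ x i|) * (C' * Pd)
            + p * (((range (N + 2) ∩ J).card : ℝ) * (C' * Pd)) := by
          simp only [Finset.sum_add_distrib, Finset.sum_mul]
          congr 1
          rw [Finset.sum_congr rfl fun x _ => Finset.sum_ite_mem (range (N + 2)) J fun _ => C' * Pd]
          simp
      _ ≤ (2 * |a| * p) * (C' * Pd) + p * ((r : ℝ) * (C' * Pd)) := by
          have h7 : ∑ x ∈ range p, ∑ i ∈ range (N + 2), |trWt ms N p τ x i| ≤ 2 * |a| * p := by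
            refine (trw_abs_one hτ hms).trans ?_
            have : ms N ≤ |a| := ha.trans (le_abs_self a)
            have hp : (0 : ℝ) ≤ p := Nat.cast_nonneg p
            nlinarith
          have h8 : 0 ≤ C' * Pd := by positivity
          have h9 : ((range (N + 2) ∩ J).card : ℝ) ≤ r := by
            exact_mod_cast (Finset.card_le_card Finset.inter_subset_right).trans hJr
          have h10 : ((range (N + 2) ∩ J).card : ℝ) * (C' * Pd) ≤ (r : ℝ) * (C' * Pd) := mul_le_mul_of_nonneg_right h9 h8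
          have h11 : (p : ℝ) * (((range (N + 2) ∩ J).card : ℝ) * (C' * Pd)) ≤ p * ((r : ℝ) * (C' * Pd)) :=
            mul_le_mul_of_nonneg_left h10 (Nat.cast_nonneg p)
          have h12 := mul_le_mul_of_nonneg_right h7 h8
          linarith
      _ = (2 * |a| * p + p * r) * C' * Pd := by ring

/-- joint split density of finitely many pairs: `P` = list of pairs with prescribed split depths -/
theorem tr_split_density_multi (q k r : ℕ) (A : ℝ) : ∃ C : ℝ, 0 ≤ C ∧ ∀ (N : ℕ) (τ : ℕ → ℕ → ℕ) (ms : ℕ → ℝ), IsTr N q τ →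
    IsMs N ms → ms N ≤ A →
    ∀ (J : Finset ℕ) (a b : ℕ → ℕ), J.card ≤ r → (∀ j ∈ J, j ≤ N ∧ a j < q + k ∧ b j < q + k) →
      (∀ j ∈ J, ∀ y z, y < q → z < q → τ y z ≠ j) →
      trAbsK ms N k q τ (Set.indicator {τ' | ∀ j ∈ J, τ' (a j) (b j) = j} fun _ => (1 : ℝ))
        ≤ C * ∏ j ∈ J, (ms j - trPm ms j) := by
  obtain ⟨C, hC0, hC⟩ := trw_forks_bound A r k q
  refine ⟨C, hC0, fun N τ ms hτ hms hA J a b hJ hab hno =>
    le_trans ?_ (hC N τ ms hτ hms hA J hJ (fun j hj => (hab j hj).1) hno)⟩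
  apply trw_absK_mono
  intro τ'
  have hsub : {τ' : ℕ → ℕ → ℕ | ∀ j ∈ J, τ' (a j) (b j) = j}
      ⊆ {τ' : ℕ → ℕ → ℕ | ∀ j ∈ J, ∃ y z, y < q + k ∧ z < q + k ∧ τ' y z = j} :=
    fun τ'' h j hj => ⟨a j, b j, (hab j hj).2.1, (hab j hj).2.2, h j hj⟩
  exact Set.indicator_le_indicator_of_subset hsub (fun _ => zero_le_one) τ'

/-- TEX[PE:lem:found-split-density] Lemma 2.8 (split densities), discrete: outside the old fork depths and the coincidences the split depth of a pair which involves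
a new label has density `≤ C(q,k,a)` with respect to `dm`. -/
theorem tr_split_density (q k : ℕ) (a : ℝ) : ∃ C : ℝ, ∀ (N : ℕ) (τ : ℕ → ℕ → ℕ) (ms : ℕ → ℝ), IsTr N q τ → IsMs N ms → ms N ≤ a →
    ∀ x y j : ℕ, x < q + k → q ≤ y → y < q + k → x ≠ y → j ≤ N → (∀ u v, u < q → v < q → τ u v ≠ j) →
      trAbsK ms N k q τ (fun τ' => if τ' x y = j then 1 else 0) ≤ C * (ms j - trPm ms j) := by
  obtain ⟨C, _, hC⟩ := trw_forks_bound a 1 k q
  refine ⟨C, fun N τ ms hτ hms hA a b j ha _ hb _ hj hno => ?_⟩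
  have h := hC N τ ms hτ hms hA {j} (by simp) (by simpa using hj) (by simpa using hno)
  rw [Finset.prod_singleton] at h
  refine le_trans ?_ h
  apply trw_absK_mono
  intro τ'
  by_cases h : τ' a b = j
  · rw [if_pos h, Set.indicator_of_mem (show τ' ∈ {τ' : ℕ → ℕ → ℕ | ∀ j' ∈ ({j} : Finset ℕ),
      ∃ y z, y < q + k ∧ z < q + k ∧ τ' y z = j'} from fun j' hj' => by
        rw [Finset.mem_singleton] at hj'
        subst hj'
        exact ⟨a, b, ha, hb, h⟩)]
  · rw [if_neg h]
    exact Set.indicator_nonneg (fun _ _ => zero_le_one) τ'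

end Claimed.Agent.R286
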