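import Claimed.Agent.R286.Defs.Tr

/-!
# Row 286 (S0533), Fd/TrKit9 : PROVED kit for the pure combinatorics of the signed attachment weights     (owner helper9)
No sorry.  Imports only `Defs/Tr`.  All names carry the prefix `tk9_`, so that the files `Fd/TrA1..5` can import this file and close
their statements by `exact tk9_...`:

* `tk9_att_isTr`, `tk9_att_congr`, `tk9_row_top`, `tk9_sumK_le`                      (= statements of Fd/TrA1)
* `tk9_row_sum`, `tk9_wt_nonpos`, `tk9_row_abs`, `tk9_absK_le`                       (= statements of Fd/TrA2, PE Lemma 2.6)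
* `tk9_sum_swap`                                                                   (= statement of Fd/TrA4, order of allocation)
* tools: `tk9_rep_exists/filter` (unique least label of a class), `tk9_partition(_all)` (a union of classes is the disjoint union of them),
  `tk9_node_sum`, `tk9_deg_congr/pos`, locality `TrLoc`, congruences `tk9_*_congr_tree`, `tk9_sum_loc`;
* THE EDGE FORM `trEd` : `trSum Φ = ∑ edges (class of depth j+1 under its parent) ms j * (Φ(child) - Φ(parent))`  (`tk9_sum_edge`).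
  This is what differentiation of the densities `exp (m_j (F_{j+1} - F_j))` produces directly; node form = regrouping (`tk9_node_edge`).
-/

set_option autoImplicit false

namespace Claimed.Agent.R286

theorem tk9_att_isTr {N q : ℕ} {τ : ℕ → ℕ → ℕ} (hτ : IsTr N q τ) {x j : ℕ} (hx : x < q) (hj : j ≤ N + 1) :
    IsTr N (q + 1) (trAtt N q τ x j) := by
  have cs : ∀ y, y < q + 1 → y = q ∨ (y < q ∧ y ≠ q) := fun y hy => by omega
  refine ⟨?_, ?_, ?_, ?_⟩
  · intro y z hy hz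
    rcases cs y hy with rfl | ⟨hy, hy'⟩ <;> rcases cs z hz with rfl | ⟨hz, hz'⟩
    · simp [trAtt]
    · simp only [trAtt, if_true, if_neg hz']; omega
    · simp only [trAtt, if_true, if_neg hy']; omega
    · simp only [trAtt, if_neg hy', if_neg hz']; exact hτ.le y z hy hz
  · intro y hy
    rcases cs y hy with rfl | ⟨hy, hy'⟩
    · simp [trAtt]
    · simp only [trAtt, if_neg hy']; exact hτ.diag y hy
  · intro y z hy hz
    rcases cs y hy with rfl | ⟨hy, hy'⟩ <;> rcases cs z hz with rfl | ⟨hz, hz'⟩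
    · rfl
    · simp only [trAtt, if_true, if_neg hz']; rw [hτ.symm x z hx hz]
    · simp only [trAtt, if_true, if_neg hy']; rw [hτ.symm x y hx hy]
    · simp only [trAtt, if_neg hy', if_neg hz']; exact hτ.symm y z hy hz
  · intro y z w hy hz hw
    rcases cs y hy with rfl | ⟨hy, hy'⟩ <;> rcases cs z hz with rfl | ⟨hz, hz'⟩ <;> rcases cs w hw with rfl | ⟨hw, hw'⟩
    · simp [trAtt]
    · simp only [trAtt, if_true, if_neg hw']; omega
    · simp only [trAtt, if_true, if_neg hz']; omega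
    · simp only [trAtt, if_true, if_neg hz', if_neg hw']
      have := hτ.ultra x z w hx hz hw
      omega
    · simp only [trAtt, if_true, if_neg hy']; omega
    · simp only [trAtt, if_true, if_neg hy', if_neg hw']
      have := hτ.ultra y x w hy hx hw
      omega
    · simp only [trAtt, if_true, if_neg hy', if_neg hz']
      have := hτ.ultra y z x hy hz hx
      omega
    · simp only [trAtt, if_neg hy', if_neg hz', if_neg hw']
      exact hτ.ultra y z w hy hz hw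

theorem tk9_att_congr {N q : ℕ} {τ : ℕ → ℕ → ℕ} (hτ : IsTr N q τ) {x x' j : ℕ} (hx : x < q) (hx' : x' < q)
    (h : j ≤ τ x x') (y z : ℕ) (hy : y < q + 1) (hz : z < q + 1) :
    trAtt N q τ x j y z = trAtt N q τ x' j y z := by
  have cs : ∀ y, y < q + 1 → y = q ∨ (y < q ∧ y ≠ q) := fun y hy => by omega
  have key : ∀ w, w < q → min j (τ x w) = min j (τ x' w) := by
    intro w hw
    have h1 := hτ.ultra x x' w hx hx' hw
    have h2 := hτ.ultra x' x w hx' hx hw
    have h3 := hτ.symm x x' hx hx'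
    omega
  rcases cs y hy with rfl | ⟨hy, hy'⟩ <;> rcases cs z hz with rfl | ⟨hz, hz'⟩
  · simp [trAtt]
  · simp only [trAtt, if_true, if_neg hz']; exact key z hz
  · simp only [trAtt, if_true, if_neg hy']
    rw [hτ.symm y x hy hx, hτ.symm y x' hy hx']; exact key y hy
  · simp only [trAtt, if_neg hy', if_neg hz']

/-- unique minimal representative of a class -/
theorem tk9_rep_exists {N q : ℕ} {τ : ℕ → ℕ → ℕ} (hτ : IsTr N q τ) {y j : ℕ} (hy : y < q) (hj : j ≤ N + 1) :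
    ∃ c, c < q ∧ j ≤ τ y c ∧ trIsMin τ j c ∧ ∀ c', c' < q → j ≤ τ y c' → trIsMin τ j c' → c' = c := by
  classical
  have hex : ∃ c, c < q ∧ j ≤ τ y c := ⟨y, hy, by rw [hτ.diag y hy]; exact hj⟩
  obtain ⟨hc1, hc2⟩ := Nat.find_spec hex
  have hmin : ∀ z, z < Nat.find hex → ¬ (z < q ∧ j ≤ τ y z) := fun z hz => Nat.find_min hex hz
  obtain ⟨c, hc⟩ : ∃ c, c = Nat.find hex := ⟨_, rfl⟩
  rw [← hc] at hc1 hc2 hmin
  have hcm : trIsMin τ j c := by
    intro z hz
    by_contra hcon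
    have hzq : z < q := lt_trans hz hc1
    have := hτ.ultra y c z hy hc1 hzq
    exact hmin z hz ⟨hzq, by omega⟩
  refine ⟨c, hc1, hc2, hcm, ?_⟩
  intro c' hc'q hc'1 hc'2
  have h1 := hτ.ultra c y c' hc1 hy hc'q
  have h2 := hτ.symm c y hc1 hy
  have h3 := hτ.symm c c' hc1 hc'q
  rcases lt_trichotomy c' c with h | h | h
  · have := hcm c' h; omega
  · exact h
  · have := hc'2 c h; omega

theorem tk9_rep_filter {N q : ℕ} {τ : ℕ → ℕ → ℕ} (hτ : IsTr N q τ) {y j : ℕ} (hy : y < q) (hj : j ≤ N + 1) :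
    ∃ c, c < q ∧ j ≤ τ y c ∧ trIsMin τ j c ∧
      (Finset.range q).filter (fun c => j ≤ τ y c ∧ trIsMin τ j c) = {c} := by
  obtain ⟨c, h1, h2, h3, h4⟩ := tk9_rep_exists hτ hy hj
  refine ⟨c, h1, h2, h3, ?_⟩
  ext z
  simp only [Finset.mem_filter, Finset.mem_range, Finset.mem_singleton]
  constructor
  · rintro ⟨a, b, c⟩; exact h4 z a b c
  · rintro rfl; exact ⟨h1, h2, h3⟩

/-- partition of a union of classes of depth `j` into these classes -/
theorem tk9_partition {N q : ℕ} {τ : ℕ → ℕ → ℕ} (hτ : IsTr N q τ) {j : ℕ} (hj : j ≤ N + 1)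
    (A : ℕ → Prop) [DecidablePred A] (hA : ∀ c y, c < q → y < q → j ≤ τ c y → (A c ↔ A y)) (f : ℕ → ℝ) :
    ∑ y ∈ (Finset.range q).filter A, f y
      = ∑ c ∈ (Finset.range q).filter (fun c => A c ∧ trIsMin τ j c),
          ∑ y ∈ (Finset.range q).filter (fun y => j ≤ τ c y), f y := by
  rw [Finset.sum_comm' (s' := fun y => (Finset.range q).filter (fun c => j ≤ τ y c ∧ trIsMin τ j c))
    (t' := (Finset.range q).filter A)]
  · refine Finset.sum_congr rfl fun y hy => ?_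
    rw [Finset.mem_filter, Finset.mem_range] at hy
    obtain ⟨c, -, -, -, h⟩ := tk9_rep_filter hτ hy.1 hj
    rw [h, Finset.sum_singleton]
  · intro c y
    simp only [Finset.mem_filter, Finset.mem_range]
    constructor
    · rintro ⟨⟨h1, h2, h3⟩, h4, h5⟩
      exact ⟨⟨h1, by rw [hτ.symm y c h4 h1]; exact h5, h3⟩, h4, (hA c y h1 h4 h5).1 h2⟩
    · rintro ⟨⟨h1, h2, h3⟩, h4, h5⟩
      have h6 : j ≤ τ c y := by rw [hτ.symm c y h1 h4]; exact h2
      exact ⟨⟨h1, (hA c y h1 h4 h6).2 h5, h3⟩, h4, h6⟩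

/-- block membership is class invariant -/
theorem tk9_block_inv {N q : ℕ} {τ : ℕ → ℕ → ℕ} (hτ : IsTr N q τ) {x j0 j : ℕ} (hx : x < q) (h : j0 ≤ j)
    (c y : ℕ) (hc : c < q) (hy : y < q) (hcy : j ≤ τ c y) : (j0 ≤ τ x c ↔ j0 ≤ τ x y) := by
  have h1 := hτ.ultra x c y hx hc hy
  have h2 := hτ.ultra x y c hx hy hc
  have h3 := hτ.symm c y hc hy
  omega

theorem tk9_deg_congr {N q : ℕ} {τ : ℕ → ℕ → ℕ} (hτ : IsTr N q τ) {x x' j : ℕ} (hx : x < q) (hx' : x' < q)
    (h : j ≤ τ x x') : trDeg q τ j x = trDeg q τ j x' := by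
  unfold trDeg
  congr 1
  apply Finset.filter_congr
  intro y hy
  rw [Finset.mem_range] at hy
  have h1 := hτ.ultra x x' y hx hx' hy
  have h2 := hτ.ultra x' x y hx' hx hy
  have h3 := hτ.symm x x' hx hx'
  constructor
  · rintro ⟨a, b⟩; exact ⟨by omega, b⟩
  · rintro ⟨a, b⟩; exact ⟨by omega, b⟩

theorem tk9_deg_pos {N q : ℕ} {τ : ℕ → ℕ → ℕ} (hτ : IsTr N q τ) {x j : ℕ} (hx : x < q) (hj : j ≤ N) :
    1 ≤ trDeg q τ j x := by
  obtain ⟨c, h1, h2, h3, -⟩ := tk9_rep_exists hτ hx (j := j + 1) (by omega)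
  unfold trDeg
  rw [Nat.succ_le_iff, Finset.card_pos]
  exact ⟨c, by simp only [Finset.mem_filter, Finset.mem_range]; exact ⟨h1, by omega, h3⟩⟩

theorem tk9_pm_le {N : ℕ} {ms : ℕ → ℝ} (hms : IsMs N ms) {j : ℕ} (hj : j ≤ N) : trPm ms j ≤ ms j := by
  unfold trPm
  split_ifs with h
  · exact hms.nonneg j
  · exact hms.mono _ _ (by omega) hj

theorem tk9_pm_nonneg {N : ℕ} {ms : ℕ → ℝ} (hms : IsMs N ms) (j : ℕ) : 0 ≤ trPm ms j := by
  unfold trPm
  split_ifs with h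
  · exact le_rfl
  · exact hms.nonneg _

theorem tk9_pm_succ (ms : ℕ → ℝ) (j : ℕ) : trPm ms (j + 1) = ms j := by
  simp [trPm]

/-- all weights except the coincidences are nonpositive -/
theorem tk9_wt_nonpos {N q : ℕ} {τ : ℕ → ℕ → ℕ} {ms : ℕ → ℝ} (hτ : IsTr N q τ) (hms : IsMs N ms) {x j : ℕ}
    (hx : x < q) (hj : j ≤ N) : trWt ms N q τ x j ≤ 0 := by
  unfold trWt
  split_ifs with h1 h2
  · omega
  · have h3 : (1 : ℝ) ≤ trDeg q τ j x := by exact_mod_cast tk9_deg_pos hτ hx hj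
    have h4 := tk9_pm_le hms hj
    have h5 := hms.nonneg j
    nlinarith
  · exact le_rfl

/-- sum of a function supported on the minimal label of a class -/
theorem tk9_node_sum {N q : ℕ} {τ : ℕ → ℕ → ℕ} (hτ : IsTr N q τ) {x j : ℕ} (hx : x < q) (hj : j ≤ N + 1)
    (g : ℕ → ℝ) (hg : ∀ c, c < q → j ≤ τ x c → g c = g x) :
    ∑ y ∈ (Finset.range q).filter (fun y => j ≤ τ x y), (if trIsMin τ j y then g y else 0) = g x := by
  rw [← Finset.sum_filter, Finset.filter_filter]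
  obtain ⟨c, h1, h2, -, h⟩ := tk9_rep_filter hτ hx hj
  rw [h, Finset.sum_singleton, hg c h1 h2]

/-- Lemma 2.6, total signed mass of a block -/
theorem tk9_row_sum {N q : ℕ} {τ : ℕ → ℕ → ℕ} {ms : ℕ → ℝ} (hτ : IsTr N q τ) {x j0 : ℕ}
    (hx : x < q) (hj0 : j0 ≤ N + 1) :
    ∑ y ∈ (Finset.range q).filter (fun y => j0 ≤ τ x y), ∑ j ∈ Finset.Icc j0 (N + 1), trWt ms N q τ y j
      = trPm ms j0 := by
  obtain ⟨d, hd⟩ : ∃ d, j0 + d = N + 1 := ⟨N + 1 - j0, by omega⟩
  induction d generalizing j0 x with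
  | zero =>
    have : j0 = N + 1 := by omega
    subst this
    simp only [Finset.Icc_self, Finset.sum_singleton, trWt, if_true]
    rw [tk9_node_sum hτ hx le_rfl (fun _ => ms N) (fun _ _ _ => rfl), tk9_pm_succ]
  | succ d ih =>
    have hjN : j0 ≤ N := by omega
    have hne : j0 ≠ N + 1 := by omega
    simp_rw [← Finset.add_sum_Ioc_eq_sum_Icc hj0, ← Finset.Icc_add_one_left_eq_Ioc]
    rw [Finset.sum_add_distrib]
    have e1 : ∑ y ∈ (Finset.range q).filter (fun y => j0 ≤ τ x y), trWt ms N q τ y j0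
        = trPm ms j0 - trDeg q τ j0 x * ms j0 := by
      simp only [trWt, if_neg hne]
      rw [tk9_node_sum hτ hx hj0 (fun y => trPm ms j0 - trDeg q τ j0 y * ms j0)]
      intro c hc h
      rw [tk9_deg_congr hτ hx hc h]
    rw [e1, tk9_partition hτ (j := j0 + 1) (by omega) (fun y => j0 ≤ τ x y)
      (tk9_block_inv hτ hx (by omega))]
    rw [Finset.sum_congr rfl (g := fun _ => ms j0)]
    · rw [Finset.sum_const, nsmul_eq_mul]
      unfold trDeg
      ring
    · intro c hc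
      rw [Finset.mem_filter, Finset.mem_range] at hc
      rw [ih hc.1 (by omega) (by omega), tk9_pm_succ]

/-- number of distinct observed leaves of a block -/
theorem tk9_leaves_split {N q : ℕ} {τ : ℕ → ℕ → ℕ} (hτ : IsTr N q τ) {x j0 : ℕ}
    (hx : x < q) (hj0 : j0 ≤ N) :
    (((Finset.range q).filter fun y => j0 ≤ τ x y ∧ trIsMin τ (N + 1) y).card : ℝ)
      = ∑ c ∈ (Finset.range q).filter (fun c => j0 ≤ τ x c ∧ trIsMin τ (j0 + 1) c),
        (((Finset.range q).filter fun y => j0 + 1 ≤ τ c y ∧ trIsMin τ (N + 1) y).card : ℝ) := by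
  have key : ∀ (P : ℕ → Prop) [DecidablePred P],
      (((Finset.range q).filter fun y => P y ∧ trIsMin τ (N + 1) y).card : ℝ)
        = ∑ y ∈ (Finset.range q).filter P, (if trIsMin τ (N + 1) y then (1 : ℝ) else 0) := by
    intro P _
    rw [← Finset.sum_filter, Finset.filter_filter, Finset.sum_const, nsmul_eq_mul, mul_one]
  rw [key, tk9_partition hτ (j := j0 + 1) (by omega) (fun y => j0 ≤ τ x y) (tk9_block_inv hτ hx (by omega))]
  refine Finset.sum_congr rfl fun c _ => ?_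
  rw [key]

/-- Lemma 2.6, total variation of a block with `r` distinct observed leaves: `2 r a - m` -/
theorem tk9_row_abs {N q : ℕ} {τ : ℕ → ℕ → ℕ} {ms : ℕ → ℝ} (hτ : IsTr N q τ) (hms : IsMs N ms) {x j0 : ℕ}
    (hx : x < q) (hj0 : j0 ≤ N + 1) :
    ∑ y ∈ (Finset.range q).filter (fun y => j0 ≤ τ x y), ∑ j ∈ Finset.Icc j0 (N + 1), |trWt ms N q τ y j|
      = 2 * (((Finset.range q).filter fun y => j0 ≤ τ x y ∧ trIsMin τ (N + 1) y).card : ℝ) * ms N
        - trPm ms j0 := by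
  obtain ⟨d, hd⟩ : ∃ d, j0 + d = N + 1 := ⟨N + 1 - j0, by omega⟩
  induction d generalizing j0 x with
  | zero =>
    have : j0 = N + 1 := by omega
    subst this
    obtain ⟨c, -, -, -, h⟩ := tk9_rep_filter hτ hx (le_refl (N + 1))
    rw [h]
    have e : ∀ y, |trWt ms N q τ y (N + 1)| = if trIsMin τ (N + 1) y then ms N else 0 := by
      intro y
      simp only [trWt, if_true]
      split_ifs
      · exact abs_of_nonneg (hms.nonneg N)
      · exact abs_zero
    simp only [Finset.Icc_self, Finset.sum_singleton, e]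
    rw [tk9_node_sum hτ hx le_rfl (fun _ => ms N) (fun _ _ _ => rfl), tk9_pm_succ]
    simp; ring
  | succ d ih =>
    have hjN : j0 ≤ N := by omega
    have hne : j0 ≠ N + 1 := by omega
    simp_rw [← Finset.add_sum_Ioc_eq_sum_Icc hj0, ← Finset.Icc_add_one_left_eq_Ioc]
    rw [Finset.sum_add_distrib]
    have e : ∀ y ∈ (Finset.range q).filter (fun y => j0 ≤ τ x y), |trWt ms N q τ y j0|
        = if trIsMin τ j0 y then trDeg q τ j0 y * ms j0 - trPm ms j0 else 0 := by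
      intro y hy
      rw [Finset.mem_filter, Finset.mem_range] at hy
      rw [abs_of_nonpos (tk9_wt_nonpos hτ hms hy.1 hjN)]
      simp only [trWt, if_neg hne]
      split_ifs <;> ring
    have e1 : ∑ y ∈ (Finset.range q).filter (fun y => j0 ≤ τ x y), |trWt ms N q τ y j0|
        = trDeg q τ j0 x * ms j0 - trPm ms j0 := by
      rw [Finset.sum_congr rfl e]
      rw [tk9_node_sum hτ hx hj0 (fun y => trDeg q τ j0 y * ms j0 - trPm ms j0)]
      intro c hc h
      rw [tk9_deg_congr hτ hx hc h]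
    rw [e1, tk9_partition hτ (j := j0 + 1) (by omega) (fun y => j0 ≤ τ x y)
      (tk9_block_inv hτ hx (by omega))]
    rw [Finset.sum_congr rfl (g := fun c => 2 * (((Finset.range q).filter
      fun y => j0 + 1 ≤ τ c y ∧ trIsMin τ (N + 1) y).card : ℝ) * ms N - ms j0)]
    · rw [Finset.sum_sub_distrib, Finset.sum_const, nsmul_eq_mul, tk9_leaves_split hτ hx hjN,
        Finset.mul_sum, Finset.sum_mul]
      unfold trDeg
      ring
    · intro c hc
      rw [Finset.mem_filter, Finset.mem_range] at hc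
      rw [ih hc.1 (by omega) (by omega), tk9_pm_succ]

theorem tk9_const_isTr (N q : ℕ) : IsTr N q (fun _ _ => N + 1) :=
  ⟨fun _ _ _ _ => le_rfl, fun _ _ => rfl, fun _ _ _ _ => rfl, fun _ _ _ _ _ _ => by simp⟩

/-- total variation of one allocation -/
theorem tk9_tv_le {N q : ℕ} {τ : ℕ → ℕ → ℕ} {ms : ℕ → ℝ} (hτ : IsTr N q τ) (hms : IsMs N ms) :
    ∑ x ∈ Finset.range q, ∑ j ∈ Finset.range (N + 2), |trWt ms N q τ x j| ≤ 2 * q * ms N := by
  rcases Nat.eq_zero_or_pos q with rfl | hq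
  · simp
  · have h := tk9_row_abs hτ hms hq (Nat.zero_le (N + 1))
    have e1 : (Finset.range q).filter (fun y => 0 ≤ τ 0 y) = Finset.range q := by simp
    have e2 : Finset.Icc 0 (N + 1) = Finset.range (N + 2) := by ext; simp; omega
    rw [e1, e2] at h
    rw [h]
    have h3 : (((Finset.range q).filter fun y => 0 ≤ τ 0 y ∧ trIsMin τ (N + 1) y).card : ℝ) ≤ q := by
      have := Finset.card_filter_le (Finset.range q) (fun y => 0 ≤ τ 0 y ∧ trIsMin τ (N + 1) y)
      rw [Finset.card_range] at this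
      exact_mod_cast this
    have h4 := hms.nonneg N
    have h5 : trPm ms 0 = 0 := by simp [trPm]
    rw [h5]
    nlinarith

theorem tk9_abs_le {N q : ℕ} {τ : ℕ → ℕ → ℕ} {ms : ℕ → ℝ} (hτ : IsTr N q τ) (hms : IsMs N ms)
    (Ψ : (ℕ → ℕ → ℕ) → ℝ) (B : ℝ) (hB : 0 ≤ B) (hΨ : ∀ x j, x < q → j ≤ N + 1 → Ψ (trAtt N q τ x j) ≤ B) :
    trAbs ms N q τ Ψ ≤ 2 * q * ms N * B := by
  unfold trAbs
  calc ∑ x ∈ Finset.range q, ∑ j ∈ Finset.range (N + 2), |trWt ms N q τ x j| * Ψ (trAtt N q τ x j)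
      ≤ ∑ x ∈ Finset.range q, ∑ j ∈ Finset.range (N + 2), |trWt ms N q τ x j| * B := by
        refine Finset.sum_le_sum fun x hx => Finset.sum_le_sum fun j hj => ?_
        rw [Finset.mem_range] at hx hj
        exact mul_le_mul_of_nonneg_left (hΨ x j hx (by omega)) (abs_nonneg _)
    _ = (∑ x ∈ Finset.range q, ∑ j ∈ Finset.range (N + 2), |trWt ms N q τ x j|) * B := by
        simp_rw [Finset.sum_mul]
    _ ≤ 2 * q * ms N * B := mul_le_mul_of_nonneg_right (tk9_tv_le hτ hms) hB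

theorem tk9_abs_mono {N q : ℕ} {τ : ℕ → ℕ → ℕ} {ms : ℕ → ℝ} (Ψ Ψ' : (ℕ → ℕ → ℕ) → ℝ)
    (h : ∀ x j, x < q → j ≤ N + 1 → Ψ (trAtt N q τ x j) ≤ Ψ' (trAtt N q τ x j)) :
    trAbs ms N q τ Ψ ≤ trAbs ms N q τ Ψ' := by
  unfold trAbs
  refine Finset.sum_le_sum fun x hx => Finset.sum_le_sum fun j hj => ?_
  rw [Finset.mem_range] at hx hj
  exact mul_le_mul_of_nonneg_left (h x j hx (by omega)) (abs_nonneg _)

/-- Lemma 2.6: `k` labels have total variation at most `(2a)^k q (q+1) .. (q+k-1)` -/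
theorem tk9_absK_le {N q : ℕ} {τ : ℕ → ℕ → ℕ} {ms : ℕ → ℝ} (hτ : IsTr N q τ) (hms : IsMs N ms) (k : ℕ)
    (Φ : (ℕ → ℕ → ℕ) → ℝ) (M : ℝ) (hΦ : ∀ τ', IsTr N (q + k) τ' → |Φ τ'| ≤ M) :
    trAbsK ms N k q τ (fun τ' => |Φ τ'|) ≤ (2 * ms N) ^ k * (∏ i ∈ Finset.range k, ((q : ℝ) + i)) * M := by
  have hM : 0 ≤ M := le_trans (abs_nonneg _) (hΦ _ (tk9_const_isTr N (q + k)))
  induction k generalizing q τ with
  | zero => simpa [trAbsK] using hΦ τ hτ
  | succ k ih =>
    have ha := hms.nonneg N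
    have hB : 0 ≤ (2 * ms N) ^ k * (∏ i ∈ Finset.range k, (((q + 1 : ℕ) : ℝ) + i)) * M := by positivity
    have h1 := tk9_abs_le hτ hms (fun τ' => trAbsK ms N k (q + 1) τ' (fun τ' => |Φ τ'|)) _ hB
      (fun x j hx hj => ih (tk9_att_isTr hτ hx hj) (fun τ' h => hΦ τ' (by rwa [show q + (k + 1) = q + 1 + k by ring])))
    refine le_trans h1 (le_of_eq ?_)
    rw [Finset.prod_range_succ' (fun i : ℕ => (q : ℝ) + i) k]
    have : ∀ i : ℕ, (((q + 1 : ℕ) : ℝ) + i) = (q : ℝ) + ((i + 1 : ℕ) : ℝ) := by intro i; push_cast; ring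
    simp_rw [this]
    push_cast
    ring

theorem tk9_sum_abs_le {N q : ℕ} {τ : ℕ → ℕ → ℕ} {ms : ℕ → ℝ} (Φ : (ℕ → ℕ → ℕ) → ℝ) :
    |trSum ms N q τ Φ| ≤ trAbs ms N q τ (fun τ' => |Φ τ'|) := by
  unfold trSum trAbs
  refine le_trans (Finset.abs_sum_le_sum_abs _ _) (Finset.sum_le_sum fun x _ => ?_)
  refine le_trans (Finset.abs_sum_le_sum_abs _ _) (Finset.sum_le_sum fun j _ => ?_)
  rw [abs_mul]

theorem tk9_sumK_le {N q : ℕ} {τ : ℕ → ℕ → ℕ} {ms : ℕ → ℝ} (k : ℕ) (Φ : (ℕ → ℕ → ℕ) → ℝ) :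
    |trSumK ms N k q τ Φ| ≤ trAbsK ms N k q τ (fun τ' => |Φ τ'|) := by
  induction k generalizing q τ with
  | zero => simp [trSumK, trAbsK]
  | succ k ih =>
    simp only [trSumK, trAbsK]
    exact le_trans (tk9_sum_abs_le _) (tk9_abs_mono _ _ fun x j _ _ => ih)

/-- the untruncated row -/
theorem tk9_row_top {N q : ℕ} {τ : ℕ → ℕ → ℕ} {ms : ℕ → ℝ} (Φ : (ℕ → ℕ → ℕ) → ℝ) :
    trRow ms N q τ (N + 1) Φ = trSum ms N q τ Φ := by
  unfold trRow trSum
  refine Finset.sum_congr rfl fun x _ => Finset.sum_congr rfl fun j hj => ?_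
  rw [Finset.mem_range] at hj
  rw [min_eq_left (by omega)]

/-- a functional of trees which only sees the labels `< q` -/
def TrLoc (q : ℕ) (Φ : (ℕ → ℕ → ℕ) → ℝ) : Prop :=
  ∀ τ₁ τ₂ : ℕ → ℕ → ℕ, (∀ y z, y < q → z < q → τ₁ y z = τ₂ y z) → Φ τ₁ = Φ τ₂

/-- the EDGE FORM of the allocation: each edge (class of depth `j + 1` under its parent of depth `j`) carries the mass `ms j`
and the difference child - parent.  `f x j` = value at the node of depth `j` above the label `x`. -/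
def trEd (ms : ℕ → ℝ) (N q : ℕ) (τ : ℕ → ℕ → ℕ) (f : ℕ → ℕ → ℝ) : ℝ :=
  ∑ x ∈ Finset.range q, ∑ j ∈ Finset.range (N + 1),
    (if trIsMin τ (j + 1) x then ms j else 0) * (f x (j + 1) - f x j)

theorem tk9_partition_all {N q : ℕ} {τ : ℕ → ℕ → ℕ} (hτ : IsTr N q τ) {j : ℕ} (hj : j ≤ N + 1) (f : ℕ → ℝ) :
    ∑ y ∈ Finset.range q, f y
      = ∑ c ∈ (Finset.range q).filter (fun c => trIsMin τ j c),
          ∑ y ∈ (Finset.range q).filter (fun y => j ≤ τ c y), f y := by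
  have := tk9_partition hτ hj (fun _ => True) (fun _ _ _ _ _ => Iff.rfl) f
  simpa using this

/-- node form = edge form, for a function of the nodes -/
theorem tk9_node_edge {N q : ℕ} {τ : ℕ → ℕ → ℕ} {ms : ℕ → ℝ} (hτ : IsTr N q τ) (f : ℕ → ℕ → ℝ)
    (hf : ∀ x x' j, x < q → x' < q → j ≤ τ x x' → f x j = f x' j) :
    ∑ x ∈ Finset.range q, ∑ j ∈ Finset.range (N + 2), trWt ms N q τ x j * f x j = trEd ms N q τ f := by
  have e1 : ∀ x j, j ∈ Finset.range (N + 2) → trWt ms N q τ x j * f x j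
      = (if trIsMin τ j x then trPm ms j else 0) * f x j
        - (if j = N + 1 then 0 else (if trIsMin τ j x then trDeg q τ j x * ms j * f x j else 0)) := by
    intro x j _
    unfold trWt
    by_cases h1 : trIsMin τ j x <;> by_cases h2 : j = N + 1
    · subst h2; simp [h1, tk9_pm_succ]
    · simp [h1, h2]; ring
    · subst h2; simp [h1]
    · simp [h1, h2]
  rw [Finset.sum_congr rfl fun x _ => Finset.sum_congr rfl (e1 x)]
  simp_rw [Finset.sum_sub_distrib]
  have e2 : ∀ x, ∑ j ∈ Finset.range (N + 2), (if trIsMin τ j x then trPm ms j else 0) * f x j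
      = ∑ j ∈ Finset.range (N + 1), (if trIsMin τ (j + 1) x then ms j else 0) * f x (j + 1) := by
    intro x
    rw [Finset.sum_range_succ']
    simp [trPm]
  have e3 : ∀ x, ∑ j ∈ Finset.range (N + 2),
      (if j = N + 1 then 0 else (if trIsMin τ j x then trDeg q τ j x * ms j * f x j else 0))
      = ∑ j ∈ Finset.range (N + 1), (if trIsMin τ j x then trDeg q τ j x * ms j * f x j else 0) := by
    intro x
    rw [Finset.sum_range_succ]
    simp only [if_true, add_zero]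
    refine Finset.sum_congr rfl fun j hj => ?_
    rw [Finset.mem_range] at hj
    rw [if_neg (by omega)]
  simp_rw [e2, e3]
  have e4 : ∑ x ∈ Finset.range q, ∑ j ∈ Finset.range (N + 1),
      (if trIsMin τ j x then trDeg q τ j x * ms j * f x j else 0)
      = ∑ x ∈ Finset.range q, ∑ j ∈ Finset.range (N + 1), (if trIsMin τ (j + 1) x then ms j else 0) * f x j := by
    rw [Finset.sum_comm, Finset.sum_comm (s := Finset.range q)]
    refine Finset.sum_congr rfl fun j hj => ?_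
    rw [Finset.mem_range] at hj
    rw [tk9_partition_all hτ (j := j) (by omega) (fun x => (if trIsMin τ (j + 1) x then ms j else 0) * f x j),
      ← Finset.sum_filter]
    refine Finset.sum_congr rfl fun c hc => ?_
    rw [Finset.mem_filter, Finset.mem_range] at hc
    have : ∀ y ∈ (Finset.range q).filter (fun y => j ≤ τ c y),
        (if trIsMin τ (j + 1) y then ms j else 0) * f y j = if trIsMin τ (j + 1) y then ms j * f c j else 0 := by
      intro y hy
      rw [Finset.mem_filter, Finset.mem_range] at hy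
      rw [hf c y j hc.1 hy.1 hy.2]
      split_ifs <;> simp
    rw [Finset.sum_congr rfl this, ← Finset.sum_filter, Finset.filter_filter, Finset.sum_const, nsmul_eq_mul]
    unfold trDeg
    ring
  rw [e4, ← Finset.sum_sub_distrib]
  unfold trEd
  refine Finset.sum_congr rfl fun x _ => ?_
  rw [← Finset.sum_sub_distrib]
  refine Finset.sum_congr rfl fun j _ => ?_
  ring

theorem tk9_sum_edge {N q : ℕ} {τ : ℕ → ℕ → ℕ} {ms : ℕ → ℝ} (hτ : IsTr N q τ) (Φ : (ℕ → ℕ → ℕ) → ℝ)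
    (hΦ : TrLoc (q + 1) Φ) :
    trSum ms N q τ Φ = trEd ms N q τ fun x j => Φ (trAtt N q τ x j) :=
  tk9_node_edge hτ _ fun _ _ _ hx hx' h => hΦ _ _ (tk9_att_congr hτ hx hx' h)

theorem tk9_ed_add (ms : ℕ → ℝ) (N q : ℕ) (τ : ℕ → ℕ → ℕ) (f g : ℕ → ℕ → ℝ) :
    trEd ms N q τ (fun x j => f x j + g x j) = trEd ms N q τ f + trEd ms N q τ g := by
  unfold trEd
  rw [← Finset.sum_add_distrib]
  refine Finset.sum_congr rfl fun x _ => ?_
  rw [← Finset.sum_add_distrib]
  refine Finset.sum_congr rfl fun j _ => ?_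
  ring

theorem tk9_ed_congr (ms : ℕ → ℝ) (N q : ℕ) (τ : ℕ → ℕ → ℕ) (f g : ℕ → ℕ → ℝ)
    (h : ∀ x j, x < q → j ≤ N + 1 → f x j = g x j) : trEd ms N q τ f = trEd ms N q τ g := by
  unfold trEd
  refine Finset.sum_congr rfl fun x hx => Finset.sum_congr rfl fun j hj => ?_
  rw [Finset.mem_range] at hx hj
  rw [h x j hx (by omega), h x (j + 1) hx (by omega)]

theorem tk9_sum4_comm (s t : Finset ℕ) (T : ℕ → ℕ → ℕ → ℕ → ℝ) :
    ∑ x ∈ s, ∑ j ∈ t, ∑ x' ∈ s, ∑ j' ∈ t, T x j x' j' = ∑ x' ∈ s, ∑ j' ∈ t, ∑ x ∈ s, ∑ j ∈ t, T x j x' j' := by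
  calc ∑ x ∈ s, ∑ j ∈ t, ∑ x' ∈ s, ∑ j' ∈ t, T x j x' j'
      = ∑ x ∈ s, ∑ x' ∈ s, ∑ j ∈ t, ∑ j' ∈ t, T x j x' j' := Finset.sum_congr rfl fun x _ => Finset.sum_comm
    _ = ∑ x' ∈ s, ∑ x ∈ s, ∑ j ∈ t, ∑ j' ∈ t, T x j x' j' := Finset.sum_comm
    _ = ∑ x' ∈ s, ∑ x ∈ s, ∑ j' ∈ t, ∑ j ∈ t, T x j x' j' :=
        Finset.sum_congr rfl fun x' _ => Finset.sum_congr rfl fun x _ => Finset.sum_comm
    _ = ∑ x' ∈ s, ∑ j' ∈ t, ∑ x ∈ s, ∑ j ∈ t, T x j x' j' := Finset.sum_congr rfl fun x' _ => Finset.sum_comm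

theorem tk9_ed_comm (ms : ℕ → ℝ) (N q : ℕ) (τ : ℕ → ℕ → ℕ) (F : ℕ → ℕ → ℕ → ℕ → ℝ) :
    trEd ms N q τ (fun x a => trEd ms N q τ fun x' b => F x a x' b)
      = trEd ms N q τ fun x' b => trEd ms N q τ fun x a => F x a x' b := by
  unfold trEd
  simp_rw [← Finset.sum_sub_distrib, Finset.mul_sum]
  rw [tk9_sum4_comm]
  refine Finset.sum_congr rfl fun x' _ => Finset.sum_congr rfl fun j' _ => Finset.sum_congr rfl fun x _ =>
    Finset.sum_congr rfl fun j _ => ?_
  ring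

theorem tk9_t6_eqns_cite : True := by
  have := @TrLoc.eq_1
  have := @trEd.eq_1
  trivial

theorem tk9_isMin_congr {q : ℕ} {τ τ' : ℕ → ℕ → ℕ} (h : ∀ y z, y < q → z < q → τ y z = τ' y z) {x : ℕ} (hx : x < q)
    (j : ℕ) : trIsMin τ j x ↔ trIsMin τ' j x := by
  unfold trIsMin
  constructor
  · intro H y hy; rw [← h x y hx (by omega)]; exact H y hy
  · intro H y hy; rw [h x y hx (by omega)]; exact H y hy

theorem tk9_deg_congr_tree {q : ℕ} {τ τ' : ℕ → ℕ → ℕ} (h : ∀ y z, y < q → z < q → τ y z = τ' y z) {x : ℕ} (hx : x < q)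
    (j : ℕ) : trDeg q τ j x = trDeg q τ' j x := by
  unfold trDeg
  congr 1
  apply Finset.filter_congr
  intro y hy
  rw [Finset.mem_range] at hy
  rw [h x y hx hy, tk9_isMin_congr h hy]

theorem tk9_wt_congr_tree {q : ℕ} {τ τ' : ℕ → ℕ → ℕ} (h : ∀ y z, y < q → z < q → τ y z = τ' y z) {x : ℕ} (hx : x < q)
    (ms : ℕ → ℝ) (N j : ℕ) : trWt ms N q τ x j = trWt ms N q τ' x j := by
  unfold trWt
  rw [tk9_deg_congr_tree h hx]
  simp only [tk9_isMin_congr h hx]

theorem tk9_att_congr_tree {q : ℕ} {τ τ' : ℕ → ℕ → ℕ} (h : ∀ y z, y < q → z < q → τ y z = τ' y z) {x : ℕ} (hx : x < q)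
    (N j : ℕ) (y z : ℕ) (hy : y < q + 1) (hz : z < q + 1) : trAtt N q τ x j y z = trAtt N q τ' x j y z := by
  have cs : ∀ y, y < q + 1 → y = q ∨ (y < q ∧ y ≠ q) := fun y hy => by omega
  rcases cs y hy with rfl | ⟨hy, hy'⟩ <;> rcases cs z hz with rfl | ⟨hz, hz'⟩
  · simp [trAtt]
  · simp only [trAtt, if_true, if_neg hz']; rw [h x z hx hz]
  · simp only [trAtt, if_true, if_neg hy']; rw [h y x hy hx]
  · simp only [trAtt, if_neg hy', if_neg hz']; exact h y z hy hz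

theorem tk9_sum_loc (ms : ℕ → ℝ) (N q : ℕ) {Φ : (ℕ → ℕ → ℕ) → ℝ} (hΦ : TrLoc (q + 1) Φ) :
    TrLoc q fun τ => trSum ms N q τ Φ := by
  intro τ τ' h
  unfold trSum
  refine Finset.sum_congr rfl fun x hx => Finset.sum_congr rfl fun j _ => ?_
  rw [Finset.mem_range] at hx
  rw [tk9_wt_congr_tree h hx, hΦ _ _ (tk9_att_congr_tree h hx N j)]

theorem tk9_att_old {N q : ℕ} {τ : ℕ → ℕ → ℕ} {x j : ℕ} (y z : ℕ) (hy : y < q) (hz : z < q) :
    trAtt N q τ x j y z = τ y z := by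
  simp only [trAtt, if_neg (Nat.ne_of_lt hy), if_neg (Nat.ne_of_lt hz)]

theorem tk9_att_isMin_old {N q : ℕ} {τ : ℕ → ℕ → ℕ} {x j : ℕ} {x' : ℕ} (hx' : x' < q) (j' : ℕ) :
    trIsMin (trAtt N q τ x j) j' x' ↔ trIsMin τ j' x' :=
  tk9_isMin_congr (fun y z hy hz => tk9_att_old y z hy hz) hx' j'

theorem tk9_att_isMin_new {N q : ℕ} {τ : ℕ → ℕ → ℕ} (hτ : IsTr N q τ) {x j : ℕ} (hx : x < q) (hj : j ≤ N + 1) (j' : ℕ) :
    trIsMin (trAtt N q τ x j) (j' + 1) q ↔ j ≤ j' := by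
  unfold trIsMin
  constructor
  · intro H
    have := H x hx
    simp only [trAtt, if_true, if_neg (Nat.ne_of_lt hx), hτ.diag x hx] at this
    omega
  · intro H y hy
    simp only [trAtt, if_true, if_neg (Nat.ne_of_lt hy)]
    omega

/-- two old attachments commute up to the exchange of the two new labels -/
theorem tk9_att2_swap {N q : ℕ} {τ : ℕ → ℕ → ℕ} {x x' : ℕ} (hx : x < q) (hx' : x' < q) (a b : ℕ)
    (y z : ℕ) (hy : y < q + 2) (hz : z < q + 2) :
    trAtt N (q + 1) (trAtt N q τ x a) x' b (Equiv.swap q (q + 1) y) (Equiv.swap q (q + 1) z)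
      = trAtt N (q + 1) (trAtt N q τ x' b) x a y z := by
  have cs : ∀ y, y < q + 2 → y = q ∨ y = q + 1 ∨ (y < q ∧ y ≠ q ∧ y ≠ q + 1) := fun y hy => by omega
  have hxq : x ≠ q := by omega
  have hxq' : x' ≠ q := by omega
  have hq : q ≠ q + 1 := by omega
  have hq' : q + 1 ≠ q := by omega
  rcases cs y hy with rfl | rfl | ⟨hy, hy1, hy2⟩ <;> rcases cs z hz with rfl | rfl | ⟨hz, hz1, hz2⟩ <;>
    simp only [Equiv.swap_apply_left, Equiv.swap_apply_right, Equiv.swap_apply_of_ne_of_ne, ne_eq, not_false_eq_true,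
      trAtt, if_true, if_false, *] <;> omega

/-- attaching the second new label on the branch of the first one gives a tree symmetric in the two new labels -/
theorem tk9_att2_self {N q : ℕ} {τ : ℕ → ℕ → ℕ} {x : ℕ} (hx : x < q) {a b : ℕ} (hab : a ≤ b)
    (y z : ℕ) (hy : y < q + 2) (hz : z < q + 2) :
    trAtt N (q + 1) (trAtt N q τ x a) q b (Equiv.swap q (q + 1) y) (Equiv.swap q (q + 1) z)
      = trAtt N (q + 1) (trAtt N q τ x a) q b y z := by
  have cs : ∀ y, y < q + 2 → y = q ∨ y = q + 1 ∨ (y < q ∧ y ≠ q ∧ y ≠ q + 1) := fun y hy => by omega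
  have hxq : x ≠ q := by omega
  have hq : q ≠ q + 1 := by omega
  have hq' : q + 1 ≠ q := by omega
  rcases cs y hy with rfl | rfl | ⟨hy, hy1, hy2⟩ <;> rcases cs z hz with rfl | rfl | ⟨hz, hz1, hz2⟩ <;>
    simp only [Equiv.swap_apply_left, Equiv.swap_apply_right, Equiv.swap_apply_of_ne_of_ne, ne_eq, not_false_eq_true,
      trAtt, if_true, if_false, *] <;> omega

/-- the second allocation in edge form: old edges + the edges of the branch of the first new label -/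
theorem tk9_sum_att_edge {N q : ℕ} {τ : ℕ → ℕ → ℕ} {ms : ℕ → ℝ} (hτ : IsTr N q τ) {x a : ℕ} (hx : x < q)
    (ha : a ≤ N + 1) (Ψ : (ℕ → ℕ → ℕ) → ℝ) (hΨ : TrLoc (q + 2) Ψ) :
    trSum ms N (q + 1) (trAtt N q τ x a) Ψ
      = trEd ms N q τ (fun x' b => Ψ (trAtt N (q + 1) (trAtt N q τ x a) x' b))
        + ∑ j ∈ Finset.range (N + 1), (if a ≤ j then ms j else 0) *
            (Ψ (trAtt N (q + 1) (trAtt N q τ x a) q (j + 1)) - Ψ (trAtt N (q + 1) (trAtt N q τ x a) q j)) := by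
  rw [tk9_sum_edge (tk9_att_isTr hτ hx ha) Ψ hΨ]
  unfold trEd
  rw [Finset.sum_range_succ]
  congr 1
  · refine Finset.sum_congr rfl fun x' hx' => Finset.sum_congr rfl fun j _ => ?_
    rw [Finset.mem_range] at hx'
    simp only [tk9_att_isMin_old hx']
  · refine Finset.sum_congr rfl fun j _ => ?_
    simp only [tk9_att_isMin_new hτ hx ha]

theorem tk9_swap_lt {q y : ℕ} (hy : y < q + 2) : Equiv.swap q (q + 1) y < q + 2 := by
  rw [Equiv.swap_apply_def]
  split_ifs <;> omega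

/-- order of allocation: the signed measure on trees with two new labels is symmetric -/
theorem tk9_sum_swap {N q : ℕ} {τ : ℕ → ℕ → ℕ} {ms : ℕ → ℝ} (hτ : IsTr N q τ)
    (Φ : (ℕ → ℕ → ℕ) → ℝ) (hΦ : TrLoc (q + 2) Φ) :
    (trSum ms N q τ fun τ₁ => trSum ms N (q + 1) τ₁ Φ)
      = trSum ms N q τ fun τ₁ => trSum ms N (q + 1) τ₁ fun τ₂ =>
          Φ fun y z => τ₂ (Equiv.swap q (q + 1) y) (Equiv.swap q (q + 1) z) := by
  have hΦs : TrLoc (q + 2) fun τ₂ => Φ fun y z => τ₂ (Equiv.swap q (q + 1) y) (Equiv.swap q (q + 1) z) := by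
    intro τ₁ τ₂ h
    exact hΦ _ _ fun y z hy hz => h _ _ (tk9_swap_lt hy) (tk9_swap_lt hz)
  rw [tk9_sum_edge hτ _ (tk9_sum_loc ms N (q + 1) hΦ), tk9_sum_edge hτ _ (tk9_sum_loc ms N (q + 1) hΦs)]
  rw [tk9_ed_congr _ _ _ _ _ _ (fun x a hx ha => tk9_sum_att_edge hτ hx ha Φ hΦ),
    tk9_ed_congr _ _ _ _ _ _ (fun x a hx ha => tk9_sum_att_edge hτ hx ha _ hΦs)]
  rw [tk9_ed_add, tk9_ed_add]
  congr 1
  · rw [tk9_ed_comm]
    refine tk9_ed_congr _ _ _ _ _ _ fun x a hx _ => tk9_ed_congr _ _ _ _ _ _ fun x' b hx' _ => ?_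
    exact hΦ _ _ fun y z hy hz => (tk9_att2_swap hx hx' a b y z hy hz).symm
  · refine tk9_ed_congr _ _ _ _ _ _ fun x a hx _ => Finset.sum_congr rfl fun j _ => ?_
    by_cases h : a ≤ j
    · rw [hΦ _ _ fun y z hy hz => (tk9_att2_self (N := N) (τ := τ) hx h y z hy hz),
        hΦ _ _ fun y z hy hz => (tk9_att2_self (N := N) (τ := τ) hx (Nat.le_succ_of_le h) y z hy hz)]
    · simp [h]


end Claimed.Agent.R286
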