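import Claimed.Agent.R286.Fd.TrA2

/-!
# Row 286 (S0533), Fd/TrA6 : EDGE (Abel) form of the signed row, constant diagonal (DIAG0)      (owner helper150)
* `tr_sum_abel` : `trSum = ∑_{j ≤ N} ∑_{x least leaf of a node of depth j+1} m_j (Φ(att x (j+1)) - Φ(att x j))`  : the form produced by the induction on the levels
  (one term per EDGE of the tree: the edge above the node of depth `j + 1`; stage `N` = the terminal draw).
* `tr_sum_diag0` : the pairs of new labels which coincide have total signed weight `0` at the root.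
-/

set_option autoImplicit false

namespace Claimed.Agent.R286

/-- sum over the nodes of depth `j` of `deg * Φ` = sum over the nodes of depth `j + 1` -/
theorem tra6_deg_sum {N q : ℕ} {τ : ℕ → ℕ → ℕ} (hτ : IsTr N q τ) (Φ : (ℕ → ℕ → ℕ) → ℝ)
    (hΦ : ∀ τ₁ τ₂ : ℕ → ℕ → ℕ, (∀ y z, y < q + 1 → z < q + 1 → τ₁ y z = τ₂ y z) → Φ τ₁ = Φ τ₂) {j : ℕ} (hj : j ≤ N) :
    ∑ x ∈ (Finset.range q).filter (fun x => trIsMin τ j x), (trDeg q τ j x : ℝ) * Φ (trAtt N q τ x j)
      = ∑ r ∈ (Finset.range q).filter (fun r => trIsMin τ (j + 1) r), Φ (trAtt N q τ r j) := by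
  rw [Finset.sum_filter (fun r => trIsMin τ (j + 1) r)]
  rw [tra2_sum_blocks hτ (show j ≤ N + 1 by omega) (fun r => if trIsMin τ (j + 1) r then Φ (trAtt N q τ r j) else 0)]
  refine Finset.sum_congr rfl ?_
  intro x hx
  simp only [Finset.mem_filter, Finset.mem_range] at hx
  rw [tra2Bl, ← Finset.sum_filter, Finset.filter_filter]
  have : ∀ y ∈ (Finset.range q).filter (fun a => j ≤ τ x a ∧ trIsMin τ (j + 1) a),
      Φ (trAtt N q τ y j) = Φ (trAtt N q τ x j) := by
    intro y hy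
    simp only [Finset.mem_filter, Finset.mem_range] at hy
    apply hΦ
    intro a b ha hb
    exact (tr_att_congr hτ hx.1 hy.1 hy.2.1 a b ha hb).symm
  rw [Finset.sum_congr rfl this, Finset.sum_const, nsmul_eq_mul]
  rfl

/-- **EDGE form of the signed row** -/
theorem tr_sum_abel {N q : ℕ} {τ : ℕ → ℕ → ℕ} {ms : ℕ → ℝ} (hτ : IsTr N q τ) (Φ : (ℕ → ℕ → ℕ) → ℝ)
    (hΦ : ∀ τ₁ τ₂ : ℕ → ℕ → ℕ, (∀ y z, y < q + 1 → z < q + 1 → τ₁ y z = τ₂ y z) → Φ τ₁ = Φ τ₂) :
    trSum ms N q τ Φ = ∑ j ∈ Finset.range (N + 1), ∑ x ∈ (Finset.range q).filter (fun x => trIsMin τ (j + 1) x),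
      ms j * (Φ (trAtt N q τ x (j + 1)) - Φ (trAtt N q τ x j)) := by
  unfold trSum
  rw [Finset.sum_comm]
  -- the layer of depth `j`
  have hlay : ∀ j, j ≤ N → ∑ x ∈ Finset.range q, trWt ms N q τ x j * Φ (trAtt N q τ x j)
      = trPm ms j * (∑ x ∈ (Finset.range q).filter (fun x => trIsMin τ j x), Φ (trAtt N q τ x j))
        - ms j * ∑ r ∈ (Finset.range q).filter (fun r => trIsMin τ (j + 1) r), Φ (trAtt N q τ r j) := by
    intro j hj
    rw [← tra6_deg_sum hτ Φ hΦ hj, Finset.mul_sum, Finset.mul_sum, ← Finset.sum_sub_distrib, Finset.sum_filter]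
    refine Finset.sum_congr rfl ?_
    intro x _
    unfold trWt
    by_cases h : trIsMin τ j x
    · rw [if_pos h, if_pos h, if_neg (by omega)]; ring
    · rw [if_neg h, if_neg h]; ring
  have htop : ∑ x ∈ Finset.range q, trWt ms N q τ x (N + 1) * Φ (trAtt N q τ x (N + 1))
      = ms N * (∑ x ∈ (Finset.range q).filter (fun x => trIsMin τ (N + 1) x), Φ (trAtt N q τ x (N + 1))) := by
    rw [Finset.mul_sum, Finset.sum_filter]
    refine Finset.sum_congr rfl ?_
    intro x _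
    unfold trWt
    by_cases h : trIsMin τ (N + 1) x
    · rw [if_pos h, if_pos h, if_pos rfl]
    · rw [if_neg h, if_neg h]; ring
  rw [Finset.sum_range_succ, htop, Finset.sum_congr rfl (fun j hj => hlay j (by rw [Finset.mem_range] at hj; omega))]
  rw [Finset.sum_sub_distrib]
  -- shift of the first sum
  have hshift : ∑ j ∈ Finset.range (N + 1), trPm ms j * (∑ x ∈ (Finset.range q).filter (fun x => trIsMin τ j x), Φ (trAtt N q τ x j))
      + ms N * (∑ x ∈ (Finset.range q).filter (fun x => trIsMin τ (N + 1) x), Φ (trAtt N q τ x (N + 1)))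
      = ∑ j ∈ Finset.range (N + 1), ms j * (∑ x ∈ (Finset.range q).filter (fun x => trIsMin τ (j + 1) x), Φ (trAtt N q τ x (j + 1))) := by
    have h1 := Finset.sum_range_succ (fun j => trPm ms j * (∑ x ∈ (Finset.range q).filter (fun x => trIsMin τ j x), Φ (trAtt N q τ x j))) (N + 1)
    have h2 := Finset.sum_range_succ' (fun j => trPm ms j * (∑ x ∈ (Finset.range q).filter (fun x => trIsMin τ j x), Φ (trAtt N q τ x j))) (N + 1)
    have h3 : trPm ms (N + 1) = ms N := tra2_pm_succ ms N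
    have h4 : trPm ms 0 = 0 := by simp [trPm]
    rw [h3] at h1
    rw [← h1, h2, h4, zero_mul, add_zero]
    refine Finset.sum_congr rfl ?_
    intro j _
    rw [tra2_pm_succ]
  have hfin : ∀ j ∈ Finset.range (N + 1), ∑ x ∈ (Finset.range q).filter (fun x => trIsMin τ (j + 1) x),
      ms j * (Φ (trAtt N q τ x (j + 1)) - Φ (trAtt N q τ x j))
      = ms j * (∑ x ∈ (Finset.range q).filter (fun x => trIsMin τ (j + 1) x), Φ (trAtt N q τ x (j + 1)))
        - ms j * ∑ r ∈ (Finset.range q).filter (fun r => trIsMin τ (j + 1) r), Φ (trAtt N q τ r j) := by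
    intro j _
    rw [← mul_sub, ← Finset.sum_sub_distrib, Finset.mul_sum]
  rw [Finset.sum_congr rfl hfin, Finset.sum_sub_distrib, ← hshift]
  ring

/-- the attachments of a new label which coincide with the given old leaf `x₀`: one placement, weight `ms N` -/
theorem tr_sum_coinc {N q : ℕ} {τ : ℕ → ℕ → ℕ} {ms : ℕ → ℝ} (hτ : IsTr N q τ) {x₀ : ℕ} (hx₀ : x₀ < q) (Ψ : (ℕ → ℕ → ℕ) → ℝ)
    (hΨ : ∀ τ₁ τ₂ : ℕ → ℕ → ℕ, (∀ y z, y < q + 1 → z < q + 1 → τ₁ y z = τ₂ y z) → Ψ τ₁ = Ψ τ₂) :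
    trSum ms N q τ (fun τ' => if τ' x₀ q = N + 1 then Ψ τ' else 0) = ms N * Ψ (trAtt N q τ x₀ (N + 1)) := by
  unfold trSum
  have hval : ∀ x j, (trAtt N q τ x j) x₀ q = min j (τ x₀ x) := by
    intro x j
    unfold trAtt
    rw [if_neg (by omega), if_pos rfl]
  have h1 : ∀ x ∈ Finset.range q, ∑ j ∈ Finset.range (N + 2), trWt ms N q τ x j *
      (if (trAtt N q τ x j) x₀ q = N + 1 then Ψ (trAtt N q τ x j) else 0)
      = if N + 1 ≤ τ x₀ x then (if trIsMin τ (N + 1) x then ms N * Ψ (trAtt N q τ x (N + 1)) else 0) else 0 := by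
    intro x hx
    rw [Finset.mem_range] at hx
    rw [Finset.sum_eq_single (N + 1)]
    · rw [hval]
      by_cases h : N + 1 ≤ τ x₀ x
      · rw [if_pos (by omega), if_pos h]
        unfold trWt
        by_cases h' : trIsMin τ (N + 1) x
        · rw [if_pos h', if_pos h', if_pos rfl]
        · rw [if_neg h', if_neg h', zero_mul]
      · rw [if_neg (by omega), if_neg h, mul_zero]
    · intro j hj hne
      rw [Finset.mem_range] at hj
      rw [hval, if_neg (by omega), mul_zero]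
    · intro h; exfalso; apply h; rw [Finset.mem_range]; omega
  rw [Finset.sum_congr rfl h1, ← Finset.sum_filter]
  have h2 := tra2_bl_sum_min hτ hx₀ (le_refl (N + 1)) (fun y => ms N * Ψ (trAtt N q τ y (N + 1)))
  unfold tra2Bl at h2
  rw [h2]
  obtain ⟨a1, a2, a3⟩ := tra2_rp_spec hτ hx₀ (le_refl (N + 1))
  congr 1
  apply hΨ
  intro a b ha hb
  exact (tr_att_congr hτ hx₀ (lt_of_le_of_lt a1 hx₀) a2 a b ha hb).symm

/-- total signed mass of a row at the root -/
theorem tr_sum_const {N q : ℕ} {τ : ℕ → ℕ → ℕ} {ms : ℕ → ℝ} (hτ : IsTr N q τ) (c : ℝ) :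
    trSum ms N q τ (fun _ => c) = 0 := by
  rcases Nat.eq_zero_or_pos q with rfl | hq
  · simp [trSum]
  · have h := tr_row_sum (ms := ms) hτ hq (Nat.zero_le (N + 1))
    have hf : (Finset.range q).filter (fun y => 0 ≤ τ 0 y) = Finset.range q := by
      apply Finset.filter_true_of_mem; intro _ _; exact Nat.zero_le _
    have hI : Finset.Icc 0 (N + 1) = Finset.range (N + 2) := by
      ext j; simp only [Finset.mem_Icc, Finset.mem_range]; omega
    rw [hf, hI] at h
    unfold trSum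
    simp only [← Finset.sum_mul]
    rw [h]; simp [trPm]

/-- a row whose summand does not depend on the attachment vanishes at the root -/
theorem tr_sum_const' {N q : ℕ} {τ : ℕ → ℕ → ℕ} {ms : ℕ → ℝ} (hτ : IsTr N q τ) (Φ : (ℕ → ℕ → ℕ) → ℝ) (c : ℝ)
    (hΦ : ∀ x j, x < q → j ≤ N + 1 → Φ (trAtt N q τ x j) = c) : trSum ms N q τ Φ = 0 := by
  rw [← tr_sum_const (ms := ms) hτ c]
  unfold trSum
  refine Finset.sum_congr rfl fun x hx => Finset.sum_congr rfl fun j hj => ?_
  rw [Finset.mem_range] at hx hj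
  rw [hΦ x j hx (by omega)]

/-- **DIAG0**: if the summand on the trees whose two new labels coincide does not depend on the attachment of the pair, these terms of the double row sum to `0`. -/
theorem tr_sum_diag0 {N q : ℕ} {τ : ℕ → ℕ → ℕ} {ms : ℕ → ℝ} (hτ : IsTr N q τ) (Ψ : (ℕ → ℕ → ℕ) → ℝ)
    (hΨ : ∀ τ₁ τ₂ : ℕ → ℕ → ℕ, (∀ y z, y < q + 2 → z < q + 2 → τ₁ y z = τ₂ y z) → Ψ τ₁ = Ψ τ₂) (c : ℝ)
    (hc : ∀ x j, x < q → j ≤ N + 1 → Ψ (trAtt N (q + 1) (trAtt N q τ x j) q (N + 1)) = c) :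
    (trSum ms N q τ fun τ₁ => trSum ms N (q + 1) τ₁ fun τ₂ => if τ₂ q (q + 1) = N + 1 then Ψ τ₂ else 0) = 0 := by
  apply tr_sum_const' hτ _ (ms N * c)
  intro x j hx hj
  rw [tr_sum_coinc (tr_att_isTr hτ hx hj) (Nat.lt_succ_self q) Ψ hΨ, hc x j hx hj]

end Claimed.Agent.R286
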