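import Claimed.Agent.R286.Fd.TrA2

/-!
# Row 286 (S0533), Fd/TrA5 : signed attachment weights, PURE COMBINATORICS (relabelling of old leaves, MARGINALISATION CONSISTENCY)
architect helper150;  OWNER / PROVER of this file: helper217.   STATUS: all four statements PROVED (0 sorry in this file).
No probability.  Helper lemmas carry the prefix `tr5_`:
* `tr5_min_exists`, `tr5_min_unique`, `tr5_fib` : classes of depth `j` and their least leaves;
* `tr5Cnt`, `tr5_ns`, `tr5_sum_leaf` : LEAF FORM of a signed row (no representatives: weights `1 / #class`);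
* `tr5_layer` : effect of one more old leaf on the layer of depth `j` of a row (telescoping);
* `tr5Cyc`, `tr5_sum_del` : deletion of an arbitrary old leaf, one new label.
-/

set_option autoImplicit false

namespace Claimed.Agent.R286

open Finset

/-! ### classes and their least leaves -/

theorem tr5_min_exists {N q : ℕ} {τ : ℕ → ℕ → ℕ} (hτ : IsTr N q τ) {x j : ℕ} (hx : x < q) (hj : j ≤ N + 1) :
    ∃ r, r < q ∧ trIsMin τ j r ∧ j ≤ τ r x := by
  classical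
  have hex : ∃ r, r < q ∧ j ≤ τ r x := ⟨x, hx, by rw [hτ.diag x hx]; exact hj⟩
  refine ⟨Nat.find hex, (Nat.find_spec hex).1, ?_, (Nat.find_spec hex).2⟩
  intro y hy
  have hr := Nat.find_spec hex
  have hmin := Nat.find_min hex hy
  by_contra hcon
  apply hmin
  have hyq : y < q := lt_trans hy hr.1
  refine ⟨hyq, ?_⟩
  have a1 := hτ.ultra y (Nat.find hex) x hyq hr.1 hx
  have a2 := hτ.symm y (Nat.find hex) hyq hr.1
  omega

theorem tr5_min_unique {N q : ℕ} {τ : ℕ → ℕ → ℕ} (hτ : IsTr N q τ) {r r' x j : ℕ} (hr : r < q) (hr' : r' < q)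
    (hx : x < q) (m : trIsMin τ j r) (m' : trIsMin τ j r') (h : j ≤ τ r x) (h' : j ≤ τ r' x) : r = r' := by
  have a1 := hτ.ultra r x r' hr hx hr'
  have a2 := hτ.symm r' x hr' hx
  have a3 := hτ.symm r r' hr hr'
  rcases lt_trichotomy r r' with h1 | h1 | h1
  · have := m' r h1; omega
  · exact h1
  · have := m r' h1; omega

/-- decomposition of a sum over the leaves into the classes of depth `j` -/
theorem tr5_fib {N q : ℕ} {τ : ℕ → ℕ → ℕ} (hτ : IsTr N q τ) {j : ℕ} (hj : j ≤ N + 1) (g : ℕ → ℝ) :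
    ∑ r ∈ (range q).filter (trIsMin τ j), ∑ y ∈ (range q).filter (fun y => j ≤ τ r y), g y
      = ∑ y ∈ range q, g y := by
  have e : ∑ r ∈ (range q).filter (trIsMin τ j), ∑ y ∈ (range q).filter (fun y => j ≤ τ r y), g y
      = ∑ r ∈ range q, ∑ y ∈ range q, (if trIsMin τ j r ∧ j ≤ τ r y then g y else 0) := by
    rw [sum_filter]
    refine sum_congr rfl fun r _ => ?_
    by_cases h1 : trIsMin τ j r
    · simp [h1, sum_filter]
    · simp [h1]
  rw [e, sum_comm]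
  refine sum_congr rfl fun y hy => ?_
  have hy' : y < q := mem_range.1 hy
  obtain ⟨r, hr, hm, hry⟩ := tr5_min_exists hτ hy' hj
  rw [sum_eq_single r]
  · simp [hm, hry]
  · intro b hb hbr
    have hb' : b < q := mem_range.1 hb
    rw [if_neg]
    rintro ⟨h1, h2⟩
    exact hbr (tr5_min_unique hτ hb' hr hy' h1 hm h2 hry)
  · intro h; exact absurd (mem_range.2 hr) h

/-- number of leaves of the class of depth `j` of `x` -/
def tr5Cnt (q : ℕ) (τ : ℕ → ℕ → ℕ) (j x : ℕ) : ℕ := ((range q).filter fun y => j ≤ τ x y).card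

theorem tr5_cnt_pos {N q : ℕ} {τ : ℕ → ℕ → ℕ} (hτ : IsTr N q τ) {x j : ℕ} (hx : x < q) (hj : j ≤ N + 1) :
    0 < tr5Cnt q τ j x :=
  card_pos.2 ⟨x, mem_filter.2 ⟨mem_range.2 hx, by rw [hτ.diag x hx]; exact hj⟩⟩

theorem tr5_cnt_congr {N q : ℕ} {τ : ℕ → ℕ → ℕ} (hτ : IsTr N q τ) {x x' j : ℕ} (hx : x < q) (hx' : x' < q)
    (h : j ≤ τ x x') : tr5Cnt q τ j x = tr5Cnt q τ j x' := by
  unfold tr5Cnt
  congr 1
  refine filter_congr fun y hy => ?_
  have hyq : y < q := mem_range.1 hy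
  have a1 := hτ.ultra x x' y hx hx' hyq
  have a2 := hτ.ultra x' x y hx' hx hyq
  have a3 := hτ.symm x x' hx hx'
  constructor <;> intro h1 <;> omega

/-- a sum over the nodes of depth `j` (least leaves) in LEAF form -/
theorem tr5_ns {N q : ℕ} {τ : ℕ → ℕ → ℕ} (hτ : IsTr N q τ) {j : ℕ} (hj : j ≤ N + 1) (f : ℕ → ℝ)
    (hf : ∀ y y', y < q → y' < q → j ≤ τ y y' → f y = f y') :
    ∑ x ∈ range q, (if trIsMin τ j x then f x else 0) = ∑ x ∈ range q, f x / tr5Cnt q τ j x := by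
  rw [← tr5_fib hτ hj (fun x => f x / tr5Cnt q τ j x), ← sum_filter]
  refine sum_congr rfl fun r hr => ?_
  have hrq : r < q := mem_range.1 (mem_filter.1 hr).1
  have h1 : ∀ y ∈ (range q).filter (fun y => j ≤ τ r y), f y / tr5Cnt q τ j y = f r / tr5Cnt q τ j r := by
    intro y hy
    have hy' := mem_filter.1 hy
    have hyq : y < q := mem_range.1 hy'.1
    rw [hf r y hrq hyq hy'.2, tr5_cnt_congr hτ hrq hyq hy'.2]
  rw [sum_congr rfl h1, sum_const, nsmul_eq_mul]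
  have hpos : (0 : ℝ) < tr5Cnt q τ j r := by exact_mod_cast tr5_cnt_pos hτ hrq hj
  change f r = (tr5Cnt q τ j r : ℝ) * (f r / tr5Cnt q τ j r)
  field_simp

/-! ### permutations of the old leaves -/

theorem tr5_perm_lt {q : ℕ} (e : Equiv.Perm ℕ) (he : ∀ y, q ≤ y → e y = y) {x : ℕ} (hx : x < q) : e x < q := by
  by_contra h
  have h1 : e (e x) = e x := he _ (not_lt.1 h)
  have h2 : e x = x := e.injective h1
  omega

theorem tr5_perm_symm {q : ℕ} (e : Equiv.Perm ℕ) (he : ∀ y, q ≤ y → e y = y) : ∀ y, q ≤ y → e.symm y = y := by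
  intro y hy
  rw [Equiv.symm_apply_eq, he y hy]

theorem tr5_sum_perm {M : Type} [AddCommMonoid M] {q : ℕ} (e : Equiv.Perm ℕ) (he : ∀ y, q ≤ y → e y = y) (g : ℕ → M) :
    ∑ x ∈ range q, g (e x) = ∑ x ∈ range q, g x :=
  sum_nbij' (fun x => e x) (fun x => e.symm x)
    (fun x hx => mem_range.2 (tr5_perm_lt e he (mem_range.1 hx)))
    (fun x hx => mem_range.2 (tr5_perm_lt e.symm (tr5_perm_symm e he) (mem_range.1 hx)))
    (fun x _ => by simp) (fun x _ => by simp) (fun x _ => rfl)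

theorem tr5_cnt_perm {q : ℕ} (τ : ℕ → ℕ → ℕ) (e : Equiv.Perm ℕ) (he : ∀ y, q ≤ y → e y = y) (j x : ℕ) :
    tr5Cnt q (fun y z => τ (e y) (e z)) j x = tr5Cnt q τ j (e x) := by
  unfold tr5Cnt
  rw [card_filter, card_filter]
  exact tr5_sum_perm e he (fun y => if j ≤ τ (e x) y then 1 else 0)

theorem tr5_deg_leaf {N q : ℕ} {τ : ℕ → ℕ → ℕ} (hτ : IsTr N q τ) {j x : ℕ} (hj : j ≤ N) (hx : x < q) :
    (trDeg q τ j x : ℝ) = ∑ y ∈ range q, (if j ≤ τ x y then (1 : ℝ) else 0) / tr5Cnt q τ (j + 1) y := by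
  rw [← tr5_ns hτ (by omega : j + 1 ≤ N + 1) (fun y => if j ≤ τ x y then (1 : ℝ) else 0)]
  · unfold trDeg
    rw [card_filter]
    push_cast
    refine sum_congr rfl fun y _ => ?_
    by_cases h1 : trIsMin τ (j + 1) y <;> by_cases h2 : j ≤ τ x y <;> simp [h1, h2]
  · intro y y' hy hy' h
    have a1 := hτ.ultra x y y' hx hy hy'
    have a2 := hτ.ultra x y' y hx hy' hy
    have a3 := hτ.symm y y' hy hy'
    by_cases h1 : j ≤ τ x y
    · rw [if_pos h1, if_pos (by omega)]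
    · rw [if_neg h1, if_neg (by omega)]

theorem tr5_deg_perm {N q : ℕ} {τ : ℕ → ℕ → ℕ} (hτ : IsTr N q τ) (e : Equiv.Perm ℕ) (he : ∀ y, q ≤ y → e y = y)
    {j x : ℕ} (hj : j ≤ N) (hx : x < q) :
    trDeg q (fun y z => τ (e y) (e z)) j x = trDeg q τ j (e x) := by
  have hτ' : IsTr N q (fun y z => τ (e y) (e z)) := tr_comap_isTr hτ e (fun x hx => tr5_perm_lt e he hx)
  have h1 := tr5_deg_leaf hτ' hj hx
  have h2 := tr5_deg_leaf hτ hj (tr5_perm_lt e he hx)
  have h3 : (trDeg q (fun y z => τ (e y) (e z)) j x : ℝ) = trDeg q τ j (e x) := by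
    rw [h1, h2, ← tr5_sum_perm e he (fun y => (if j ≤ τ (e x) y then (1 : ℝ) else 0) / tr5Cnt q τ (j + 1) y)]
    refine sum_congr rfl fun y _ => ?_
    rw [tr5_cnt_perm τ e he]
  exact_mod_cast h3


/-! ### the leaf form of a signed row -/

theorem tr5_deg_congr {N q : ℕ} {τ : ℕ → ℕ → ℕ} (hτ : IsTr N q τ) {x x' j : ℕ} (hx : x < q) (hx' : x' < q)
    (h : j ≤ τ x x') : trDeg q τ j x = trDeg q τ j x' := by
  unfold trDeg
  congr 1
  refine filter_congr fun y hy => ?_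
  have hyq : y < q := mem_range.1 hy
  have a1 := hτ.ultra x x' y hx hx' hyq
  have a2 := hτ.ultra x' x y hx' hx hyq
  have a3 := hτ.symm x x' hx hx'
  constructor
  · rintro ⟨h1, h2⟩; exact ⟨by omega, h2⟩
  · rintro ⟨h1, h2⟩; exact ⟨by omega, h2⟩

/-- the weight of the node of depth `j` above `x` (without the restriction to the least leaf) -/
def tr5W (ms : ℕ → ℝ) (N q : ℕ) (τ : ℕ → ℕ → ℕ) (x j : ℕ) : ℝ :=
  if j = N + 1 then ms N else trPm ms j - trDeg q τ j x * ms j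

theorem tr5_wt_eq (ms : ℕ → ℝ) (N q : ℕ) (τ : ℕ → ℕ → ℕ) (x j : ℕ) :
    trWt ms N q τ x j = if trIsMin τ j x then tr5W ms N q τ x j else 0 := rfl

theorem tr5_sum_leaf {N q : ℕ} {τ : ℕ → ℕ → ℕ} {ms : ℕ → ℝ} (hτ : IsTr N q τ) (Φ : (ℕ → ℕ → ℕ) → ℝ)
    (hΦ : ∀ τ₁ τ₂ : ℕ → ℕ → ℕ, (∀ y z, y < q + 1 → z < q + 1 → τ₁ y z = τ₂ y z) → Φ τ₁ = Φ τ₂) :
    trSum ms N q τ Φ = ∑ j ∈ range (N + 2), ∑ x ∈ range q,
      tr5W ms N q τ x j * Φ (trAtt N q τ x j) / tr5Cnt q τ j x := by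
  unfold trSum
  rw [sum_comm]
  refine sum_congr rfl fun j hj => ?_
  have hj' : j ≤ N + 1 := by have := mem_range.1 hj; omega
  rw [← tr5_ns hτ hj' (fun x => tr5W ms N q τ x j * Φ (trAtt N q τ x j))]
  · refine sum_congr rfl fun x _ => ?_
    rw [tr5_wt_eq]
    split_ifs <;> simp
  · intro y y' hy hy' h
    have h1 : tr5W ms N q τ y j = tr5W ms N q τ y' j := by
      unfold tr5W
      rw [tr5_deg_congr hτ hy hy' h]
    have h2 : Φ (trAtt N q τ y j) = Φ (trAtt N q τ y' j) :=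
      hΦ _ _ (fun a b ha hb => tr_att_congr hτ hy hy' h a b ha hb)
    simp only [h1, h2]

theorem tr5_att_perm (N q : ℕ) (τ : ℕ → ℕ → ℕ) (e : Equiv.Perm ℕ) (he : ∀ y, q ≤ y → e y = y) (x j : ℕ) :
    (fun y z => trAtt N q (fun y z => τ (e y) (e z)) x j (e.symm y) (e.symm z)) = trAtt N q τ (e x) j := by
  have hq : ∀ y, e.symm y = q ↔ y = q := by
    intro y
    rw [Equiv.symm_apply_eq, he q le_rfl]
  funext y z
  unfold trAtt
  simp only [hq, Equiv.apply_symm_apply]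

/-- relabelling of the OLD leaves -/
theorem tr_sum_relabel {N q : ℕ} {τ : ℕ → ℕ → ℕ} {ms : ℕ → ℝ} (hτ : IsTr N q τ)
    (Φ : (ℕ → ℕ → ℕ) → ℝ)
    (hΦ : ∀ τ₁ τ₂ : ℕ → ℕ → ℕ, (∀ y z, y < q + 1 → z < q + 1 → τ₁ y z = τ₂ y z) → Φ τ₁ = Φ τ₂)
    (e : Equiv.Perm ℕ) (he : ∀ y, q ≤ y → e y = y) :
    trSum ms N q (fun y z => τ (e y) (e z)) (fun τ' => Φ fun y z => τ' (e.symm y) (e.symm z)) = trSum ms N q τ Φ := by
  have hτ' : IsTr N q (fun y z => τ (e y) (e z)) := tr_comap_isTr hτ e (fun x hx => tr5_perm_lt e he hx)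
  have he1 : ∀ y, q + 1 ≤ y → e.symm y = y := fun y hy => tr5_perm_symm e he y (by omega)
  have hΦ' : ∀ τ₁ τ₂ : ℕ → ℕ → ℕ, (∀ y z, y < q + 1 → z < q + 1 → τ₁ y z = τ₂ y z) →
      (fun τ' : ℕ → ℕ → ℕ => Φ fun y z => τ' (e.symm y) (e.symm z)) τ₁
        = (fun τ' : ℕ → ℕ → ℕ => Φ fun y z => τ' (e.symm y) (e.symm z)) τ₂ :=
    fun τ₁ τ₂ h => hΦ _ _ (fun y z hy hz => h _ _ (tr5_perm_lt e.symm he1 hy) (tr5_perm_lt e.symm he1 hz))
  rw [tr5_sum_leaf hτ Φ hΦ, tr5_sum_leaf hτ' _ hΦ']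
  refine sum_congr rfl fun j hj => ?_
  have hj' : j < N + 2 := mem_range.1 hj
  rw [← tr5_sum_perm e he (fun x => tr5W ms N q τ x j * Φ (trAtt N q τ x j) / tr5Cnt q τ j x)]
  refine sum_congr rfl fun x hx => ?_
  have hx' : x < q := mem_range.1 hx
  rw [tr5_att_perm N q τ e he, tr5_cnt_perm τ e he]
  congr 2
  unfold tr5W
  by_cases h : j = N + 1
  · simp [h]
  · rw [if_neg h, if_neg h, tr5_deg_perm hτ e he (by omega) hx']

/-- relabelling of the old leaves, `k` new labels -/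
theorem tr_sumK_relabel {N q : ℕ} {τ : ℕ → ℕ → ℕ} {ms : ℕ → ℝ} (hτ : IsTr N q τ) (k : ℕ)
    (Φ : (ℕ → ℕ → ℕ) → ℝ)
    (hΦ : ∀ τ₁ τ₂ : ℕ → ℕ → ℕ, (∀ y z, y < q + k → z < q + k → τ₁ y z = τ₂ y z) → Φ τ₁ = Φ τ₂)
    (e : Equiv.Perm ℕ) (he : ∀ y, q ≤ y → e y = y) :
    trSumK ms N k q (fun y z => τ (e y) (e z)) (fun τ' => Φ fun y z => τ' (e.symm y) (e.symm z)) = trSumK ms N k q τ Φ := by
  induction k generalizing q τ with
  | zero =>
    simp only [trSumK, Equiv.apply_symm_apply]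
  | succ k ih =>
    have hΦ1 : ∀ τ₁ τ₂ : ℕ → ℕ → ℕ, (∀ y z, y < q + 1 + k → z < q + 1 + k → τ₁ y z = τ₂ y z) → Φ τ₁ = Φ τ₂ :=
      fun τ₁ τ₂ h => hΦ τ₁ τ₂ (fun y z hy hz => h y z (by omega) (by omega))
    simp only [trSumK]
    rw [← tr_sum_relabel hτ (fun τ₁ => trSumK ms N k (q + 1) τ₁ Φ)
      (fun τ₁ τ₂ h => tr_sumK_tree_congr h k Φ hΦ1) e he]
    unfold trSum
    refine sum_congr rfl fun x hx => sum_congr rfl fun j hj => ?_
    have hx' : x < q := mem_range.1 hx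
    have hj' : j < N + 2 := mem_range.1 hj
    congr 1
    have hσ : IsTr N (q + 1) (fun y z => trAtt N q (fun y z => τ (e y) (e z)) x j (e.symm y) (e.symm z)) := by
      rw [tr5_att_perm N q τ e he]
      exact tr_att_isTr hτ (tr5_perm_lt e he hx') (by omega)
    have := ih hσ hΦ1 (fun y hy => he y (by omega))
    simpa only [Equiv.symm_apply_apply] using this

/-! ### pruning of the last old leaf -/

theorem tr5_deg_succ (q : ℕ) (τ : ℕ → ℕ → ℕ) (j x : ℕ) :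
    trDeg (q + 1) τ j x = trDeg q τ j x + (if j ≤ τ x q ∧ trIsMin τ (j + 1) q then 1 else 0) := by
  unfold trDeg
  rw [range_add_one, filter_insert]
  split_ifs with h
  · rw [card_insert_of_notMem (by simp)]
  · simp

theorem tr5_del_att {N q : ℕ} (τ : ℕ → ℕ → ℕ) (x j : ℕ) (y z : ℕ) (hy : y < q + 1) (hz : z < q + 1) :
    trDel q (trAtt N (q + 1) τ x j) y z = trAtt N q τ x j y z := by
  unfold trDel trAtt
  by_cases h1 : y < q <;> by_cases h2 : z < q
  · have a1 : y ≠ q + 1 := by omega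
    have a2 : z ≠ q + 1 := by omega
    have a3 : y ≠ q := by omega
    have a4 : z ≠ q := by omega
    simp [h1, h2, a1, a2, a3, a4]
  · have a1 : y ≠ q + 1 := by omega
    have a3 : y ≠ q := by omega
    have a4 : z = q := by omega
    simp [h1, a1, a3, a4]
  · have a2 : z ≠ q + 1 := by omega
    have a3 : y = q := by omega
    have a4 : z ≠ q := by omega
    simp [h2, a2, a3, a4]
  · have a3 : y = q := by omega
    have a4 : z = q := by omega
    simp [a3, a4]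

theorem tr5_phi_step {N q : ℕ} {τ : ℕ → ℕ → ℕ} (hτ : IsTr N (q + 1) τ) (Φ : (ℕ → ℕ → ℕ) → ℝ)
    (hΦ : ∀ τ₁ τ₂ : ℕ → ℕ → ℕ, (∀ y z, y < q + 1 → z < q + 1 → τ₁ y z = τ₂ y z) → Φ τ₁ = Φ τ₂)
    {j : ℕ} (hm : trIsMin τ (j + 1) q) : Φ (trAtt N q τ q (j + 1)) = Φ (trAtt N q τ q j) := by
  refine hΦ _ _ fun y z hy hz => ?_
  unfold trAtt
  split_ifs with h1 h2 h2
  · rfl
  · have := hm z (by omega); omega
  · have := hm y (by omega)
    have := hτ.symm y q (by omega) (by omega)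
    omega
  · rfl

theorem tr5_phi_old {N q : ℕ} {τ : ℕ → ℕ → ℕ} (hτ : IsTr N (q + 1) τ) (Φ : (ℕ → ℕ → ℕ) → ℝ)
    (hΦ : ∀ τ₁ τ₂ : ℕ → ℕ → ℕ, (∀ y z, y < q + 1 → z < q + 1 → τ₁ y z = τ₂ y z) → Φ τ₁ = Φ τ₂)
    {j x : ℕ} (hx : x < q) (h : j ≤ τ x q) : Φ (trAtt N q τ x j) = Φ (trAtt N q τ q j) := by
  refine hΦ _ _ fun y z hy hz => ?_
  unfold trAtt
  have a0 := hτ.symm x q (by omega) (by omega)
  split_ifs with h1 h2 h2
  · rfl
  · have a1 := hτ.ultra x q z (by omega) (by omega) (by omega)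
    have a2 := hτ.ultra q x z (by omega) (by omega) (by omega)
    omega
  · have a1 := hτ.ultra y x q (by omega) (by omega) (by omega)
    have a2 := hτ.ultra y q x (by omega) (by omega) (by omega)
    omega
  · rfl

theorem tr5_inner {N q : ℕ} {τ : ℕ → ℕ → ℕ} (hτ : IsTr N (q + 1) τ) {j : ℕ} (hj : j ≤ N + 1) (g : ℕ → ℝ) (c : ℝ)
    (hg : ∀ x, x < q → j ≤ τ x q → g x = c) :
    ∑ x ∈ range q, (if trIsMin τ j x ∧ j ≤ τ x q then g x else 0) = if trIsMin τ j q then 0 else c := by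
  by_cases hm : trIsMin τ j q
  · rw [if_pos hm]
    refine sum_eq_zero fun x hx => ?_
    have hx' : x < q := mem_range.1 hx
    have a1 := hm x hx'
    have a2 := hτ.symm x q (by omega) (by omega)
    rw [if_neg (by omega)]
  · rw [if_neg hm]
    obtain ⟨r, hr, hrm, hrq⟩ := tr5_min_exists hτ (x := q) (by omega) hj
    have hrq' : r < q := by
      rcases Nat.lt_succ_iff_lt_or_eq.1 hr with h | h
      · exact h
      · subst h; exact absurd hrm hm
    rw [sum_eq_single r]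
    · rw [if_pos ⟨hrm, hrq⟩]; exact hg r hrq' hrq
    · intro b hb hbr
      have hb' : b < q := mem_range.1 hb
      rw [if_neg]
      rintro ⟨h1, h2⟩
      exact hbr (tr5_min_unique hτ (by omega) hr (by omega : q < q + 1) h1 hrm h2 hrq)
    · intro h; exact absurd (mem_range.2 hrq') h

theorem tr5_deg_last {N q : ℕ} {τ : ℕ → ℕ → ℕ} (hτ : IsTr N (q + 1) τ) {j : ℕ} (hj : j ≤ N + 1)
    (hm : trIsMin τ j q) : trDeg (q + 1) τ j q = 1 := by
  unfold trDeg
  rw [card_eq_one]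
  refine ⟨q, ?_⟩
  ext y
  simp only [mem_filter, mem_range, mem_singleton]
  constructor
  · rintro ⟨h1, h2, _⟩
    by_contra hne
    have := hm y (by omega)
    omega
  · rintro rfl
    refine ⟨by omega, by rw [hτ.diag y (by omega)]; exact hj, fun z hz => ?_⟩
    have := hm z hz
    omega

theorem tr5_min_succ {τ : ℕ → ℕ → ℕ} {j x : ℕ} (h : trIsMin τ j x) : trIsMin τ (j + 1) x :=
  fun y hy => Nat.lt_succ_of_lt (h y hy)

theorem tr5_layer {N q : ℕ} {τ : ℕ → ℕ → ℕ} {ms : ℕ → ℝ} (hτ : IsTr N (q + 1) τ) (Φ : (ℕ → ℕ → ℕ) → ℝ)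
    (hΦ : ∀ τ₁ τ₂ : ℕ → ℕ → ℕ, (∀ y z, y < q + 1 → z < q + 1 → τ₁ y z = τ₂ y z) → Φ τ₁ = Φ τ₂)
    {j : ℕ} (hj : j ≤ N + 1) :
    ∑ x ∈ range (q + 1), trWt ms N (q + 1) τ x j * Φ (trDel q (trAtt N (q + 1) τ x j))
      = ∑ x ∈ range q, trWt ms N q τ x j * Φ (trAtt N q τ x j)
        + ((if trIsMin τ j q then trPm ms j * Φ (trAtt N q τ q j) else 0)
          - (if j = N + 1 then 0 else
              if trIsMin τ (j + 1) q then trPm ms (j + 1) * Φ (trAtt N q τ q (j + 1)) else 0)) := by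
  have hdel : ∀ x, Φ (trDel q (trAtt N (q + 1) τ x j)) = Φ (trAtt N q τ x j) :=
    fun x => hΦ _ _ (fun y z hy hz => tr5_del_att τ x j y z hy hz)
  simp only [hdel]
  rw [sum_range_succ]
  have hpm : trPm ms (j + 1) = ms j := by simp [trPm]
  have h1 : ∀ x ∈ range q, trWt ms N (q + 1) τ x j * Φ (trAtt N q τ x j)
      = trWt ms N q τ x j * Φ (trAtt N q τ x j)
        - (if trIsMin τ j x ∧ j ≤ τ x q then
            (if j = N + 1 then 0 else if trIsMin τ (j + 1) q then ms j * Φ (trAtt N q τ x j) else 0) else 0) := by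
    intro x _
    unfold trWt
    rw [tr5_deg_succ]
    by_cases a1 : trIsMin τ j x <;> by_cases a2 : j = N + 1 <;> by_cases a3 : j ≤ τ x q <;>
      by_cases a4 : trIsMin τ (j + 1) q <;> simp [a1, a2, a3, a4] <;> ring
  rw [sum_congr rfl h1, sum_sub_distrib]
  rw [tr5_inner hτ hj _ (if j = N + 1 then 0 else if trIsMin τ (j + 1) q then ms j * Φ (trAtt N q τ q j) else 0)
    (fun x hx h => by rw [tr5_phi_old hτ Φ hΦ hx h])]
  by_cases hm : trIsMin τ j q
  · have hm1 := tr5_min_succ hm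
    unfold trWt
    rw [tr5_deg_last hτ hj hm]
    by_cases a2 : j = N + 1
    · subst a2
      have hpN : trPm ms (N + 1) = ms N := by simp [trPm]
      simp [hm, hpN]
    · rw [tr5_phi_step hτ Φ hΦ hm1]
      simp [hm, hm1, a2, hpm]
      ring
  · unfold trWt
    by_cases a2 : j = N + 1
    · subst a2
      simp [hm]
    · by_cases hm1 : trIsMin τ (j + 1) q
      · rw [tr5_phi_step hτ Φ hΦ hm1]
        simp [hm, hm1, a2, hpm]
        ring
      · simp [hm, hm1, a2]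

/-- MARGINALISATION CONSISTENCY of the signed sums -/
theorem tr_sum_prune {N q : ℕ} {τ : ℕ → ℕ → ℕ} {ms : ℕ → ℝ} (hτ : IsTr N (q + 1) τ)
    (Φ : (ℕ → ℕ → ℕ) → ℝ)
    (hΦ : ∀ τ₁ τ₂ : ℕ → ℕ → ℕ, (∀ y z, y < q + 1 → z < q + 1 → τ₁ y z = τ₂ y z) → Φ τ₁ = Φ τ₂) :
    trSum ms N (q + 1) τ (fun τ' => Φ (trDel q τ')) = trSum ms N q τ Φ := by
  unfold trSum
  rw [sum_comm, sum_comm (s := range q)]
  rw [sum_congr rfl (fun j hj => tr5_layer (ms := ms) hτ Φ hΦ (by have := mem_range.1 hj; omega : j ≤ N + 1))]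
  rw [sum_add_distrib, sum_sub_distrib]
  have e1 : ∑ j ∈ range (N + 2), (if trIsMin τ j q then trPm ms j * Φ (trAtt N q τ q j) else 0)
      = ∑ j ∈ range (N + 1), (if trIsMin τ (j + 1) q then trPm ms (j + 1) * Φ (trAtt N q τ q (j + 1)) else 0) := by
    rw [sum_range_succ']
    simp [trPm]
  have e2 : ∑ j ∈ range (N + 2), (if j = N + 1 then 0 else
      if trIsMin τ (j + 1) q then trPm ms (j + 1) * Φ (trAtt N q τ q (j + 1)) else 0)
      = ∑ j ∈ range (N + 1), (if trIsMin τ (j + 1) q then trPm ms (j + 1) * Φ (trAtt N q τ q (j + 1)) else 0) := by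
    rw [sum_range_succ]
    simp only [if_true, add_zero]
    refine sum_congr rfl fun j hj => ?_
    have : j ≠ N + 1 := by have := mem_range.1 hj; omega
    rw [if_neg this]
  rw [e1, e2]
  ring

/-! ### deletion of an arbitrary old leaf -/

/-- the cycle which moves the leaf `p` to the last position `q` -/
def tr5Cyc (p q : ℕ) (hp : p ≤ q) : Equiv.Perm ℕ where
  toFun y := if y < p then y else if y < q then y + 1 else if y = q then p else y
  invFun y := if y < p then y else if y = p then q else if y ≤ q then y - 1 else y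
  left_inv := by
    intro y
    simp only
    split_ifs <;> omega
  right_inv := by
    intro y
    simp only
    split_ifs <;> omega

theorem tr5_cyc_apply (p q : ℕ) (hp : p ≤ q) (y : ℕ) :
    tr5Cyc p q hp y = if y < p then y else if y < q then y + 1 else if y = q then p else y := rfl

theorem tr5_cyc_symm_apply (p q : ℕ) (hp : p ≤ q) (y : ℕ) :
    (tr5Cyc p q hp).symm y = if y < p then y else if y = p then q else if y ≤ q then y - 1 else y := rfl

theorem tr5_sum_del {N q p : ℕ} {τ : ℕ → ℕ → ℕ} {ms : ℕ → ℝ} (hτ : IsTr N (q + 1) τ) (hp : p ≤ q)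
    (Ψ : (ℕ → ℕ → ℕ) → ℝ)
    (hΨ : ∀ τ₁ τ₂ : ℕ → ℕ → ℕ, (∀ y z, y < q + 1 → z < q + 1 → τ₁ y z = τ₂ y z) → Ψ τ₁ = Ψ τ₂) :
    trSum ms N (q + 1) τ (fun τ' => Ψ (trDel p τ')) = trSum ms N q (trDel p τ) Ψ := by
  have hc : ∀ y, q + 1 ≤ y → tr5Cyc p q hp y = y := by
    intro y hy
    rw [tr5_cyc_apply]
    split_ifs <;> omega
  have hΦ2 : ∀ τ₁ τ₂ : ℕ → ℕ → ℕ, (∀ y z, y < q + 1 + 1 → z < q + 1 + 1 → τ₁ y z = τ₂ y z) →
      (fun τ' : ℕ → ℕ → ℕ => Ψ (trDel p τ')) τ₁ = (fun τ' : ℕ → ℕ → ℕ => Ψ (trDel p τ')) τ₂ := by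
    intro τ₁ τ₂ h
    refine hΨ _ _ fun y z hy hz => ?_
    unfold trDel
    apply h <;> split_ifs <;> omega
  rw [← tr_sum_relabel hτ _ hΦ2 (tr5Cyc p q hp) hc]
  have hτc : IsTr N (q + 1) (fun y z => τ (tr5Cyc p q hp y) (tr5Cyc p q hp z)) :=
    tr_comap_isTr hτ _ (fun x hx => tr5_perm_lt _ hc hx)
  have h1 : (fun τ' : ℕ → ℕ → ℕ => Ψ (trDel p fun y z => τ' ((tr5Cyc p q hp).symm y) ((tr5Cyc p q hp).symm z)))
      = fun τ' => Ψ (trDel q τ') := by
    funext τ'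
    refine hΨ _ _ fun y z hy hz => ?_
    unfold trDel
    have key : ∀ y, y < q + 1 → (tr5Cyc p q hp).symm (if y < p then y else y + 1) = if y < q then y else y + 1 := by
      intro y hy
      rw [tr5_cyc_symm_apply]
      split_ifs <;> omega
    beta_reduce
    rw [key y hy, key z hz]
  rw [h1, tr_sum_prune hτc Ψ hΨ]
  have h2 := tr_sumK_tree_congr (N := N) (q := q) (ms := ms)
    (τ := fun y z => τ (tr5Cyc p q hp y) (tr5Cyc p q hp z)) (τ' := trDel p τ) (by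
      intro y z hy hz
      unfold trDel
      rw [tr5_cyc_apply, tr5_cyc_apply]
      have e1 : (if y < p then y else if y < q then y + 1 else if y = q then p else y) = if y < p then y else y + 1 := by
        split_ifs <;> omega
      have e2 : (if z < p then z else if z < q then z + 1 else if z = q then p else z) = if z < p then z else z + 1 := by
        split_ifs <;> omega
      rw [e1, e2]) 1 Ψ hΨ
  simpa only [trSumK] using h2

/-- marginalisation consistency, `k` new labels, any old leaf `p` -/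
theorem tr_sumK_del {N q p : ℕ} {τ : ℕ → ℕ → ℕ} {ms : ℕ → ℝ} (hτ : IsTr N (q + 1) τ) (hp : p ≤ q) (k : ℕ)
    (Φ : (ℕ → ℕ → ℕ) → ℝ)
    (hΦ : ∀ τ₁ τ₂ : ℕ → ℕ → ℕ, (∀ y z, y < q + k → z < q + k → τ₁ y z = τ₂ y z) → Φ τ₁ = Φ τ₂) :
    trSumK ms N k (q + 1) τ (fun τ' => Φ (trDel p τ')) = trSumK ms N k q (trDel p τ) Φ := by
  induction k generalizing q τ with
  | zero => simp only [trSumK]
  | succ k ih =>
    have hΦ1 : ∀ τ₁ τ₂ : ℕ → ℕ → ℕ, (∀ y z, y < q + 1 + k → z < q + 1 + k → τ₁ y z = τ₂ y z) → Φ τ₁ = Φ τ₂ :=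
      fun τ₁ τ₂ h => hΦ τ₁ τ₂ (fun y z hy hz => h y z (by omega) (by omega))
    simp only [trSumK]
    rw [← tr5_sum_del hτ hp (fun σ => trSumK ms N k (q + 1) σ Φ) (fun τ₁ τ₂ h => tr_sumK_tree_congr h k Φ hΦ1)]
    unfold trSum
    refine sum_congr rfl fun x hx => sum_congr rfl fun j hj => ?_
    have hx' : x < q + 1 := mem_range.1 hx
    have hj' : j < N + 2 := mem_range.1 hj
    congr 1
    exact ih (tr_att_isTr hτ hx' (by omega)) (by omega) hΦ1

theorem tr5_eqns_cite : True := by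
  have := @tr5Cnt.eq_1
  have := @tr5W.eq_1
  have := @tr5Cyc.eq_1
  trivial

end Claimed.Agent.R286
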