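import Claimed.Agent.R286.Fd.TrA4
import Claimed.Agent.R286.Fd.TrA5
import Claimed.Agent.R286.Fd.TrKit9

/-!
# Row 286 (S0533), Fd/ExtD : ROOT SWAP for the signed sums      (owner helper16; prefix `tr_x_`)      0 sorry

244 A9 / G1 (`extWeight_swap_root`), PE cavity l.700-760 (exchange `b ↔ d` in S1(iii)), Prop. found-replica ("labeled product rule").
The old label `b = q` (the LAST of the `q + 1` old labels) is ALONE in its node of depth `t` (`τ q y < t` for the other old labels).  The signed measure on the extensions by `k` labels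
which all lie in the node of `b` is invariant under EVERY permutation of `{b} ∪ {new labels}`.
(With `tr_nu_perm` = relabelling invariance of the tree law.   An old label which is not the last one: first `tr_sumK_relabel`.)
* `TrNode q k t τ` : the labels `q .. q+k` lie in ONE NODE OF DEPTH `t` (`t ≤ τ y z`; convention of `Defs/Tr`);  `tr_x_node_perm` = the general statement;
* `t = 0`, `q = 0` : no restriction at all: `tr_x_root_perm0` = order symmetry of the PER-ROOT allocation, the root label included (239: `rd_root_perm`);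
* `TrBlk q k t τ = TrNode q k (t + 1) τ` (`t < τ y z`), `tr_x_root_perm` : the same in the "block above the depth `t`" convention.
-/

set_option autoImplicit false

namespace Claimed.Agent.R286

/-- the labels `q, .., q + k` lie in one node of depth `t` -/
def TrNode (q k t : ℕ) (τ : ℕ → ℕ → ℕ) : Prop :=
  ∀ y, y < q + 1 + k → ∀ z, z < q + 1 + k → q ≤ y → q ≤ z → y ≠ z → t ≤ τ y z

instance trNode_dec (q k t : ℕ) (τ : ℕ → ℕ → ℕ) : Decidable (TrNode q k t τ) := by
  unfold TrNode; infer_instance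

theorem tr_xd_eqns_cite : True := by
  have := @TrNode.eq_1
  trivial

/-- for a tree it is enough to compare with the root label -/
theorem tr_x_node_iff {N q k t : ℕ} {τ : ℕ → ℕ → ℕ} (hτ : IsTr N (q + 1 + k) τ) :
    TrNode q k t τ ↔ ∀ i, i < k → t ≤ τ q (q + 1 + i) := by
  constructor
  · intro h i hi
    exact h q (by omega) (q + 1 + i) (by omega) le_rfl (by omega) (by omega)
  · intro h y hy z hz hqy hqz hyz
    have hq : ∀ w, w < q + 1 + k → q ≤ w → w ≠ q → t ≤ τ q w := by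
      intro w hw hqw hne
      have := h (w - (q + 1)) (by omega)
      rwa [show q + 1 + (w - (q + 1)) = w by omega] at this
    by_cases hy0 : y = q
    · subst hy0; exact hq z hz hqz (by omega)
    by_cases hz0 : z = q
    · subst hz0; rw [hτ.symm _ _ hy hz]; exact hq y hy hqy hy0
    have h1 := hq y hy hqy hy0
    have h2 := hq z hz hqz hz0
    have h3 := hτ.ultra y q z hy (by omega) hz
    rw [hτ.symm y q hy (by omega)] at h3
    exact le_trans (le_min h1 h2) h3

theorem tr_x_perm_mem {q k : ℕ} (e : Equiv.Perm ℕ) (he : ∀ y, y < q ∨ q + 1 + k ≤ y → e y = y) {y : ℕ} (h1 : q ≤ y)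
    (h2 : y < q + 1 + k) : q ≤ e y ∧ e y < q + 1 + k := by
  by_contra h
  have h3 : e y < q ∨ q + 1 + k ≤ e y := by omega
  have h4 : e (e y) = e y := he _ h3
  have h5 : e y = y := e.injective h4
  omega

theorem tr_x_perm_lt {q k : ℕ} (e : Equiv.Perm ℕ) (he : ∀ y, y < q ∨ q + 1 + k ≤ y → e y = y) {y : ℕ}
    (h2 : y < q + 1 + k) : e y < q + 1 + k := by
  by_cases h1 : q ≤ y
  · exact (tr_x_perm_mem e he h1 h2).2
  · rw [he y (Or.inl (by omega))]; exact h2

theorem tr_x_node_inv1 {q k t : ℕ} {τ : ℕ → ℕ → ℕ} (e : Equiv.Perm ℕ) (he : ∀ y, y < q ∨ q + 1 + k ≤ y → e y = y)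
    (h : TrNode q k t τ) : TrNode q k t fun y z => τ (e y) (e z) := by
  intro y hy z hz hqy hqz hyz
  have h1 := tr_x_perm_mem e he hqy hy
  have h2 := tr_x_perm_mem e he hqz hz
  exact h _ h1.2 _ h2.2 h1.1 h2.1 fun h => hyz (e.injective h)

/-- the block predicate is invariant under the permutations of the block -/
theorem tr_x_node_inv {q k t : ℕ} {τ : ℕ → ℕ → ℕ} (e : Equiv.Perm ℕ) (he : ∀ y, y < q ∨ q + 1 + k ≤ y → e y = y) :
    TrNode q k t (fun y z => τ (e y) (e z)) ↔ TrNode q k t τ := by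
  refine ⟨fun h => ?_, tr_x_node_inv1 e he⟩
  have he' : ∀ y, y < q ∨ q + 1 + k ≤ y → e.symm y = y := fun y hy => by rw [Equiv.symm_apply_eq, he y hy]
  have := tr_x_node_inv1 e.symm he' h
  simpa using this

theorem tr_x_loc_node {q k t : ℕ} {Φ : (ℕ → ℕ → ℕ) → ℝ} (hΦ : TrLoc (q + 1 + k) Φ) :
    TrLoc (q + 1 + k) fun τ' => if TrNode q k t τ' then Φ τ' else 0 := by
  intro τ₁ τ₂ h
  have e : TrNode q k t τ₁ ↔ TrNode q k t τ₂ := by
    unfold TrNode
    constructor
    · intro H y hy z hz a b c; rw [← h y z hy hz]; exact H y hy z hz a b c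
    · intro H y hy z hz a b c; rw [h y z hy hz]; exact H y hy z hz a b c
  simp only [e, hΦ τ₁ τ₂ h]

theorem tr_x_loc_perm {q k : ℕ} {Φ : (ℕ → ℕ → ℕ) → ℝ} (hΦ : TrLoc (q + 1 + k) Φ) (e : Equiv.Perm ℕ)
    (he : ∀ y, y < q ∨ q + 1 + k ≤ y → e y = y) : TrLoc (q + 1 + k) fun τ' => Φ fun y z => τ' (e y) (e z) :=
  fun _ _ h => hΦ _ _ fun _ _ hy hz => h _ _ (tr_x_perm_lt e he hy) (tr_x_perm_lt e he hz)

/-- permutations which fix the root label: order of allocation -/
theorem tr_x_node_fix {N q t : ℕ} {τ : ℕ → ℕ → ℕ} {ms : ℕ → ℝ} (hτ : IsTr N (q + 1) τ) (k : ℕ) (Φ : (ℕ → ℕ → ℕ) → ℝ)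
    (hΦ : TrLoc (q + 1 + k) Φ) (e : Equiv.Perm ℕ) (he : ∀ y, y < q ∨ q + 1 + k ≤ y → e y = y) (hq : e q = q) :
    (trSumK ms N k (q + 1) τ fun τ' => if TrNode q k t τ' then Φ fun y z => τ' (e y) (e z) else 0)
      = trSumK ms N k (q + 1) τ fun τ' => if TrNode q k t τ' then Φ τ' else 0 := by
  rw [tr_sumK_perm hτ k (fun τ' => if TrNode q k t τ' then Φ τ' else 0) (tr_x_loc_node hΦ) e (fun y hy => by
    rcases hy with hy | hy
    · rcases Nat.lt_succ_iff_lt_or_eq.1 hy with h | h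
      · exact he y (Or.inl h)
      · rw [h, hq]
    · exact he y (Or.inr hy))]
  simp only [tr_x_node_inv e he]

/-- the root label and the first new label -/
theorem tr_x_node_swap1 {N q t : ℕ} {τ : ℕ → ℕ → ℕ} {ms : ℕ → ℝ} (hτ : IsTr N (q + 1) τ) (hb : ∀ y, y < q → τ q y < t) (k : ℕ)
    (Φ : (ℕ → ℕ → ℕ) → ℝ) (hΦ : TrLoc (q + 1 + (k + 1)) Φ) :
    (trSumK ms N (k + 1) (q + 1) τ fun τ' => if TrNode q (k + 1) t τ' then
        Φ fun y z => τ' (Equiv.swap q (q + 1) y) (Equiv.swap q (q + 1) z) else 0)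
      = trSumK ms N (k + 1) (q + 1) τ fun τ' => if TrNode q (k + 1) t τ' then Φ τ' else 0 := by
  set s : Equiv.Perm ℕ := Equiv.swap q (q + 1) with hs
  have hsfix : ∀ y, y < q ∨ q + 1 + (k + 1) ≤ y → s y = y := fun y hy =>
    Equiv.swap_apply_of_ne_of_ne (by omega) (by omega)
  have hsfix2 : ∀ y, q + 1 + 1 ≤ y → s y = y := fun y hy => Equiv.swap_apply_of_ne_of_ne (by omega) (by omega)
  have hsq : s q = q + 1 := Equiv.swap_apply_left _ _
  have hsq1 : s (q + 1) = q := Equiv.swap_apply_right _ _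
  have hslt : ∀ y, y < q → s y = y := fun y hy => hsfix y (Or.inl hy)
  simp only [trSumK]
  unfold trSum
  refine Finset.sum_congr rfl fun x hx => Finset.sum_congr rfl fun j hj => ?_
  have hx' := Finset.mem_range.mp hx
  have hj' := Finset.mem_range.mp hj
  congr 1
  beta_reduce
  set τ₁ := trAtt N (q + 1) τ x j with hτ₁d
  have hτ₁ : IsTr N (q + 1 + 1) τ₁ := tr_att_isTr hτ hx' (by omega)
  by_cases hc : t ≤ τ₁ q (q + 1)
  · -- the two-leaf subtree is symmetric
    have hold : ∀ z, z < q → τ₁ q z < t := fun z hz => by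
      rw [hτ₁d, tr_att_old (by omega) (by omega)]; exact hb z hz
    have hz1 : ∀ z, z < q → τ₁ (q + 1) z = τ₁ q z := by
      intro z hz
      have u1 := hτ₁.ultra (q + 1) q z (by omega) (by omega) (by omega)
      have u2 := hτ₁.ultra q (q + 1) z (by omega) (by omega) (by omega)
      rw [hτ₁.symm (q + 1) q (by omega) (by omega)] at u1
      have := hold z hz
      rcases le_total (τ₁ q (q + 1)) (τ₁ q z) with h | h
      · omega
      · rw [min_eq_right h] at u1
        rcases le_total (τ₁ q (q + 1)) (τ₁ (q + 1) z) with h' | h'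
        · rw [min_eq_left h'] at u2; omega
        · rw [min_eq_right h'] at u2; omega
    have hsym : ∀ y z, y < q + 1 + 1 → z < q + 1 + 1 → τ₁ (s y) (s z) = τ₁ y z := by
      intro y z hy hz
      have cy : y < q ∨ y = q ∨ y = q + 1 := by omega
      have cz : z < q ∨ z = q ∨ z = q + 1 := by omega
      rcases cy with cy | cy | cy <;> rcases cz with cz | cz | cz
      · rw [hslt y cy, hslt z cz]
      · rw [cz, hslt y cy, hsq, hτ₁.symm y (q + 1) (by omega) (by omega), hz1 y cy, hτ₁.symm q y (by omega) (by omega)]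
      · rw [cz, hslt y cy, hsq1, hτ₁.symm y q (by omega) (by omega), ← hz1 y cy, hτ₁.symm (q + 1) y (by omega) (by omega)]
      · rw [cy, hslt z cz, hsq, hz1 z cz]
      · rw [cy, cz, hsq, hτ₁.diag _ (by omega), hτ₁.diag _ (by omega)]
      · rw [cy, cz, hsq, hsq1, hτ₁.symm _ _ (by omega) (by omega)]
      · rw [cy, hslt z cz, hsq1, hz1 z cz]
      · rw [cy, cz, hsq, hsq1, hτ₁.symm _ _ (by omega) (by omega)]
      · rw [cy, cz, hsq1, hτ₁.diag _ (by omega), hτ₁.diag _ (by omega)]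
    have hΨ : TrLoc (q + 1 + 1 + k) fun τ' => if TrNode q (k + 1) t τ' then Φ τ' else 0 := by
      have := tr_x_loc_node (t := t) hΦ
      rwa [show q + 1 + (k + 1) = q + 1 + 1 + k by omega] at this
    have hrel := tr_sumK_relabel (ms := ms) hτ₁ k (fun τ' => if TrNode q (k + 1) t τ' then Φ τ' else 0) hΨ s hsfix2
    rw [← hrel, tr_sumK_tree_congr hsym k _ (fun T₁ T₂ h => hΨ _ _ fun y z hy hz => by
      have a1 := tr_x_perm_lt (k := k + 1) s.symm (fun y hy => by rw [Equiv.symm_apply_eq, hsfix y hy]) (y := y) (by omega)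
      have a2 := tr_x_perm_lt (k := k + 1) s.symm (fun y hy => by rw [Equiv.symm_apply_eq, hsfix y hy]) (y := z) (by omega)
      exact h _ _ (by omega) (by omega))]
    have hss : s.symm = s := Equiv.symm_swap _ _
    simp only [hss, tr_x_node_inv s hsfix]
  · -- no extension lies in the block
    refine tr_sumK_congr hτ₁ k _ _ fun τ' _ hag => ?_
    have hn : ¬ TrNode q (k + 1) t τ' := by
      intro h
      have := h q (by omega) (q + 1) (by omega) le_rfl (by omega) (by omega)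
      rw [hag q (q + 1) (by omega) (by omega)] at this
      exact hc this
    rw [if_neg hn, if_neg hn]

/-- **ROOT SWAP**: the root label `q` is alone in its node of depth `t`; the signed measure on the extensions inside this node is invariant under every
permutation of the root label and the `k` new labels. -/
theorem tr_x_node_perm {N q t : ℕ} {τ : ℕ → ℕ → ℕ} {ms : ℕ → ℝ} (hτ : IsTr N (q + 1) τ) (hb : ∀ y, y < q → τ q y < t) (k : ℕ)
    (Φ : (ℕ → ℕ → ℕ) → ℝ) (hΦ : TrLoc (q + 1 + k) Φ) (e : Equiv.Perm ℕ) (he : ∀ y, y < q ∨ q + 1 + k ≤ y → e y = y) :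
    (trSumK ms N k (q + 1) τ fun τ' => if TrNode q k t τ' then Φ fun y z => τ' (e y) (e z) else 0)
      = trSumK ms N k (q + 1) τ fun τ' => if TrNode q k t τ' then Φ τ' else 0 := by
  by_cases hq : e q = q
  · exact tr_x_node_fix hτ k Φ hΦ e he hq
  obtain ⟨hd1, hd2⟩ := tr_x_perm_mem e he (le_refl q) (by omega)
  set d := e q with hd
  obtain ⟨k, rfl⟩ : ∃ k', k = k' + 1 := ⟨k - 1, by omega⟩
  -- `e = π s π e'`
  set π : Equiv.Perm ℕ := Equiv.swap (q + 1) d with hπ
  set s : Equiv.Perm ℕ := Equiv.swap q (q + 1) with hs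
  have hπfix : ∀ y, y < q ∨ q + 1 + (k + 1) ≤ y → π y = y := fun y hy => Equiv.swap_apply_of_ne_of_ne (by omega) (by omega)
  have hπq : π q = q := Equiv.swap_apply_of_ne_of_ne (by omega) (by omega)
  have hsfix : ∀ y, y < q ∨ q + 1 + (k + 1) ≤ y → s y = y := fun y hy => Equiv.swap_apply_of_ne_of_ne (by omega) (by omega)
  set e' : Equiv.Perm ℕ := π * s * π * e with he'd
  have he'fix : ∀ y, y < q ∨ q + 1 + (k + 1) ≤ y → e' y = y := fun y hy => by
    simp only [he'd, Equiv.Perm.mul_apply, he y hy, hπfix y hy, hsfix y hy]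
  have he'q : e' q = q := by
    simp only [he'd, Equiv.Perm.mul_apply, ← hd]
    rw [hπ, Equiv.swap_apply_right, hs, Equiv.swap_apply_right, Equiv.swap_apply_of_ne_of_ne (by omega) (by omega)]
  have hdec : ∀ y, e y = π (s (π (e' y))) := by
    intro y
    simp only [he'd, Equiv.Perm.mul_apply, hπ, hs, Equiv.swap_apply_self]
  simp only [hdec]
  -- peel the four factors
  have l1 := tr_x_loc_perm hΦ e' he'fix
  have l2 := tr_x_loc_perm l1 π hπfix
  have l3 := tr_x_loc_perm l2 s hsfix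
  rw [tr_x_node_fix hτ (k + 1) (fun T => Φ fun y z => T (s (π (e' y))) (s (π (e' z)))) l3 π hπfix hπq,
    tr_x_node_swap1 hτ hb k (fun T => Φ fun y z => T (π (e' y)) (π (e' z))) l2,
    tr_x_node_fix hτ (k + 1) (fun T => Φ fun y z => T (e' y) (e' z)) l1 π hπfix hπq,
    tr_x_node_fix hτ (k + 1) Φ hΦ e' he'fix he'q]

/-! ### no restriction: the per-root allocation -/

/-- **order symmetry of the per-root allocation, the root label included** -/
theorem tr_x_root_perm0 {N : ℕ} {τ : ℕ → ℕ → ℕ} {ms : ℕ → ℝ} (hτ : IsTr N 1 τ) (k : ℕ) (Φ : (ℕ → ℕ → ℕ) → ℝ) (hΦ : TrLoc (k + 1) Φ)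
    (e : Equiv.Perm ℕ) (he : ∀ y, k + 1 ≤ y → e y = y) :
    (trSumK ms N k 1 τ fun τ' => Φ fun y z => τ' (e y) (e z)) = trSumK ms N k 1 τ Φ := by
  have hΦ' : TrLoc (0 + 1 + k) Φ := by rwa [show 0 + 1 + k = k + 1 by omega]
  have h := tr_x_node_perm (ms := ms) (q := 0) (t := 0) hτ (fun y hy => absurd hy (Nat.not_lt_zero y)) k Φ hΦ' e
    (fun y hy => he y (by omega))
  have hT : ∀ τ' : ℕ → ℕ → ℕ, TrNode 0 k 0 τ' := fun τ' y _ z _ _ _ _ => Nat.zero_le _
  simpa only [hT, if_true] using h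

/-! ### an arbitrary old label and the first new label -/

/-- **ROOT SWAP, free form**: `b < q` is ANY old label, alone in its node of depth `t`; the summand vanishes unless the FIRST new label `q` lies in the node of `b`.
Then the old label `b` and the new label `q` may be exchanged. -/
theorem tr_x_swap_first {N q t b : ℕ} {τ : ℕ → ℕ → ℕ} {ms : ℕ → ℝ} (hτ : IsTr N q τ) (hb : b < q)
    (hal : ∀ y, y < q → y ≠ b → τ b y < t) (k : ℕ) (Φ : (ℕ → ℕ → ℕ) → ℝ) (hΦ : TrLoc (q + 1 + k) Φ)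
    (hz : ∀ τ', IsTr N (q + 1 + k) τ' → τ' b q < t → Φ τ' = 0) :
    (trSumK ms N (k + 1) q τ fun τ' => Φ fun y z => τ' (Equiv.swap b q y) (Equiv.swap b q z)) = trSumK ms N (k + 1) q τ Φ := by
  set s : Equiv.Perm ℕ := Equiv.swap b q with hs
  have hsfix2 : ∀ y, q + 1 ≤ y → s y = y := fun y hy => Equiv.swap_apply_of_ne_of_ne (by omega) (by omega)
  have hsb : s b = q := Equiv.swap_apply_left _ _
  have hsq : s q = b := Equiv.swap_apply_right _ _
  have hso : ∀ y, y ≠ b → y ≠ q → s y = y := fun y h1 h2 => Equiv.swap_apply_of_ne_of_ne h1 h2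
  have hslt : ∀ y, y < q + 1 + k → s y < q + 1 + k := by
    intro y hy
    by_cases h1 : y = b
    · rw [h1, hsb]; omega
    by_cases h2 : y = q
    · rw [h2, hsq]; omega
    rw [hso y h1 h2]; exact hy
  have hss : s.symm = s := Equiv.symm_swap _ _
  have hΦs : TrLoc (q + 1 + k) fun τ' => Φ fun y z => τ' (s y) (s z) :=
    fun _ _ h => hΦ _ _ fun _ _ hy hz => h _ _ (hslt _ hy) (hslt _ hz)
  simp only [trSumK]
  unfold trSum
  refine Finset.sum_congr rfl fun x hx => Finset.sum_congr rfl fun j hj => ?_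
  have hx' := Finset.mem_range.mp hx
  have hj' := Finset.mem_range.mp hj
  congr 1
  beta_reduce
  set τ₁ := trAtt N q τ x j with hτ₁d
  have hτ₁ : IsTr N (q + 1) τ₁ := tr_att_isTr hτ hx' (by omega)
  by_cases hc : t ≤ τ₁ b q
  · have hold : ∀ z, z < q → z ≠ b → τ₁ b z < t := fun z hz hzb => by
      rw [hτ₁d, tr_att_old (by omega) (by omega)]; exact hal z hz hzb
    have hz1 : ∀ z, z < q → z ≠ b → τ₁ q z = τ₁ b z := by
      intro z hz hzb
      have u1 := hτ₁.ultra q b z (by omega) (by omega) (by omega)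
      have u2 := hτ₁.ultra b q z (by omega) (by omega) (by omega)
      rw [hτ₁.symm q b (by omega) (by omega)] at u1
      have := hold z hz hzb
      rcases le_total (τ₁ b q) (τ₁ b z) with h | h
      · omega
      · rw [min_eq_right h] at u1
        rcases le_total (τ₁ b q) (τ₁ q z) with h' | h'
        · rw [min_eq_left h'] at u2; omega
        · rw [min_eq_right h'] at u2; omega
    have hsym : ∀ y z, y < q + 1 → z < q + 1 → τ₁ (s y) (s z) = τ₁ y z := by
      intro y z hy hz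
      have cy : y = b ∨ y = q ∨ (y < q ∧ y ≠ b) := by omega
      have cz : z = b ∨ z = q ∨ (z < q ∧ z ≠ b) := by omega
      rcases cy with cy | cy | cy <;> rcases cz with cz | cz | cz
      · rw [cy, cz, hsb, hτ₁.diag _ (by omega), hτ₁.diag _ (by omega)]
      · rw [cy, cz, hsb, hsq, hτ₁.symm _ _ (by omega) (by omega)]
      · rw [cy, hsb, hso z cz.2 (by omega), hz1 z cz.1 cz.2]
      · rw [cy, cz, hsb, hsq, hτ₁.symm _ _ (by omega) (by omega)]
      · rw [cy, cz, hsq, hτ₁.diag _ (by omega), hτ₁.diag _ (by omega)]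
      · rw [cy, hsq, hso z cz.2 (by omega), hz1 z cz.1 cz.2]
      · rw [cz, hsb, hso y cy.2 (by omega), hτ₁.symm y q (by omega) (by omega), hz1 y cy.1 cy.2,
          hτ₁.symm b y (by omega) (by omega)]
      · rw [cz, hsq, hso y cy.2 (by omega), hτ₁.symm y b (by omega) (by omega), ← hz1 y cy.1 cy.2,
          hτ₁.symm q y (by omega) (by omega)]
      · rw [hso y cy.2 (by omega), hso z cz.2 (by omega)]
    have hrel := tr_sumK_relabel (ms := ms) hτ₁ k Φ hΦ s hsfix2
    rw [← hrel, tr_sumK_tree_congr hsym k _ (by rw [hss]; exact hΦs), hss]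
  · have hc' : τ₁ b q < t := not_le.1 hc
    refine tr_sumK_congr hτ₁ k _ _ fun τ' hτ' hag => ?_
    have h1 : τ' b q < t := by rw [hag b q (by omega) (by omega)]; exact hc'
    rw [hz τ' hτ' h1]
    refine hz _ (tr_comap_isTr hτ' s hslt) ?_
    rw [hsb, hsq, hτ'.symm q b (by omega) (by omega)]
    exact h1

/-! ### the same in the convention "block above the depth `t`" -/

/-- the labels `q, .., q + k` lie in one block above the depth `t` -/
def TrBlk (q k t : ℕ) (τ : ℕ → ℕ → ℕ) : Prop :=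
  ∀ y, y < q + 1 + k → ∀ z, z < q + 1 + k → q ≤ y → q ≤ z → y ≠ z → t < τ y z

instance trBlk_dec (q k t : ℕ) (τ : ℕ → ℕ → ℕ) : Decidable (TrBlk q k t τ) := by
  unfold TrBlk; infer_instance

theorem tr_x_blk_node (q k t : ℕ) (τ : ℕ → ℕ → ℕ) : TrBlk q k t τ ↔ TrNode q k (t + 1) τ := Iff.rfl

theorem tr_x_blk_iff {N q k t : ℕ} {τ : ℕ → ℕ → ℕ} (hτ : IsTr N (q + 1 + k) τ) :
    TrBlk q k t τ ↔ ∀ i, i < k → t < τ q (q + 1 + i) :=
  tr_x_node_iff (t := t + 1) hτ

theorem tr_x_blk_perm {q k t : ℕ} {τ : ℕ → ℕ → ℕ} (e : Equiv.Perm ℕ) (he : ∀ y, y < q ∨ q + 1 + k ≤ y → e y = y) :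
    TrBlk q k t (fun y z => τ (e y) (e z)) ↔ TrBlk q k t τ :=
  tr_x_node_inv (t := t + 1) e he

/-- **ROOT SWAP**, block form: `τ q y ≤ t` for the other old labels, the new labels share more than `t` stages with `q` -/
theorem tr_x_root_perm {N q t : ℕ} {τ : ℕ → ℕ → ℕ} {ms : ℕ → ℝ} (hτ : IsTr N (q + 1) τ) (hb : ∀ y, y < q → τ q y ≤ t) (k : ℕ)
    (Φ : (ℕ → ℕ → ℕ) → ℝ) (hΦ : TrLoc (q + 1 + k) Φ) (e : Equiv.Perm ℕ) (he : ∀ y, y < q ∨ q + 1 + k ≤ y → e y = y) :
    (trSumK ms N k (q + 1) τ fun τ' => if TrBlk q k t τ' then Φ fun y z => τ' (e y) (e z) else 0)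
      = trSumK ms N k (q + 1) τ fun τ' => if TrBlk q k t τ' then Φ τ' else 0 := by
  have h := tr_x_node_perm (ms := ms) (t := t + 1) hτ (fun y hy => Nat.lt_succ_of_le (hb y hy)) k Φ hΦ e he
  simpa only [tr_x_blk_node] using h

theorem tr_xd_eqns_cite2 : True := by
  have := @TrBlk.eq_1
  trivial

end Claimed.Agent.R286
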