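import Claimed.Agent.R286.Fd.TrKit9b
import Claimed.Agent.R286.Fd.TrA1

/-!
# Row 286 (S0533), Fd/TrKit9c : MARGINALISATION CONSISTENCY of the signed sums along ANY map of old labels      (owner / prover helper9)      No sorry.
* **`tk9_sumK_comap`** : `p` old labels are read inside a tree with `q` old labels through ANY map `e` (restriction, relabelling, repetition = coincident labels);
  the new labels `p + i` are read as `q + i` (`tk9Em p q e`):   `trSumK k q τ (Φ ∘ pull back) = trSumK k p (τ ∘ e) Φ`.      One label: `tk9_sum_comap`.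
  Proof through the edge form `trEd`: an edge whose class contains no pulled back label carries a zero difference (`tk9_class_transfer`).
* `tk9_led_push` : radial row: the signed law of the split depth of (old `a`, new label) does not depend on the tree;  `tk9_abel`.
-/

set_option autoImplicit false

namespace Claimed.Agent.R286

open Finset

/-- the classes of depth `d` of the pulled back tree = the classes of the tree which contain a pulled back label -/
theorem tk9_class_transfer {N q p : ℕ} {τ : ℕ → ℕ → ℕ} (hτ : IsTr N q τ) (e : ℕ → ℕ) (he : ∀ z, z < p → e z < q) {d : ℕ}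
    (hd : d ≤ N + 1) (D : ℕ → ℝ) (hinv : ∀ x x', x < q → x' < q → d ≤ τ x x' → D x = D x')
    (hvan : ∀ x, x < q → (∀ z, z < p → τ x (e z) < d) → D x = 0) :
    ∑ x ∈ Finset.range q, (if trIsMin τ d x then D x else 0)
      = ∑ z ∈ Finset.range p, (if trIsMin (fun y w => τ (e y) (e w)) d z then D (e z) else 0) := by
  have hσ : IsTr N p (fun y w => τ (e y) (e w)) := tr_comap_isTr hτ e he
  -- each class of τ: D x = sum over the least pulled back labels in it
  have h1 : ∀ x, x < q → D x
      = ∑ z ∈ (Finset.range p).filter (fun z => d ≤ τ x (e z) ∧ trIsMin (fun y w => τ (e y) (e w)) d z), D x := by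
    intro x hx
    by_cases hex : ∃ z₀, z₀ < p ∧ d ≤ τ x (e z₀)
    · obtain ⟨z₀, hz₀, hz₀d⟩ := hex
      obtain ⟨c, -, -, -, hc⟩ := tk9_rep_filter hσ hz₀ hd
      have : (Finset.range p).filter (fun z => d ≤ τ x (e z) ∧ trIsMin (fun y w => τ (e y) (e w)) d z)
          = (Finset.range p).filter (fun z => d ≤ τ (e z₀) (e z) ∧ trIsMin (fun y w => τ (e y) (e w)) d z) := by
        apply Finset.filter_congr
        intro z hz
        rw [Finset.mem_range] at hz
        have a1 := hτ.ultra x (e z₀) (e z) hx (he z₀ hz₀) (he z hz)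
        have a2 := hτ.ultra (e z₀) x (e z) (he z₀ hz₀) hx (he z hz)
        have a3 := hτ.symm x (e z₀) hx (he z₀ hz₀)
        constructor
        · rintro ⟨a, b⟩; exact ⟨by omega, b⟩
        · rintro ⟨a, b⟩; exact ⟨by omega, b⟩
      rw [this, hc, Finset.sum_singleton]
    · rw [hvan x hx (fun z hz => by by_contra h; exact hex ⟨z, hz, by omega⟩)]
      simp
  calc ∑ x ∈ Finset.range q, (if trIsMin τ d x then D x else 0)
      = ∑ x ∈ (Finset.range q).filter (fun x => trIsMin τ d x),
          ∑ z ∈ (Finset.range p).filter (fun z => d ≤ τ x (e z) ∧ trIsMin (fun y w => τ (e y) (e w)) d z), D x := by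
        rw [← Finset.sum_filter]
        refine Finset.sum_congr rfl fun x hx => ?_
        rw [Finset.mem_filter, Finset.mem_range] at hx
        exact h1 x hx.1
    _ = ∑ z ∈ (Finset.range p).filter (fun z => trIsMin (fun y w => τ (e y) (e w)) d z),
          ∑ x ∈ (Finset.range q).filter (fun x => d ≤ τ (e z) x ∧ trIsMin τ d x), D x := by
        apply Finset.sum_comm'
        intro x z
        simp only [Finset.mem_filter, Finset.mem_range]
        constructor
        · rintro ⟨⟨a, b⟩, c, d', f⟩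
          exact ⟨⟨a, by rw [hτ.symm (e z) x (he z c) a]; exact d', b⟩, c, f⟩
        · rintro ⟨⟨a, b, c⟩, d', f⟩
          exact ⟨⟨a, c⟩, d', by rw [hτ.symm x (e z) a (he z d')]; exact b, f⟩
    _ = ∑ z ∈ Finset.range p, (if trIsMin (fun y w => τ (e y) (e w)) d z then D (e z) else 0) := by
        rw [← Finset.sum_filter]
        refine Finset.sum_congr rfl fun z hz => ?_
        rw [Finset.mem_filter, Finset.mem_range] at hz
        obtain ⟨c, hc1, hc2, -, hc⟩ := tk9_rep_filter hτ (he z hz.1) hd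
        rw [hc, Finset.sum_singleton, hinv (e z) c (he z hz.1) hc1 hc2]

/-- reading of the labels: the old labels `< p` through `e`, the new labels `p + i` as `q + i` -/
def tk9Em (p q : ℕ) (e : ℕ → ℕ) (y : ℕ) : ℕ := if y < p then e y else q + (y - p)

theorem tk9_em_att {N q p : ℕ} {τ : ℕ → ℕ → ℕ} (e : ℕ → ℕ) (he : ∀ z, z < p → e z < q) {x : ℕ} (j : ℕ)
    (y w : ℕ) (hy : y < p + 1) (hw : w < p + 1) :
    trAtt N q τ x j (tk9Em p q e y) (tk9Em p q e w)
      = if y = p then (if w = p then N + 1 else min j (τ x (e w))) else if w = p then min j (τ (e y) x) else τ (e y) (e w) := by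
  have cs : ∀ y, y < p + 1 → y = p ∨ (y < p ∧ y ≠ p) := fun y hy => by omega
  rcases cs y hy with rfl | ⟨hy, hy'⟩ <;> rcases cs w hw with rfl | ⟨hw, hw'⟩
  · simp [trAtt, tk9Em]
  · have := he w hw
    simp only [trAtt, tk9Em, lt_irrefl, if_false, Nat.sub_self, add_zero, if_true, if_pos hw, if_neg hw',
      if_neg (Nat.ne_of_lt this)]
  · have := he y hy
    simp only [trAtt, tk9Em, lt_irrefl, if_false, Nat.sub_self, add_zero, if_true, if_pos hy, if_neg hy',
      if_neg (Nat.ne_of_lt this)]
  · have h1 := he y hy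
    have h2 := he w hw
    simp only [trAtt, tk9Em, if_pos hy, if_pos hw, if_neg hy', if_neg hw', if_neg (Nat.ne_of_lt h1),
      if_neg (Nat.ne_of_lt h2)]

theorem tk9_em_lt {p q : ℕ} {e : ℕ → ℕ} (he : ∀ z, z < p → e z < q) (k : ℕ) {y : ℕ} (hy : y < p + k) :
    tk9Em p q e y < q + k := by
  unfold tk9Em
  split_ifs with h
  · have := he y h; omega
  · omega

/-- MARGINALISATION CONSISTENCY, one new label, any map of the old labels -/
theorem tk9_sum_comap {N q p : ℕ} {τ : ℕ → ℕ → ℕ} {ms : ℕ → ℝ} (hτ : IsTr N q τ) (e : ℕ → ℕ) (he : ∀ z, z < p → e z < q)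
    (Φ : (ℕ → ℕ → ℕ) → ℝ) (hΦ : TrLoc (p + 1) Φ) :
    trSum ms N q τ (fun τ' => Φ fun y w => τ' (tk9Em p q e y) (tk9Em p q e w))
      = trSum ms N p (fun y w => τ (e y) (e w)) Φ := by
  have hσ : IsTr N p (fun y w => τ (e y) (e w)) := tr_comap_isTr hτ e he
  have hΨ : TrLoc (q + 1) (fun τ' => Φ fun y w => τ' (tk9Em p q e y) (tk9Em p q e w)) := by
    intro τ₁ τ₂ h
    exact hΦ _ _ fun y w hy hw => h _ _ (tk9_em_lt he 1 hy) (tk9_em_lt he 1 hw)
  rw [tk9_sum_edge hτ _ hΨ, tk9_sum_edge hσ Φ hΦ]
  unfold trEd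
  rw [Finset.sum_comm, Finset.sum_comm (s := Finset.range p)]
  refine Finset.sum_congr rfl fun j hj => ?_
  rw [Finset.mem_range] at hj
  simp_rw [ite_mul, zero_mul]
  rw [tk9_class_transfer hτ e he (d := j + 1) (by omega)
    (fun x => ms j * (Φ (fun y w => trAtt N q τ x (j + 1) (tk9Em p q e y) (tk9Em p q e w))
      - Φ (fun y w => trAtt N q τ x j (tk9Em p q e y) (tk9Em p q e w))))]
  · refine Finset.sum_congr rfl fun z hz => ?_
    rw [Finset.mem_range] at hz
    rw [hΦ _ (trAtt N p (fun y w => τ (e y) (e w)) z (j + 1)) fun y w hy hw => (tk9_em_att e he (j + 1) y w hy hw).trans rfl,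
      hΦ _ (trAtt N p (fun y w => τ (e y) (e w)) z j) fun y w hy hw => (tk9_em_att e he j y w hy hw).trans rfl]
  · intro x x' hx hx' h
    have a : Φ (fun y w => trAtt N q τ x (j + 1) (tk9Em p q e y) (tk9Em p q e w))
        = Φ (fun y w => trAtt N q τ x' (j + 1) (tk9Em p q e y) (tk9Em p q e w)) := hΨ _ _ (tk9_att_congr hτ hx hx' h)
    have b : Φ (fun y w => trAtt N q τ x j (tk9Em p q e y) (tk9Em p q e w))
        = Φ (fun y w => trAtt N q τ x' j (tk9Em p q e y) (tk9Em p q e w)) :=
      hΨ _ _ (tk9_att_congr hτ hx hx' (Nat.le_of_succ_le h))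
    rw [a, b]
  · intro x hx hv
    rw [hΦ _ (fun y w => trAtt N q τ x j (tk9Em p q e y) (tk9Em p q e w)) ?_, sub_self, mul_zero]
    intro y w hy hw
    rw [tk9_em_att e he (j + 1) y w hy hw, tk9_em_att e he j y w hy hw]
    by_cases hyp : y = p
    · by_cases hwp : w = p
      · simp [hyp, hwp]
      · have := hv w (by omega)
        simp only [hyp, if_true, if_neg hwp]
        omega
    · by_cases hwp : w = p
      · have := hv y (by omega)
        have h2 := hτ.symm x (e y) hx (he y (by omega))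
        simp only [if_neg hyp, hwp, if_true]
        omega
      · simp only [if_neg hyp, if_neg hwp]

/-- locality of the iterated sums -/
theorem tk9_sumK_loc (ms : ℕ → ℝ) (N k q : ℕ) {Φ : (ℕ → ℕ → ℕ) → ℝ} (hΦ : TrLoc (q + k) Φ) :
    TrLoc q fun τ => trSumK ms N k q τ Φ :=
  fun _ _ h => tr_sumK_tree_congr h k Φ hΦ

/-- **MARGINALISATION CONSISTENCY of the signed sums**, `k` new labels, any map `e` of `p` old labels into the `q` old labels -/
theorem tk9_sumK_comap {N : ℕ} {ms : ℕ → ℝ} (k : ℕ) : ∀ {q p : ℕ} {τ : ℕ → ℕ → ℕ}, IsTr N q τ → ∀ (e : ℕ → ℕ),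
    (∀ z, z < p → e z < q) → ∀ (Φ : (ℕ → ℕ → ℕ) → ℝ), TrLoc (p + k) Φ →
    trSumK ms N k q τ (fun τ' => Φ fun y w => τ' (tk9Em p q e y) (tk9Em p q e w))
      = trSumK ms N k p (fun y w => τ (e y) (e w)) Φ := by
  induction k with
  | zero =>
    intro q p τ _ e _ Φ hΦ
    simp only [trSumK]
    refine hΦ _ _ fun y w hy hw => ?_
    simp only [tk9Em, if_pos (show y < p by omega), if_pos (show w < p by omega)]
  | succ k ih =>
    intro q p τ hτ e he Φ hΦ
    have hΦ' : TrLoc (p + 1 + k) Φ := by rwa [show p + 1 + k = p + (k + 1) by ring]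
    simp only [trSumK]
    have hem : ∀ y, tk9Em (p + 1) (q + 1) (tk9Em p q e) y = tk9Em p q e y := by
      intro y
      unfold tk9Em
      by_cases h1 : y < p
      · rw [if_pos (by omega), if_pos h1]
      · by_cases h2 : y < p + 1
        · rw [if_pos h2, if_neg h1]
        · rw [if_neg h2, if_neg h1]; omega
    have hin : ∀ x j, x < q → j ≤ N + 1 →
        trSumK ms N k (q + 1) (trAtt N q τ x j) (fun τ' => Φ fun y w => τ' (tk9Em p q e y) (tk9Em p q e w))
          = trSumK ms N k (p + 1) (fun y w => trAtt N q τ x j (tk9Em p q e y) (tk9Em p q e w)) Φ := by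
      intro x j hx hj
      have := ih (tk9_att_isTr hτ hx hj) (tk9Em p q e) (fun z hz => tk9_em_lt he 1 hz) Φ hΦ'
      simp_rw [hem] at this
      exact this
    rw [← tk9_sum_comap hτ e he _ (tk9_sumK_loc ms N k (p + 1) hΦ')]
    unfold trSum
    refine Finset.sum_congr rfl fun x hx => Finset.sum_congr rfl fun j hj => ?_
    rw [Finset.mem_range] at hx hj
    exact congrArg _ (hin x j hx (by omega))

theorem tk9_abel (ms G : ℕ → ℝ) (n : ℕ) :
    ∑ j ∈ Finset.range (n + 1), ms j * (G (j + 1) - G j)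
      = ∑ j ∈ Finset.range (n + 1), (trPm ms j - ms j) * G j + ms n * G (n + 1) := by
  induction n with
  | zero => simp [trPm]; ring
  | succ n ih =>
    rw [Finset.sum_range_succ, ih, Finset.sum_range_succ _ (n + 1), tk9_pm_succ]
    ring

/-- `led_push` of `Cav/LedComb`: the signed law of the split depth of (old `a`, new label) does not depend on the tree -/
theorem tk9_led_push {N q : ℕ} {τ : ℕ → ℕ → ℕ} {ms : ℕ → ℝ} (hτ : IsTr N q τ) {a : ℕ} (ha : a < q) (G : ℕ → ℝ) :
    trSum ms N q τ (fun τ' => G (τ' a q)) = ∑ j ∈ Finset.range (N + 1), (trPm ms j - ms j) * G j + ms N * G (N + 1) := by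
  have hloc : TrLoc (q + 1) (fun τ' => G (τ' a q)) := by
    intro τ₁ τ₂ h
    show G (τ₁ a q) = G (τ₂ a q)
    rw [h a q (by omega) (by omega)]
  rw [tk9_sum_edge hτ _ hloc, ← tk9_abel]
  unfold trEd
  rw [Finset.sum_comm]
  refine Finset.sum_congr rfl fun j hj => ?_
  rw [Finset.mem_range] at hj
  have hat : ∀ x j', trAtt N q τ x j' a q = min j' (τ a x) := by
    intro x j'
    simp only [trAtt, if_neg (Nat.ne_of_lt ha), if_true]
  have e : ∀ x ∈ Finset.range q, (if trIsMin τ (j + 1) x then ms j else 0)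
        * (G (trAtt N q τ x (j + 1) a q) - G (trAtt N q τ x j a q))
      = if (j + 1 ≤ τ a x ∧ trIsMin τ (j + 1) x) then ms j * (G (j + 1) - G j) else 0 := by
    intro x _
    rw [hat, hat]
    by_cases h1 : j + 1 ≤ τ a x
    · rw [min_eq_left h1, min_eq_left (by omega)]
      by_cases h2 : trIsMin τ (j + 1) x
      · rw [if_pos h2, if_pos ⟨h1, h2⟩]
      · rw [if_neg h2, if_neg (fun h => h2 h.2), zero_mul]
    · rw [min_eq_right (by omega), min_eq_right (by omega), sub_self, mul_zero, if_neg (fun h => h1 h.1)]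
  rw [Finset.sum_congr rfl e, ← Finset.sum_filter]
  obtain ⟨c, -, -, -, hc⟩ := tk9_rep_filter hτ ha (j := j + 1) (by omega)
  rw [hc, Finset.sum_singleton]

theorem tk9_kit9c_eqns_cite : True := by
  have := @tk9Em.eq_1
  trivial

end Claimed.Agent.R286
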