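import Claimed.Agent.R286.Fd.TrKit9

/-!
# Row 286 (S0533), Fd/TrA3 : signed attachment weights, PURE COMBINATORICS (PE Lemma 2.11: variation of a cut layer)
architect helper150;  OWNER / PROVER of this file: helper9.   No sorry.
No probability.  CHANGE with respect to the first contract: hypothesis `hM0 : 0 ≤ M` (for `tv = tw` the hypothesis `hM` is void and `M < 0` refutes the bound).
The proof gives the better constant `2 q w`.
-/

set_option autoImplicit false

namespace Claimed.Agent.R286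

/-- the children of the nodes of depth `t` are the nodes of depth `t + 1` -/
theorem tk9_deg_sum {N q : ℕ} {τ : ℕ → ℕ → ℕ} (hτ : IsTr N q τ) {t : ℕ} (ht : t ≤ N + 1) :
    ∑ x ∈ Finset.range q, (if trIsMin τ t x then (trDeg q τ t x : ℝ) else 0)
      = (((Finset.range q).filter fun x => trIsMin τ (t + 1) x).card : ℝ) := by
  have e : (((Finset.range q).filter fun x => trIsMin τ (t + 1) x).card : ℝ)
      = ∑ y ∈ Finset.range q, (if trIsMin τ (t + 1) y then (1 : ℝ) else 0) := by
    rw [← Finset.sum_filter, Finset.sum_const, nsmul_eq_mul, mul_one]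
  rw [← Finset.sum_filter, e, tk9_partition_all hτ ht]
  refine Finset.sum_congr rfl fun c _ => ?_
  rw [← Finset.sum_filter, Finset.filter_filter, Finset.sum_const, nsmul_eq_mul, mul_one]
  rfl

/-- total variation of the placements strictly above the cut of depth `t`: (number of nodes of depth `t`) * (mass of the cut) -/
theorem tk9_abs_below {N q : ℕ} {τ : ℕ → ℕ → ℕ} {ms : ℕ → ℝ} (hτ : IsTr N q τ) (hms : IsMs N ms) {t : ℕ}
    (ht : t ≤ N + 1) :
    ∑ x ∈ Finset.range q, ∑ j ∈ Finset.range t, |trWt ms N q τ x j|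
      = (((Finset.range q).filter fun x => trIsMin τ t x).card : ℝ) * trPm ms t := by
  induction t with
  | zero => simp [trPm]
  | succ t ih =>
    have htN : t ≤ N := by omega
    have hne : t ≠ N + 1 := by omega
    simp_rw [Finset.sum_range_succ]
    rw [Finset.sum_add_distrib, ih (by omega), tk9_pm_succ]
    have e : ∀ x ∈ Finset.range q, |trWt ms N q τ x t|
        = (if trIsMin τ t x then (trDeg q τ t x : ℝ) else 0) * ms t - (if trIsMin τ t x then (1 : ℝ) else 0) * trPm ms t := by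
      intro x hx
      rw [Finset.mem_range] at hx
      rw [abs_of_nonpos (tk9_wt_nonpos hτ hms hx htN)]
      simp only [trWt, if_neg hne]
      split_ifs <;> ring
    rw [Finset.sum_congr rfl e, Finset.sum_sub_distrib, ← Finset.sum_mul, ← Finset.sum_mul, tk9_deg_sum hτ (by omega),
      ← Finset.sum_filter, Finset.sum_const, nsmul_eq_mul, mul_one]
    ring

/-- decomposition of a row at the cut of depth `j0`, for a function of the placements -/
theorem tk9_sum_block {N q : ℕ} {τ : ℕ → ℕ → ℕ} {ms : ℕ → ℝ} (hτ : IsTr N q τ) {j0 : ℕ} (hj0 : j0 ≤ N + 1)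
    (g : ℕ → ℕ → ℝ) :
    ∑ x ∈ Finset.range q, ∑ j ∈ Finset.range (N + 2), trWt ms N q τ x j * g x j
      = (∑ x ∈ Finset.range q, ∑ j ∈ Finset.range j0, trWt ms N q τ x j * g x j)
      + ∑ x ∈ (Finset.range q).filter (fun x => trIsMin τ j0 x),
          ∑ y ∈ (Finset.range q).filter (fun y => j0 ≤ τ x y), ∑ j ∈ Finset.Icc j0 (N + 1),
            trWt ms N q τ y j * g y j := by
  rw [← tk9_partition_all hτ hj0, ← Finset.sum_add_distrib]
  refine Finset.sum_congr rfl fun x _ => ?_
  rw [← Finset.Ico_add_one_right_eq_Icc, Finset.sum_range_add_sum_Ico _ (by omega)]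
  rfl

/-- exact collapse of a block on which the summand is constant -/
theorem tk9_row_collapse {N q : ℕ} {τ : ℕ → ℕ → ℕ} {ms : ℕ → ℝ} (hτ : IsTr N q τ) {x j0 : ℕ}
    (hx : x < q) (hj0 : j0 ≤ N + 1) (g : ℕ → ℕ → ℝ) (c : ℝ)
    (hg : ∀ y j, y < q → j0 ≤ τ x y → j0 ≤ j → j ≤ N + 1 → g y j = c) :
    ∑ y ∈ (Finset.range q).filter (fun y => j0 ≤ τ x y), ∑ j ∈ Finset.Icc j0 (N + 1), trWt ms N q τ y j * g y j
      = trPm ms j0 * c := by
  rw [← tk9_row_sum (ms := ms) hτ hx hj0, Finset.sum_mul]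
  refine Finset.sum_congr rfl fun y hy => ?_
  rw [Finset.mem_filter, Finset.mem_range] at hy
  rw [Finset.sum_mul]
  refine Finset.sum_congr rfl fun j hj => ?_
  rw [Finset.mem_Icc] at hj
  rw [hg y j hy.1 hy.2 hj.1 hj.2]

theorem tk9_pm_mono {N : ℕ} {ms : ℕ → ℝ} (hms : IsMs N ms) {i j : ℕ} (hij : i ≤ j) (hj : j ≤ N + 1) :
    trPm ms i ≤ trPm ms j := by
  unfold trPm
  split_ifs with h1 h2
  · exact le_rfl
  · exact hms.nonneg _
  · omega
  · exact hms.mono _ _ (by omega) (by omega)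

/-- TEX[PE:lem:found-cut-truncation] Lemma 2.11 (variation of a cut layer), sharp form: total coefficient `≤ 2 q w`. -/
theorem tk9_cut_layer {N q : ℕ} {τ : ℕ → ℕ → ℕ} {ms : ℕ → ℝ} (hτ : IsTr N q τ) (hms : IsMs N ms) {tv tw : ℕ}
    (h1 : tv ≤ tw) (h2 : tw ≤ N + 1) (Φ : (ℕ → ℕ → ℕ) → ℝ) (hΦ : TrLoc (q + 1) Φ) (M : ℝ) (hM0 : 0 ≤ M)
    (hM : ∀ x j, x < q → tv < j → j ≤ tw → |Φ (trAtt N q τ x j) - Φ (trAtt N q τ x tv)| ≤ M) :
    |trRow ms N q τ tw Φ - trRow ms N q τ tv Φ| ≤ 2 * q * trPm ms tw * M := by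
  have hw : 0 ≤ trPm ms tw := tk9_pm_nonneg hms tw
  -- the difference as one sum
  have hD : ∀ x j, x < q → |Φ (trAtt N q τ x (min j tw)) - Φ (trAtt N q τ x (min j tv))| ≤ M := by
    intro x j hx
    rcases le_or_gt j tv with h | h
    · rw [min_eq_left h, min_eq_left (le_trans h h1), sub_self, abs_zero]; exact hM0
    · rw [min_eq_right h.le]
      rcases h1.lt_or_eq with h3 | h3
      · exact hM x _ hx (lt_min h h3) (min_le_right _ _)
      · subst h3
        rw [min_eq_right h.le, sub_self, abs_zero]; exact hM0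
  have e0 : trRow ms N q τ tw Φ - trRow ms N q τ tv Φ
      = ∑ x ∈ Finset.range q, ∑ j ∈ Finset.range (N + 2), trWt ms N q τ x j *
          (Φ (trAtt N q τ x (min j tw)) - Φ (trAtt N q τ x (min j tv))) := by
    unfold trRow
    rw [← Finset.sum_sub_distrib]
    refine Finset.sum_congr rfl fun x _ => ?_
    rw [← Finset.sum_sub_distrib]
    refine Finset.sum_congr rfl fun j _ => ?_
    ring
  rw [e0, tk9_sum_block hτ h2]
  have hn : (((Finset.range q).filter fun x => trIsMin τ tw x).card : ℝ) ≤ q := by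
    have := Finset.card_filter_le (Finset.range q) (fun x => trIsMin τ tw x)
    rw [Finset.card_range] at this
    exact_mod_cast this
  -- above the cut
  have b1 : |∑ x ∈ Finset.range q, ∑ j ∈ Finset.range tw, trWt ms N q τ x j *
      (Φ (trAtt N q τ x (min j tw)) - Φ (trAtt N q τ x (min j tv)))| ≤ q * trPm ms tw * M := by
    calc _ ≤ ∑ x ∈ Finset.range q, ∑ j ∈ Finset.range tw, |trWt ms N q τ x j| * M := by
          refine le_trans (Finset.abs_sum_le_sum_abs _ _) (Finset.sum_le_sum fun x hx => ?_)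
          refine le_trans (Finset.abs_sum_le_sum_abs _ _) (Finset.sum_le_sum fun j _ => ?_)
          rw [Finset.mem_range] at hx
          rw [abs_mul]
          exact mul_le_mul_of_nonneg_left (hD x j hx) (abs_nonneg _)
      _ = (∑ x ∈ Finset.range q, ∑ j ∈ Finset.range tw, |trWt ms N q τ x j|) * M := by
          simp_rw [Finset.sum_mul]
      _ ≤ q * trPm ms tw * M := by
          rw [tk9_abs_below hτ hms h2]
          exact mul_le_mul_of_nonneg_right (mul_le_mul_of_nonneg_right hn hw) hM0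
  -- below the cut: exact collapse
  have b2 : |∑ x ∈ (Finset.range q).filter (fun x => trIsMin τ tw x),
      ∑ y ∈ (Finset.range q).filter (fun y => tw ≤ τ x y), ∑ j ∈ Finset.Icc tw (N + 1), trWt ms N q τ y j *
        (Φ (trAtt N q τ y (min j tw)) - Φ (trAtt N q τ y (min j tv)))| ≤ q * trPm ms tw * M := by
    calc _ ≤ ∑ x ∈ (Finset.range q).filter (fun x => trIsMin τ tw x), trPm ms tw * M := by
          refine le_trans (Finset.abs_sum_le_sum_abs _ _) (Finset.sum_le_sum fun x hx => ?_)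
          rw [Finset.mem_filter, Finset.mem_range] at hx
          rw [tk9_row_collapse hτ hx.1 h2 _ (Φ (trAtt N q τ x (min tw tw)) - Φ (trAtt N q τ x (min tw tv))), abs_mul,
            abs_of_nonneg hw]
          · exact mul_le_mul_of_nonneg_left (hD x tw hx.1) hw
          · intro y j hy hxy hj _
            rw [min_eq_right hj, min_eq_right (le_trans h1 hj), min_self, min_eq_right h1,
              hΦ _ _ (tk9_att_congr hτ hx.1 hy hxy), hΦ _ _ (tk9_att_congr hτ hx.1 hy (le_trans h1 hxy))]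
      _ = (((Finset.range q).filter fun x => trIsMin τ tw x).card : ℝ) * (trPm ms tw * M) := by
          rw [Finset.sum_const, nsmul_eq_mul]
      _ ≤ q * trPm ms tw * M := by
          rw [mul_assoc]
          exact mul_le_mul_of_nonneg_right hn (mul_nonneg hw hM0)
  calc _ ≤ _ := abs_add_le _ _
    _ ≤ q * trPm ms tw * M + q * trPm ms tw * M := add_le_add b1 b2
    _ = 2 * q * trPm ms tw * M := by ring

/-- TEX[PE:lem:found-cut-truncation] Lemma 2.11 (variation of a cut layer), explicit form.  `tv ≤ tw` depths of the two cuts, masses `v = trPm ms tv`, `w = trPm ms tw`.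
After the exact collapse of the deeper placements the difference of the two truncated rows is a combination of differences
`Φ(att x j) - Φ(att x tv)`, `tv < j ≤ tw`, with total coefficient `≤ q (3 w - v)` (`≤ 5 q v` if `w ≤ 2 v`). -/
theorem tr_cut_layer {N q : ℕ} {τ : ℕ → ℕ → ℕ} {ms : ℕ → ℝ} (hτ : IsTr N q τ) (hms : IsMs N ms) {tv tw : ℕ}
    (h1 : tv ≤ tw) (h2 : tw ≤ N + 1) (Φ : (ℕ → ℕ → ℕ) → ℝ)
    (hΦ : ∀ τ₁ τ₂ : ℕ → ℕ → ℕ, (∀ y z, y < q + 1 → z < q + 1 → τ₁ y z = τ₂ y z) → Φ τ₁ = Φ τ₂) (M : ℝ) (hM0 : 0 ≤ M)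
    (hM : ∀ x j, x < q → tv < j → j ≤ tw → |Φ (trAtt N q τ x j) - Φ (trAtt N q τ x tv)| ≤ M) :
    |trRow ms N q τ tw Φ - trRow ms N q τ tv Φ| ≤ q * (3 * trPm ms tw - trPm ms tv) * M := by
  refine le_trans (tk9_cut_layer hτ hms h1 h2 Φ hΦ M hM0 hM) ?_
  have h3 := tk9_pm_mono hms h1 h2
  have h4 : (0 : ℝ) ≤ q := Nat.cast_nonneg q
  apply mul_le_mul_of_nonneg_right _ hM0
  nlinarith

end Claimed.Agent.R286
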