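import Claimed.Agent.R286.Fd.TrB3

/-!
# Row 286 (S0533), Fd/TrB6 : PE Lemma 2.12 (centered coupling difference) in replica form
architect helper150;  OWNER / PROVER of this file: helper209;  `tr_coupling` PROVED by helper206 (claim286) from `tr_nu_comap`, `tr_nu_congr`, `tr_nu_holder`, `tr_nu_eq_sum`.
No conditioning: on the big tree `T* = trAtt (2q+1) (trAtt (2q) (trDup q τ a t) a j) a t` (`r = 2q` coupled, `r' = 2q+1` fresh at depth `t`, copies `q + b`)
`E*[(F(r) - F(r'))(P(A) - P(A'))] = E₁ - E₀ - E₀ + E₀`, each term being a marginal of `T*`; then Hoelder, and the two norms are marginals again.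
-/

set_option autoImplicit false

namespace Claimed.Agent.R286

open MeasureTheory ProbabilityTheory

section
variable {S ι : Type} [Fintype S] [Fintype ι] [Inhabited S]

/-- marginal along a map of labels, with the pulled back tree identified -/
theorem tr_cpl_pull {B : GhB S} (hB : B.Ok) {ls : List (GhLv S ι)} (hls : GhAdm B 0 ls) {Q p : ℕ} {τ' τ'' : ℕ → ℕ → ℕ}
    (hτ' : IsTr ls.length Q τ') (z : S → ℝ) (f : ℕ → ℕ) (hf : ∀ x, x < p → f x < Q) (T : (ℕ → S) → ℝ) (hT : TrUses p T)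
    (hc : ∀ x y, x < p → y < p → τ' (f x) (f y) = τ'' x y) :
    trNu B ls Q τ' z (fun σ => T fun x => σ (f x)) = trNu B ls p τ'' z T := by
  rw [tr_nu_comap hB hls hτ' z f hf T hT]
  exact tr_nu_congr B ls hc z T

/-- linearity on four terms -/
theorem tr_cpl_lin {B : GhB S} (hB : B.Ok) {ls : List (GhLv S ι)} (hls : GhAdm B 0 ls) (Q : ℕ) (τ' : ℕ → ℕ → ℕ) (z : S → ℝ)
    (f₁ f₂ f₃ f₄ : (ℕ → S) → ℝ) :
    trNu B ls Q τ' z (fun σ => f₁ σ - f₂ σ - f₃ σ + f₄ σ)
      = trNu B ls Q τ' z f₁ - trNu B ls Q τ' z f₂ - trNu B ls Q τ' z f₃ + trNu B ls Q τ' z f₄ := by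
  classical
  simp only [tr_nu_eq_sum hB hls Q τ' z]
  rw [← Finset.sum_sub_distrib, ← Finset.sum_sub_distrib, ← Finset.sum_add_distrib]
  exact Finset.sum_congr rfl fun σ₀ _ => by ring

/-- the copy of the old leaf `b`: its duplicate inside the affected subtree, itself outside -/
def trCpy (q : ℕ) (τ : ℕ → ℕ → ℕ) (a t b : ℕ) : ℕ := if t < τ a b then q + b else b

theorem tr_cpl_eqns_cite : True := by
  have := @trCpy.eq_1
  trivial

theorem tr_cpy_lt {q : ℕ} (τ : ℕ → ℕ → ℕ) (a t : ℕ) {b : ℕ} (hb : b < q) : trCpy q τ a t b < 2 * q := by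
  unfold trCpy; split_ifs <;> omega

theorem tr_cpy_mod {q : ℕ} (τ : ℕ → ℕ → ℕ) (a t : ℕ) {b : ℕ} (hb : b < q) : trCpy q τ a t b % q = b := by
  unfold trCpy; split_ifs
  · rw [Nat.add_mod_left, Nat.mod_eq_of_lt hb]
  · exact Nat.mod_eq_of_lt hb

/-- the duplicated tree sees the sides only inside the affected subtree -/
theorem tr_dup_out {q : ℕ} (τ : ℕ → ℕ → ℕ) (a t x y : ℕ) (h : ¬ (t < τ a (x % q) ∧ t < τ a (y % q))) :
    trDup q τ a t x y = τ (x % q) (y % q) := by
  unfold trDup; split_ifs <;> rfl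

theorem tr_dup_old {q : ℕ} (τ : ℕ → ℕ → ℕ) (a t : ℕ) {x y : ℕ} (hx : x < q) (hy : y < q) :
    trDup q τ a t x y = τ x y := by
  unfold trDup
  rw [if_pos (by simp [hx, hy]), Nat.mod_eq_of_lt hx, Nat.mod_eq_of_lt hy]

theorem tr_dup_cpy {q : ℕ} (τ : ℕ → ℕ → ℕ) (a t : ℕ) {x y : ℕ} (hx : x < q) (hy : y < q) :
    trDup q τ a t (trCpy q τ a t x) (trCpy q τ a t y) = τ x y := by
  by_cases h : t < τ a x ∧ t < τ a y
  · unfold trDup trCpy
    rw [if_pos h.1, if_pos h.2, if_pos (by constructor <;> intro h' <;> omega), Nat.add_mod_left, Nat.add_mod_left,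
      Nat.mod_eq_of_lt hx, Nat.mod_eq_of_lt hy]
  · rw [tr_dup_out, tr_cpy_mod τ a t hx, tr_cpy_mod τ a t hy]
    rwa [tr_cpy_mod τ a t hx, tr_cpy_mod τ a t hy]

/-- an old leaf of the subtree against a copy -/
theorem tr_dup_a_cpy {N q : ℕ} {τ : ℕ → ℕ → ℕ} (hτ : IsTr N q τ) {a t : ℕ} (ha : a < q) (ht : t ≤ N) {y : ℕ} (hy : y < q) :
    trDup q τ a t a (trCpy q τ a t y) = min t (τ a y) := by
  by_cases h : t < τ a y
  · unfold trDup trCpy
    rw [if_pos h, if_neg (by intro h'; have := h'.1 ha; omega), Nat.add_mod_left, Nat.mod_eq_of_lt hy, Nat.mod_eq_of_lt ha,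
      if_pos ⟨by rw [hτ.diag a ha]; omega, h⟩]
    omega
  · rw [tr_dup_out, tr_cpy_mod τ a t hy, Nat.mod_eq_of_lt ha]
    · omega
    · rw [tr_cpy_mod τ a t hy]; exact fun h' => h h'.2

theorem tr_dup_cpy_a {N q : ℕ} {τ : ℕ → ℕ → ℕ} (hτ : IsTr N q τ) {a t : ℕ} (ha : a < q) (ht : t ≤ N) {x : ℕ} (hx : x < q) :
    trDup q τ a t (trCpy q τ a t x) a = min t (τ x a) := by
  rw [hτ.symm x a hx ha]
  by_cases h : t < τ a x
  · unfold trDup trCpy
    rw [if_pos h, if_neg (by intro h'; have := h'.2 ha; omega), Nat.add_mod_left, Nat.mod_eq_of_lt hx, Nat.mod_eq_of_lt ha,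
      if_pos ⟨h, by rw [hτ.diag a ha]; omega⟩]
    omega
  · rw [tr_dup_out, tr_cpy_mod τ a t hx, Nat.mod_eq_of_lt ha, hτ.symm x a hx ha]
    · omega
    · rw [tr_cpy_mod τ a t hx]; exact fun h' => h h'.1

theorem tr_att_oo (N q : ℕ) (τ : ℕ → ℕ → ℕ) (x j : ℕ) {y z : ℕ} (hy : y ≠ q) (hz : z ≠ q) : trAtt N q τ x j y z = τ y z := by
  simp [trAtt, hy, hz]

theorem tr_att_no (N q : ℕ) (τ : ℕ → ℕ → ℕ) (x j : ℕ) {z : ℕ} (hz : z ≠ q) : trAtt N q τ x j q z = min j (τ x z) := by
  simp [trAtt, hz]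

theorem tr_att_on (N q : ℕ) (τ : ℕ → ℕ → ℕ) (x j : ℕ) {y : ℕ} (hy : y ≠ q) : trAtt N q τ x j y q = min j (τ y x) := by
  simp [trAtt, hy]

theorem tr_att_nn (N q : ℕ) (τ : ℕ → ℕ → ℕ) (x j : ℕ) : trAtt N q τ x j q q = N + 1 := by
  simp [trAtt]

/-- the big tree -/
def trBig (N q : ℕ) (τ : ℕ → ℕ → ℕ) (a t j : ℕ) : ℕ → ℕ → ℕ :=
  trAtt N (2 * q + 1) (trAtt N (2 * q) (trDup q τ a t) a j) a t

theorem tr_big_eqns_cite : True := by
  have := @trBig.eq_1
  trivial

section big
variable {N q : ℕ} {τ : ℕ → ℕ → ℕ} {a t j : ℕ}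

theorem tr_big_isTr (hτ : IsTr N q τ) (ha : a < q) (htj : t < j) (hj : j ≤ N + 1) : IsTr N (2 * q + 2) (trBig N q τ a t j) :=
  tr_att_isTr (tr_att_isTr (tr_dup_isTr hτ ha (by omega)) (by omega) hj) (by omega) (by omega)

theorem tr_big_oo {u v : ℕ} (hu : u < 2 * q) (hv : v < 2 * q) : trBig N q τ a t j u v = trDup q τ a t u v := by
  unfold trBig
  rw [tr_att_oo _ _ _ _ _ (by omega) (by omega), tr_att_oo _ _ _ _ _ (by omega) (by omega)]

theorem tr_big_ro {v : ℕ} (hv : v < 2 * q) : trBig N q τ a t j (2 * q) v = min j (trDup q τ a t a v) := by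
  unfold trBig
  rw [tr_att_oo _ _ _ _ _ (by omega) (by omega), tr_att_no _ _ _ _ _ (by omega)]

theorem tr_big_or {u : ℕ} (hu : u < 2 * q) : trBig N q τ a t j u (2 * q) = min j (trDup q τ a t u a) := by
  unfold trBig
  rw [tr_att_oo _ _ _ _ _ (by omega) (by omega), tr_att_on _ _ _ _ _ (by omega)]

theorem tr_big_rr : trBig N q τ a t j (2 * q) (2 * q) = N + 1 := by
  unfold trBig
  rw [tr_att_oo _ _ _ _ _ (by omega) (by omega), tr_att_nn]

theorem tr_big_so (ha : a < q) {v : ℕ} (hv : v < 2 * q) : trBig N q τ a t j (2 * q + 1) v = min t (trDup q τ a t a v) := by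
  unfold trBig
  rw [tr_att_no _ _ _ _ _ (by omega), tr_att_oo _ _ _ _ _ (by omega) (by omega)]

theorem tr_big_os (ha : a < q) {u : ℕ} (hu : u < 2 * q) : trBig N q τ a t j u (2 * q + 1) = min t (trDup q τ a t u a) := by
  unfold trBig
  rw [tr_att_on _ _ _ _ _ (by omega), tr_att_oo _ _ _ _ _ (by omega) (by omega)]

theorem tr_big_sr (hτ : IsTr N q τ) (ha : a < q) (htj : t < j) (hj : j ≤ N + 1) :
    trBig N q τ a t j (2 * q + 1) (2 * q) = t := by
  unfold trBig
  rw [tr_att_no _ _ _ _ _ (by omega), tr_att_on _ _ _ _ _ (by omega), tr_dup_old τ a t ha ha, hτ.diag a ha]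
  omega

theorem tr_big_rs (hτ : IsTr N q τ) (ha : a < q) (htj : t < j) (hj : j ≤ N + 1) :
    trBig N q τ a t j (2 * q) (2 * q + 1) = t := by
  unfold trBig
  rw [tr_att_on _ _ _ _ _ (by omega), tr_att_no _ _ _ _ _ (by omega), tr_dup_old τ a t ha ha, hτ.diag a ha]
  omega

theorem tr_big_ss : trBig N q τ a t j (2 * q + 1) (2 * q + 1) = N + 1 := by
  unfold trBig
  rw [tr_att_nn]

end big

/-- TEX[PE:lem:found-coupling] **Lemma 2.12 (centered coupling difference) in replica form.**  `{b : t < τ a b}` = the affected old subtree; `F` uses the new label `q` and the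
old leaves outside it; `P` uses old leaves.  The resampled copy of the subtree is carried by the labels `q + b` (`trDup`). -/
theorem tr_coupling {B : GhB S} (hB : B.Ok) {ls : List (GhLv S ι)} (hls : GhAdm B 0 ls) {q : ℕ} {τ : ℕ → ℕ → ℕ}
    (hτ : IsTr ls.length q τ) (z : S → ℝ) {a t j : ℕ} (ha : a < q) (htj : t < j) (hj : j ≤ ls.length + 1)
    (F P : (ℕ → S) → ℝ)
    (hF : ∀ σ σ' : ℕ → S, σ q = σ' q → (∀ b, b < q → τ a b ≤ t → σ b = σ' b) → F σ = F σ') (hP : TrUses q P)
    (p p' : ℝ) (hpp : p.HolderConjugate p') :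
    |trNu B ls (q + 1) (trAtt ls.length q τ a j) z (fun σ => F σ * P σ)
        - trNu B ls (q + 1) (trAtt ls.length q τ a t) z (fun σ => F σ * P σ)|
      ≤ (trNu B ls (q + 2) (trAtt ls.length (q + 1) (trAtt ls.length q τ a t) a t) z
            fun σ => |F σ - F (Function.update σ q (σ (q + 1)))| ^ p) ^ (1 / p)
        * (trNu B ls (2 * q) (trDup q τ a t) z fun σ => |P σ - P fun b => σ (q + b)| ^ p') ^ (1 / p') := by
  have htN : t ≤ ls.length := by omega
  have hS := tr_big_isTr hτ ha htj hj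
  have hclt : ∀ b, b < q → trCpy q τ a t b < 2 * q := fun b hb => tr_cpy_lt τ a t hb
  have hcout : ∀ b, τ a b ≤ t → trCpy q τ a t b = b := fun b hb => by simp [trCpy, not_lt.2 hb]
  -- the test `F P`
  have hFP : TrUses (q + 1) fun σ => F σ * P σ := by
    intro σ σ' h
    show F σ * P σ = F σ' * P σ'
    rw [hF σ σ' (h q (by omega)) fun b hb _ => h b (by omega), hP σ σ' fun i hi => h i (by omega)]
  -- the four marginals
  have e1 : trNu B ls (2 * q + 2) (trBig ls.length q τ a t j) z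
        (fun σ => (fun σ => F σ * P σ) fun x => σ (if x = q then 2 * q else x))
      = trNu B ls (q + 1) (trAtt ls.length q τ a j) z fun σ => F σ * P σ := by
    refine tr_cpl_pull hB hls hS z _ (fun x hx => by split_ifs <;> omega) _ hFP ?_
    intro x y hx hy
    rcases (by omega : x < q ∨ x = q) with hx' | hx' <;> rcases (by omega : y < q ∨ y = q) with hy' | hy'
    · rw [if_neg hx'.ne, if_neg hy'.ne, tr_big_oo (by omega) (by omega), tr_dup_old τ a t hx' hy',
        tr_att_oo _ _ _ _ _ hx'.ne hy'.ne]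
    · rw [if_neg hx'.ne, if_pos hy', hy', tr_big_or (by omega), tr_dup_old τ a t hx' ha, tr_att_on _ _ _ _ _ hx'.ne]
    · rw [if_pos hx', if_neg hy'.ne, hx', tr_big_ro (by omega), tr_dup_old τ a t ha hy', tr_att_no _ _ _ _ _ hy'.ne]
    · rw [if_pos hx', if_pos hy', hx', hy', tr_big_rr, tr_att_nn]
  have e2 : trNu B ls (2 * q + 2) (trBig ls.length q τ a t j) z
        (fun σ => (fun σ => F σ * P σ) fun x => σ (if x = q then 2 * q + 1 else x))
      = trNu B ls (q + 1) (trAtt ls.length q τ a t) z fun σ => F σ * P σ := by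
    refine tr_cpl_pull hB hls hS z _ (fun x hx => by split_ifs <;> omega) _ hFP ?_
    intro x y hx hy
    rcases (by omega : x < q ∨ x = q) with hx' | hx' <;> rcases (by omega : y < q ∨ y = q) with hy' | hy'
    · rw [if_neg hx'.ne, if_neg hy'.ne, tr_big_oo (by omega) (by omega), tr_dup_old τ a t hx' hy',
        tr_att_oo _ _ _ _ _ hx'.ne hy'.ne]
    · rw [if_neg hx'.ne, if_pos hy', hy', tr_big_os ha (by omega), tr_dup_old τ a t hx' ha, tr_att_on _ _ _ _ _ hx'.ne]
    · rw [if_pos hx', if_neg hy'.ne, hx', tr_big_so ha (by omega), tr_dup_old τ a t ha hy', tr_att_no _ _ _ _ _ hy'.ne]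
    · rw [if_pos hx', if_pos hy', hx', hy', tr_big_ss, tr_att_nn]
  have e3 : trNu B ls (2 * q + 2) (trBig ls.length q τ a t j) z
        (fun σ => (fun σ => F σ * P σ) fun x => σ (if x = q then 2 * q else trCpy q τ a t x))
      = trNu B ls (q + 1) (trAtt ls.length q τ a t) z fun σ => F σ * P σ := by
    refine tr_cpl_pull hB hls hS z _ (fun x hx => by
      split_ifs with h
      · omega
      · have := hclt x (by omega); omega) _ hFP ?_
    intro x y hx hy
    rcases (by omega : x < q ∨ x = q) with hx' | hx' <;> rcases (by omega : y < q ∨ y = q) with hy' | hy'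
    · rw [if_neg hx'.ne, if_neg hy'.ne, tr_big_oo (hclt x hx') (hclt y hy'), tr_dup_cpy τ a t hx' hy',
        tr_att_oo _ _ _ _ _ hx'.ne hy'.ne]
    · rw [if_neg hx'.ne, if_pos hy', hy', tr_big_or (hclt x hx'), tr_dup_cpy_a hτ ha htN hx', tr_att_on _ _ _ _ _ hx'.ne]
      omega
    · rw [if_pos hx', if_neg hy'.ne, hx', tr_big_ro (hclt y hy'), tr_dup_a_cpy hτ ha htN hy', tr_att_no _ _ _ _ _ hy'.ne]
      omega
    · rw [if_pos hx', if_pos hy', hx', hy', tr_big_rr, tr_att_nn]
  have e4 : trNu B ls (2 * q + 2) (trBig ls.length q τ a t j) z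
        (fun σ => (fun σ => F σ * P σ) fun x => σ (if x = q then 2 * q + 1 else trCpy q τ a t x))
      = trNu B ls (q + 1) (trAtt ls.length q τ a t) z fun σ => F σ * P σ := by
    refine tr_cpl_pull hB hls hS z _ (fun x hx => by
      split_ifs with h
      · omega
      · have := hclt x (by omega); omega) _ hFP ?_
    intro x y hx hy
    rcases (by omega : x < q ∨ x = q) with hx' | hx' <;> rcases (by omega : y < q ∨ y = q) with hy' | hy'
    · rw [if_neg hx'.ne, if_neg hy'.ne, tr_big_oo (hclt x hx') (hclt y hy'), tr_dup_cpy τ a t hx' hy',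
        tr_att_oo _ _ _ _ _ hx'.ne hy'.ne]
    · rw [if_neg hx'.ne, if_pos hy', hy', tr_big_os ha (hclt x hx'), tr_dup_cpy_a hτ ha htN hx', tr_att_on _ _ _ _ _ hx'.ne]
      omega
    · rw [if_pos hx', if_neg hy'.ne, hx', tr_big_so ha (hclt y hy'), tr_dup_a_cpy hτ ha htN hy', tr_att_no _ _ _ _ _ hy'.ne]
      omega
    · rw [if_pos hx', if_pos hy', hx', hy', tr_big_ss, tr_att_nn]
  -- the four functions on the big tree
  obtain ⟨Fr, hFr⟩ : ∃ Fr : (ℕ → S) → ℝ, Fr = fun σ => F fun x => σ (if x = q then 2 * q else x) := ⟨_, rfl⟩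
  obtain ⟨Fs, hFs⟩ : ∃ Fs : (ℕ → S) → ℝ, Fs = fun σ => F fun x => σ (if x = q then 2 * q + 1 else x) := ⟨_, rfl⟩
  obtain ⟨PC, hPC⟩ : ∃ PC : (ℕ → S) → ℝ, PC = fun σ => P fun x => σ (trCpy q τ a t x) := ⟨_, rfl⟩
  have hF1 : ∀ σ : ℕ → S, (F fun x => σ (if x = q then 2 * q else x)) = Fr σ := fun σ => by rw [hFr]
  have hF2 : ∀ σ : ℕ → S, (F fun x => σ (if x = q then 2 * q + 1 else x)) = Fs σ := fun σ => by rw [hFs]
  have hF3 : ∀ σ : ℕ → S, (F fun x => σ (if x = q then 2 * q else trCpy q τ a t x)) = Fr σ := fun σ => by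
    rw [hFr]; exact hF _ _ (by simp) fun b hb hab => by simp [hb.ne, hcout b hab]
  have hF4 : ∀ σ : ℕ → S, (F fun x => σ (if x = q then 2 * q + 1 else trCpy q τ a t x)) = Fs σ := fun σ => by
    rw [hFs]; exact hF _ _ (by simp) fun b hb hab => by simp [hb.ne, hcout b hab]
  have hP1 : ∀ σ : ℕ → S, (P fun x => σ (if x = q then 2 * q else x)) = P σ := fun σ => hP _ _ fun i hi => by simp [hi.ne]
  have hP2 : ∀ σ : ℕ → S, (P fun x => σ (if x = q then 2 * q + 1 else x)) = P σ := fun σ => hP _ _ fun i hi => by simp [hi.ne]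
  have hP3 : ∀ σ : ℕ → S, (P fun x => σ (if x = q then 2 * q else trCpy q τ a t x)) = PC σ := fun σ => by
    rw [hPC]; exact hP _ _ fun i hi => by simp [hi.ne]
  have hP4 : ∀ σ : ℕ → S, (P fun x => σ (if x = q then 2 * q + 1 else trCpy q τ a t x)) = PC σ := fun σ => by
    rw [hPC]; exact hP _ _ fun i hi => by simp [hi.ne]
  have key : trNu B ls (2 * q + 2) (trBig ls.length q τ a t j) z (fun σ => (Fr σ - Fs σ) * (P σ - PC σ))
      = trNu B ls (q + 1) (trAtt ls.length q τ a j) z (fun σ => F σ * P σ)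
        - trNu B ls (q + 1) (trAtt ls.length q τ a t) z (fun σ => F σ * P σ) := by
    have hfun : (fun σ => (Fr σ - Fs σ) * (P σ - PC σ))
        = fun σ : ℕ → S => ((fun σ => F σ * P σ) fun x => σ (if x = q then 2 * q else x))
            - ((fun σ => F σ * P σ) fun x => σ (if x = q then 2 * q + 1 else x))
            - ((fun σ => F σ * P σ) fun x => σ (if x = q then 2 * q else trCpy q τ a t x))
            + ((fun σ => F σ * P σ) fun x => σ (if x = q then 2 * q + 1 else trCpy q τ a t x)) := by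
      funext σ
      simp only [hF1, hF2, hF3, hF4, hP1, hP2, hP3, hP4]
      ring
    rw [hfun, tr_cpl_lin hB hls, e1, e2, e3, e4]
    ring
  rw [← key]
  refine le_trans (tr_nu_holder hB hls _ _ z _ _ p p' hpp) (le_of_eq ?_)
  -- the two norms are marginals
  have hTF : TrUses (q + 2) fun σ : ℕ → S => |F σ - F (Function.update σ q (σ (q + 1)))| ^ p := by
    intro σ σ' h
    show |F σ - F (Function.update σ q (σ (q + 1)))| ^ p = |F σ' - F (Function.update σ' q (σ' (q + 1)))| ^ p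
    rw [hF σ σ' (h q (by omega)) fun b hb _ => h b (by omega),
      hF (Function.update σ q (σ (q + 1))) (Function.update σ' q (σ' (q + 1))) (by simp [h (q + 1) (by omega)])
        fun b hb _ => by simp [Function.update_of_ne hb.ne, h b (by omega)]]
  have n1 : trNu B ls (2 * q + 2) (trBig ls.length q τ a t j) z (fun σ => |Fr σ - Fs σ| ^ p)
      = trNu B ls (q + 2) (trAtt ls.length (q + 1) (trAtt ls.length q τ a t) a t) z
          fun σ => |F σ - F (Function.update σ q (σ (q + 1)))| ^ p := by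
    have hfun : (fun σ => |Fr σ - Fs σ| ^ p) = fun σ : ℕ → S =>
        (fun σ : ℕ → S => |F σ - F (Function.update σ q (σ (q + 1)))| ^ p)
          fun x => σ (if x = q then 2 * q else if x = q + 1 then 2 * q + 1 else trCpy q τ a t x) := by
      funext σ
      show |Fr σ - Fs σ| ^ p = |F _ - F _| ^ p
      rw [hFr, hFs]
      congr 3
      · exact hF _ _ (by simp) fun b hb hab => by
          have h1 : b ≠ q + 1 := by omega
          simp only [if_neg hb.ne, if_neg h1, hcout b hab]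
      · exact hF _ _ (by simp) fun b hb hab => by
          have h1 : b ≠ q + 1 := by omega
          simp only [Function.update_of_ne hb.ne, if_neg hb.ne, if_neg h1, hcout b hab]
    rw [hfun]
    refine tr_cpl_pull hB hls hS z _ (fun x hx => by
      split_ifs with h h'
      · omega
      · omega
      · have := hclt x (by omega); omega) _ hTF ?_
    intro x y hx hy
    have hq1 : q + 1 ≠ q := by omega
    rcases (by omega : x < q ∨ x = q ∨ x = q + 1) with hx' | hx' | hx' <;>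
      rcases (by omega : y < q ∨ y = q ∨ y = q + 1) with hy' | hy' | hy'
    · rw [if_neg hx'.ne, if_neg (by omega), if_neg hy'.ne, if_neg (by omega), tr_big_oo (hclt x hx') (hclt y hy'),
        tr_dup_cpy τ a t hx' hy', tr_att_oo _ _ _ _ _ (by omega) (by omega), tr_att_oo _ _ _ _ _ hx'.ne hy'.ne]
    · rw [if_neg hx'.ne, if_neg (by omega), if_pos hy', hy', tr_big_or (hclt x hx'), tr_dup_cpy_a hτ ha htN hx',
        tr_att_oo _ _ _ _ _ (by omega) (by omega), tr_att_on _ _ _ _ _ hx'.ne]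
      omega
    · rw [if_neg hx'.ne, if_neg (by omega), hy', if_neg hq1, if_pos rfl, tr_big_os ha (hclt x hx'),
        tr_dup_cpy_a hτ ha htN hx', tr_att_on _ _ _ _ _ (by omega), tr_att_oo _ _ _ _ _ hx'.ne ha.ne]
      omega
    · rw [if_pos hx', hx', if_neg hy'.ne, if_neg (by omega), tr_big_ro (hclt y hy'), tr_dup_a_cpy hτ ha htN hy',
        tr_att_oo _ _ _ _ _ (by omega) (by omega), tr_att_no _ _ _ _ _ hy'.ne]
      omega
    · rw [if_pos hx', if_pos hy', hx', hy', tr_big_rr, tr_att_oo _ _ _ _ _ (by omega) (by omega), tr_att_nn]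
    · rw [if_pos hx', hx', hy', if_neg hq1, if_pos rfl, tr_big_rs hτ ha htj hj, tr_att_on _ _ _ _ _ (by omega),
        tr_att_no _ _ _ _ _ ha.ne, hτ.diag a ha]
      omega
    · rw [hx', if_neg hq1, if_pos rfl, if_neg hy'.ne, if_neg (by omega), tr_big_so ha (hclt y hy'),
        tr_dup_a_cpy hτ ha htN hy', tr_att_no _ _ _ _ _ (by omega), tr_att_oo _ _ _ _ _ ha.ne hy'.ne]
      omega
    · rw [hx', if_neg hq1, if_pos rfl, if_pos hy', hy', tr_big_sr hτ ha htj hj, tr_att_no _ _ _ _ _ (by omega),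
        tr_att_on _ _ _ _ _ ha.ne, hτ.diag a ha]
      omega
    · rw [hx', hy', if_neg hq1, if_pos rfl, tr_big_ss, tr_att_nn]
  have hTP : TrUses (2 * q) fun σ : ℕ → S => |P σ - P fun b => σ (q + b)| ^ p' := by
    intro σ σ' h
    show |P σ - P fun b => σ (q + b)| ^ p' = |P σ' - P fun b => σ' (q + b)| ^ p'
    rw [hP σ σ' fun i hi => h i (by omega), hP (fun b => σ (q + b)) (fun b => σ' (q + b)) fun i hi => h (q + i) (by omega)]
  have n2 : trNu B ls (2 * q + 2) (trBig ls.length q τ a t j) z (fun σ => |P σ - PC σ| ^ p')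
      = trNu B ls (2 * q) (trDup q τ a t) z fun σ => |P σ - P fun b => σ (q + b)| ^ p' := by
    have hfun : (fun σ => |P σ - PC σ| ^ p') = fun σ : ℕ → S =>
        (fun σ : ℕ → S => |P σ - P fun b => σ (q + b)| ^ p') fun x => σ (if x < q then x else trCpy q τ a t (x - q)) := by
      funext σ
      show |P σ - PC σ| ^ p' = |P _ - P _| ^ p'
      rw [hPC]
      congr 3
      · exact hP _ _ fun i hi => by simp [hi]
      · exact hP _ _ fun i hi => by simp
    rw [hfun]
    refine tr_cpl_pull hB hls hS z _ (fun x hx => by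
      split_ifs with h
      · omega
      · have := hclt (x - q) (by omega); omega) _ hTP ?_
    intro x y hx hy
    have hlt : ∀ x, x < 2 * q → (if x < q then x else trCpy q τ a t (x - q)) < 2 * q := by
      intro x hx
      split_ifs with h
      · omega
      · exact hclt (x - q) (by omega)
    rw [tr_big_oo (hlt x hx) (hlt y hy)]
    by_cases hx' : x < q <;> by_cases hy' : y < q
    · rw [if_pos hx', if_pos hy']
    · obtain ⟨b, rfl⟩ : ∃ b, y = q + b := ⟨y - q, by omega⟩
      have hb : b < q := by omega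
      rw [if_pos hx', if_neg hy', Nat.add_sub_cancel_left]
      by_cases h : t < τ a b
      · simp [trCpy, h]
      · rw [hcout b (not_lt.1 h), tr_dup_old τ a t hx' hb, tr_dup_out, Nat.add_mod_left, Nat.mod_eq_of_lt hb,
          Nat.mod_eq_of_lt hx']
        rw [Nat.add_mod_left, Nat.mod_eq_of_lt hb]; exact fun h' => h h'.2
    · obtain ⟨b, rfl⟩ : ∃ b, x = q + b := ⟨x - q, by omega⟩
      have hb : b < q := by omega
      rw [if_neg hx', if_pos hy', Nat.add_sub_cancel_left]
      by_cases h : t < τ a b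
      · simp [trCpy, h]
      · rw [hcout b (not_lt.1 h), tr_dup_old τ a t hb hy', tr_dup_out, Nat.add_mod_left, Nat.mod_eq_of_lt hb,
          Nat.mod_eq_of_lt hy']
        rw [Nat.add_mod_left, Nat.mod_eq_of_lt hb]; exact fun h' => h h'.1
    · obtain ⟨b, rfl⟩ : ∃ b, x = q + b := ⟨x - q, by omega⟩
      obtain ⟨c, rfl⟩ : ∃ c, y = q + c := ⟨y - q, by omega⟩
      have hb : b < q := by omega
      have hc : c < q := by omega
      rw [if_neg hx', if_neg hy', Nat.add_sub_cancel_left, Nat.add_sub_cancel_left, tr_dup_cpy τ a t hb hc]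
      unfold trDup
      rw [if_pos (by constructor <;> intro h' <;> omega), Nat.add_mod_left, Nat.add_mod_left, Nat.mod_eq_of_lt hb,
        Nat.mod_eq_of_lt hc]
  rw [n1, n2]

end

end Claimed.Agent.R286
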