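import Claimed.Agent.R286.Fd.TrB2
import Claimed.Agent.R286.Cav.Hol

/-!
# Row 286 (S0533), Fd/ExtC : the tree law as an EXPECTATION; Hoelder after marginalisation; replica Jensen; Cauchy-Schwarz for the variation sums      (owner helper16; prefix `tr_x_`)

* `trExp` : `trNu B ls q τ z` as a `CvExp (ℕ → S)` (244's Hoelder kit `Cav/Hol` applies verbatim: `sk_cavhol_prod`, `sk_cavhol_cs`, `sk_cavhol_lyap`).
* `tr_x_holder_marg` : PE Remark 2.4 (found-single-pin): marginalise every factor to ITS OWN labels, bound its moment there, combine by unconditional Hoelder.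
* `tr_x_jensen` : CONDITIONAL JENSEN IN REPLICA FORM: `l` groups of labels of the same shape, `|ν_τ[∏_k f(σ_{G_k})]| ≤ ν_{τ₀}[|f|^l]`
  (e.g. `E |X_u|^{2l} = ν[∏_k R_{2k,2k+1}] ≤ ν[|R_12|^l]`, teeth at `u`).      No conditional independence is needed.
* `tr_x_repr` : `trSumK`, `trAbsK` = finite sums `∑ c_i Φ(T_i)`, `∑ |c_i| Φ(T_i)`;  `tr_x_absK_cs`, `tr_x_sumK_cs` (137: CS2), `tr_x_absK_pow`.
-/

set_option autoImplicit false
set_option linter.unusedSectionVars false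

namespace Claimed.Agent.R286

open MeasureTheory ProbabilityTheory

section nu

variable {S ι : Type} [Fintype S] [Fintype ι] [Inhabited S]

/-- the positive tree law as a positive normalised functional on all spin tests -/
noncomputable def trExp {B : GhB S} (hB : B.Ok) {ls : List (GhLv S ι)} (hls : GhAdm B 0 ls) (q : ℕ) (τ : ℕ → ℕ → ℕ) (z : S → ℝ) :
    CvExp (ℕ → S) where
  E := trNu B ls q τ z
  add := fun f g => by
    classical
    rw [tr_nu_eq_sum hB hls q τ z, tr_nu_eq_sum hB hls q τ z f, tr_nu_eq_sum hB hls q τ z g, ← Finset.sum_add_distrib]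
    exact Finset.sum_congr rfl fun _ _ => by ring
  smul := fun c f => by
    classical
    rw [tr_nu_eq_sum hB hls q τ z, tr_nu_eq_sum hB hls q τ z f, Finset.mul_sum]
    exact Finset.sum_congr rfl fun _ _ => by ring
  mono := fun f g h => by
    classical
    rw [tr_nu_eq_sum hB hls q τ z f, tr_nu_eq_sum hB hls q τ z g]
    exact Finset.sum_le_sum fun σ₀ _ => mul_le_mul_of_nonneg_left (h _) (tr_pr_nonneg hB hls q τ z σ₀)
  one := by
    classical
    rw [tr_nu_eq_sum hB hls q τ z]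
    simpa using tr_pr_sum hB hls q τ z

theorem tr_x_exp_E {B : GhB S} (hB : B.Ok) {ls : List (GhLv S ι)} (hls : GhAdm B 0 ls) (q : ℕ) (τ : ℕ → ℕ → ℕ) (z : S → ℝ)
    (P : (ℕ → S) → ℝ) : (trExp hB hls q τ z).E P = trNu B ls q τ z P := rfl

theorem tr_x_eqns_cite : True := by
  have := @trExp.eq_1
  trivial

/-- **Hoelder after marginalisation** (PE Remark `found-single-pin`): the factor `k` reads the labels `g k x`, `x < p k`, only; its moment of order `2 r` is bounded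
under ITS OWN marginal tree `τ ∘ g k`. -/
theorem tr_x_holder_marg {B : GhB S} (hB : B.Ok) {ls : List (GhLv S ι)} (hls : GhAdm B 0 ls) {q : ℕ} {τ : ℕ → ℕ → ℕ}
    (hτ : IsTr ls.length q τ) (z : S → ℝ) {κ : Type*} (s : Finset κ) (p : κ → ℕ) (g : κ → ℕ → ℕ)
    (hg : ∀ k ∈ s, ∀ x, x < p k → g k x < q) (f : κ → (ℕ → S) → ℝ) (hf : ∀ k ∈ s, TrUses (p k) (f k)) (A : κ → ℝ) (r : ℕ)
    (hr : s.card ≤ 2 * r) (hA : ∀ k ∈ s, 0 ≤ A k)
    (hm : ∀ k ∈ s, trNu B ls (p k) (fun x y => τ (g k x) (g k y)) z (fun σ => f k σ ^ (2 * r)) ≤ A k ^ (2 * r)) :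
    |trNu B ls q τ z fun σ => ∏ k ∈ s, f k fun x => σ (g k x)| ≤ ∏ k ∈ s, A k := by
  refine sk_cavhol_prod (trExp hB hls q τ z) s (fun k σ => f k fun x => σ (g k x)) A r hr hA fun k hk => ?_
  rw [tr_x_exp_E, tr_nu_comap hB hls hτ z (g k) (hg k hk) (fun σ => f k σ ^ (2 * r))
    (fun σ σ' h => by simp only [hf k hk σ σ' h])]
  exact hm k hk

/-- **conditional Jensen in replica form**: `l ≥ 1` groups of labels of the same shape `τ₀` -/
theorem tr_x_jensen {B : GhB S} (hB : B.Ok) {ls : List (GhLv S ι)} (hls : GhAdm B 0 ls) {q p l : ℕ} {τ τ₀ : ℕ → ℕ → ℕ}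
    (hτ : IsTr ls.length q τ) (z : S → ℝ) (hl : 0 < l) (g : ℕ → ℕ → ℕ) (hg : ∀ k, k < l → ∀ x, x < p → g k x < q)
    (hsh : ∀ k, k < l → ∀ x y, x < p → y < p → τ (g k x) (g k y) = τ₀ x y) (f : (ℕ → S) → ℝ) (hf : TrUses p f) :
    |trNu B ls q τ z fun σ => ∏ k ∈ Finset.range l, f fun x => σ (g k x)| ≤ trNu B ls p τ₀ z fun σ => |f σ| ^ l := by
  set ν := trExp hB hls q τ z with hν
  have hne : (Finset.range l).Nonempty := ⟨0, Finset.mem_range.2 hl⟩
  have hl' : (0 : ℝ) < l := by exact_mod_cast hl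
  have h1 : |ν.E fun σ => ∏ k ∈ Finset.range l, f fun x => σ (g k x)|
      ≤ ν.E fun σ => ∑ k ∈ Finset.range l, (1 / ((Finset.range l).card : ℝ)) * |f fun x => σ (g k x)| ^ (Finset.range l).card := by
    refine (ν.abs_le _).trans (ν.mono _ _ fun σ => ?_)
    rw [Finset.abs_prod]
    exact sk_cavhol_amgm _ hne _ fun _ _ => abs_nonneg _
  refine h1.trans (le_of_eq ?_)
  rw [ν.sum]
  have h2 : ∀ k ∈ Finset.range l, ν.E (fun σ => (1 / ((Finset.range l).card : ℝ)) * |f fun x => σ (g k x)| ^ (Finset.range l).card)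
      = (1 / (l : ℝ)) * trNu B ls p τ₀ z fun σ => |f σ| ^ l := by
    intro k hk
    have hk' := Finset.mem_range.1 hk
    rw [ν.smul, Finset.card_range, hν, tr_x_exp_E, tr_nu_comap hB hls hτ z (g k) (hg k hk') (fun σ => |f σ| ^ l)
      (fun σ σ' h => by simp only [hf σ σ' h]), tr_nu_congr B ls (hsh k hk') z]
  rw [Finset.sum_congr rfl h2, Finset.sum_const, Finset.card_range, nsmul_eq_mul]
  field_simp

end nu

/-! ## the variation sums -/

section abs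

/-- **finite form** of the signed and of the variation sums -/
theorem tr_x_repr (ms : ℕ → ℝ) (N : ℕ) : ∀ (k q : ℕ) (τ : ℕ → ℕ → ℕ), ∃ (I : Type) (_ : Fintype I) (c : I → ℝ) (T : I → ℕ → ℕ → ℕ),
    ∀ Φ : (ℕ → ℕ → ℕ) → ℝ, trSumK ms N k q τ Φ = ∑ i, c i * Φ (T i) ∧ trAbsK ms N k q τ Φ = ∑ i, |c i| * Φ (T i)
  | 0, q, τ => ⟨Unit, inferInstance, fun _ => 1, fun _ => τ, fun Φ => by simp [trSumK, trAbsK]⟩
  | k + 1, q, τ => by
    classical
    choose I hI c T h using fun xj : Fin q × Fin (N + 2) => tr_x_repr ms N k (q + 1) (trAtt N q τ xj.1.1 xj.2.1)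
    refine ⟨Σ xj, I xj, inferInstance, fun i => trWt ms N q τ i.1.1.1 i.1.2.1 * c i.1 i.2, fun i => T i.1 i.2, fun Φ => ?_⟩
    simp only [trSumK, trAbsK, trSum, trAbs]
    rw [Fintype.sum_sigma, Fintype.sum_sigma, Fintype.sum_prod_type, Fintype.sum_prod_type, Finset.sum_range, Finset.sum_range]
    constructor
    · refine Finset.sum_congr rfl fun x _ => ?_
      rw [Finset.sum_range]
      refine Finset.sum_congr rfl fun j _ => ?_
      rw [(h (x, j) Φ).1, Finset.mul_sum]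
      exact Finset.sum_congr rfl fun _ _ => by ring
    · refine Finset.sum_congr rfl fun x _ => ?_
      rw [Finset.sum_range]
      refine Finset.sum_congr rfl fun j _ => ?_
      rw [(h (x, j) Φ).2, Finset.mul_sum]
      exact Finset.sum_congr rfl fun _ _ => by rw [abs_mul]; ring

/-- **Cauchy-Schwarz for the variation sums**, squared form -/
theorem tr_x_absK_cs_sq (ms : ℕ → ℝ) (N k q : ℕ) (τ : ℕ → ℕ → ℕ) (Φ Ψ : (ℕ → ℕ → ℕ) → ℝ) :
    (trAbsK ms N k q τ fun τ' => Φ τ' * Ψ τ') ^ 2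
      ≤ (trAbsK ms N k q τ fun τ' => Φ τ' ^ 2) * trAbsK ms N k q τ fun τ' => Ψ τ' ^ 2 := by
  obtain ⟨I, _, c, T, h⟩ := tr_x_repr ms N k q τ
  rw [(h _).2, (h _).2, (h _).2]
  refine Finset.sum_sq_le_sum_mul_sum_of_sq_le_mul _ (fun i _ => by positivity) (fun i _ => by positivity) fun i _ => le_of_eq (by ring)

/-- **Cauchy-Schwarz for the variation sums** (137: CS2) -/
theorem tr_x_absK_cs (ms : ℕ → ℝ) (N k q : ℕ) (τ : ℕ → ℕ → ℕ) (Φ Ψ : (ℕ → ℕ → ℕ) → ℝ) :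
    trAbsK ms N k q τ (fun τ' => Φ τ' * Ψ τ')
      ≤ Real.sqrt (trAbsK ms N k q τ fun τ' => Φ τ' ^ 2) * Real.sqrt (trAbsK ms N k q τ fun τ' => Ψ τ' ^ 2) := by
  rw [← Real.sqrt_mul' _ (by
    obtain ⟨I, _, c, T, h⟩ := tr_x_repr ms N k q τ
    rw [(h _).2]
    exact Finset.sum_nonneg fun i _ => by positivity)]
  exact Real.le_sqrt_of_sq_le (tr_x_absK_cs_sq ms N k q τ Φ Ψ)

/-- the signed sum of a product -/
theorem tr_x_sumK_cs (ms : ℕ → ℝ) (N k q : ℕ) (τ : ℕ → ℕ → ℕ) (Φ Ψ : (ℕ → ℕ → ℕ) → ℝ) :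
    |trSumK ms N k q τ fun τ' => Φ τ' * Ψ τ'|
      ≤ Real.sqrt (trAbsK ms N k q τ fun τ' => Φ τ' ^ 2) * Real.sqrt (trAbsK ms N k q τ fun τ' => Ψ τ' ^ 2) := by
  have h1 : |trSumK ms N k q τ fun τ' => Φ τ' * Ψ τ'| ≤ trAbsK ms N k q τ fun τ' => |Φ τ'| * |Ψ τ'| := by
    obtain ⟨I, _, c, T, h⟩ := tr_x_repr ms N k q τ
    rw [(h _).1, (h _).2]
    refine (Finset.abs_sum_le_sum_abs _ _).trans (le_of_eq (Finset.sum_congr rfl fun i _ => ?_))
    rw [abs_mul, abs_mul]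
  refine h1.trans ((tr_x_absK_cs ms N k q τ _ _).trans (le_of_eq ?_))
  simp only [sq_abs]

/-- power mean: `(∑ |c| |Φ|)^p ≤ (∑ |c|)^(p-1) ∑ |c| |Φ|^p` -/
theorem tr_x_absK_pow (ms : ℕ → ℝ) (N k q : ℕ) (τ : ℕ → ℕ → ℕ) (Φ : (ℕ → ℕ → ℕ) → ℝ) (p : ℕ) :
    (trAbsK ms N k q τ fun τ' => |Φ τ'|) ^ (p + 1)
      ≤ (trAbsK ms N k q τ fun _ => 1) ^ p * trAbsK ms N k q τ fun τ' => |Φ τ'| ^ (p + 1) := by
  obtain ⟨I, _, c, T, h⟩ := tr_x_repr ms N k q τ
  rw [(h _).2, (h _).2, (h _).2]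
  simp only [mul_one]
  have hW0 : 0 ≤ ∑ i, |c i| := Finset.sum_nonneg fun i _ => abs_nonneg _
  rcases hW0.eq_or_lt with hW | hW
  · have hz : ∀ i, |c i| = 0 := fun i => (Finset.sum_eq_zero_iff_of_nonneg fun i _ => abs_nonneg (c i)).1 hW.symm i (Finset.mem_univ i)
    simp [hz]
  · have h1 := Real.pow_arith_mean_le_arith_mean_pow Finset.univ (fun i => |c i| / ∑ i, |c i|) (fun i => |Φ (T i)|)
      (fun i _ => by positivity) (by rw [← Finset.sum_div, div_self hW.ne']) (fun i _ => abs_nonneg _) (p + 1)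
    have e1 : ∑ i, |c i| / (∑ i, |c i|) * |Φ (T i)| = (∑ i, |c i| * |Φ (T i)|) / ∑ i, |c i| := by
      rw [Finset.sum_div]; exact Finset.sum_congr rfl fun i _ => by ring
    have e2 : ∑ i, |c i| / (∑ i, |c i|) * |Φ (T i)| ^ (p + 1) = (∑ i, |c i| * |Φ (T i)| ^ (p + 1)) / ∑ i, |c i| := by
      rw [Finset.sum_div]; exact Finset.sum_congr rfl fun i _ => by ring
    rw [e1, e2, div_pow, div_le_div_iff₀ (by positivity) hW] at h1
    have h2 : (∑ i, |c i| * |Φ (T i)|) ^ (p + 1) * ∑ i, |c i|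
        ≤ ((∑ i, |c i|) ^ p * ∑ i, |c i| * |Φ (T i)| ^ (p + 1)) * ∑ i, |c i| := by
      refine h1.trans (le_of_eq ?_); ring
    exact le_of_mul_le_mul_right h2 hW

end abs

end Claimed.Agent.R286
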