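import Claimed.Agent.R286.Fd.NuApi

/-!
# Row 286 (S0533), Fd/NuApiB : RAW API of `ghNu`, part B      (helper140; prefix `gh_n_`; sorry free)

* `gh_n_smul`      `ν[c P] = c ν[P]` (no hypothesis)
* `gh_n_pi_split`, `gh_n_level2`, `gh_n_level2_sum`   one revelation: two families of labels without common class are independent
* **`gh_n_indep`**  labels without common class at the first revelation: `ν[P₁ P₂] = ν₁[P₁] ν₂[P₂]` (no hypothesis on the tests)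
* `gh_n_one`, `gh_n_path_spin`, `gh_n_one_spin`   one label: `ghNu = ghPath`, spin test `= ghE`
-/

set_option autoImplicit false

namespace Claimed.Agent.R286

open MeasureTheory ProbabilityTheory
open scoped ENNReal NNReal

/-- two disjoint families of coordinates of a finite product are independent -/
theorem gh_n_pi_split {X : Type} [MeasurableSpace X] (μ : Measure X) [SigmaFinite μ] {α β γ : Type}
    [Fintype α] [Fintype β] [Fintype γ] (e₁ : β → α) (e₂ : γ → α) (he : Function.Injective (Sum.elim e₁ e₂))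
    (f : α → X → ℝ) (hf : ∀ a, a ∉ Set.range (Sum.elim e₁ e₂) → ∫ x, f a x ∂μ = 1)
    (H₁ : (β → X) → ℝ) (H₂ : (γ → X) → ℝ) :
    ∫ W : α → X, (∏ a, f a (W a)) * (H₁ (fun b => W (e₁ b)) * H₂ (fun c => W (e₂ c))) ∂(Measure.pi fun _ => μ)
      = (∫ W : β → X, (∏ b, f (e₁ b) (W b)) * H₁ W ∂(Measure.pi fun _ => μ))
        * ∫ W : γ → X, (∏ c, f (e₂ c) (W c)) * H₂ W ∂(Measure.pi fun _ => μ) := by
  have h1 := gh_n_pi_marg μ (Sum.elim e₁ e₂) he f hf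
    (fun V => H₁ (fun b => V (Sum.inl b)) * H₂ (fun c => V (Sum.inr c)))
  simp only [Sum.elim_inl, Sum.elim_inr] at h1
  rw [h1]
  have h2 := (measurePreserving_sumPiEquivProdPi_symm (fun _ : β ⊕ γ => μ)).integral_comp'
    (fun V : β ⊕ γ → X => (∏ x, f (Sum.elim e₁ e₂ x) (V x)) *
      (H₁ (fun b => V (Sum.inl b)) * H₂ (fun c => V (Sum.inr c))))
  rw [← h2]
  have h3 : ∀ p : (β → X) × (γ → X),
      (fun V : β ⊕ γ → X => (∏ x, f (Sum.elim e₁ e₂ x) (V x)) *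
        (H₁ (fun b => V (Sum.inl b)) * H₂ (fun c => V (Sum.inr c))))
        ((MeasurableEquiv.sumPiEquivProdPi fun _ : β ⊕ γ => X).symm p)
      = ((∏ b, f (e₁ b) (p.1 b)) * H₁ p.1) * ((∏ c, f (e₂ c) (p.2 c)) * H₂ p.2) := by
    intro p
    simp only [Fintype.prod_sum_type, Sum.elim_inl, Sum.elim_inr]
    simp only [MeasurableEquiv.sumPiEquivProdPi, Equiv.sumPiEquivProdPi, MeasurableEquiv.symm_mk,
      MeasurableEquiv.coe_mk, Equiv.coe_fn_symm_mk]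
    ring
  simp_rw [h3]
  exact integral_prod_mul (fun u : β → X => (∏ b, f (e₁ b) (u b)) * H₁ u)
    (fun v : γ → X => (∏ c, f (e₂ c) (v c)) * H₂ v)

/-- one revelation: two families of labels without common class -/
theorem gh_n_level2 {X : Type} [MeasurableSpace X] (μ : Measure X) [SigmaFinite μ] {q q₁ q₂ : ℕ}
    (e₁ : Fin q₁ → Fin q) (e₂ : Fin q₂ → Fin q) (r : Fin q → Fin q) (r₁ : Fin q₁ → Fin q₁) (r₂ : Fin q₂ → Fin q₂)
    (hr₁ : ∀ a, r₁ (r₁ a) = r₁ a) (hr₂ : ∀ a, r₂ (r₂ a) = r₂ a)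
    (hc₁ : ∀ a b, r₁ a = r₁ b ↔ r (e₁ a) = r (e₁ b)) (hc₂ : ∀ a b, r₂ a = r₂ b ↔ r (e₂ a) = r (e₂ b))
    (hdis : ∀ a b, r (e₁ a) ≠ r (e₂ b))
    (f : Fin q → X → ℝ) (f₁ : Fin q₁ → X → ℝ) (f₂ : Fin q₂ → X → ℝ)
    (hf : ∀ a, ∫ x, f a x ∂μ = 1) (hf₁ : ∀ a, ∫ x, f₁ a x ∂μ = 1) (hf₂ : ∀ a, ∫ x, f₂ a x ∂μ = 1)
    (hff₁ : ∀ c, r₁ c = c → f (r (e₁ c)) = f₁ c) (hff₂ : ∀ c, r₂ c = c → f (r (e₂ c)) = f₂ c)
    (Φ₁ : (Fin q₁ → X) → ℝ) (Φ₂ : (Fin q₂ → X) → ℝ) :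
    ∫ W : Fin q → X, (∏ a, f a (W a)) * (Φ₁ (fun a => W (r (e₁ a))) * Φ₂ (fun a => W (r (e₂ a))))
        ∂(Measure.pi fun _ => μ)
      = (∫ W : Fin q₁ → X, (∏ a, f₁ a (W a)) * Φ₁ (fun a => W (r₁ a)) ∂(Measure.pi fun _ => μ))
        * ∫ W : Fin q₂ → X, (∏ a, f₂ a (W a)) * Φ₂ (fun a => W (r₂ a)) ∂(Measure.pi fun _ => μ) := by
  classical
  let κ₁ : {c : Fin q₁ // r₁ c = c} → Fin q := fun c => r (e₁ c.1)
  let κ₂ : {c : Fin q₂ // r₂ c = c} → Fin q := fun c => r (e₂ c.1)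
  have hκ : Function.Injective (Sum.elim κ₁ κ₂) := by
    rintro (c | c) (c' | c') h
    · have h1 : r₁ c.1 = r₁ c'.1 := (hc₁ c.1 c'.1).2 h
      rw [c.2, c'.2] at h1
      exact congrArg Sum.inl (Subtype.ext h1)
    · exact absurd h (hdis _ _)
    · exact absurd h.symm (hdis _ _)
    · have h1 : r₂ c.1 = r₂ c'.1 := (hc₂ c.1 c'.1).2 h
      rw [c.2, c'.2] at h1
      exact congrArg Sum.inr (Subtype.ext h1)
  have L := gh_n_pi_split μ κ₁ κ₂ hκ f (fun a _ => hf a) (fun V => Φ₁ (fun a => V ⟨r₁ a, hr₁ a⟩))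
    (fun V => Φ₂ (fun a => V ⟨r₂ a, hr₂ a⟩))
  have R₁ := gh_n_pi_marg μ (Subtype.val : {c : Fin q₁ // r₁ c = c} → Fin q₁) Subtype.val_injective f₁
    (fun a _ => hf₁ a) (fun V => Φ₁ (fun a => V ⟨r₁ a, hr₁ a⟩))
  have R₂ := gh_n_pi_marg μ (Subtype.val : {c : Fin q₂ // r₂ c = c} → Fin q₂) Subtype.val_injective f₂
    (fun a _ => hf₂ a) (fun V => Φ₂ (fun a => V ⟨r₂ a, hr₂ a⟩))
  have h1 : ∀ a, κ₁ ⟨r₁ a, hr₁ a⟩ = r (e₁ a) := fun a => (hc₁ (r₁ a) a).1 (hr₁ a)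
  have h2 : ∀ a, κ₂ ⟨r₂ a, hr₂ a⟩ = r (e₂ a) := fun a => (hc₂ (r₂ a) a).1 (hr₂ a)
  simp only [h1, h2] at L
  rw [L, R₁, R₂]
  congr 1
  · refine integral_congr_ae (Filter.Eventually.of_forall fun V => ?_)
    simp only
    congr 1
    exact Finset.prod_congr rfl fun c _ => by rw [← hff₁ c.1 c.2]
  · refine integral_congr_ae (Filter.Eventually.of_forall fun V => ?_)
    simp only
    congr 1
    exact Finset.prod_congr rfl fun c _ => by rw [← hff₂ c.1 c.2]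

variable {S ι : Type} [Fintype S] [Fintype ι]

/-- the discrete form of `gh_n_level2` -/
theorem gh_n_level2_sum {q q₁ q₂ : ℕ}
    (e₁ : Fin q₁ → Fin q) (e₂ : Fin q₂ → Fin q) (r : Fin q → Fin q) (r₁ : Fin q₁ → Fin q₁) (r₂ : Fin q₂ → Fin q₂)
    (hr₁ : ∀ a, r₁ (r₁ a) = r₁ a) (hr₂ : ∀ a, r₂ (r₂ a) = r₂ a)
    (hc₁ : ∀ a b, r₁ a = r₁ b ↔ r (e₁ a) = r (e₁ b)) (hc₂ : ∀ a b, r₂ a = r₂ b ↔ r (e₂ a) = r (e₂ b))
    (hdis : ∀ a b, r (e₁ a) ≠ r (e₂ b))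
    (f : Fin q → S → ℝ) (f₁ : Fin q₁ → S → ℝ) (f₂ : Fin q₂ → S → ℝ)
    (hf : ∀ a, ∑ x, f a x = 1) (hf₁ : ∀ a, ∑ x, f₁ a x = 1) (hf₂ : ∀ a, ∑ x, f₂ a x = 1)
    (hff₁ : ∀ c, r₁ c = c → f (r (e₁ c)) = f₁ c) (hff₂ : ∀ c, r₂ c = c → f (r (e₂ c)) = f₂ c)
    (Φ₁ : (Fin q₁ → S) → ℝ) (Φ₂ : (Fin q₂ → S) → ℝ) :
    ∑ W : Fin q → S, (∏ a, f a (W a)) * (Φ₁ (fun a => W (r (e₁ a))) * Φ₂ (fun a => W (r (e₂ a))))
      = (∑ W : Fin q₁ → S, (∏ a, f₁ a (W a)) * Φ₁ (fun a => W (r₁ a)))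
        * ∑ W : Fin q₂ → S, (∏ a, f₂ a (W a)) * Φ₂ (fun a => W (r₂ a)) := by
  let _ : MeasurableSpace S := ⊤
  have : MeasurableSingletonClass S := ⟨fun _ => trivial⟩
  have hc : ∀ g : S → ℝ, ∫ x, g x ∂(Measure.count : Measure S) = ∑ x, g x := by
    intro g
    rw [integral_fintype Integrable.of_finite]
    simp [Measure.real]
  have := gh_n_level2 (Measure.count : Measure S) e₁ e₂ r r₁ r₂ hr₁ hr₂ hc₁ hc₂ hdis f f₁ f₂
    (fun a => by rw [hc]; exact hf a) (fun a => by rw [hc]; exact hf₁ a) (fun a => by rw [hc]; exact hf₂ a)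
    hff₁ hff₂ Φ₁ Φ₂
  rw [gh_n_int_count, gh_n_int_count, gh_n_int_count] at this
  exact this

/-- homogeneity (no hypothesis) -/
theorem gh_n_smul (B : GhB S) (c : ℝ) : ∀ (ls : List (GhLv S ι)) {q : ℕ}
    (rep : ℕ → Fin q → Fin q) (G : Fin q → S → ℝ) (P : (ℕ → Fin q → ι → ℝ) → (Fin q → S) → ℝ),
    ghNu B ls rep G (fun η σ => c * P η σ) = c * ghNu B ls rep G P
  | [], q, rep, G, P => by
      simp only [ghNu]
      rw [Finset.mul_sum]
      exact Finset.sum_congr rfl fun σ _ => by ring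
  | l :: ls, q, rep, G, P => by
      simp only [ghNu]
      simp_rw [gh_n_smul B c ls]
      rw [← integral_const_mul]
      exact integral_congr_ae (Filter.Eventually.of_forall fun W => by simp only; ring)

theorem gh_n_mul_const (B : GhB S) (c : ℝ) (ls : List (GhLv S ι)) {q : ℕ}
    (rep : ℕ → Fin q → Fin q) (G : Fin q → S → ℝ) (P : (ℕ → Fin q → ι → ℝ) → (Fin q → S) → ℝ) :
    ghNu B ls rep G (fun η σ => P η σ * c) = ghNu B ls rep G P * c := by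
  have := gh_n_smul B c ls rep G P
  simp_rw [mul_comm c] at this
  exact this

/-- **independence**: two families of labels which have no common class at the first revelation -/
theorem gh_n_indep (B : GhB S) (hB : B.Ok) : ∀ (ls : List (GhLv S ι)), GhNn ls → ∀ {q q₁ q₂ : ℕ}
    (e₁ : Fin q₁ → Fin q) (e₂ : Fin q₂ → Fin q)
    (rep : ℕ → Fin q → Fin q) (rep₁ : ℕ → Fin q₁ → Fin q₁) (rep₂ : ℕ → Fin q₂ → Fin q₂),
    GhRepOk rep → GhRepOk rep₁ → GhRepOk rep₂ →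
    (∀ t a b, rep₁ t a = rep₁ t b ↔ rep t (e₁ a) = rep t (e₁ b)) →
    (∀ t a b, rep₂ t a = rep₂ t b ↔ rep t (e₂ a) = rep t (e₂ b)) →
    (∀ a b, rep 0 (e₁ a) ≠ rep 0 (e₂ b)) →
    ∀ (G : Fin q → S → ℝ), (∀ a b, rep 0 a = rep 0 b → G a = G b) →
    ∀ (P₁ : (ℕ → Fin q₁ → ι → ℝ) → (Fin q₁ → S) → ℝ) (P₂ : (ℕ → Fin q₂ → ι → ℝ) → (Fin q₂ → S) → ℝ),
    ghNu B ls rep G (fun η σ => P₁ (fun t a => η t (e₁ a)) (fun a => σ (e₁ a)) *
        P₂ (fun t a => η t (e₂ a)) (fun a => σ (e₂ a)))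
      = ghNu B ls rep₁ (fun a => G (e₁ a)) P₁ * ghNu B ls rep₂ (fun a => G (e₂ a)) P₂
  | [], _, q, q₁, q₂, e₁, e₂, rep, rep₁, rep₂, hr, hr₁, hr₂, hc₁, hc₂, hdis, G, hG, P₁, P₂ => by
      simp only [ghNu]
      exact gh_n_level2_sum e₁ e₂ (rep 0) (rep₁ 0) (rep₂ 0) (hr₁.idem 0) (hr₂.idem 0) (hc₁ 0) (hc₂ 0) hdis
        (fun a => ghGw B (G a)) (fun a => ghGw B (G (e₁ a))) (fun a => ghGw B (G (e₂ a)))
        (fun a => gh_b_Gw_sum hB _) (fun a => gh_b_Gw_sum hB _) (fun a => gh_b_Gw_sum hB _)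
        (fun c _ => by rw [hG _ _ (hr.idem 0 (e₁ c))]) (fun c _ => by rw [hG _ _ (hr.idem 0 (e₂ c))])
        (fun τ => P₁ (fun _ _ _ => 0) τ) (fun τ => P₂ (fun _ _ _ => 0) τ)
  | l :: ls, h, q, q₁, q₂, e₁, e₂, rep, rep₁, rep₂, hr, hr₁, hr₂, hc₁, hc₂, hdis, G, hG, P₁, P₂ => by
      simp only [ghNu]
      have hin : ∀ W : Fin q → ι → ℝ,
          ghNu B ls (fun t => rep (t + 1)) (fun a => G a + l.inc (W (rep 0 a)))
            (fun η σ => P₁ (fun t a => ghCons (fun a => W (rep 0 a)) η t (e₁ a)) (fun a => σ (e₁ a)) *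
              P₂ (fun t a => ghCons (fun a => W (rep 0 a)) η t (e₂ a)) (fun a => σ (e₂ a)))
          = ghNu B ls (fun t => rep₁ (t + 1)) (fun a => G (e₁ a) + l.inc (W (rep 0 (e₁ a))))
              (fun η σ => P₁ (ghCons (fun a => W (rep 0 (e₁ a))) η) σ)
            * ghNu B ls (fun t => rep₂ (t + 1)) (fun a => G (e₂ a) + l.inc (W (rep 0 (e₂ a))))
              (fun η σ => P₂ (ghCons (fun a => W (rep 0 (e₂ a))) η) σ) := by
        intro W
        simp_rw [gh_n_cons_comp e₁, gh_n_cons_comp e₂]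
        exact gh_n_indep B hB ls h.tail e₁ e₂ (fun t => rep (t + 1)) (fun t => rep₁ (t + 1)) (fun t => rep₂ (t + 1))
          hr.shift hr₁.shift hr₂.shift (fun t => hc₁ (t + 1)) (fun t => hc₂ (t + 1))
          (fun a b hab => hdis a b (hr.mono 0 _ _ hab)) (fun a => G a + l.inc (W (rep 0 a)))
          (fun a b hab => by rw [hG a b (hr.mono 0 a b hab), hr.mono 0 a b hab])
          (fun η σ => P₁ (ghCons (fun a => W (rep 0 (e₁ a))) η) σ)
          (fun η σ => P₂ (ghCons (fun a => W (rep 0 (e₂ a))) η) σ)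
      simp_rw [hin]
      exact gh_n_level2 (ghStd ι) e₁ e₂ (rep 0) (rep₁ 0) (rep₂ 0) (hr₁.idem 0) (hr₂.idem 0) (hc₁ 0) (hc₂ 0) hdis
        (fun a x => if rep 0 a = a then ghD B l ls (G a) x else 1)
        (fun a x => if rep₁ 0 a = a then ghD B l ls (G (e₁ a)) x else 1)
        (fun a x => if rep₂ 0 a = a then ghD B l ls (G (e₂ a)) x else 1)
        (fun a => gh_n_Dif_integral B hB l ls h _ _) (fun a => gh_n_Dif_integral B hB l ls h _ _)
        (fun a => gh_n_Dif_integral B hB l ls h _ _)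
        (fun c hc => by
          funext x
          rw [if_pos (hr.idem 0 (e₁ c)), if_pos hc, hG _ _ (hr.idem 0 (e₁ c))])
        (fun c hc => by
          funext x
          rw [if_pos (hr.idem 0 (e₂ c)), if_pos hc, hG _ _ (hr.idem 0 (e₂ c))])
        (fun V => ghNu B ls (fun t => rep₁ (t + 1)) (fun a => G (e₁ a) + l.inc (V a))
            (fun η σ => P₁ (ghCons V η) σ))
        (fun V => ghNu B ls (fun t => rep₂ (t + 1)) (fun a => G (e₂ a) + l.inc (V a))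
            (fun η σ => P₂ (ghCons V η) σ))

theorem gh_n_int_fin1 {X : Type} [MeasurableSpace X] (μ : Measure X) [SigmaFinite μ] (g : (Fin 1 → X) → ℝ) :
    ∫ W, g W ∂(Measure.pi fun _ : Fin 1 => μ) = ∫ ξ, g (fun _ => ξ) ∂μ := by
  have h := (measurePreserving_funUnique μ (Fin 1)).symm.integral_comp' g
  have e : (Unique.fintype : Fintype (Fin 1)) = Fin.fintype 1 := Subsingleton.elim _ _
  rw [e] at h
  rw [← h]
  rfl

/-- one label: the tree law is the planted path -/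
theorem gh_n_one (B : GhB S) : ∀ (ls : List (GhLv S ι)) (rep : ℕ → Fin 1 → Fin 1) (G : Fin 1 → S → ℝ)
    (P : (ℕ → Fin 1 → ι → ℝ) → (Fin 1 → S) → ℝ),
    ghNu B ls rep G P = ghPath B ls (G 0) (fun η s => P (fun t _ => η t) (fun _ => s))
  | [], rep, G, P => by
      simp only [ghNu, ghPath]
      rw [← (Equiv.funUnique (Fin 1) S).symm.sum_comp]
      refine Finset.sum_congr rfl fun s _ => ?_
      simp only [Fin.prod_univ_one]
      rfl
  | l :: ls, rep, G, P => by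
      simp only [ghNu, ghPath]
      rw [gh_n_int_fin1]
      refine integral_congr_ae (Filter.Eventually.of_forall fun ξ => ?_)
      simp only
      have hr : ∀ t a, rep t a = a := fun t a => Subsingleton.elim _ _
      rw [gh_n_one B ls]
      simp only [ghDT, Fin.prod_univ_one, hr, if_true]
      congr 2
      funext η s
      congr 1
      funext t a
      cases t <;> rfl

theorem gh_n_path_spin (B : GhB S) (Φ : S → ℝ) : ∀ (ls : List (GhLv S ι)) (z : S → ℝ),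
    ghPath B ls z (fun _ s => Φ s) = ghE B ls Φ z
  | [], z => rfl
  | l :: ls, z => by
      simp only [ghPath, ghE]
      simp_rw [gh_n_path_spin B Φ ls]

theorem gh_n_one_spin (B : GhB S) (Φ : S → ℝ) (ls : List (GhLv S ι)) (rep : ℕ → Fin 1 → Fin 1) (G : Fin 1 → S → ℝ) :
    ghNu B ls rep G (fun _ σ => Φ (σ 0)) = ghE B ls Φ (G 0) := by
  rw [gh_n_one, gh_n_path_spin]

end Claimed.Agent.R286
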