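import Claimed.Agent.R286.Fd.TrB3
import Claimed.Agent.R286.Fd.ExtC
import Claimed.Agent.R286.Fd.NuApiB

/-!
# Row 286 (S0533), Fd/Cut : INEQUALITIES AT A CUT of a positive tree law; independent groups after the cut; the two anchor estimates of PE Lemma 4.8      (owner helper127; prefix `gh_k_`, `tr_k_`, `GhK`, `ghK`)

Design (144, 127): no disintegration.  An inequality `ν[P₁] ≤ ν[P₂]` between two spin tests on the SAME tree follows from the same inequality for the tree law of the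
remaining levels, started at the depth `t` from ARBITRARY per-label fields which are equal on the labels sharing the first `t` stages (`gh_k_cut_mono`, `tr_k_cut`).
After the cut the groups of labels which split by the depth `t` are independent (`tr_k_ind`, from `tr_b3_indep_raw`), marginals are again tree laws (`tr_k_comap`, from `gh_n_inv`).
* Part 1 (abstract, `CvExp (Fin Q → S)`): `GhKDep`, `GhKInd`, Fubini `gh_k_mix`, `gh_k_peel`, abstract anchors `gh_k_abs_raw`, `gh_k_abs_rep`.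
* Part 2 (raw `ghNu`): `ghKExp`, `gh_k_cut_mono`, `gh_k_ind`.
* Part 3 (tables): `tr_k_cut`, `tr_k_ind`, `tr_k_comap`, `tr_k_sub_isTr`.
* Part 4: TEX[PE:comp:projection] in the two forms used by `Cav/Rep` : `tr_k_anchor_raw`, `tr_k_anchor_rep`.
* Part 5: an even number of copies glued at the depth `t` has a nonnegative number: `tr_k_dup_nonneg` (abstract: `gh_k_prod_rule`, `gh_k_abs_nonneg`).
-/

set_option autoImplicit false
set_option linter.unusedSectionVars false

namespace Claimed.Agent.R286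

open MeasureTheory ProbabilityTheory

/-! ## 1. Abstract part: a positive normalised functional on the spin tests of `Q` labels -/

/-- `f` reads the labels of `A` only -/
def GhKDep {S α : Type} {Q : ℕ} (A : Fin Q → Prop) (f : (Fin Q → S) → α) : Prop :=
  ∀ σ σ' : Fin Q → S, (∀ x, A x → σ x = σ' x) → f σ = f σ'

/-- the labels of `A` are independent of the other labels -/
def GhKInd {S : Type} {Q : ℕ} (ν : CvExp (Fin Q → S)) (A : Fin Q → Prop) : Prop :=
  ∀ f g : (Fin Q → S) → ℝ, GhKDep A f → GhKDep (fun x => ¬ A x) g → ν.E (fun σ => f σ * g σ) = ν.E f * ν.E g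

/-- normalised inner product -/
noncomputable def ghKIp {n : ℕ} (ξ ξ' : Fin n → ℝ) : ℝ := (∑ k, ξ k * ξ' k) / n

theorem gh_k_eqns_cite : True := by
  have := @GhKDep.eq_1
  have := @GhKInd.eq_1
  have := @ghKIp.eq_1
  trivial

section abs
variable {S : Type} {Q : ℕ}

theorem GhKDep.mono {α : Type} {A A' : Fin Q → Prop} {f : (Fin Q → S) → α} (h : GhKDep A f) (hA : ∀ x, A x → A' x) :
    GhKDep A' f := fun σ σ' hσ => h σ σ' fun x hx => hσ x (hA x hx)

theorem gh_k_dep_const {α : Type} (A : Fin Q → Prop) (c : α) : GhKDep A (fun _ : Fin Q → S => c) := fun _ _ _ => rfl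

theorem GhKDep.mul {A : Fin Q → Prop} {f g : (Fin Q → S) → ℝ} (hf : GhKDep A f) (hg : GhKDep A g) :
    GhKDep A fun σ => f σ * g σ := fun σ σ' h => by simp only [hf σ σ' h, hg σ σ' h]

theorem GhKDep.ip {n : ℕ} {A : Fin Q → Prop} {f g : (Fin Q → S) → Fin n → ℝ} (hf : GhKDep A f) (hg : GhKDep A g) :
    GhKDep A fun σ => ghKIp (f σ) (g σ) := fun σ σ' h => by simp only [hf σ σ' h, hg σ σ' h]

theorem GhKDep.app {n : ℕ} {A : Fin Q → Prop} {f : (Fin Q → S) → Fin n → ℝ} (hf : GhKDep A f) (m : Fin n) :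
    GhKDep A fun σ => f σ m := fun σ σ' h => by simp only [hf σ σ' h]

theorem GhKDep.prod {κ : Type} {A : Fin Q → Prop} (s : Finset κ) {f : κ → (Fin Q → S) → ℝ} (hf : ∀ i ∈ s, GhKDep A (f i)) :
    GhKDep A fun σ => ∏ i ∈ s, f i σ := fun σ σ' h => Finset.prod_congr rfl fun i hi => hf i hi σ σ' h

theorem gh_k_ip_comm {n : ℕ} (ξ ξ' : Fin n → ℝ) : ghKIp ξ ξ' = ghKIp ξ' ξ := by
  unfold ghKIp
  congr 1
  exact Finset.sum_congr rfl fun _ _ => mul_comm _ _

/-- **Fubini for two independent groups**: the labels of `A` and the other labels may be drawn from two independent copies -/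
theorem gh_k_mix [Fintype S] (ν : CvExp (Fin Q → S)) (A : Fin Q → Prop) [DecidablePred A] (hA : GhKInd ν A)
    (h : (Fin Q → S) → ℝ) :
    ν.E h = ν.E fun σ => ν.E fun σ' => h fun x => if A x then σ x else σ' x := by
  classical
  let I1 : (Fin Q → S) → (Fin Q → S) → ℝ := fun ρ σ => if ∀ x, A x → σ x = ρ x then 1 else 0
  let I2 : (Fin Q → S) → (Fin Q → S) → ℝ := fun ρ σ => if ∀ x, ¬ A x → σ x = ρ x then 1 else 0
  have key : ∀ σ σ' : Fin Q → S, h (fun x => if A x then σ x else σ' x) = ∑ ρ, h ρ * (I1 ρ σ * I2 ρ σ') := by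
    intro σ σ'
    rw [Finset.sum_eq_single (fun x => if A x then σ x else σ' x)]
    · have h1 : I1 (fun x => if A x then σ x else σ' x) σ = 1 := if_pos fun x hx => by simp only [if_pos hx]
      have h2 : I2 (fun x => if A x then σ x else σ' x) σ' = 1 := if_pos fun x hx => by simp only [if_neg hx]
      rw [h1, h2]
      ring
    · intro ρ _ hρ
      by_cases h1 : ∀ x, A x → σ x = ρ x
      · by_cases h2 : ∀ x, ¬ A x → σ' x = ρ x
        · exfalso
          apply hρ
          funext x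
          by_cases hx : A x
          · simp only [if_pos hx, h1 x hx]
          · simp only [if_neg hx, h2 x hx]
        · have : I2 ρ σ' = 0 := if_neg h2
          rw [this]
          ring
      · have : I1 ρ σ = 0 := if_neg h1
        rw [this]
        ring
    · intro hn
      exact absurd (Finset.mem_univ _) hn
  have d1 : ∀ ρ, GhKDep A (I1 ρ) := by
    intro ρ σ σ' hσ
    have : (∀ x, A x → σ x = ρ x) ↔ ∀ x, A x → σ' x = ρ x :=
      ⟨fun h x hx => by rw [← hσ x hx]; exact h x hx, fun h x hx => by rw [hσ x hx]; exact h x hx⟩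
    simp only [I1, this]
  have d2 : ∀ ρ, GhKDep (fun x => ¬ A x) (I2 ρ) := by
    intro ρ σ σ' hσ
    have : (∀ x, ¬ A x → σ x = ρ x) ↔ ∀ x, ¬ A x → σ' x = ρ x :=
      ⟨fun h x hx => by rw [← hσ x hx]; exact h x hx, fun h x hx => by rw [hσ x hx]; exact h x hx⟩
    simp only [I2, this]
  have e1 : h = fun σ => ∑ ρ, h ρ * (I1 ρ σ * I2 ρ σ) := by
    funext σ
    rw [← key σ σ]
    congr 1
    funext x
    split_ifs <;> rfl
  have L : ν.E h = ∑ ρ, h ρ * (ν.E (I1 ρ) * ν.E (I2 ρ)) := by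
    conv_lhs => rw [e1]
    rw [ν.sum]
    refine Finset.sum_congr rfl fun ρ _ => ?_
    rw [ν.smul, hA _ _ (d1 ρ) (d2 ρ)]
  rw [L]
  simp_rw [key]
  have R1 : ∀ σ, ν.E (fun σ' => ∑ ρ, h ρ * (I1 ρ σ * I2 ρ σ')) = ∑ ρ, (h ρ * ν.E (I2 ρ)) * I1 ρ σ := by
    intro σ
    rw [ν.sum]
    refine Finset.sum_congr rfl fun ρ _ => ?_
    rw [ν.smul, ν.smul]
    ring
  simp_rw [R1]
  rw [ν.sum]
  refine Finset.sum_congr rfl fun ρ _ => ?_
  rw [ν.smul]
  ring

/-- **one independent vector is replaced by its mean** -/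
theorem gh_k_peel {n : ℕ} (ν : CvExp (Fin Q → S)) (A : Fin Q → Prop) (hA : GhKInd ν A)
    (f u : (Fin Q → S) → Fin n → ℝ) (g : (Fin Q → S) → ℝ) (hf : GhKDep A f) (hu : GhKDep (fun x => ¬ A x) u)
    (hg : GhKDep (fun x => ¬ A x) g) (V : Fin n → ℝ) (hV : ∀ m, ν.E (fun σ => f σ m) = V m) :
    ν.E (fun σ => ghKIp (f σ) (u σ) * g σ) = ν.E fun σ => ghKIp V (u σ) * g σ := by
  have e1 : (fun σ => ghKIp (f σ) (u σ) * g σ) = fun σ => ∑ m, (n : ℝ)⁻¹ * (f σ m * (u σ m * g σ)) := by
    funext σ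
    unfold ghKIp
    rw [div_eq_mul_inv, Finset.sum_mul, Finset.sum_mul]
    exact Finset.sum_congr rfl fun m _ => by ring
  have e2 : (fun σ => ghKIp V (u σ) * g σ) = fun σ => ∑ m, ((n : ℝ)⁻¹ * V m) * (u σ m * g σ) := by
    funext σ
    unfold ghKIp
    rw [div_eq_mul_inv, Finset.sum_mul, Finset.sum_mul]
    exact Finset.sum_congr rfl fun m _ => by ring
  rw [e1, e2, ν.sum, ν.sum]
  refine Finset.sum_congr rfl fun m _ => ?_
  rw [ν.smul, ν.smul, hA _ _ (hf.app m) ((hu.app m).mul hg), hV m]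
  ring

/-- abstract anchor estimate, EXTERIOR anchor `w` (independent of the pair read by `D`) -/
theorem gh_k_abs_raw [Fintype S] {n : ℕ} (ν : CvExp (Fin Q → S)) (A : Fin Q → Prop) (hA : GhKInd ν A)
    (w D : (Fin Q → S) → Fin n → ℝ) (hw : GhKDep A w) (hD : GhKDep (fun x => ¬ A x) D) (k : ℕ) (C : ℝ)
    (hp : ∀ ξ : Fin n → ℝ, ν.E (fun σ => ghKIp ξ (D σ) ^ (2 * k)) ≤ C * ghKIp ξ ξ ^ k) :
    ν.E (fun σ => ghKIp (w σ) (D σ) ^ (2 * k)) ≤ C * ν.E fun σ => ghKIp (w σ) (w σ) ^ k := by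
  classical
  rw [gh_k_mix ν A hA, ← ν.smul]
  refine ν.mono _ _ fun σ => ?_
  have e : (fun σ' : Fin Q → S =>
      ghKIp (w fun x => if A x then σ x else σ' x) (D fun x => if A x then σ x else σ' x) ^ (2 * k))
      = fun σ' => ghKIp (w σ) (D σ') ^ (2 * k) := by
    funext σ'
    rw [hw _ σ fun x hx => by simp only [if_pos hx], hD _ σ' fun x hx => by simp only [if_neg hx]]
  rw [e]
  exact hp (w σ)

/-- the independent copies `w i`, `i ∈ s`, are replaced by their common mean `V` -/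
theorem gh_k_abs_left {n : ℕ} (ν : CvExp (Fin Q → S)) (A : ℕ → Fin Q → Prop)
    (hdis : ∀ i i', i ≠ i' → ∀ x, A i x → ¬ A i' x)
    (w : ℕ → (Fin Q → S) → Fin n → ℝ) (D : (Fin Q → S) → Fin n → ℝ) (V : Fin n → ℝ) (s : Finset ℕ) :
    (∀ i ∈ s, GhKInd ν (A i)) → (∀ i ∈ s, GhKDep (A i) (w i)) → (∀ i ∈ s, ∀ m, ν.E (fun σ => w i σ m) = V m) →
    (∀ i ∈ s, GhKDep (fun x => ¬ A i x) D) →
    ∀ g : (Fin Q → S) → ℝ, (∀ i ∈ s, GhKDep (fun x => ¬ A i x) g) →
    ν.E (fun σ => (∏ i ∈ s, ghKIp (w i σ) (D σ)) * g σ) = ν.E fun σ => ghKIp V (D σ) ^ s.card * g σ := by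
  classical
  induction s using Finset.induction_on with
  | empty =>
    intro _ _ _ _ g _
    simp
  | insert i0 s hi0 ih =>
    intro hind hw hV hD g hg
    have m0 : i0 ∈ insert i0 s := Finset.mem_insert_self _ _
    have ms : ∀ i ∈ s, i ∈ insert i0 s := fun i hi => Finset.mem_insert_of_mem hi
    have ih' := ih (fun i hi => hind i (ms i hi)) (fun i hi => hw i (ms i hi)) (fun i hi => hV i (ms i hi))
      (fun i hi => hD i (ms i hi))
    have dp : GhKDep (fun x => ¬ A i0 x) fun σ => (∏ i ∈ s, ghKIp (w i σ) (D σ)) * g σ := by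
      refine (GhKDep.prod s fun i hi => ?_).mul (hg i0 m0)
      refine GhKDep.ip ((hw i (ms i hi)).mono fun x hx => hdis i i0 ?_ x hx) (hD i0 m0)
      rintro rfl
      exact hi0 hi
    calc ν.E (fun σ => (∏ i ∈ insert i0 s, ghKIp (w i σ) (D σ)) * g σ)
        = ν.E (fun σ => ghKIp (w i0 σ) (D σ) * ((∏ i ∈ s, ghKIp (w i σ) (D σ)) * g σ)) := by
          congr 1
          funext σ
          rw [Finset.prod_insert hi0]
          ring
      _ = ν.E (fun σ => ghKIp V (D σ) * ((∏ i ∈ s, ghKIp (w i σ) (D σ)) * g σ)) :=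
          gh_k_peel ν (A i0) (hind i0 m0) (w i0) D _ (hw i0 m0) (hD i0 m0) dp V (hV i0 m0)
      _ = ν.E (fun σ => (∏ i ∈ s, ghKIp (w i σ) (D σ)) * (ghKIp V (D σ) * g σ)) := by
          congr 1
          funext σ
          ring
      _ = ν.E (fun σ => ghKIp V (D σ) ^ s.card * (ghKIp V (D σ) * g σ)) :=
          ih' _ fun i hi => ((gh_k_dep_const _ V).ip (hD i (ms i hi))).mul (hg i (ms i hi))
      _ = ν.E (fun σ => ghKIp V (D σ) ^ (insert i0 s).card * g σ) := by
          rw [Finset.card_insert_of_notMem hi0]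
          congr 1
          funext σ
          ring

/-- the pairs of independent copies give `|V|²` -/
theorem gh_k_abs_right {n : ℕ} (ν : CvExp (Fin Q → S)) (A : ℕ → Fin Q → Prop)
    (hdis : ∀ i i', i ≠ i' → ∀ x, A i x → ¬ A i' x)
    (w : ℕ → (Fin Q → S) → Fin n → ℝ) (V : Fin n → ℝ) : ∀ k : ℕ,
    (∀ i, i < 2 * k → GhKInd ν (A i)) → (∀ i, i < 2 * k → GhKDep (A i) (w i)) →
    (∀ i, i < 2 * k → ∀ m, ν.E (fun σ => w i σ m) = V m) →
    ν.E (fun σ => ∏ i ∈ Finset.range k, ghKIp (w (2 * i) σ) (w (2 * i + 1) σ)) = ghKIp V V ^ k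
  | 0, _, _, _ => by simp [ν.one]
  | k + 1, hind, hw, hV => by
    have ih := gh_k_abs_right ν A hdis w V k (fun i hi => hind i (by omega)) (fun i hi => hw i (by omega))
      (fun i hi => hV i (by omega))
    have dp : ∀ j, 2 * k ≤ j → GhKDep (fun x => ¬ A j x)
        fun σ => ∏ i ∈ Finset.range k, ghKIp (w (2 * i) σ) (w (2 * i + 1) σ) := by
      intro j hj
      refine GhKDep.prod _ fun i hi => ?_
      have hi' := Finset.mem_range.1 hi
      exact GhKDep.ip ((hw (2 * i) (by omega)).mono fun x hx => hdis _ _ (by omega) x hx)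
        ((hw (2 * i + 1) (by omega)).mono fun x hx => hdis _ _ (by omega) x hx)
    calc ν.E (fun σ => ∏ i ∈ Finset.range (k + 1), ghKIp (w (2 * i) σ) (w (2 * i + 1) σ))
        = ν.E (fun σ => ghKIp (w (2 * k) σ) (w (2 * k + 1) σ)
            * ∏ i ∈ Finset.range k, ghKIp (w (2 * i) σ) (w (2 * i + 1) σ)) := by
          congr 1
          funext σ
          rw [Finset.prod_range_succ]
          ring
      _ = ν.E (fun σ => ghKIp V (w (2 * k + 1) σ) * ∏ i ∈ Finset.range k, ghKIp (w (2 * i) σ) (w (2 * i + 1) σ)) :=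
          gh_k_peel ν (A (2 * k)) (hind _ (by omega)) (w (2 * k)) (w (2 * k + 1)) _ (hw _ (by omega))
            ((hw (2 * k + 1) (by omega)).mono fun x hx => hdis _ _ (by omega) x hx) (dp _ (by omega)) V (hV _ (by omega))
      _ = ν.E (fun σ => ghKIp (w (2 * k + 1) σ) V * ∏ i ∈ Finset.range k, ghKIp (w (2 * i) σ) (w (2 * i + 1) σ)) := by
          congr 1
          funext σ
          rw [gh_k_ip_comm]
      _ = ν.E (fun σ => ghKIp V V * ∏ i ∈ Finset.range k, ghKIp (w (2 * i) σ) (w (2 * i + 1) σ)) :=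
          gh_k_peel ν (A (2 * k + 1)) (hind _ (by omega)) (w (2 * k + 1)) (fun _ => V) _ (hw _ (by omega))
            (gh_k_dep_const _ V) (dp _ (by omega)) V (hV _ (by omega))
      _ = ghKIp V V ^ (k + 1) := by
          rw [ν.smul, ih]
          ring

/-- abstract anchor estimate, PROJECTED anchor in replica form: `2k` independent copies `w i` of the weight, common mean `V` -/
theorem gh_k_abs_rep {n : ℕ} (ν : CvExp (Fin Q → S)) (A : ℕ → Fin Q → Prop)
    (hdis : ∀ i i', i ≠ i' → ∀ x, A i x → ¬ A i' x)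
    (w : ℕ → (Fin Q → S) → Fin n → ℝ) (D : (Fin Q → S) → Fin n → ℝ) (V : Fin n → ℝ) (k : ℕ) (C : ℝ)
    (hind : ∀ i, i < 2 * k → GhKInd ν (A i)) (hw : ∀ i, i < 2 * k → GhKDep (A i) (w i))
    (hV : ∀ i, i < 2 * k → ∀ m, ν.E (fun σ => w i σ m) = V m)
    (hD : ∀ i, i < 2 * k → GhKDep (fun x => ¬ A i x) D)
    (hp : ν.E (fun σ => ghKIp V (D σ) ^ (2 * k)) ≤ C * ghKIp V V ^ k) :
    ν.E (fun σ => ∏ i ∈ Finset.range (2 * k), ghKIp (w i σ) (D σ))
      ≤ C * ν.E fun σ => ∏ i ∈ Finset.range k, ghKIp (w (2 * i) σ) (w (2 * i + 1) σ) := by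
  rw [gh_k_abs_right ν A hdis w V k hind hw hV]
  have h := gh_k_abs_left ν A hdis w D V (Finset.range (2 * k)) (fun i hi => hind i (Finset.mem_range.1 hi))
    (fun i hi => hw i (Finset.mem_range.1 hi)) (fun i hi => hV i (Finset.mem_range.1 hi))
    (fun i hi => hD i (Finset.mem_range.1 hi)) (fun _ => 1) (fun i _ => gh_k_dep_const _ 1)
  simp only [mul_one, Finset.card_range] at h
  rw [h]
  exact hp

/-- product rule for several independent groups -/
theorem gh_k_prod_rule (ν : CvExp (Fin Q → S)) (A : ℕ → Fin Q → Prop) (hdis : ∀ i i', i ≠ i' → ∀ x, A i x → ¬ A i' x)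
    (f : ℕ → (Fin Q → S) → ℝ) (s : Finset ℕ) :
    (∀ i ∈ s, GhKInd ν (A i)) → (∀ i ∈ s, GhKDep (A i) (f i)) →
    ν.E (fun σ => ∏ i ∈ s, f i σ) = ∏ i ∈ s, ν.E (f i) := by
  classical
  induction s using Finset.induction_on with
  | empty =>
    intro _ _
    simp [ν.one]
  | insert i0 s hi0 ih =>
    intro hind hf
    have m0 : i0 ∈ insert i0 s := Finset.mem_insert_self _ _
    have ms : ∀ i ∈ s, i ∈ insert i0 s := fun i hi => Finset.mem_insert_of_mem hi
    simp only [Finset.prod_insert hi0]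
    rw [hind i0 m0 (f i0) _ (hf i0 m0) (GhKDep.prod s fun i hi => (hf i (ms i hi)).mono fun x hx => hdis i i0 (by
        rintro rfl
        exact hi0 hi) x hx),
      ih (fun i hi => hind i (ms i hi)) fun i hi => hf i (ms i hi)]

/-- **an even number of conditionally independent copies**: given the labels of `A0` the factors `h i` are independent (they read `A i` and `A0`) with the same conditional mean `m` -/
theorem gh_k_abs_nonneg [Fintype S] (ν : CvExp (Fin Q → S)) (A : ℕ → Fin Q → Prop)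
    (hdis : ∀ i i', i ≠ i' → ∀ x, A i x → ¬ A i' x) (A0 : Fin Q → Prop) [DecidablePred A0] (hA0 : GhKInd ν A0)
    (h : ℕ → (Fin Q → S) → ℝ) (k : ℕ) (hind : ∀ i, i < 2 * k → GhKInd ν (A i))
    (hdep : ∀ i, i < 2 * k → GhKDep (fun x => A i x ∨ A0 x) (h i)) (m : (Fin Q → S) → ℝ)
    (hm : ∀ i, i < 2 * k → ∀ σ, ν.E (fun σ' => h i fun x => if A0 x then σ x else σ' x) = m σ) :
    0 ≤ ν.E fun σ => ∏ i ∈ Finset.range (2 * k), h i σ := by
  rw [gh_k_mix ν A0 hA0]
  refine ν.nonneg fun σ => ?_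
  rw [gh_k_prod_rule ν A hdis (fun i σ' => h i fun x => if A0 x then σ x else σ' x) (Finset.range (2 * k))
    (fun i hi => hind i (Finset.mem_range.1 hi)) fun i hi σ₁ σ₂ h12 => hdep i (Finset.mem_range.1 hi) _ _ fun x hx => by
      by_cases h0 : A0 x
      · simp only [if_pos h0]
      · simp only [if_neg h0]
        exact h12 x (hx.resolve_right h0)]
  rw [Finset.prod_congr rfl fun i hi => hm i (Finset.mem_range.1 hi) σ, Finset.prod_const, Finset.card_range]
  exact (even_two_mul k).pow_nonneg _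

end abs

/-! ## 2. The raw tree law -/

section raw
variable {S ι : Type} [Fintype S] [Fintype ι]

theorem gh_k_nn_drop {ls : List (GhLv S ι)} (h : GhNn ls) (t : ℕ) : GhNn (ls.drop t) :=
  fun l hl => h l (List.mem_of_mem_drop hl)

/-- the raw tree law (any representatives, per-label fields) as a positive normalised functional on the spin tests -/
noncomputable def ghKExp {B : GhB S} (hB : B.Ok) {ls : List (GhLv S ι)} (hnn : GhNn ls) {Q : ℕ} (rep : ℕ → Fin Q → Fin Q)
    (G : Fin Q → S → ℝ) : CvExp (Fin Q → S) where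
  E := fun h => ghNu B ls rep G fun _ σ => h σ
  add := fun f g => by
    have := tr_b1_nu_sum hB (Finset.univ : Finset Bool) (fun _ => 1) (fun b => if b then f else g) ls hnn rep G
    simpa using this
  smul := fun c f => gh_n_smul B c ls rep G fun _ σ => f σ
  mono := fun f g h => by
    have h1 := gh_n_nonneg B hB ls rep G (fun _ σ => 1 * g σ + (-1) * f σ) fun _ σ => by
      have := h σ
      linarith
    have h2 := tr_b1_nu_sum hB (Finset.univ : Finset Bool) (fun b => if b then 1 else -1) (fun b => if b then g else f)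
      ls hnn rep G
    simp only [Fintype.sum_bool, if_true, Bool.false_eq_true, if_false] at h2
    rw [h2] at h1
    linarith
  one := gh_n_const B hB 1 ls hnn rep G

theorem gh_k_exp_E {B : GhB S} (hB : B.Ok) {ls : List (GhLv S ι)} (hnn : GhNn ls) {Q : ℕ} (rep : ℕ → Fin Q → Fin Q)
    (G : Fin Q → S → ℝ) (h : (Fin Q → S) → ℝ) : (ghKExp hB hnn rep G).E h = ghNu B ls rep G fun _ σ => h σ := rfl

theorem gh_k_exp_eqns_cite : True := by
  have := @ghKExp.eq_1
  trivial

/-- **an inequality between two spin tests passes through a cut**: it is enough to prove it for the remaining levels, from all the per-label fields which are equal on the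
pairs of `R` (pairs of labels which share the first `t` revelations) -/
theorem gh_k_cut_mono {B : GhB S} (hB : B.Ok) {Q : ℕ} (R : Fin Q → Fin Q → Prop) (P₁ P₂ : (Fin Q → S) → ℝ) :
    ∀ (t : ℕ) (ls : List (GhLv S ι)), GhNn ls → t ≤ ls.length → ∀ (rep : ℕ → Fin Q → Fin Q),
    (∀ x y, R x y → ∀ s, s < t → rep s x = rep s y) →
    (∀ G' : Fin Q → S → ℝ, (∀ x y, R x y → G' x = G' y) →
      ghNu B (ls.drop t) (fun s => rep (s + t)) G' (fun _ σ => P₁ σ) ≤ ghNu B (ls.drop t) (fun s => rep (s + t)) G' (fun _ σ => P₂ σ)) →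
    ∀ G : Fin Q → S → ℝ, (∀ x y, R x y → G x = G y) →
    ghNu B ls rep G (fun _ σ => P₁ σ) ≤ ghNu B ls rep G (fun _ σ => P₂ σ)
  | 0, ls, _, _, rep, _, h, G, hG => by
      have := h G hG
      simpa using this
  | t + 1, [], _, ht, _, _, _, _, _ => by simp at ht
  | t + 1, l :: ls, hnn, ht, rep, hR, h, G, hG => by
      simp only [ghNu]
      refine integral_mono (tr_b1_int hB l ls hnn (rep 0) (fun s => rep (s + 1)) G P₁)
        (tr_b1_int hB l ls hnn (rep 0) (fun s => rep (s + 1)) G P₂) fun W => ?_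
      refine mul_le_mul_of_nonneg_left ?_ (gh_n_DT_nonneg B l ls _ _ _)
      exact gh_k_cut_mono hB R P₁ P₂ t ls hnn.tail (by simpa using ht) (fun s => rep (s + 1))
        (fun x y hxy s hs => hR x y hxy (s + 1) (by omega)) h _
        (fun x y hxy => by rw [hG x y hxy, hR x y hxy 0 (by omega)])

/-- independence of two groups of labels which never share a class -/
theorem gh_k_ind [Inhabited S] {B : GhB S} (hB : B.Ok) {ls : List (GhLv S ι)} (hnn : GhNn ls) {Q : ℕ}
    (rep : ℕ → Fin Q → Fin Q) (G : Fin Q → S → ℝ) (A : Fin Q → Prop) (hA : ∀ t a, A (rep t a) ↔ A a) :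
    GhKInd (ghKExp hB hnn rep G) A := fun f g hf hg =>
  tr_b3_indep_raw B hB ls hnn rep A hA G G G (fun _ _ => rfl) (fun _ _ => rfl) (fun _ σ => f σ) (fun _ σ => g σ)
    (fun _ _ σ σ' _ h => hf σ σ' h) (fun _ _ σ σ' _ h => hg σ σ' h)

end raw

/-! ## 3. Tables -/

theorem tr_k_sub_isTr {N Q : ℕ} {τ : ℕ → ℕ → ℕ} (hτ : IsTr N Q τ) {t : ℕ} (ht : t ≤ N) :
    IsTr (N - t) Q fun x y => τ x y - t where
  le := fun x y hx hy => by
    have := hτ.le x y hx hy
    omega
  diag := fun x hx => by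
    have := hτ.diag x hx
    omega
  symm := fun x y hx hy => by rw [hτ.symm x y hx hy]
  ultra := fun x y z hx hy hz => by
    have := hτ.ultra x y z hx hy hz
    omega

theorem tr_k_rep_add (Q : ℕ) (τ : ℕ → ℕ → ℕ) (t s : ℕ) : trRep Q τ (s + t) = trRep Q (fun x y => τ x y - t) s :=
  tr_e_rep_congr fun a b => by omega

section tab
variable {S ι : Type} [Fintype S] [Fintype ι] [Inhabited S]

/-- **cut of a table at the depth `t`** -/
theorem tr_k_cut {B : GhB S} (hB : B.Ok) {ls : List (GhLv S ι)} (hnn : GhNn ls) {Q : ℕ} {τ : ℕ → ℕ → ℕ}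
    (hτ : IsTr ls.length Q τ) (z : S → ℝ) {t : ℕ} (ht : t ≤ ls.length) (P₁ P₂ : (ℕ → S) → ℝ)
    (h : ∀ G : Fin Q → S → ℝ, (∀ x y : Fin Q, t ≤ τ x.1 y.1 → G x = G y) →
      (ghKExp hB (gh_k_nn_drop hnn t) (fun s => trRep Q (fun x y => τ x y - t) s) G).E (fun σ => P₁ (trExt σ))
        ≤ (ghKExp hB (gh_k_nn_drop hnn t) (fun s => trRep Q (fun x y => τ x y - t) s) G).E fun σ => P₂ (trExt σ)) :
    trNu B ls Q τ z P₁ ≤ trNu B ls Q τ z P₂ := by
  unfold trNu
  refine gh_k_cut_mono hB (fun x y : Fin Q => t ≤ τ x.1 y.1) (fun σ => P₁ (trExt σ)) (fun σ => P₂ (trExt σ)) t ls hnn ht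
    (fun s => trRep Q τ s) (fun x y hxy s hs => ?_) (fun G' hG' => ?_) (fun _ => z) (fun _ _ _ => rfl)
  · rw [tb2_rep_iff hτ]
    right
    omega
  · have := h G' hG'
    simp only [gh_k_exp_E] at this
    simp only [tr_k_rep_add]
    exact this

/-- groups of labels which split at the root are independent, whatever the per-label fields -/
theorem tr_k_ind {B : GhB S} (hB : B.Ok) {ls : List (GhLv S ι)} (hnn : GhNn ls) {N Q : ℕ} {τ : ℕ → ℕ → ℕ}
    (hτ : IsTr N Q τ) (G : Fin Q → S → ℝ) (A : Fin Q → Prop) (hA : ∀ x y : Fin Q, A x → ¬ A y → τ x.1 y.1 = 0) :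
    GhKInd (ghKExp hB hnn (fun s => trRep Q τ s) G) A := by
  refine gh_k_ind hB hnn _ G A fun t a => ?_
  rcases tr_b3_rep_spec Q τ t a with h | h
  · simp only [h]
  · constructor
    · intro h1
      by_contra h2
      have := hA _ _ h1 h2
      rw [hτ.symm _ _ (trRep Q τ t a).2 a.2] at this
      omega
    · intro h1
      by_contra h2
      have := hA _ _ h1 h2
      omega

/-- **marginals with per-label fields**: pull-back along any map of labels -/
theorem tr_k_comap {B : GhB S} (hB : B.Ok) {ls : List (GhLv S ι)} (hnn : GhNn ls) {Q p : ℕ} {τ : ℕ → ℕ → ℕ}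
    (hτ : IsTr ls.length Q τ) (f : ℕ → ℕ) (hf : ∀ x, x < p → f x < Q) (G : Fin Q → S → ℝ)
    (hG : ∀ x y : Fin Q, 0 < τ x.1 y.1 → G x = G y) (P : (Fin p → S) → ℝ) :
    (ghKExp hB hnn (fun s => trRep Q τ s) G).E (fun σ => P fun a => σ ⟨f a.1, hf a.1 a.2⟩)
      = (ghKExp hB hnn (fun s => trRep p (fun x y => τ (f x) (f y)) s) fun a => G ⟨f a.1, hf a.1 a.2⟩).E P := by
  have hτ' : IsTr ls.length p fun x y => τ (f x) (f y) := tr_comap_isTr hτ f hf
  simp only [gh_k_exp_E]
  rw [tb2_nu_rep_congr B ls (fun t => trRep Q τ t) (fun t => trRep Q τ (min t ls.length))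
      (fun t ht => by rw [min_eq_left ht]),
    tb2_nu_rep_congr B ls (fun t => trRep p (fun x y => τ (f x) (f y)) t)
      (fun t => trRep p (fun x y => τ (f x) (f y)) (min t ls.length)) (fun t ht => by rw [min_eq_left ht])]
  exact gh_n_inv B hB ls hnn (fun a : Fin p => (⟨f a.1, hf a.1 a.2⟩ : Fin Q)) (fun t => trRep Q τ (min t ls.length))
    (fun t => trRep p (fun x y => τ (f x) (f y)) (min t ls.length)) (tb2_repOk_min hτ) (tb2_repOk_min hτ')
    (fun t a b => by
      rw [tb2_rep_iff hτ, tb2_rep_iff hτ']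
      constructor
      · rintro (h | h)
        · left; rw [h]
        · right; exact h
      · rintro (h | h)
        · right
          have h1 : f a.1 = f b.1 := congrArg Fin.val h
          rw [h1, hτ.diag _ (hf b.1 b.2)]
          exact Nat.lt_succ_of_le (min_le_right _ _)
        · right; exact h)
    G (fun a b hab => by
      rw [Nat.zero_min, tb2_rep_iff hτ] at hab
      rcases hab with h | h
      · rw [h]
      · exact hG a b h) (fun _ σ => P σ)

/-- only the values of the table on the labels matter -/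
theorem tr_k_congr {B : GhB S} (hB : B.Ok) {ls : List (GhLv S ι)} (hnn : GhNn ls) {Q : ℕ} {τ τ' : ℕ → ℕ → ℕ}
    (h : ∀ x y, x < Q → y < Q → τ x y = τ' x y) (G : Fin Q → S → ℝ) :
    ghKExp hB hnn (fun s => trRep Q τ s) G = ghKExp hB hnn (fun s => trRep Q τ' s) G := by
  have : (fun s => trRep Q τ s) = fun s => trRep Q τ' s := by
    funext s
    exact tr_e_rep_congr fun a b => by rw [h a.1 b.1 a.2 b.2]
  rw [this]

/-- constant fields: the tree number -/
theorem tr_k_const {B : GhB S} (hB : B.Ok) {ls : List (GhLv S ι)} (hnn : GhNn ls) (Q : ℕ) (τ : ℕ → ℕ → ℕ) (g : S → ℝ)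
    (P : (ℕ → S) → ℝ) : (ghKExp hB hnn (fun s => trRep Q τ s) fun _ => g).E (fun σ => P (trExt σ)) = trNu B ls Q τ g P := rfl

end tab

/-! ## 4. The anchor estimates -/

/-- the table of the copies (`= trDupK` of `Cav/Rep`): the copy `i` of the leaf `b < q` is the label `b + i q`; different copies of leaves of `E` share at most `t` stages,
the copies of a leaf outside `E` coincide -/
def trKDup (q : ℕ) (τ : ℕ → ℕ → ℕ) (t : ℕ) (E : ℕ → Prop) [DecidablePred E] : ℕ → ℕ → ℕ := fun x y =>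
  if x / q = y / q then τ (x % q) (y % q)
  else if E (x % q) ∧ E (y % q) then min (τ (x % q) (y % q)) t else τ (x % q) (y % q)

theorem tr_k_dup_eqns_cite : True := by
  have := @trKDup.eq_1
  trivial

theorem tr_k_dup_same (q : ℕ) (τ : ℕ → ℕ → ℕ) (t : ℕ) (E : ℕ → Prop) [DecidablePred E] {i b b' : ℕ} (hb : b < q) (hb' : b' < q) :
    trKDup q τ t E (b + i * q) (b' + i * q) = τ b b' := by
  have hq : 0 < q := by omega
  unfold trKDup
  have e1 : (b + i * q) / q = i := by rw [Nat.add_mul_div_right _ _ hq, Nat.div_eq_of_lt hb, zero_add]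
  have e2 : (b' + i * q) / q = i := by rw [Nat.add_mul_div_right _ _ hq, Nat.div_eq_of_lt hb', zero_add]
  rw [if_pos (e1.trans e2.symm), Nat.add_mul_mod_self_right, Nat.add_mul_mod_self_right, Nat.mod_eq_of_lt hb, Nat.mod_eq_of_lt hb']

theorem tr_k_dup_copy {N q : ℕ} {τ : ℕ → ℕ → ℕ} (hτ : IsTr N q τ) {t : ℕ} (ht : t ≤ N) (E : ℕ → Prop) [DecidablePred E]
    {i i' b : ℕ} (hb : b < q) : t ≤ trKDup q τ t E (b + i * q) (b + i' * q) := by
  unfold trKDup
  rw [Nat.add_mul_mod_self_right, Nat.add_mul_mod_self_right, Nat.mod_eq_of_lt hb, hτ.diag b hb]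
  split_ifs
  · omega
  · exact le_min (by omega) le_rfl
  · omega

theorem tr_k_dup_split {q : ℕ} {τ : ℕ → ℕ → ℕ} {t : ℕ} (E : ℕ → Prop) [DecidablePred E]
    (hE : ∀ x y, x < q → y < q → E x → ¬ E y → τ x y ≤ t) (hq : 0 < q) {x y i : ℕ}
    (hx : x / q = i ∧ E (x % q)) (hy : ¬ (y / q = i ∧ E (y % q))) : trKDup q τ t E x y ≤ t := by
  have hx' := Nat.mod_lt x hq
  have hy' := Nat.mod_lt y hq
  unfold trKDup
  by_cases h1 : x / q = y / q
  · rw [if_pos h1]
    exact hE _ _ hx' hy' hx.2 fun h => hy ⟨h1 ▸ hx.1, h⟩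
  · rw [if_neg h1]
    by_cases h2 : E (x % q) ∧ E (y % q)
    · rw [if_pos h2]
      exact min_le_right _ _
    · rw [if_neg h2]
      exact hE _ _ hx' hy' hx.2 fun h => h2 ⟨hx.2, h⟩

/-- a function which uses the labels `< q` and is free of the labels outside `E` reads the labels `b < q`, `E b` only -/
theorem tr_k_reads {S α : Type} {q : ℕ} {E : ℕ → Prop} (w : (ℕ → S) → α)
    (hwu : ∀ σ σ' : ℕ → S, (∀ i, i < q → σ i = σ' i) → w σ = w σ')
    (hw : ∀ σ σ' : ℕ → S, (∀ b, ¬ ¬ E b → σ b = σ' b) → w σ = w σ')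
    (σ σ' : ℕ → S) (h : ∀ b, b < q → E b → σ b = σ' b) : w σ = w σ' := by
  classical
  calc w σ = w (fun b => if b < q then σ b else σ' b) := hwu _ _ fun i hi => by simp only [if_pos hi]
    _ = w σ' := hw _ _ fun b hb => by
        by_cases hq : b < q
        · simp only [if_pos hq]
          exact h b hq (not_not.1 hb)
        · simp only [if_neg hq]

section anchor
variable {S ι : Type} [Fintype S] [Fintype ι] [Inhabited S]

theorem tr_k_ext_apply {Q : ℕ} (σ : Fin Q → S) {x : ℕ} (hx : x < Q) : trExt σ x = σ ⟨x, hx⟩ := by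
  simp only [trExt, hx, dif_pos]

/-- marginal of a pair of labels with the same field -/
theorem tr_k_pair {B : GhB S} (hB : B.Ok) {ls : List (GhLv S ι)} (hnn : GhNn ls) {Q : ℕ} {τ : ℕ → ℕ → ℕ}
    (hτ : IsTr ls.length Q τ) (G : Fin Q → S → ℝ) (hG : ∀ x y : Fin Q, 0 < τ x.1 y.1 → G x = G y)
    {a c : ℕ} (ha : a < Q) (hc : c < Q) (hac : G ⟨a, ha⟩ = G ⟨c, hc⟩) (F : S → S → ℝ) :
    (ghKExp hB hnn (fun s => trRep Q τ s) G).E (fun σ => F (trExt σ a) (trExt σ c))
      = trNu B ls 2 (fun x y => if x = y then ls.length + 1 else τ a c) (G ⟨a, ha⟩) fun σ => F (σ 0) (σ 1) := by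
  have hf : ∀ x, x < 2 → (fun x => if x = 0 then a else c) x < Q := fun x _ => by
    simp only
    split_ifs <;> assumption
  have h := tr_k_comap hB hnn hτ (fun x => if x = 0 then a else c) hf G hG (fun ρ : Fin 2 → S => F (ρ 0) (ρ 1))
  have e1 : (fun σ : Fin Q → S => F (trExt σ a) (trExt σ c))
      = fun σ => (fun ρ : Fin 2 → S => F (ρ 0) (ρ 1)) fun a' : Fin 2 => σ ⟨(fun x => if x = 0 then a else c) a'.1, hf a'.1 a'.2⟩ := by
    funext σ
    simp [tr_k_ext_apply σ ha, tr_k_ext_apply σ hc]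
  rw [e1, h]
  have e2 : (fun a' : Fin 2 => G ⟨(fun x => if x = 0 then a else c) a'.1, hf a'.1 a'.2⟩) = fun _ => G ⟨a, ha⟩ := by
    funext a'
    fin_cases a'
    · simp
    · simp [hac]
  have ht2 : ∀ x y, x < 2 → y < 2 → (fun x y => τ ((fun x => if x = 0 then a else c) x) ((fun x => if x = 0 then a else c) y)) x y
      = (fun x y => if x = y then ls.length + 1 else τ a c) x y := by
    intro x y hx hy
    have hx' : x = 0 ∨ x = 1 := by omega
    have hy' : y = 0 ∨ y = 1 := by omega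
    rcases hx' with rfl | rfl <;> rcases hy' with rfl | rfl <;> simp [hτ.diag _ ha, hτ.diag _ hc, hτ.symm c a hc ha]
  rw [e2, tr_k_congr hB hnn ht2, ← tr_k_const hB hnn]
  congr 1

/-- TEX[PE:comp:projection] with an UNPROJECTED exterior anchor `w` (any finite `S`, any vector observable `sp`).  `a, c` share `j > t` stages, the leaves of `E` (the only ones read
by `w`) leave the other leaves by the depth `t`; `hanc` = the pointwise anchor property of the pair started at the depth `t` from any field. -/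
theorem tr_k_anchor_raw {n : ℕ} (sp : S → Fin n → ℝ) {B : GhB S} (hB : B.Ok) {ls : List (GhLv S ι)} (hls : GhAdm B 0 ls)
    {q : ℕ} {τ : ℕ → ℕ → ℕ} (hτ : IsTr ls.length q τ) (z : S → ℝ) {t j k a c : ℕ} (ha : a < q) (hc : c < q)
    (hac : τ a c = j) (htj : t < j) {cst : ℝ}
    (hanc : ∀ (G : S → ℝ) (ξ : Fin n → ℝ),
      trNu B (ls.drop t) 2 (fun x y => if x = y then ls.length - t + 1 else j - t) G
        (fun σ => (ghKIp ξ (sp (σ 0) - sp (σ 1))) ^ (2 * k)) ≤ cst ^ (2 * k) * (ghKIp ξ ξ) ^ k)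
    (E : ℕ → Prop) (hEa : ¬ E a) (hEc : ¬ E c)
    (hE : ∀ x y, x < q → y < q → E x → ¬ E y → τ x y ≤ t)
    (w : (ℕ → S) → Fin n → ℝ) (hwu : ∀ σ σ' : ℕ → S, (∀ i, i < q → σ i = σ' i) → w σ = w σ')
    (hw : ∀ σ σ' : ℕ → S, (∀ b, ¬ ¬ E b → σ b = σ' b) → w σ = w σ') :
    (trNu B ls q τ z fun σ => (ghKIp (w σ) (sp (σ a) - sp (σ c))) ^ (2 * k))
      ≤ cst ^ (2 * k) * trNu B ls q τ z fun σ => (ghKIp (w σ) (w σ)) ^ k := by
  have hnn : GhNn ls := hls.ghNn le_rfl
  have ht : t ≤ ls.length := by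
    have := hτ.le a c ha hc
    omega
  have hτ₀ : IsTr (ls.drop t).length q fun x y => τ x y - t := by
    rw [List.length_drop]
    exact tr_k_sub_isTr hτ ht
  rw [← tr_x_exp_E hB hls q τ z fun σ => (ghKIp (w σ) (w σ)) ^ k, ← (trExp hB hls q τ z).smul, tr_x_exp_E]
  refine tr_k_cut hB hnn hτ z ht _ _ fun G hG => ?_
  set ν := ghKExp hB (gh_k_nn_drop hnn t) (fun s => trRep q (fun x y => τ x y - t) s) G with hν
  rw [ν.smul]
  refine gh_k_abs_raw ν (fun x : Fin q => E x.1)
    (tr_k_ind hB _ hτ₀ G _ fun x y hx hy => by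
      have := hE x.1 y.1 x.2 y.2 hx hy
      omega)
    (fun σ => w (trExt σ)) (fun σ => sp (trExt σ a) - sp (trExt σ c)) ?_ ?_ k _ fun ξ => ?_
  · intro σ σ' h
    refine tr_k_reads w hwu hw _ _ fun b hb hEb => ?_
    rw [tr_k_ext_apply σ hb, tr_k_ext_apply σ' hb]
    exact h ⟨b, hb⟩ hEb
  · intro σ σ' h
    simp only [tr_k_ext_apply σ ha, tr_k_ext_apply σ' ha, tr_k_ext_apply σ hc, tr_k_ext_apply σ' hc]
    rw [h ⟨a, ha⟩ hEa, h ⟨c, hc⟩ hEc]
  · have hp := tr_k_pair hB (gh_k_nn_drop hnn t) hτ₀ G (fun x y hxy => hG x y (by omega)) ha hc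
      (hG ⟨a, ha⟩ ⟨c, hc⟩ (by simp only [hac]; omega)) (fun s s' => (ghKIp ξ (sp s - sp s')) ^ (2 * k))
    rw [hν, hp, List.length_drop, hac]
    exact hanc _ ξ

/-- TEX[PE:comp:projection] with a WEIGHTED PROJECTED anchor `V = E[w | fields at the depth t]`, replica form on the table of `2k` copies. -/
theorem tr_k_anchor_rep {n : ℕ} (sp : S → Fin n → ℝ) {B : GhB S} (hB : B.Ok) {ls : List (GhLv S ι)} (hls : GhAdm B 0 ls)
    {q : ℕ} {τ : ℕ → ℕ → ℕ} (hτ : IsTr ls.length q τ) (z : S → ℝ) {t j k a c : ℕ} (ha : a < q) (hc : c < q)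
    (hac : τ a c = j) (htj : t < j) {cst : ℝ}
    (hanc : ∀ (G : S → ℝ) (ξ : Fin n → ℝ),
      trNu B (ls.drop t) 2 (fun x y => if x = y then ls.length - t + 1 else j - t) G
        (fun σ => (ghKIp ξ (sp (σ 0) - sp (σ 1))) ^ (2 * k)) ≤ cst ^ (2 * k) * (ghKIp ξ ξ) ^ k)
    (E : ℕ → Prop) [DecidablePred E] (hEa : ¬ E a) (hEc : ¬ E c)
    (hE : ∀ x y, x < q → y < q → E x → ¬ E y → τ x y ≤ t)
    (hτ' : IsTr ls.length (2 * k * q) (trKDup q τ t E))
    (w : (ℕ → S) → Fin n → ℝ) (hwu : ∀ σ σ' : ℕ → S, (∀ i, i < q → σ i = σ' i) → w σ = w σ')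
    (hw : ∀ σ σ' : ℕ → S, (∀ b, ¬ ¬ E b → σ b = σ' b) → w σ = w σ') :
    (trNu B ls (2 * k * q) (trKDup q τ t E) z fun σ =>
        ∏ i ∈ Finset.range (2 * k), ghKIp (w fun b => σ (b + i * q)) (sp (σ a) - sp (σ c)))
      ≤ cst ^ (2 * k) * trNu B ls (2 * k * q) (trKDup q τ t E) z fun σ =>
        ∏ i ∈ Finset.range k, ghKIp (w fun b => σ (b + 2 * i * q)) (w fun b => σ (b + (2 * i + 1) * q)) := by
  have hnn : GhNn ls := hls.ghNn le_rfl
  have hq : 0 < q := by omega
  have ht : t ≤ ls.length := by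
    have := hτ.le a c ha hc
    omega
  rcases Nat.eq_zero_or_pos k with rfl | hk
  · simp
  have hQ : ∀ i, i < 2 * k → ∀ b, b < q → b + i * q < 2 * k * q := by
    intro i hi b hb
    have : (i + 1) * q ≤ 2 * k * q := Nat.mul_le_mul_right q hi
    rw [Nat.add_mul, one_mul] at this
    omega
  have haQ : a < 2 * k * q := by simpa using hQ 0 (by omega) a ha
  have hcQ : c < 2 * k * q := by simpa using hQ 0 (by omega) c hc
  have hac' : trKDup q τ t E a c = j := by
    have := tr_k_dup_same q τ t E (i := 0) ha hc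
    simpa [hac] using this
  have hτ₀ : IsTr (ls.drop t).length (2 * k * q) fun x y => trKDup q τ t E x y - t := by
    rw [List.length_drop]
    exact tr_k_sub_isTr hτ' ht
  rw [← tr_x_exp_E hB hls (2 * k * q) (trKDup q τ t E) z fun σ =>
      ∏ i ∈ Finset.range k, ghKIp (w fun b => σ (b + 2 * i * q)) (w fun b => σ (b + (2 * i + 1) * q)),
    ← (trExp hB hls (2 * k * q) (trKDup q τ t E) z).smul, tr_x_exp_E]
  refine tr_k_cut hB hnn hτ' z ht _ _ fun G hG => ?_
  set ν := ghKExp hB (gh_k_nn_drop hnn t) (fun s => trRep (2 * k * q) (fun x y => trKDup q τ t E x y - t) s) G with hν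
  rw [ν.smul]
  have hG0 : ∀ x y : Fin (2 * k * q), 0 < trKDup q τ t E x.1 y.1 - t → G x = G y := fun x y hxy => hG x y (by omega)
  -- the mean of one copy
  let G₀ : Fin q → S → ℝ := fun b => G ⟨b.1 + 0 * q, hQ 0 (by omega) b.1 b.2⟩
  let V : Fin n → ℝ := fun m =>
    (ghKExp hB (gh_k_nn_drop hnn t) (fun s => trRep q (fun x y => τ x y - t) s) G₀).E fun ρ => w (trExt ρ) m
  refine gh_k_abs_rep ν (fun i (x : Fin (2 * k * q)) => x.1 / q = i ∧ E (x.1 % q)) ?_
    (fun i σ => w fun b => trExt σ (b + i * q)) (fun σ => sp (trExt σ a) - sp (trExt σ c)) V k _ ?_ ?_ ?_ ?_ ?_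
  · intro i i' hii x hx hx'
    exact hii (hx.1.symm.trans hx'.1)
  · intro i _
    refine tr_k_ind hB _ hτ₀ G _ fun x y hx hy => ?_
    have := tr_k_dup_split E hE hq hx hy
    omega
  · intro i hi σ σ' h
    refine tr_k_reads w hwu hw _ _ fun b hb hEb => ?_
    rw [tr_k_ext_apply σ (hQ i hi b hb), tr_k_ext_apply σ' (hQ i hi b hb)]
    refine h _ ⟨?_, ?_⟩
    · simp only
      rw [Nat.add_mul_div_right _ _ hq, Nat.div_eq_of_lt hb, zero_add]
    · simp only
      rwa [Nat.add_mul_mod_self_right, Nat.mod_eq_of_lt hb]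
  · intro i hi m
    have h := tr_k_comap hB (gh_k_nn_drop hnn t) hτ₀ (fun b => b + i * q) (fun b hb => hQ i hi b hb) G hG0
      (fun ρ : Fin q → S => w (trExt ρ) m)
    have e1 : (fun σ : Fin (2 * k * q) → S => w (fun b => trExt σ (b + i * q)) m)
        = fun σ => (fun ρ : Fin q → S => w (trExt ρ) m) fun a' : Fin q => σ ⟨(fun b => b + i * q) a'.1, hQ i hi a'.1 a'.2⟩ := by
      funext σ
      simp only
      rw [hwu (fun b => trExt σ (b + i * q)) (trExt fun a' : Fin q => σ ⟨a'.1 + i * q, hQ i hi a'.1 a'.2⟩) fun b hb => by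
        rw [tr_k_ext_apply σ (hQ i hi b hb), tr_k_ext_apply _ hb]]
    have e2 : (fun a' : Fin q => G ⟨(fun b => b + i * q) a'.1, hQ i hi a'.1 a'.2⟩) = G₀ := by
      funext a'
      exact hG _ _ (tr_k_dup_copy hτ ht E a'.2)
    rw [e1, h, e2, tr_k_congr hB (gh_k_nn_drop hnn t) (τ' := fun x y => τ x y - t) fun x y hx hy => by
      rw [tr_k_dup_same q τ t E hx hy]]
  · intro i _ σ σ' h
    simp only [tr_k_ext_apply σ haQ, tr_k_ext_apply σ' haQ, tr_k_ext_apply σ hcQ, tr_k_ext_apply σ' hcQ]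
    rw [h ⟨a, haQ⟩ fun hx => hEa (by simpa [Nat.mod_eq_of_lt ha] using hx.2),
      h ⟨c, hcQ⟩ fun hx => hEc (by simpa [Nat.mod_eq_of_lt hc] using hx.2)]
  · have hp := tr_k_pair hB (gh_k_nn_drop hnn t) hτ₀ G hG0 haQ hcQ
      (hG ⟨a, haQ⟩ ⟨c, hcQ⟩ (by simp only [hac']; omega)) (fun s s' => (ghKIp V (sp s - sp s')) ^ (2 * k))
    rw [hν, hp, List.length_drop, hac']
    exact hanc _ V

/-! ## 5. An even number of copies -/

omit [Fintype S] [Inhabited S] in
theorem tr_k_sh_uses {q : ℕ} {g : (ℕ → S) → ℝ} (hg : TrUses q g) (p : ℕ) :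
    TrUses (p * q) fun σ => ∏ i ∈ Finset.range p, g fun b => σ (b + i * q) := by
  intro σ σ' h
  refine Finset.prod_congr rfl fun i hi => ?_
  refine hg _ _ fun b hb => h _ ?_
  have hi' : i + 1 ≤ p := Finset.mem_range.1 hi
  calc b + i * q < q + i * q := by omega
    _ = (i + 1) * q := by ring
    _ ≤ p * q := Nat.mul_le_mul_right q hi'

/-- under the law of the table of copies, the copies of a leaf outside `E` may be read on the original -/
theorem tr_k_dup_fold {B : GhB S} (hB : B.Ok) {ls : List (GhLv S ι)} (hls : GhAdm B 0 ls) {q : ℕ} {τ : ℕ → ℕ → ℕ}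
    (z : S → ℝ) {t : ℕ} (E : ℕ → Prop) [DecidablePred E] (p : ℕ) (hτ' : IsTr ls.length (p * q) (trKDup q τ t E))
    (P : (ℕ → S) → ℝ) (hP : TrUses (p * q) P) :
    trNu B ls (p * q) (trKDup q τ t E) z P
      = trNu B ls (p * q) (trKDup q τ t E) z fun σ => P fun x => σ (if E (x % q) then x else x % q) := by
  have hf : ∀ x, x < p * q → (fun x => if E (x % q) then x else x % q) x < p * q := by
    intro x hx
    simp only
    split_ifs
    · exact hx
    · exact lt_of_le_of_lt (Nat.mod_le _ _) hx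
  rw [tr_nu_comap hB hls hτ' z (fun x => if E (x % q) then x else x % q) hf P hP]
  refine tr_nu_congr B ls (fun x y hx _ => ?_) z P
  have hq : 0 < q := by
    rcases Nat.eq_zero_or_pos q with h | h
    · subst h; simp at hx
    · exact h
  have h0 : ∀ u : ℕ, u % q / q = 0 := fun u => Nat.div_eq_of_lt (Nat.mod_lt _ hq)
  unfold trKDup
  by_cases hx : E (x % q) <;> by_cases hy : E (y % q)
  · simp only [hx, hy, if_true]
  · simp only [hx, hy, if_true, if_false, Nat.mod_mod, and_false, ite_self]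
  · simp only [hx, hy, if_true, if_false, Nat.mod_mod, false_and, ite_self]
  · simp only [hx, hy, if_false, Nat.mod_mod, h0, and_self, ite_self]

/-- **the number of an even number of copies is nonnegative** (moment of a conditional mean), cut `t ≤ length` -/
theorem tr_k_dup_nonneg {B : GhB S} (hB : B.Ok) {ls : List (GhLv S ι)} (hls : GhAdm B 0 ls) {q : ℕ} {τ : ℕ → ℕ → ℕ}
    (hτ : IsTr ls.length q τ) (z : S → ℝ) {t : ℕ} (ht : t ≤ ls.length) (E : ℕ → Prop) [DecidablePred E]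
    (hE : ∀ x y, x < q → y < q → E x → ¬ E y → τ x y ≤ t) (k : ℕ)
    (hτ' : IsTr ls.length (2 * k * q) (trKDup q τ t E)) (g : (ℕ → S) → ℝ) (hgu : TrUses q g) :
    0 ≤ trNu B ls (2 * k * q) (trKDup q τ t E) z fun σ => ∏ i ∈ Finset.range (2 * k), g fun b => σ (b + i * q) := by
  have hnn : GhNn ls := hls.ghNn le_rfl
  have hQ : ∀ i, i < 2 * k → ∀ b, b < q → b + i * q < 2 * k * q := by
    intro i hi b hb
    have : (i + 1) * q ≤ 2 * k * q := Nat.mul_le_mul_right q hi
    rw [Nat.add_mul, one_mul] at this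
    omega
  have hQ0 : ∀ i, i < 2 * k → ∀ b, b < q → b < 2 * k * q := fun i hi b hb => by
    have := hQ 0 (by omega) b hb
    simpa using this
  have hτ₀ : IsTr (ls.drop t).length (2 * k * q) fun x y => trKDup q τ t E x y - t := by
    rw [List.length_drop]
    exact tr_k_sub_isTr hτ' ht
  rw [tr_k_dup_fold hB hls z E (2 * k) hτ' _ (tr_k_sh_uses hgu (2 * k))]
  have e0 : (fun σ : ℕ → S => ∏ i ∈ Finset.range (2 * k), g fun b => σ (if E ((b + i * q) % q) then b + i * q else (b + i * q) % q))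
      = fun σ => ∏ i ∈ Finset.range (2 * k), g fun b => if E b then σ (b + i * q) else σ b := by
    funext σ
    refine Finset.prod_congr rfl fun i _ => hgu _ _ fun b hb => ?_
    rw [Nat.add_mul_mod_self_right, Nat.mod_eq_of_lt hb]
    split_ifs <;> rfl
  rw [e0]
  have h0 : trNu B ls (2 * k * q) (trKDup q τ t E) z (fun _ => 0) = 0 := (trExp hB hls _ _ z).zero
  refine h0.symm.le.trans (tr_k_cut hB hnn hτ' z ht _ _ fun G hG => ?_)
  set ν := ghKExp hB (gh_k_nn_drop hnn t) (fun s => trRep (2 * k * q) (fun x y => trKDup q τ t E x y - t) s) G with hν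
  rw [ν.zero]
  have hG0 : ∀ x y : Fin (2 * k * q), 0 < trKDup q τ t E x.1 y.1 - t → G x = G y := fun x y hxy => hG x y (by omega)
  have hqx : ∀ x : Fin (2 * k * q), 0 < q := fun x => by
    rcases Nat.eq_zero_or_pos q with h | h
    · have := x.2
      subst h
      simp at this
    · exact h
  by_cases hk : k = 0
  · subst hk
    simp [ν.one]
  have hk0 : 0 < 2 * k := by omega
  let G₀ : Fin q → S → ℝ := fun b => G ⟨b.1 + 0 * q, hQ 0 hk0 b.1 b.2⟩
  refine gh_k_abs_nonneg ν (fun i (x : Fin (2 * k * q)) => x.1 / q = i ∧ E (x.1 % q)) ?_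
    (fun x : Fin (2 * k * q) => ¬ E (x.1 % q)) ?_ (fun i σ => g fun b => if E b then trExt σ (b + i * q) else trExt σ b) k ?_ ?_
    (fun σ => (ghKExp hB (gh_k_nn_drop hnn t) (fun s => trRep q (fun x y => τ x y - t) s) G₀).E
      fun ρ => g fun b => if E b then trExt ρ b else trExt σ b) ?_
  · intro i i' hii x hx hx'
    exact hii (hx.1.symm.trans hx'.1)
  · refine tr_k_ind hB _ hτ₀ G _ fun x y hx hy => ?_
    have := tr_k_dup_split E hE (hqx x) (x := y.1) (y := x.1) (i := y.1 / q) ⟨rfl, not_not.1 hy⟩ fun h => hx h.2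
    rw [hτ'.symm _ _ y.2 x.2] at this
    omega
  · intro i _
    refine tr_k_ind hB _ hτ₀ G _ fun x y hx hy => ?_
    have := tr_k_dup_split E hE (hqx x) hx hy
    omega
  · intro i hi σ σ' h
    refine hgu _ _ fun b hb => ?_
    by_cases hEb : E b
    · simp only [if_pos hEb]
      rw [tr_k_ext_apply σ (hQ i hi b hb), tr_k_ext_apply σ' (hQ i hi b hb)]
      refine h _ (Or.inl ⟨?_, ?_⟩)
      · simp only
        rw [Nat.add_mul_div_right _ _ (by omega), Nat.div_eq_of_lt hb, zero_add]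
      · simp only
        rwa [Nat.add_mul_mod_self_right, Nat.mod_eq_of_lt hb]
    · simp only [if_neg hEb]
      rw [tr_k_ext_apply σ (hQ0 i hi b hb), tr_k_ext_apply σ' (hQ0 i hi b hb)]
      refine h _ (Or.inr ?_)
      simp only
      rwa [Nat.mod_eq_of_lt hb]
  · intro i hi σ
    have h := tr_k_comap hB (gh_k_nn_drop hnn t) hτ₀ (fun b => b + i * q) (fun b hb => hQ i hi b hb) G hG0
      (fun ρ : Fin q → S => g fun b => if E b then trExt ρ b else trExt σ b)
    have e1 : (fun σ' : Fin (2 * k * q) → S => g fun b =>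
          if E b then trExt (fun x : Fin (2 * k * q) => if ¬ E (x.1 % q) then σ x else σ' x) (b + i * q)
          else trExt (fun x : Fin (2 * k * q) => if ¬ E (x.1 % q) then σ x else σ' x) b)
        = fun σ' => (fun ρ : Fin q → S => g fun b => if E b then trExt ρ b else trExt σ b)
            fun a' : Fin q => σ' ⟨(fun b => b + i * q) a'.1, hQ i hi a'.1 a'.2⟩ := by
      funext σ'
      refine hgu _ _ fun b hb => ?_
      by_cases hEb : E b
      · simp only [if_pos hEb]
        rw [tr_k_ext_apply _ (hQ i hi b hb), tr_k_ext_apply _ hb]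
        have : E ((b + i * q) % q) := by rwa [Nat.add_mul_mod_self_right, Nat.mod_eq_of_lt hb]
        simp only [this, not_true_eq_false, if_false]
      · simp only [if_neg hEb]
        rw [tr_k_ext_apply _ (hQ0 i hi b hb), tr_k_ext_apply σ (hQ0 i hi b hb)]
        have : ¬ E (b % q) := by rwa [Nat.mod_eq_of_lt hb]
        simp only [this, not_false_eq_true, if_true]
    have e2 : (fun a' : Fin q => G ⟨(fun b => b + i * q) a'.1, hQ i hi a'.1 a'.2⟩) = G₀ := by
      funext a'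
      exact hG _ _ (tr_k_dup_copy hτ ht E a'.2)
    rw [e1, h, e2, tr_k_congr hB (gh_k_nn_drop hnn t) (τ' := fun x y => τ x y - t) fun x y hx hy => by
      rw [tr_k_dup_same q τ t E hx hy]]

end anchor

end Claimed.Agent.R286
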