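import Claimed.Agent.R286.Fd.TrB3
import Claimed.Agent.R286.Fd.NuApiC

/-!
# Row 286 (S0533), Fd/ExtA : SUBTREE MARKOV PROPERTY of the positive tree laws      (owner helper16; prefix `gh_x_`)      0 sorry

PE uses it silently (cavity l.700-840: the anchor `V = E[H y_o | F_*^a]`; 244 A10, G3; 137 item 6).
`A` = a set of labels which share the first `s` revelations with the label `a0` and, from the revelation `s` on, share nothing with the other labels
(the node of depth `s` above `a0`, or a union of children of that node).      Given everything else, the `A`-subtree is the tree law of the remaining levels started from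
the field of `a0` after `s` revelations:

`ν[f · g(σ_A)] = ν[f · Ψ_g(field of a0 after s revelations)]`,   `Ψ_g z = ghNu B (ls.drop s) (rep (· + s)) (fun _ => z) g`.

`f` may read all the spins and drivers outside `A` and the drivers of `A` before the revelation `s` (the trunk).      No measurability / integrability hypothesis.
-/

set_option autoImplicit false
set_option linter.unusedSectionVars false

namespace Claimed.Agent.R286

open MeasureTheory ProbabilityTheory

variable {S ι : Type} [Fintype S] [Fintype ι]

theorem gh_x_pre_succ (l : GhLv S ι) (ls : List (GhLv S ι)) (x : ι → ℝ) (ξ : ℕ → ι → ℝ) (s : ℕ) :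
    ghPre (l :: ls) (ghCons x ξ) (s + 1) = l.inc x + ghPre ls ξ s := by
  simp only [ghPre, List.take_succ_cons, ghSum, ghCons]

theorem gh_x_pre_zero (ls : List (GhLv S ι)) (ξ : ℕ → ι → ℝ) : ghPre ls ξ 0 = 0 := by
  simp [ghPre, ghSum]

/-- **subtree Markov property**, raw form -/
theorem gh_x_markov [Inhabited S] (B : GhB S) (hB : B.Ok) {q : ℕ} (A : Fin q → Prop) (a0 : Fin q) (g : (Fin q → S) → ℝ)
    (hg : ∀ σ σ' : Fin q → S, (∀ c, A c → σ c = σ' c) → g σ = g σ') :
    ∀ (s : ℕ) (ls : List (GhLv S ι)), GhNn ls → s ≤ ls.length → ∀ (rep : ℕ → Fin q → Fin q),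
      (∀ c, A c → ∀ t, t < s → rep t c = rep t a0) → (∀ t c, s ≤ t → (A (rep t c) ↔ A c)) →
      ∀ (G : Fin q → S → ℝ), (∀ c, A c → G c = G a0) →
      ∀ (f : (ℕ → Fin q → ι → ℝ) → (Fin q → S) → ℝ),
      (∀ η η' σ σ', (∀ t c, (¬ A c ∨ t < s) → η t c = η' t c) → (∀ c, ¬ A c → σ c = σ' c) → f η σ = f η' σ') →
      ghNu B ls rep G (fun η σ => f η σ * g σ)
        = ghNu B ls rep G fun η σ => f η σ *
            ghNu B (ls.drop s) (fun t => rep (t + s)) (fun _ => G a0 + ghPre ls (fun j => η j a0) s) fun _ σ => g σ
  | 0, ls, hls, _, rep, _, hcl, G, hG, f, hf => by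
    simp only [gh_x_pre_zero, add_zero, List.drop_zero]
    have h1 := tr_b3_indep_raw B hB ls hls rep (fun c => ¬ A c) (fun t c => not_congr (hcl t c (Nat.zero_le t))) G G
      (fun _ => G a0) (fun _ _ => rfl) (fun c hc => hG c (not_not.1 hc)) f (fun _ σ => g σ)
      (fun η η' σ σ' h1 h2 => hf η η' σ σ' (fun t c hc => by
        rcases hc with hc | hc
        · exact h1 t c hc
        · exact absurd hc (Nat.not_lt_zero t)) h2)
      (fun _ _ σ σ' _ h2 => hg σ σ' fun c hc => h2 c (not_not.2 hc))
    rw [h1]
    have h2 := gh_n_smul B (ghNu B ls rep (fun _ => G a0) fun _ σ => g σ) ls rep G f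
    rw [mul_comm, ← h2]
    congr 1
    funext η σ
    ring
  | s + 1, [], _, hs, _, _, _, _, _, _, _ => by simp at hs
  | s + 1, l :: ls, hls, hs, rep, hsh, hcl, G, hG, f, hf => by
    simp only [ghNu]
    refine integral_congr_ae (Filter.Eventually.of_forall fun W => ?_)
    show ghDT B l ls (rep 0) G W * _ = ghDT B l ls (rep 0) G W * _
    congr 1
    have ih := gh_x_markov B hB A a0 g hg s ls hls.tail (by simpa using hs) (fun t => rep (t + 1))
      (fun c hc t ht => hsh c hc (t + 1) (by omega)) (fun t c ht => hcl (t + 1) c (by omega))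
      (fun a => G a + l.inc (W (rep 0 a))) (fun c hc => by rw [hG c hc, hsh c hc 0 (by omega)])
      (fun η σ => f (ghCons (fun a => W (rep 0 a)) η) σ)
      (fun η η' σ σ' h1 h2 => hf _ _ σ σ' (fun t c hc => by
        cases t with
        | zero => rfl
        | succ t =>
          show η t c = η' t c
          exact h1 t c (by rcases hc with hc | hc; exact Or.inl hc; exact Or.inr (by omega))) h2)
    rw [ih]
    congr 1
    funext η σ
    congr 1
    have e1 : (fun j => ghCons (fun a => W (rep 0 a)) η j a0) = ghCons (W (rep 0 a0)) fun j => η j a0 := by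
      funext j; cases j <;> rfl
    rw [e1, gh_x_pre_succ, List.drop_succ_cons, add_assoc]
    rfl

end Claimed.Agent.R286
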