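import Claimed.Agent.R286.Fd.TrB3
import Claimed.Agent.R286.Brg.Pos

/-!
# Row 286 (S0533), Fd/ExtE : FUBINI for independent groups, REFLECTION POSITIVITY at a cut (raw `ghNu`)      (owner helper16; prefix `gh_x_`)      0 sorry

* `gh_x_mix` : a group `A` of labels which is closed under the classes of all stages is independent of the rest: `ν[Φ] = ν_σ ν_σ'[Φ(σ' on A, σ off A)]`  (any per-label fields).
* `gh_x_refl` : two copies `e₀, e₁` of a system of `q` labels inside a system of `Q` labels; the copies share the first `t` stages, the labels outside `A` are common to the two copies,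
  after the stage `t` the copies of the labels of `A` never meet the other copy.   Then `ν[h(σ∘e₀) h(σ∘e₁)] ≥ 0`  (`= E (E[h | fields at t, leaves outside A])²`).
  The induction step is `integral_nonneg` only.
-/

set_option autoImplicit false
set_option linter.unusedSectionVars false

namespace Claimed.Agent.R286

open MeasureTheory ProbabilityTheory

variable {S ι : Type} [Fintype S] [Fintype ι]

/-- the classes of a later stage refine the classes of the first stage -/
theorem gh_x_rep_zero {q : ℕ} {rep : ℕ → Fin q → Fin q} (h : GhRepOk rep) : ∀ (s : ℕ) (a b : Fin q), rep s a = rep s b → rep 0 a = rep 0 b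
  | 0, _, _, hab => hab
  | s + 1, a, b, hab => gh_x_rep_zero h s a b (h.mono s a b hab)

/-- **Fubini for an independent group of labels** -/
theorem gh_x_mix [Inhabited S] (B : GhB S) (hB : B.Ok) (ls : List (GhLv S ι)) (hls : GhNn ls) {q : ℕ} (rep : ℕ → Fin q → Fin q)
    (A : Fin q → Prop) [DecidablePred A] (hA : ∀ t a, A (rep t a) ↔ A a) (G : Fin q → S → ℝ) (Φ : (Fin q → S) → ℝ) :
    ghNu B ls rep G (fun _ σ => Φ σ)
      = ghNu B ls rep G fun _ σ => ghNu B ls rep G fun _ σ' => Φ fun x => if A x then σ' x else σ x := by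
  classical
  let d₁ : (Fin q → S) → (Fin q → S) → ℝ := fun s σ => if ∀ x, A x → σ x = s x then 1 else 0
  let d₂ : (Fin q → S) → (Fin q → S) → ℝ := fun s σ => if ∀ x, ¬ A x → σ x = s x then 1 else 0
  have hmix : ∀ σ' σ : Fin q → S, Φ (fun x => if A x then σ' x else σ x) = ∑ s, Φ s * (d₁ s σ' * d₂ s σ) := by
    intro σ' σ
    rw [Finset.sum_eq_single (fun x => if A x then σ' x else σ x)]
    · have h1 : d₁ (fun x => if A x then σ' x else σ x) σ' = 1 := by
        simp only [d₁]; rw [if_pos]; intro x hx; rw [if_pos hx]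
      have h2 : d₂ (fun x => if A x then σ' x else σ x) σ = 1 := by
        simp only [d₂]; rw [if_pos]; intro x hx; rw [if_neg hx]
      rw [h1, h2]; ring
    · intro s _ hs
      by_cases h1 : ∀ x, A x → σ' x = s x
      · by_cases h2 : ∀ x, ¬ A x → σ x = s x
        · exfalso
          apply hs
          funext x
          by_cases hx : A x
          · rw [if_pos hx, h1 x hx]
          · rw [if_neg hx, h2 x hx]
        · simp only [d₂]; rw [if_neg h2]; ring
      · simp only [d₁]; rw [if_neg h1]; ring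
    · intro h; exact absurd (Finset.mem_univ _) h
  have hid : ∀ σ : Fin q → S, Φ σ = ∑ s, Φ s * (d₁ s σ * d₂ s σ) := by
    intro σ
    have := hmix σ σ
    simpa using this
  have hind : ∀ s, ghNu B ls rep G (fun _ σ => d₁ s σ * d₂ s σ)
      = ghNu B ls rep G (fun _ σ => d₁ s σ) * ghNu B ls rep G fun _ σ => d₂ s σ := by
    intro s
    refine tr_b3_indep_raw B hB ls hls rep A hA G G G (fun _ _ => rfl) (fun _ _ => rfl) (fun _ σ => d₁ s σ) (fun _ σ => d₂ s σ) ?_ ?_
    · intro _ _ σ σ' _ h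
      simp only [d₁]
      have : (∀ x, A x → σ x = s x) ↔ ∀ x, A x → σ' x = s x :=
        ⟨fun H x hx => by rw [← h x hx]; exact H x hx, fun H x hx => by rw [h x hx]; exact H x hx⟩
      simp only [this]
    · intro _ _ σ σ' _ h
      simp only [d₂]
      have : (∀ x, ¬ A x → σ x = s x) ↔ ∀ x, ¬ A x → σ' x = s x :=
        ⟨fun H x hx => by rw [← h x hx]; exact H x hx, fun H x hx => by rw [h x hx]; exact H x hx⟩
      simp only [this]
  -- left side
  have L : ghNu B ls rep G (fun _ σ => Φ σ)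
      = ∑ s, Φ s * (ghNu B ls rep G (fun _ σ => d₁ s σ) * ghNu B ls rep G fun _ σ => d₂ s σ) := by
    have e0 : (fun (_ : ℕ → Fin q → ι → ℝ) (σ : Fin q → S) => Φ σ) = fun _ σ => ∑ s, Φ s * (d₁ s σ * d₂ s σ) := by
      funext _ σ; exact hid σ
    rw [e0, gh_c4_sum B hB ls hls rep G Finset.univ fun s σ => Φ s * (d₁ s σ * d₂ s σ)]
    refine Finset.sum_congr rfl fun s _ => ?_
    rw [gh_n_smul B (Φ s) ls rep G fun _ σ => d₁ s σ * d₂ s σ, hind]
  -- right side
  have R : ∀ σ : Fin q → S, ghNu B ls rep G (fun _ σ' => Φ fun x => if A x then σ' x else σ x)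
      = ∑ s, (Φ s * ghNu B ls rep G fun _ σ' => d₁ s σ') * d₂ s σ := by
    intro σ
    simp_rw [hmix]
    rw [gh_c4_sum B hB ls hls rep G Finset.univ fun s σ' => Φ s * (d₁ s σ' * d₂ s σ)]
    refine Finset.sum_congr rfl fun s _ => ?_
    have e : (fun (_ : ℕ → Fin q → ι → ℝ) (σ' : Fin q → S) => Φ s * (d₁ s σ' * d₂ s σ))
        = fun _ σ' => (Φ s * d₂ s σ) * d₁ s σ' := by
      funext _ σ'; ring
    rw [e, gh_n_smul B (Φ s * d₂ s σ) ls rep G fun _ σ' => d₁ s σ']
    ring
  rw [L]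
  simp_rw [R]
  rw [gh_c4_sum B hB ls hls rep G Finset.univ fun s σ => (Φ s * ghNu B ls rep G fun _ σ' => d₁ s σ') * d₂ s σ]
  refine Finset.sum_congr rfl fun s _ => ?_
  rw [gh_n_smul B _ ls rep G fun _ σ => d₂ s σ]
  ring

/-- two copies of a system of `q` labels (classes `rep`) inside a system of `Q` labels (classes `rep'`), glued along the first `t` stages and along the labels outside `A` -/
structure GhRefl {q Q : ℕ} (rep : ℕ → Fin q → Fin q) (rep' : ℕ → Fin Q → Fin Q) (e₀ e₁ : Fin q → Fin Q) (A : Fin q → Prop) (t : ℕ) : Prop where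
  ok : GhRepOk rep
  ok' : GhRepOk rep'
  /-- the labels outside `A` are common -/
  com : ∀ a, ¬ A a → e₁ a = e₀ a
  /-- each copy has the shape of the original system -/
  sh₀ : ∀ s a b, rep s a = rep s b ↔ rep' s (e₀ a) = rep' s (e₀ b)
  sh₁ : ∀ s a b, rep s a = rep s b ↔ rep' s (e₁ a) = rep' s (e₁ b)
  /-- the copies share the first `t` stages -/
  low : ∀ s, s < t → ∀ a, rep' s (e₀ a) = rep' s (e₁ a)
  /-- from the stage `t` on the second copy of a label of `A` meets no label of the first copy -/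
  high : ∀ s, t ≤ s → ∀ a b, A b → rep' s (e₀ a) ≠ rep' s (e₁ b)

theorem GhRefl.shift {q Q : ℕ} {rep : ℕ → Fin q → Fin q} {rep' : ℕ → Fin Q → Fin Q} {e₀ e₁ : Fin q → Fin Q} {A : Fin q → Prop} {t : ℕ}
    (h : GhRefl rep rep' e₀ e₁ A (t + 1)) : GhRefl (fun s => rep (s + 1)) (fun s => rep' (s + 1)) e₀ e₁ A t where
  ok := h.ok.shift
  ok' := h.ok'.shift
  com := h.com
  sh₀ := fun s => h.sh₀ (s + 1)
  sh₁ := fun s => h.sh₁ (s + 1)
  low := fun s hs => h.low (s + 1) (by omega)
  high := fun s hs => h.high (s + 1) (by omega)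

/-- the base case: the copies of `A` are independent of each other and of the common labels -/
theorem gh_x_refl_zero [Inhabited S] (B : GhB S) (hB : B.Ok) (ls : List (GhLv S ι)) (hls : GhNn ls) {q Q : ℕ}
    {rep : ℕ → Fin q → Fin q} {rep' : ℕ → Fin Q → Fin Q} {e₀ e₁ : Fin q → Fin Q} {A : Fin q → Prop}
    (H : GhRefl rep rep' e₀ e₁ A 0) (G : Fin Q → S → ℝ) (hG : ∀ x y, rep' 0 x = rep' 0 y → G x = G y)
    (hG01 : ∀ a, G (e₀ a) = G (e₁ a)) (h : (Fin q → S) → ℝ) :
    0 ≤ ghNu B ls rep' G fun _ σ => h (fun a => σ (e₀ a)) * h fun a => σ (e₁ a) := by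
  classical
  -- the two groups
  let A₁ : Fin Q → Prop := fun x => ∃ a, A a ∧ rep' 0 x = rep' 0 (e₁ a)
  let A₀ : Fin Q → Prop := fun x => ∃ a, A a ∧ rep' 0 x = rep' 0 (e₀ a)
  have hz : ∀ s x, rep' 0 (rep' s x) = rep' 0 x := fun s x => gh_x_rep_zero H.ok' s _ _ (H.ok'.idem s x)
  have hA₁ : ∀ s x, A₁ (rep' s x) ↔ A₁ x := fun s x => by simp only [A₁, hz]
  have hA₀ : ∀ s x, A₀ (rep' s x) ↔ A₀ x := fun s x => by simp only [A₀, hz]
  have n₁ : ∀ b, ¬ A₁ (e₀ b) := by
    rintro b ⟨a, ha, hab⟩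
    exact H.high 0 le_rfl b a ha hab
  have m₁ : ∀ a, A a → A₁ (e₁ a) := fun a ha => ⟨a, ha, rfl⟩
  have m₀ : ∀ a, A a → A₀ (e₀ a) := fun a ha => ⟨a, ha, rfl⟩
  have n₀ : ∀ b, ¬ A b → ¬ A₀ (e₀ b) := by
    rintro b hb ⟨a, ha, hab⟩
    have h1 : rep 0 b = rep 0 a := (H.sh₀ 0 b a).2 hab
    have h2 : rep' 0 (e₁ b) = rep' 0 (e₁ a) := (H.sh₁ 0 b a).1 h1
    rw [H.com b hb] at h2
    exact H.high 0 le_rfl b a ha h2
  -- the conditional mean
  let mx : (Fin q → S) → (Fin q → S) → Fin q → S := fun u v a => if A a then u a else v a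
  let hh : (Fin q → S) → ℝ := fun v => ghNu B ls rep (fun a => G (e₀ a)) fun _ u => h (mx u v)
  have inv₀ : ∀ F : (Fin q → S) → ℝ, ghNu B ls rep' G (fun _ σ => F fun a => σ (e₀ a)) = ghNu B ls rep (fun a => G (e₀ a)) fun _ u => F u :=
    fun F => gh_n_inv B hB ls hls e₀ rep' rep H.ok' H.ok H.sh₀ G hG fun _ u => F u
  have inv₁ : ∀ F : (Fin q → S) → ℝ, ghNu B ls rep' G (fun _ σ => F fun a => σ (e₁ a)) = ghNu B ls rep (fun a => G (e₀ a)) fun _ u => F u := by
    intro F
    have := gh_n_inv B hB ls hls e₁ rep' rep H.ok' H.ok H.sh₁ G hG fun _ u => F u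
    rw [this]
    congr 1
    funext a
    exact (hG01 a).symm
  have hhmx : ∀ u v, hh (mx u v) = hh v := by
    intro u v
    simp only [hh]
    congr 1
    funext _ w
    congr 1
    funext a
    simp only [mx]
    split_ifs <;> rfl
  -- first Fubini: the second copy of `A`
  rw [gh_x_mix B hB ls hls rep' A₁ hA₁ G fun σ => h (fun a => σ (e₀ a)) * h fun a => σ (e₁ a)]
  have s1 : ∀ σ : Fin Q → S, ghNu B ls rep' G (fun _ σ' => h (fun a => if A₁ (e₀ a) then σ' (e₀ a) else σ (e₀ a)) *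
        h fun a => if A₁ (e₁ a) then σ' (e₁ a) else σ (e₁ a))
      = h (fun a => σ (e₀ a)) * hh fun a => σ (e₀ a) := by
    intro σ
    have e : (fun (_ : ℕ → Fin Q → ι → ℝ) (σ' : Fin Q → S) => h (fun a => if A₁ (e₀ a) then σ' (e₀ a) else σ (e₀ a)) *
        h fun a => if A₁ (e₁ a) then σ' (e₁ a) else σ (e₁ a))
        = fun _ σ' => h (fun a => σ (e₀ a)) * (fun u => h (mx u fun a => σ (e₀ a))) fun a => σ' (e₁ a) := by
      funext _ σ'
      congr 2
      · funext a; rw [if_neg (n₁ a)]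
      · funext a
        simp only [mx]
        by_cases ha : A a
        · rw [if_pos (m₁ a ha), if_pos ha]
        · rw [if_neg ha, H.com a ha, if_neg (n₁ a)]
    rw [e, gh_n_smul B _ ls rep' G fun _ σ' => (fun u => h (mx u fun a => σ (e₀ a))) fun a => σ' (e₁ a),
      inv₁ fun u => h (mx u fun a => σ (e₀ a))]
  simp_rw [s1]
  -- second Fubini: the first copy of `A`
  rw [gh_x_mix B hB ls hls rep' A₀ hA₀ G fun σ => h (fun a => σ (e₀ a)) * hh fun a => σ (e₀ a)]
  have s2 : ∀ σ : Fin Q → S, ghNu B ls rep' G (fun _ σ' => h (fun a => if A₀ (e₀ a) then σ' (e₀ a) else σ (e₀ a)) *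
        hh fun a => if A₀ (e₀ a) then σ' (e₀ a) else σ (e₀ a))
      = hh (fun a => σ (e₀ a)) * hh fun a => σ (e₀ a) := by
    intro σ
    have e : (fun (_ : ℕ → Fin Q → ι → ℝ) (σ' : Fin Q → S) => h (fun a => if A₀ (e₀ a) then σ' (e₀ a) else σ (e₀ a)) *
        hh fun a => if A₀ (e₀ a) then σ' (e₀ a) else σ (e₀ a))
        = fun _ σ' => hh (fun a => σ (e₀ a)) * (fun u => h (mx u fun a => σ (e₀ a))) fun a => σ' (e₀ a) := by
      funext _ σ'
      have e1 : (fun a => if A₀ (e₀ a) then σ' (e₀ a) else σ (e₀ a)) = mx (fun a => σ' (e₀ a)) fun a => σ (e₀ a) := by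
        funext a
        simp only [mx]
        by_cases ha : A a
        · rw [if_pos (m₀ a ha), if_pos ha]
        · rw [if_neg (n₀ a ha), if_neg ha]
      rw [e1, hhmx, mul_comm]
    rw [e, gh_n_smul B _ ls rep' G fun _ σ' => (fun u => h (mx u fun a => σ (e₀ a))) fun a => σ' (e₀ a),
      inv₀ fun u => h (mx u fun a => σ (e₀ a))]
  simp_rw [s2]
  exact gh_n_nonneg B hB ls rep' G _ fun _ σ => mul_self_nonneg _

/-- **REFLECTION POSITIVITY AT A CUT** -/
theorem gh_x_refl [Inhabited S] (B : GhB S) (hB : B.Ok) {q Q : ℕ} {e₀ e₁ : Fin q → Fin Q} {A : Fin q → Prop} (h : (Fin q → S) → ℝ) :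
    ∀ (t : ℕ) (ls : List (GhLv S ι)), GhNn ls → ∀ {rep : ℕ → Fin q → Fin q} {rep' : ℕ → Fin Q → Fin Q}, GhRefl rep rep' e₀ e₁ A t →
    ∀ (G : Fin Q → S → ℝ), (∀ x y, rep' 0 x = rep' 0 y → G x = G y) → (∀ a, G (e₀ a) = G (e₁ a)) →
    0 ≤ ghNu B ls rep' G fun _ σ => h (fun a => σ (e₀ a)) * h fun a => σ (e₁ a)
  | 0, ls, hls, _, _, H, G, hG, hG01 => gh_x_refl_zero B hB ls hls H G hG hG01 h
  | t + 1, [], _, _, rep', H, G, _, _ => by
    simp only [ghNu]
    refine Finset.sum_nonneg fun σ _ => mul_nonneg (Finset.prod_nonneg fun a _ => gh_b_Gw_nonneg hB _ _) ?_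
    have : (fun a => σ (rep' 0 (e₁ a))) = fun a => σ (rep' 0 (e₀ a)) := by
      funext a; rw [H.low 0 (Nat.succ_pos t) a]
    rw [this]
    exact mul_self_nonneg _
  | t + 1, l :: ls, hls, _, rep', H, G, hG, hG01 => by
    simp only [ghNu]
    refine integral_nonneg fun W => mul_nonneg (gh_n_DT_nonneg B l ls _ _ _) ?_
    refine gh_x_refl B hB h t ls hls.tail H.shift _ (fun x y hxy => ?_) fun a => ?_
    · have h0 := H.ok'.mono 0 x y hxy
      rw [hG x y h0, h0]
    · rw [hG01 a, H.low 0 (Nat.succ_pos t) a]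

/-! ## table level -/

/-- **REFLECTION POSITIVITY AT A CUT**, `ℕ`-tables.   `u₀, u₁` = two copies (injective) of `m` labels inside the tree `T`; the labels outside `D` are common; the two copies of a label of `D`
share `≥ t` stages; the second copy of a label of `D` shares `≤ t` stages with every label of the first copy.      `ν_T[h(σ∘u₀) h(σ∘u₁)] = E (E[h | fields at the depth t, leaves outside D])² ≥ 0`. -/
theorem tr_x_refl [Inhabited S] {B : GhB S} (hB : B.Ok) {ls : List (GhLv S ι)} (hls : GhAdm B 0 ls) {Q m : ℕ} {T : ℕ → ℕ → ℕ}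
    (hT : IsTr ls.length Q T) (z : S → ℝ) (t : ℕ) (u₀ u₁ : ℕ → ℕ) (hu₀ : ∀ x, x < m → u₀ x < Q) (hu₁ : ∀ x, x < m → u₁ x < Q)
    (hi₀ : ∀ x y, x < m → y < m → u₀ x = u₀ y → x = y) (hi₁ : ∀ x y, x < m → y < m → u₁ x = u₁ y → x = y)
    (D : ℕ → Prop) (hcom : ∀ x, x < m → ¬ D x → u₁ x = u₀ x)
    (hsh : ∀ x y, x < m → y < m → T (u₁ x) (u₁ y) = T (u₀ x) (u₀ y))
    (hlow : ∀ x, x < m → D x → t ≤ T (u₀ x) (u₁ x))
    (hhigh : ∀ x y, x < m → y < m → D y → T (u₀ x) (u₁ y) ≤ t) (hne : ∀ x y, x < m → y < m → D y → u₀ x ≠ u₁ y)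
    (h : (ℕ → S) → ℝ) (hh : TrUses m h) :
    0 ≤ trNu B ls Q T z fun σ => h (fun x => σ (u₀ x)) * h fun x => σ (u₁ x) := by
  have hT₀ : IsTr ls.length m fun x y => T (u₀ x) (u₀ y) := tr_comap_isTr hT u₀ hu₀
  let e₀ : Fin m → Fin Q := fun a => ⟨u₀ a.1, hu₀ a.1 a.2⟩
  let e₁ : Fin m → Fin Q := fun a => ⟨u₁ a.1, hu₁ a.1 a.2⟩
  have H : GhRefl (fun s => trRep m (fun x y => T (u₀ x) (u₀ y)) s) (fun s => trRep Q T s) e₀ e₁ (fun a => D a.1) t :=
    { ok := tb2_repOk hT₀
      ok' := tb2_repOk hT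
      com := fun a ha => Fin.ext (hcom a.1 a.2 ha)
      sh₀ := fun s a b => by
        rw [tb2_rep_iff hT₀, tb2_rep_iff hT]
        constructor
        · rintro (h | h)
          · left; rw [h]
          · right; exact h
        · rintro (h | h)
          · left; exact Fin.ext (hi₀ a.1 b.1 a.2 b.2 (congrArg Fin.val h))
          · right; exact h
      sh₁ := fun s a b => by
        rw [tb2_rep_iff hT₀, tb2_rep_iff hT]
        constructor
        · rintro (h | h)
          · left; rw [h]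
          · right
            show s < T (u₁ a.1) (u₁ b.1)
            rw [hsh a.1 b.1 a.2 b.2]; exact h
        · rintro (h | h)
          · left; exact Fin.ext (hi₁ a.1 b.1 a.2 b.2 (congrArg Fin.val h))
          · right
            have h' : s < T (u₁ a.1) (u₁ b.1) := h
            rw [hsh a.1 b.1 a.2 b.2] at h'; exact h'
      low := fun s hs a => by
        rw [tb2_rep_iff hT]
        by_cases ha : D a.1
        · right
          exact lt_of_lt_of_le hs (hlow a.1 a.2 ha)
        · left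
          exact Fin.ext (hcom a.1 a.2 ha).symm
      high := fun s hs a b hb hab => by
        rw [tb2_rep_iff hT] at hab
        rcases hab with h | h
        · exact hne a.1 b.1 a.2 b.2 hb (congrArg Fin.val h)
        · have h' : s < T (u₀ a.1) (u₁ b.1) := h
          have := hhigh a.1 b.1 a.2 b.2 hb
          omega }
  have key := gh_x_refl B hB (fun v : Fin m → S => h (trExt v)) t ls (hls.ghNn le_rfl) H (fun _ => z) (fun _ _ _ => rfl) (fun _ => rfl)
  unfold trNu
  refine le_of_le_of_eq key ?_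
  congr 1
  funext _ σ
  congr 1
  · refine hh _ _ fun i hi => ?_
    simp only [trExt, hi, hu₀ i hi, dif_pos, e₀]
  · refine hh _ _ fun i hi => ?_
    simp only [trExt, hi, hu₁ i hi, dif_pos, e₁]

/-- pull-back of a tree number along a map of the labels onto a prescribed table -/
theorem tr_x_pull [Inhabited S] {B : GhB S} (hB : B.Ok) {ls : List (GhLv S ι)} (hls : GhAdm B 0 ls) {Q m : ℕ} {T T' : ℕ → ℕ → ℕ}
    (hT : IsTr ls.length Q T) (z : S → ℝ) (u : ℕ → ℕ) (hu : ∀ x, x < m → u x < Q) (hTT : ∀ x y, x < m → y < m → T (u x) (u y) = T' x y)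
    (P : (ℕ → S) → ℝ) (hP : TrUses m P) :
    trNu B ls Q T z (fun σ => P fun x => σ (u x)) = trNu B ls m T' z P := by
  rw [tr_nu_comap hB hls hT z u hu P hP]
  exact tr_nu_congr B ls hTT z P

theorem gh_xe_eqns_cite : True := by
  have := @GhRefl.shift
  trivial

end Claimed.Agent.R286
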