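import Claimed.Agent.R286.Fd.TrB3
import Claimed.Agent.R286.Fd.TrB4
import Claimed.Agent.R286.Cav.Prod

/-!
# Row 286 (S0533), Fd/TrB5 : SYMMETRIES (D5 of the PE ledger): global symmetry, block flip, constant feature, constant source, site/rest factorisation
architect helper150;  OWNER / PROVER of this file: helper59 (raw lemmas: prefix `tr_b5_`).
STATEMENT FIXES (false as first stated): `tr_nu_sym`, `tr_nu_block_sym` need `(hP : TrUses q P)` (`trExt` pads with `default`, and `e default ≠ default`);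
`tr_nu_block_sym` needs `(ht : t ≤ ls.length)` (for `t = N + 1` the set `A` could split coincident leaves).
0 sorry.  `tr_nu_prod`: helper193 (Cav/Prod).  RAW TOOLS: `tr_b5_pb_nu` (transport of `ghNu` along a bijection of the configuration spaces), `tr_b5_nu_shift` (label dependent constants in the fields drop out), `tr_b5_F_sym`, `tr_b5_flip` (raw flip on `ghNu`, any representatives, any masses).
-/

set_option autoImplicit false
set_option linter.unusedSectionVars false
set_option linter.unusedVariables false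

namespace Claimed.Agent.R286

open MeasureTheory ProbabilityTheory

/-! ## 0. constant sources -/

section src
variable {S ι : Type} [Fintype S] [Fintype ι]

theorem tr_b5_Gw_shift (B : GhB S) (z : S → ℝ) (c : ℝ) (s : S) : ghGw B (fun s => z s + c) s = ghGw B z s := by
  unfold ghGw
  have e : ∀ t, B.w t * Real.exp (B.a * (z t + c)) = Real.exp (B.a * c) * (B.w t * Real.exp (B.a * z t)) := by
    intro t; rw [mul_add, Real.exp_add]; ring
  simp_rw [e, ← Finset.mul_sum]
  exact mul_div_mul_left _ _ (Real.exp_pos _).ne'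

theorem tr_b5_D_shift {B : GhB S} (hB : B.Ok) {l : GhLv S ι} {ls : List (GhLv S ι)} (h : GhNn (l :: ls)) (z : S → ℝ) (c : ℝ)
    (ξ : ι → ℝ) : ghD B l ls (fun s => z s + c) ξ = ghD B l ls z ξ := by
  unfold ghD
  have h1 : (fun s => z s + c) + l.inc ξ = fun s => (z + l.inc ξ) s + c := by
    funext s; simp only [Pi.add_apply]; ring
  rw [h1, (gh_b_nice hB h.tail).shift, (gh_b_nice hB h).shift]
  congr 1; ring

/-- label dependent constants added to the revealed fields drop out -/
theorem tr_b5_nu_shift {B : GhB S} (hB : B.Ok) {q : ℕ} (c : Fin q → ℝ) : ∀ (ls : List (GhLv S ι)), GhNn ls →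
    ∀ (rep : ℕ → Fin q → Fin q) (G : Fin q → S → ℝ) (P : (ℕ → Fin q → ι → ℝ) → (Fin q → S) → ℝ),
    ghNu B ls rep (fun a s => G a s + c a) P = ghNu B ls rep G P
  | [], _, rep, G, P => by
      simp only [ghNu, tr_b5_Gw_shift]
  | l :: ls, h, rep, G, P => by
      simp only [ghNu]
      refine integral_congr_ae (Filter.Eventually.of_forall fun W => ?_)
      simp only
      have h1 : ghDT B l ls (rep 0) (fun a s => G a s + c a) W = ghDT B l ls (rep 0) G W := by
        unfold ghDT; simp only [tr_b5_D_shift hB h]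
      have h2 : (fun a => (fun s => G a s + c a) + l.inc (W (rep 0 a)))
          = fun a s => (G a + l.inc (W (rep 0 a))) s + c a := by
        funext a s; simp only [Pi.add_apply]; ring
      rw [h1, h2, tr_b5_nu_shift hB c ls h.tail]

end src

/-! ## 1. flips -/

section flip
variable {S ι : Type} [Fintype S] [Fintype ι]

/-- the level seen through a map of `S` -/
def trB5Tw (f : S → S) (l : GhLv S ι) : GhLv S ι := ⟨l.m, fun s => l.A (f s)⟩

theorem tr_b5_eqns_cite : True := by
  have := @trB5Tw.eq_1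
  trivial

theorem tr_b5_tw_inc (f : S → S) (l : GhLv S ι) (ξ : ι → ℝ) (s : S) : (trB5Tw f l).inc ξ s = l.inc ξ (f s) := rfl

theorem tr_b5_tw_cov (f : S → S) (l : GhLv S ι) (s t : S) : (trB5Tw f l).cov s t = l.cov (f s) (f t) := rfl

theorem tr_b5_cov_symm (e : S ≃ S) {l : GhLv S ι} (h : ∀ s t, l.cov (e s) (e t) = l.cov s t) (s t : S) :
    l.cov (e.symm s) (e.symm t) = l.cov s t := by
  rw [← h (e.symm s) (e.symm t), e.apply_symm_apply, e.apply_symm_apply]

theorem tr_b5_Z_sym (B : GhB S) (e : S ≃ S) (hw : ∀ s, B.w (e s) = B.w s) (z : S → ℝ) :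
    ∑ s, B.w s * Real.exp (B.a * z (e.symm s)) = ∑ s, B.w s * Real.exp (B.a * z s) := by
  rw [← e.sum_comp]
  simp only [hw, e.symm_apply_apply]

theorem tr_b5_Gw_sym (B : GhB S) (e : S ≃ S) (hw : ∀ s, B.w (e s) = B.w s) (z : S → ℝ) (s : S) :
    ghGw B (fun s => z (e.symm s)) (e s) = ghGw B z s := by
  unfold ghGw
  rw [tr_b5_Z_sym B e hw, hw]
  simp only [e.symm_apply_apply]

/-- the continuations are invariant under a symmetry of the prior and of the kernels -/
theorem tr_b5_F_sym (B : GhB S) (e : S ≃ S) (hw : ∀ s, B.w (e s) = B.w s) :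
    ∀ (ls : List (GhLv S ι)), (∀ l ∈ ls, ∀ s t, l.cov (e s) (e t) = l.cov s t) → ∀ z : S → ℝ,
      ghF B ls (fun s => z (e.symm s)) = ghF B ls z
  | [], _, z => by
      show ghF0 B _ = ghF0 B z
      unfold ghF0
      rw [tr_b5_Z_sym B e hw]
  | l :: ls, h, z => by
      show ghT (ghStd ι) l.m (fun ξ => ghF B ls ((fun s => z (e.symm s)) + l.inc ξ))
        = ghT (ghStd ι) l.m fun ξ => ghF B ls (z + l.inc ξ)
      have h1 : ∀ ξ, ghF B ls ((fun s => z (e.symm s)) + l.inc ξ) = ghF B ls (z + (trB5Tw e l).inc ξ) := by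
        intro ξ
        rw [← tr_b5_F_sym B e hw ls (fun l' hl' => h l' (List.mem_cons_of_mem _ hl')) (z + (trB5Tw e l).inc ξ)]
        congr 1
        funext s
        simp only [Pi.add_apply, tr_b5_tw_inc, e.apply_symm_apply]
      simp_rw [h1]
      exact gh_l_T_congr (trB5Tw e l) l (fun s t => h l List.mem_cons_self s t) l.m (fun y => ghF B ls (z + y))
        ((tr_e_F_meas B ls).comp (measurable_const.add measurable_id))

/-- transfer of an integral over the drivers of `q` labels, label dependent levels -/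
theorem tr_b5_pi_transfer {q : ℕ} (l l' : Fin q → GhLv S ι) (h : ∀ a s t, (l a).cov s t = (l' a).cov s t)
    (Ψ : (Fin q → S → ℝ) → ℝ) (hΨ : Measurable Ψ) :
    ∫ W : Fin q → ι → ℝ, Ψ (fun a => (l a).inc (W a)) ∂(Measure.pi fun _ : Fin q => ghStd ι)
      = ∫ W : Fin q → ι → ℝ, Ψ (fun a => (l' a).inc (W a)) ∂(Measure.pi fun _ : Fin q => ghStd ι) := by
  have m1 : Measurable fun W : Fin q → ι → ℝ => (fun a => (l a).inc (W a) : Fin q → S → ℝ) :=
    measurable_pi_lambda _ fun a => (gh_l_inc_meas (l a)).comp (measurable_pi_apply a)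
  have m2 : Measurable fun W : Fin q → ι → ℝ => (fun a => (l' a).inc (W a) : Fin q → S → ℝ) :=
    measurable_pi_lambda _ fun a => (gh_l_inc_meas (l' a)).comp (measurable_pi_apply a)
  have i1 : ∀ a, IsProbabilityMeasure ((ghStd ι).map (l a).inc) := fun a =>
    Measure.isProbabilityMeasure_map (gh_l_inc_meas (l a)).aemeasurable
  have i2 : ∀ a, IsProbabilityMeasure ((ghStd ι).map (l' a).inc) := fun a =>
    Measure.isProbabilityMeasure_map (gh_l_inc_meas (l' a)).aemeasurable
  rw [← integral_map m1.aemeasurable hΨ.aestronglyMeasurable, ← integral_map m2.aemeasurable hΨ.aestronglyMeasurable,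
    Measure.pi_map_pi (fun a => (gh_l_inc_meas (l a)).aemeasurable),
    Measure.pi_map_pi (fun a => (gh_l_inc_meas (l' a)).aemeasurable)]
  congr 2
  funext a
  exact gh_l_inc_congr (l a) (l' a) (h a)

/-- the field of the label `a`, seen through `e` on the labels of `A` -/
def trB5G (e : S ≃ S) {q : ℕ} (A : Fin q → Prop) [DecidablePred A] (G : Fin q → S → ℝ) : Fin q → S → ℝ :=
  fun a => if A a then (fun s => G a (e.symm s)) else G a

theorem tr_b5_F_G (B : GhB S) (e : S ≃ S) (hw : ∀ s, B.w (e s) = B.w s) {q : ℕ} (A : Fin q → Prop) [DecidablePred A]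
    (ls : List (GhLv S ι)) (h : ∀ l ∈ ls, ∀ s t, l.cov (e s) (e t) = l.cov s t) (G : Fin q → S → ℝ) (a : Fin q) :
    ghF B ls (trB5G e A G a) = ghF B ls (G a) := by
  unfold trB5G
  split_ifs
  · exact tr_b5_F_sym B e hw ls h (G a)
  · rfl

/-- **raw flip**: `e` is applied to the spins of the labels of `A`; every level is invariant, and either does not see `e`
or does not mix `A` with its complement -/
theorem tr_b5_flip (B : GhB S) (e : S ≃ S) (hw : ∀ s, B.w (e s) = B.w s) {q : ℕ} (A : Fin q → Prop) [DecidablePred A]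
    (P : (Fin q → S) → ℝ) : ∀ (ls : List (GhLv S ι)) (rep : ℕ → Fin q → Fin q),
      (∀ l ∈ ls, ∀ s t, l.cov (e s) (e t) = l.cov s t) →
      (∀ j (h : j < ls.length), (∀ s, (ls[j]).A (e s) = (ls[j]).A s) ∨ ∀ a, A (rep j a) ↔ A a) →
      (∀ a, A (rep ls.length a) ↔ A a) → ∀ G : Fin q → S → ℝ,
      ghNu B ls rep G (fun _ σ => P fun a => if A a then e (σ a) else σ a)
        = ghNu B ls rep (trB5G e A G) fun _ σ => P σ
  | [], rep, _, _, hA, G => by
      simp only [ghNu]
      let E : (Fin q → S) ≃ (Fin q → S) := Equiv.piCongrRight fun a => if A a then e else Equiv.refl S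
      have hE : ∀ σ a, E σ a = if A a then e (σ a) else σ a := by
        intro σ a
        show (if A a then e else Equiv.refl S) (σ a) = _
        split_ifs <;> rfl
      refine Eq.trans ?_ (E.sum_comp _)
      refine Finset.sum_congr rfl fun σ _ => ?_
      congr 1
      · refine Finset.prod_congr rfl fun a _ => ?_
        rw [hE]
        unfold trB5G
        split_ifs
        · exact (tr_b5_Gw_sym B e hw (G a) (σ a)).symm
        · rfl
      · congr 1
        funext a
        rw [hE]
        have := hA a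
        simp only [List.length_nil] at this
        simp only [this]
  | l :: ls, rep, hc, hj, hA, G => by
      have hc' : ∀ l' ∈ ls, ∀ s t, l'.cov (e s) (e t) = l'.cov s t := fun l' hl' => hc l' (List.mem_cons_of_mem _ hl')
      have ih := tr_b5_flip B e hw A P ls (fun t => rep (t + 1)) hc'
        (fun j h => hj (j + 1) (by simpa using h)) (fun a => hA a)
      set G' := trB5G e A G with hG'
      set Ψ : (Fin q → S → ℝ) → ℝ := fun Y =>
        (∏ a, if rep 0 a = a then Real.exp (l.m * (ghF B ls (G' a + Y a) - ghF B (l :: ls) (G' a))) else 1) *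
          ghNu B ls (fun t => rep (t + 1)) (fun a => G' a + Y (rep 0 a)) (fun _ σ => P σ) with hΨ
      have hm : Measurable Ψ := by
        refine Measurable.mul (Finset.measurable_prod _ fun a _ => ?_) ?_
        · split_ifs
          · have h1 : Measurable fun Y : Fin q → S → ℝ => ghF B ls (G' a + Y a) :=
              (tr_e_F_meas B ls).comp (measurable_const.add (measurable_pi_apply a))
            fun_prop
          · exact measurable_const
        · refine (tr_e_nu_meas B P ls fun t => rep (t + 1)).comp (measurable_pi_lambda _ fun a => ?_)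
          exact measurable_const.add (measurable_pi_apply (rep 0 a))
      -- the twisted levels
      let lt : Fin q → GhLv S ι := fun a => if A a then trB5Tw e.symm l else l
      have hlt : ∀ a s t, (lt a).cov s t = l.cov s t := by
        intro a s t
        show (if A a then trB5Tw e.symm l else l).cov s t = _
        split_ifs
        · exact tr_b5_cov_symm e (hc l List.mem_cons_self) s t
        · rfl
      have hadd : ∀ (H : Fin q → ι → ℝ) (a : Fin q),
          trB5G e A (fun a => G a + l.inc (H a)) a = G' a + (lt a).inc (H a) := by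
        intro H a
        rw [hG']
        unfold trB5G
        show _ = _ + (if A a then trB5Tw e.symm l else l).inc (H a)
        split_ifs
        · rfl
        · rfl
      have hrep : ∀ a, lt (rep 0 a) = lt a := by
        intro a
        show (if A (rep 0 a) then trB5Tw e.symm l else l) = if A a then trB5Tw e.symm l else l
        rcases hj 0 (by simp) with h0 | h0
        · have : trB5Tw e.symm l = l := by
            unfold trB5Tw
            have h1 : (fun s => l.A (e.symm s)) = l.A := by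
              funext s
              have := h0 (e.symm s)
              simp only [List.getElem_cons_zero, e.apply_symm_apply] at this
              exact this.symm
            rw [h1]
          simp only [this, ite_self]
        · simp only [h0 a]
      have e1 : ghNu B (l :: ls) rep G (fun _ σ => P fun a => if A a then e (σ a) else σ a)
          = ∫ W : Fin q → ι → ℝ, Ψ (fun a => (lt a).inc (W a)) ∂(Measure.pi fun _ : Fin q => ghStd ι) := by
        show ∫ W : Fin q → ι → ℝ, ghDT B l ls (rep 0) G W *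
          ghNu B ls (fun t => rep (t + 1)) (fun a => G a + l.inc (W (rep 0 a)))
            (fun _ σ => P fun a => if A a then e (σ a) else σ a) ∂(Measure.pi fun _ : Fin q => ghStd ι) = _
        refine integral_congr_ae (Filter.Eventually.of_forall fun W => ?_)
        simp only [hΨ, ghDT, ghD]
        rw [ih]
        congr 1
        · refine Finset.prod_congr rfl fun a _ => ?_
          rw [← hadd W a, tr_b5_F_G B e hw A ls hc', hG', tr_b5_F_G B e hw A (l :: ls) hc]
        · congr 1
          funext a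
          rw [hadd (fun a => W (rep 0 a)) a, hrep]
      have e2 : ghNu B (l :: ls) rep G' (fun _ σ => P σ)
          = ∫ W : Fin q → ι → ℝ, Ψ (fun a => l.inc (W a)) ∂(Measure.pi fun _ : Fin q => ghStd ι) := rfl
      rw [e1, e2]
      exact tr_b5_pi_transfer lt (fun _ => l) hlt Ψ hm

end flip


/-! ## 2. transport along a bijection of the configuration spaces -/

section transport
variable {S S' ι : Type} [Fintype S] [Fintype S'] [Fintype ι]

/-- pull-back of the base -/
def trB5PB (φ : S' → S) (B : GhB S) : GhB S' := ⟨fun s => B.w (φ s), B.a⟩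

/-- pull-back of a level -/
def trB5PL (φ : S' → S) (l : GhLv S ι) : GhLv S' ι := ⟨l.m, fun s => l.A (φ s)⟩

theorem tr_b5_pb_eqns_cite : True := by
  have := @trB5PB.eq_1
  have := @trB5PL.eq_1
  trivial

theorem tr_b5_pb_Z (φ : S' ≃ S) (B : GhB S) (z : S → ℝ) :
    ∑ s, (trB5PB φ B).w s * Real.exp ((trB5PB φ B).a * z (φ s)) = ∑ s, B.w s * Real.exp (B.a * z s) :=
  φ.sum_comp fun s => B.w s * Real.exp (B.a * z s)

theorem tr_b5_pb_Gw (φ : S' ≃ S) (B : GhB S) (z : S → ℝ) (s : S') :
    ghGw (trB5PB φ B) (fun s => z (φ s)) s = ghGw B z (φ s) := by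
  unfold ghGw
  rw [tr_b5_pb_Z φ B z]
  rfl

theorem tr_b5_pb_F (φ : S' ≃ S) (B : GhB S) : ∀ (ls : List (GhLv S ι)) (z : S → ℝ),
    ghF (trB5PB φ B) (ls.map (trB5PL φ)) (fun s => z (φ s)) = ghF B ls z
  | [], z => by
      show ghF0 _ _ = ghF0 _ _
      unfold ghF0
      rw [tr_b5_pb_Z φ B z]
      rfl
  | l :: ls, z => by
      show ghT (ghStd ι) l.m (fun ξ => ghF (trB5PB φ B) (ls.map (trB5PL φ)) ((fun s => z (φ s)) + (trB5PL φ l).inc ξ))
        = ghT (ghStd ι) l.m fun ξ => ghF B ls (z + l.inc ξ)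
      congr 1
      funext ξ
      exact tr_b5_pb_F φ B ls (z + l.inc ξ)

theorem tr_b5_pb_D (φ : S' ≃ S) (B : GhB S) (l : GhLv S ι) (ls : List (GhLv S ι)) (z : S → ℝ) (ξ : ι → ℝ) :
    ghD (trB5PB φ B) (trB5PL φ l) (ls.map (trB5PL φ)) (fun s => z (φ s)) ξ = ghD B l ls z ξ := by
  unfold ghD
  have h1 := tr_b5_pb_F φ B ls (z + l.inc ξ)
  have h2 := tr_b5_pb_F φ B (l :: ls) z
  rw [← h1, ← h2]
  rfl

/-- the tree law is transported by a bijection of the configuration spaces -/
theorem tr_b5_pb_nu (φ : S' ≃ S) (B : GhB S) {q : ℕ} : ∀ (ls : List (GhLv S ι)) (rep : ℕ → Fin q → Fin q) (G : Fin q → S → ℝ)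
    (P : (ℕ → Fin q → ι → ℝ) → (Fin q → S) → ℝ),
    ghNu (trB5PB φ B) (ls.map (trB5PL φ)) rep (fun a s => G a (φ s)) (fun η σ => P η fun a => φ (σ a)) = ghNu B ls rep G P
  | [], rep, G, P => by
      simp only [List.map_nil, ghNu]
      refine Eq.trans ?_ ((Equiv.piCongrRight fun _ : Fin q => φ).sum_comp _)
      refine Finset.sum_congr rfl fun σ _ => ?_
      simp only [tr_b5_pb_Gw]
      rfl
  | l :: ls, rep, G, P => by
      simp only [List.map_cons, ghNu]
      refine integral_congr_ae (Filter.Eventually.of_forall fun W => ?_)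
      simp only
      have h1 : ghDT (trB5PB φ B) (trB5PL φ l) (ls.map (trB5PL φ)) (rep 0) (fun a s => G a (φ s)) W = ghDT B l ls (rep 0) G W := by
        unfold ghDT
        simp only [tr_b5_pb_D]
      rw [h1]
      congr 1
      exact tr_b5_pb_nu φ B ls (fun t => rep (t + 1)) (fun a => G a + l.inc (W (rep 0 a)))
        (fun η σ => P (ghCons (fun a => W (rep 0 a)) η) σ)

end transport

theorem tr_b5_rep_spec (q : ℕ) (τ : ℕ → ℕ → ℕ) (j : ℕ) (a : Fin q) :
    trRep q τ j a = a ∨ j < τ a.1 (trRep q τ j a).1 := by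
  unfold trRep
  cases h : (List.finRange q).find? fun b : Fin q => decide (j < τ a.1 b.1) with
  | none => left; rfl
  | some b =>
    right
    have := List.find?_some h
    simpa using this

section
variable {S ι : Type} [Fintype S] [Fintype ι] [Inhabited S]

theorem tr_b5_cov_comm (l : GhLv S ι) (s t : S) : l.cov s t = l.cov t s := by
  unfold GhLv.cov
  exact Finset.sum_congr rfl fun i _ => mul_comm _ _

/-- a level whose kernel does not see `e` in one variable has an `e`-invariant factor -/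
theorem tr_b5_A_of_cov (l : GhLv S ι) (e : S → S) (h : ∀ s s', l.cov (e s) s' = l.cov s s') (s : S) : l.A (e s) = l.A s := by
  have h0 : ∑ i, (l.A (e s) i - l.A s i) ^ 2 = 0 := by
    have h1 : ∑ i, (l.A (e s) i - l.A s i) ^ 2 = l.cov (e s) (e s) - 2 * l.cov (e s) s + l.cov s s := by
      unfold GhLv.cov
      rw [Finset.mul_sum, ← Finset.sum_sub_distrib, ← Finset.sum_add_distrib]
      exact Finset.sum_congr rfl fun i _ => by ring
    rw [h1, h s (e s), h s s, tr_b5_cov_comm l s (e s), h s s]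
    ring
  funext i
  have := (Finset.sum_eq_zero_iff_of_nonneg (fun i _ => sq_nonneg (l.A (e s) i - l.A s i))).1 h0 i (Finset.mem_univ i)
  have h2 := pow_eq_zero_iff (two_ne_zero) |>.1 this
  linarith

/-- GLOBAL SYMMETRY (site permutations, gauge flips): a bijection of `S` which preserves the prior, the source and all the kernels -/
theorem tr_nu_sym {B : GhB S} (hB : B.Ok) {ls : List (GhLv S ι)} (hls : GhAdm B 0 ls) (q : ℕ) (τ : ℕ → ℕ → ℕ) (z : S → ℝ)
    (e : S ≃ S) (hw : ∀ s, B.w (e s) = B.w s) (hz : ∀ s, z (e s) = z s) (hc : ∀ l ∈ ls, ∀ s t, l.cov (e s) (e t) = l.cov s t)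
    (P : (ℕ → S) → ℝ) (hP : TrUses q P) : trNu B ls q τ z (fun σ => P fun x => e (σ x)) = trNu B ls q τ z P := by
  unfold trNu
  have h1 := tr_b5_flip B e hw (fun _ : Fin q => True) (fun σ => P (trExt σ)) ls (fun t => trRep q τ t) hc
    (fun j _ => Or.inr fun _ => Iff.rfl) (fun _ => Iff.rfl) (fun _ => z)
  have h2 : trB5G e (fun _ : Fin q => True) (fun _ => z) = fun _ => z := by
    funext a s
    unfold trB5G
    simp only [if_true]
    rw [← hz (e.symm s), e.apply_symm_apply]
  rw [h2] at h1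
  rw [← h1]
  congr 1
  funext _ σ
  refine hP _ _ fun i hi => ?_
  simp [trExt, hi]

/-- BLOCK FLIP: the levels before the cut of depth `t` do not see `e`, the later ones are invariant; `e` is applied to the leaves of a union `A` of blocks of the cut -/
theorem tr_nu_block_sym {B : GhB S} (hB : B.Ok) {ls : List (GhLv S ι)} (hls : GhAdm B 0 ls) {q : ℕ} {τ : ℕ → ℕ → ℕ}
    (hτ : IsTr ls.length q τ) (z : S → ℝ) (e : S ≃ S) (hw : ∀ s, B.w (e s) = B.w s) (hz : ∀ s, z (e s) = z s) (t : ℕ)
    (ht : t ≤ ls.length)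
    (hlow : ∀ j (h : j < ls.length), j < t → ∀ s s', (ls[j]).cov (e s) s' = (ls[j]).cov s s')
    (hhigh : ∀ j (h : j < ls.length), t ≤ j → ∀ s s', (ls[j]).cov (e s) (e s') = (ls[j]).cov s s')
    (A : ℕ → Prop) [DecidablePred A] (hA : ∀ x y, x < q → y < q → A x → t < τ x y → A y) (P : (ℕ → S) → ℝ)
    (hP : TrUses q P) :
    trNu B ls q τ z (fun σ => P fun x => if A x then e (σ x) else σ x) = trNu B ls q τ z P := by
  unfold trNu
  have hrep : ∀ j, t ≤ j → ∀ a : Fin q, A (trRep q τ j a).1 ↔ A a.1 := by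
    intro j hj a
    rcases tr_b5_rep_spec q τ j a with h | h
    · rw [h]
    · constructor
      · intro h1
        refine hA _ _ (trRep q τ j a).2 a.2 h1 ?_
        rw [hτ.symm _ _ (trRep q τ j a).2 a.2]
        omega
      · intro h1
        exact hA _ _ a.2 (trRep q τ j a).2 h1 (by omega)
  have hc : ∀ l ∈ ls, ∀ s t, l.cov (e s) (e t) = l.cov s t := by
    intro l hl s s'
    obtain ⟨j, hj, rfl⟩ := List.getElem_of_mem hl
    by_cases hjt : j < t
    · rw [hlow j hj hjt, tr_b5_cov_comm, hlow j hj hjt, tr_b5_cov_comm]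
    · exact hhigh j hj (by omega) s s'
  have h1 := tr_b5_flip B e hw (fun a : Fin q => A a.1) (fun σ => P (trExt σ)) ls (fun t => trRep q τ t) hc
    (fun j hj => by
      by_cases hjt : j < t
      · exact Or.inl fun s => tr_b5_A_of_cov _ e (hlow j hj hjt) s
      · exact Or.inr (hrep j (by omega)))
    (hrep _ ht) (fun _ => z)
  have h2 : trB5G e (fun a : Fin q => A a.1) (fun _ => z) = fun _ => z := by
    funext a s
    unfold trB5G
    split_ifs
    · show z (e.symm s) = z s
      rw [← hz (e.symm s), e.apply_symm_apply]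
    · rfl
  rw [h2] at h1
  rw [← h1]
  congr 1
  funext _ σ
  refine hP _ _ fun i hi => ?_
  simp [trExt, hi]

/-- a constant source drops out -/
theorem tr_nu_const_src {B : GhB S} (hB : B.Ok) {ls : List (GhLv S ι)} (hls : GhAdm B 0 ls) (c : ℝ)
    (q : ℕ) (τ : ℕ → ℕ → ℕ) (z : S → ℝ) (P : (ℕ → S) → ℝ) :
    trNu B ls q τ (fun s => z s + c) P = trNu B ls q τ z P :=
  tr_b5_nu_shift hB (fun _ => c) ls (hls.ghNn le_rfl) _ (fun _ => z) _

theorem tr_b5_const_ls {ι' : Type} (c : ℕ → ι' → ℝ) (ls : List (GhLv S ι)) (k : ℕ) :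
    ((ls.zipIdx k).map fun lj => (⟨lj.1.m, fun s => Sum.elim (lj.1.A s) (c lj.2)⟩ : GhLv S (ι ⊕ ι')))
      = (cvpLs ls ((ls.zipIdx k).map fun lj => (⟨lj.1.m, fun _ => c lj.2⟩ : GhLv Unit ι'))).map
          (trB5PL fun s : S => (s, ())) := by
  induction ls generalizing k with
  | nil => rfl
  | cons l ls ih =>
    simp only [List.zipIdx_cons, List.map_cons]
    rw [ih (k + 1)]
    rfl

theorem tr_b5_const_M {ι' : Type} (c : ℕ → ι' → ℝ) (ls : List (GhLv S ι)) (k : ℕ) :
    CvpM ls ((ls.zipIdx k).map fun lj => (⟨lj.1.m, fun _ => c lj.2⟩ : GhLv Unit ι')) := by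
  induction ls generalizing k with
  | nil => exact List.Forall₂.nil
  | cons l ls ih =>
    simp only [List.zipIdx_cons, List.map_cons]
    exact List.Forall₂.cons rfl (ih (k + 1))

theorem tr_b5_const_Nn {ι' : Type} (c : ℕ → ι' → ℝ) {ls : List (GhLv S ι)} (h : GhNn ls) (k : ℕ) :
    GhNn ((ls.zipIdx k).map fun lj => (⟨lj.1.m, fun _ => c lj.2⟩ : GhLv Unit ι')) := by
  intro l hl
  obtain ⟨lj, hlj, rfl⟩ := List.mem_map.1 hl
  exact h lj.1 (List.fst_mem_of_mem_zipIdx hlj)

/-- CONSTANT FEATURE: drivers whose factor does not depend on the configuration drop out of the spin law -/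
theorem tr_nu_const {ι' : Type} [Fintype ι'] {B : GhB S} (hB : B.Ok) {ls : List (GhLv S ι)} (hls : GhAdm B 0 ls) (c : ℕ → ι' → ℝ)
    (q : ℕ) (τ : ℕ → ℕ → ℕ) (z : S → ℝ) (P : (ℕ → S) → ℝ) :
    trNu B (ls.zipIdx.map fun lj => (⟨lj.1.m, fun s => Sum.elim (lj.1.A s) (c lj.2)⟩ : GhLv S (ι ⊕ ι'))) q τ z P
      = trNu B ls q τ z P := by
  unfold trNu
  let φ : S ≃ S × Unit := (Equiv.prodPUnit S).symm
  let B₂ : GhB Unit := ⟨fun _ => 1, B.a⟩
  have hB₂ : B₂.Ok := ⟨fun _ => zero_le_one, by simp [B₂], hB.pos⟩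
  set ls₂ : List (GhLv Unit ι') := (ls.zipIdx 0).map fun lj => (⟨lj.1.m, fun _ => c lj.2⟩ : GhLv Unit ι') with hls₂
  have hBB : B = trB5PB φ (cvpB B B₂) := by
    cases B with
    | mk w a => simp [trB5PB, cvpB, B₂, φ]
  have key := cvp_nu_prod hB hB₂ rfl (tr_b5_const_M c ls 0) (fun t => trRep q τ t) (fun _ => z) (fun _ => 0)
    (fun _ σ => P (trExt σ)) (fun _ _ => 1)
  rw [gh_n_const B₂ hB₂ 1 _ (tr_b5_const_Nn c (hls.ghNn le_rfl) 0), mul_one] at key
  rw [← key, ← tr_b5_pb_nu φ, ← hBB, tr_b5_const_ls c ls 0]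
  congr 1
  · funext a s
    simp [cvpZ, φ]
  · funext η σ
    simp [φ]

end

theorem cvp_M_of {S₁ S₂ ι₁ ι₂ : Type} {B₁ : GhB S₁} {B₂ : GhB S₂}
    {ls₁ : List (GhLv S₁ ι₁)} {ls₂ : List (GhLv S₂ ι₂)}
    (hlen : ls₁.length = ls₂.length) (hm : ∀ j, trMs B₁ ls₁ j = trMs B₂ ls₂ j) : CvpM ls₁ ls₂ := by
  unfold CvpM
  rw [List.forall₂_iff_get]
  refine ⟨hlen, fun i h1 h2 => ?_⟩
  have := hm i
  simpa [trMs, h1, h2] using this

/-- SITE / REST FACTORISATION: product prior, every kernel = kernel of the first factor + kernel of the second factor, same masses -/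
theorem tr_nu_prod {S₁ S₂ ι₁ ι₂ : Type} [Fintype S₁] [Fintype S₂] [Fintype ι₁] [Fintype ι₂] [Inhabited S₁] [Inhabited S₂]
    {B₁ : GhB S₁} {B₂ : GhB S₂} (hB₁ : B₁.Ok) (hB₂ : B₂.Ok) (ha : B₁.a = B₂.a)
    {ls₁ : List (GhLv S₁ ι₁)} {ls₂ : List (GhLv S₂ ι₂)} (h₁ : GhAdm B₁ 0 ls₁) (h₂ : GhAdm B₂ 0 ls₂)
    (hlen : ls₁.length = ls₂.length) (hm : ∀ j, trMs B₁ ls₁ j = trMs B₂ ls₂ j)
    (q : ℕ) (τ : ℕ → ℕ → ℕ) (z₁ : S₁ → ℝ) (z₂ : S₂ → ℝ) (P₁ : (ℕ → S₁) → ℝ) (P₂ : (ℕ → S₂) → ℝ) :
    trNu (⟨fun s => B₁.w s.1 * B₂.w s.2, B₁.a⟩ : GhB (S₁ × S₂))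
        (List.zipWith (fun l₁ l₂ => (⟨l₁.m, fun s => Sum.elim (l₁.A s.1) (l₂.A s.2)⟩ : GhLv (S₁ × S₂) (ι₁ ⊕ ι₂))) ls₁ ls₂)
        q τ (fun s => z₁ s.1 + z₂ s.2) (fun σ => P₁ (fun x => (σ x).1) * P₂ fun x => (σ x).2)
      = trNu B₁ ls₁ q τ z₁ P₁ * trNu B₂ ls₂ q τ z₂ P₂ := by
  have key := cvp_nu_prod hB₁ hB₂ ha (cvp_M_of hlen hm) (fun t => trRep q τ t) (fun _ => z₁) (fun _ => z₂)
    (fun _ σ => P₁ (trExt σ)) (fun _ σ => P₂ (trExt σ))
  unfold trNu
  rw [← key]
  have e1 : ∀ σ : Fin q → S₁ × S₂, (fun x => (trExt σ x).1) = trExt fun a => (σ a).1 := by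
    intro σ; funext x; unfold trExt; split <;> rfl
  have e2 : ∀ σ : Fin q → S₁ × S₂, (fun x => (trExt σ x).2) = trExt fun a => (σ a).2 := by
    intro σ; funext x; unfold trExt; split <;> rfl
  simp only [e1, e2]
  rfl

end Claimed.Agent.R286
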