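import Claimed.Agent.R286.Fd.TrC2
import Claimed.Agent.R286.Fd.TrA5

/-!
# Row 286 (S0533), Fd/TrC3 : consequences of (2): iterated form, smoothness, PE Lemma 2.9 (Taylor, two-sided comparison)
architect helper150;  OWNER / PROVER of this file: helper125 (taken over from helper150, claim286).   NO sorry in this file.
All 4 exits are proved FROM: `tr_cov_deriv`, `gc_adm` (Fd/TrC2), `tr_nu_eq_sum`, `tr_pr_nonneg`, `tr_nu_congr` (Fd/TrB1), `tr_nu_prune` (Fd/TrB2),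
`tr_sumK_*`, `tr_absK_*` (Fd/TrA1, TrA2), `gh_n_abs_le`, `gh_n_nonneg` (Fd/NuApi).   Helper lemmas: prefix `tr_c3_`.
-/

set_option autoImplicit false

namespace Claimed.Agent.R286

open MeasureTheory ProbabilityTheory

/-! ### the signed sums are finite linear combinations -/

theorem tr_c3_sumK_const_mul {N q : ℕ} {τ : ℕ → ℕ → ℕ} {ms : ℕ → ℝ} (k : ℕ) (c : ℝ) (Φ : (ℕ → ℕ → ℕ) → ℝ) :
    trSumK ms N k q τ (fun τ' => c * Φ τ') = c * trSumK ms N k q τ Φ := by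
  induction k generalizing q τ with
  | zero => rfl
  | succ k ih =>
    simp only [trSumK, trSum, ih, Finset.mul_sum]
    refine Finset.sum_congr rfl fun x _ => Finset.sum_congr rfl fun j _ => ?_
    ring

theorem tr_c3_sumK_hasDeriv {N q : ℕ} {τ : ℕ → ℕ → ℕ} {ms : ℕ → ℝ} (hτ : IsTr N q τ) (k : ℕ)
    (g : (ℕ → ℕ → ℕ) → ℝ → ℝ) (g' : (ℕ → ℕ → ℕ) → ℝ) (s : Set ℝ) (θ : ℝ)
    (h : ∀ τ', IsTr N (q + k) τ' → HasDerivWithinAt (g τ') (g' τ') s θ) :
    HasDerivWithinAt (fun θ => trSumK ms N k q τ fun τ' => g τ' θ) (trSumK ms N k q τ g') s θ := by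
  induction k generalizing q τ with
  | zero => exact h τ hτ
  | succ k ih =>
    simp only [trSumK, trSum]
    refine HasDerivWithinAt.fun_sum fun x hx => HasDerivWithinAt.fun_sum fun j hj => ?_
    have hx' := Finset.mem_range.mp hx
    have hj' := Finset.mem_range.mp hj
    refine HasDerivWithinAt.const_mul _ (ih (tr_att_isTr hτ hx' (by omega)) fun τ' hτ' => ?_)
    exact h τ' (by rwa [show q + (k + 1) = q + 1 + k by omega])

theorem tr_c3_sumK_contDiffOn {N q : ℕ} {τ : ℕ → ℕ → ℕ} {ms : ℕ → ℝ} (hτ : IsTr N q τ) (k : ℕ)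
    (g : (ℕ → ℕ → ℕ) → ℝ → ℝ) (s : Set ℝ) (n : WithTop ℕ∞)
    (h : ∀ τ', IsTr N (q + k) τ' → ContDiffOn ℝ n (g τ') s) :
    ContDiffOn ℝ n (fun θ => trSumK ms N k q τ fun τ' => g τ' θ) s := by
  induction k generalizing q τ with
  | zero => exact h τ hτ
  | succ k ih =>
    simp only [trSumK, trSum]
    refine ContDiffOn.sum fun x hx => ContDiffOn.sum fun j hj => ?_
    have hx' := Finset.mem_range.mp hx
    have hj' := Finset.mem_range.mp hj
    refine contDiffOn_const.mul (ih (tr_att_isTr hτ hx' (by omega)) fun τ' hτ' => ?_)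
    exact h τ' (by rwa [show q + (k + 1) = q + 1 + k by omega])

section
variable {S Φ ι : Type} [Fintype S] [Fintype Φ] [Fintype ι] [Inhabited S]

/-- (2) with `trSumK 2` -/
theorem tr_c3_deriv {B : GhB S} (hB : B.Ok) (feat : Φ → S → ι → ℝ) {hs : List (ℝ × (Φ → ℝ) × (Φ → ℝ))}
    (hhs : GcAffAdm B.a hs) {q : ℕ} {τ : ℕ → ℕ → ℕ} (hτ : IsTr hs.length q τ) (z : S → ℝ) (P : (ℕ → S) → ℝ) (hP : TrUses q P)
    {θ : ℝ} (hθ : θ ∈ Set.Icc (0 : ℝ) 1) :
    HasDerivWithinAt (fun θ => gcNu B feat hs θ q τ z P)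
      (1 / 2 * trSumK (gcMs B.a hs) hs.length 2 q τ fun τ₂ =>
        gcNu B feat hs θ (q + 2) τ₂ z fun σ => P σ * trV (gcDK feat hs) hs.length (τ₂ q (q + 1)) (σ q) (σ (q + 1)))
      (Set.Icc 0 1) θ :=
  tr_cov_deriv hB feat hhs hτ z P hP hθ

omit [Fintype S] [Inhabited S] in
/-- the test with `j` insertions uses `q + 2 j` labels -/
theorem tr_c3_uses {q : ℕ} {P : (ℕ → S) → ℝ} (hP : TrUses q P) (j : ℕ) (V : ℕ → S → S → ℝ) :
    TrUses (q + 2 * j) fun σ => P σ * ∏ i ∈ Finset.range j, V i (σ (q + 2 * i)) (σ (q + 2 * i + 1)) := by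
  intro σ σ' h
  simp only
  rw [hP σ σ' fun i hi => h i (by omega)]
  congr 1
  refine Finset.prod_congr rfl fun i hi => ?_
  have := Finset.mem_range.mp hi
  rw [h (q + 2 * i) (by omega), h (q + 2 * i + 1) (by omega)]

/-- iterated form of (2): `2 j` labels, the pairs `(q + 2 i, q + 2 i + 1)` carry the insertions -/
theorem tr_cov_deriv_iter {B : GhB S} (hB : B.Ok) (feat : Φ → S → ι → ℝ) {hs : List (ℝ × (Φ → ℝ) × (Φ → ℝ))}
    (hhs : GcAffAdm B.a hs) {q : ℕ} {τ : ℕ → ℕ → ℕ} (hτ : IsTr hs.length q τ) (z : S → ℝ) (P : (ℕ → S) → ℝ) (hP : TrUses q P)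
    (j : ℕ) {θ : ℝ} (hθ : θ ∈ Set.Icc (0 : ℝ) 1) :
    iteratedDerivWithin j (fun θ => gcNu B feat hs θ q τ z P) (Set.Icc 0 1) θ
      = (1 / 2) ^ j * trSumK (gcMs B.a hs) hs.length (2 * j) q τ fun τ' =>
        gcNu B feat hs θ (q + 2 * j) τ' z fun σ => P σ * ∏ i ∈ Finset.range j,
          trV (gcDK feat hs) hs.length (τ' (q + 2 * i) (q + 2 * i + 1)) (σ (q + 2 * i)) (σ (q + 2 * i + 1)) := by
  induction j generalizing θ with
  | zero => simp [trSumK]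
  | succ j ih =>
    rw [iteratedDerivWithin_succ]
    have hcongr : Set.EqOn (iteratedDerivWithin j (fun θ => gcNu B feat hs θ q τ z P) (Set.Icc 0 1))
        (fun θ => (1 / 2) ^ j * trSumK (gcMs B.a hs) hs.length (2 * j) q τ fun τ' =>
          gcNu B feat hs θ (q + 2 * j) τ' z fun σ => P σ * ∏ i ∈ Finset.range j,
            trV (gcDK feat hs) hs.length (τ' (q + 2 * i) (q + 2 * i + 1)) (σ (q + 2 * i)) (σ (q + 2 * i + 1)))
        (Set.Icc 0 1) := fun θ hθ => ih hθ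
    rw [derivWithin_congr hcongr (hcongr hθ)]
    have hd := (tr_c3_sumK_hasDeriv (ms := gcMs B.a hs) hτ (2 * j)
      (fun τ' θ => gcNu B feat hs θ (q + 2 * j) τ' z fun σ => P σ * ∏ i ∈ Finset.range j,
            trV (gcDK feat hs) hs.length (τ' (q + 2 * i) (q + 2 * i + 1)) (σ (q + 2 * i)) (σ (q + 2 * i + 1))) _
      (Set.Icc 0 1) θ
      (fun τ' hτ' => tr_c3_deriv hB feat hhs hτ' z _
        (tr_c3_uses hP j fun i => trV (gcDK feat hs) hs.length (τ' (q + 2 * i) (q + 2 * i + 1))) hθ)).const_mul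
      ((1 / 2 : ℝ) ^ j)
    rw [hd.derivWithin (uniqueDiffOn_Icc zero_lt_one θ hθ), tr_c3_sumK_const_mul, ← mul_assoc, ← pow_succ,
      show 2 * (j + 1) = 2 * j + 2 by ring, tr_sumK_add]
    congr 1
    refine tr_sumK_congr hτ (2 * j) _ _ fun τ' hτ' _ => ?_
    refine tr_sumK_congr hτ' 2 _ _ fun τ₂ _ hag => ?_
    rw [Nat.add_assoc]
    congr 1
    funext σ
    rw [Finset.prod_range_succ, mul_assoc]
    congr 2
    refine Finset.prod_congr rfl fun i hi => ?_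
    have := Finset.mem_range.mp hi
    rw [hag (q + 2 * i) (q + 2 * i + 1) (by omega) (by omega)]

end

section
variable {S Φ ι : Type} [Fintype S] [Fintype Φ] [Fintype ι] [Inhabited S]

theorem tr_c3_contDiffOn_nat {B : GhB S} (hB : B.Ok) (feat : Φ → S → ι → ℝ) {hs : List (ℝ × (Φ → ℝ) × (Φ → ℝ))}
    (hhs : GcAffAdm B.a hs) (z : S → ℝ) (n : ℕ) : ∀ {q : ℕ} {τ : ℕ → ℕ → ℕ}, IsTr hs.length q τ →
    ∀ (P : (ℕ → S) → ℝ), TrUses q P → ContDiffOn ℝ n (fun θ => gcNu B feat hs θ q τ z P) (Set.Icc 0 1) := by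
  induction n with
  | zero =>
    intro q τ hτ P hP
    rw [Nat.cast_zero, contDiffOn_zero]
    exact fun θ hθ => (tr_c3_deriv hB feat hhs hτ z P hP hθ).continuousWithinAt
  | succ n ih =>
    intro q τ hτ P hP
    rw [Nat.cast_succ, contDiffOn_succ_iff_derivWithin (uniqueDiffOn_Icc zero_lt_one)]
    refine ⟨fun θ hθ => (tr_c3_deriv hB feat hhs hτ z P hP hθ).differentiableWithinAt, fun h => ?_, ?_⟩
    · exact absurd h (by simp)
    · have hc : ContDiffOn ℝ n (fun θ => 1 / 2 * trSumK (gcMs B.a hs) hs.length 2 q τ fun τ₂ =>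
          gcNu B feat hs θ (q + 2) τ₂ z fun σ => P σ * trV (gcDK feat hs) hs.length (τ₂ q (q + 1)) (σ q) (σ (q + 1)))
          (Set.Icc 0 1) := by
        refine contDiffOn_const.mul (tr_c3_sumK_contDiffOn hτ 2
          (fun τ₂ θ => gcNu B feat hs θ (q + 2) τ₂ z fun σ =>
            P σ * trV (gcDK feat hs) hs.length (τ₂ q (q + 1)) (σ q) (σ (q + 1))) _ _ fun τ₂ hτ₂ => ?_)
        refine ih hτ₂ _ ?_
        have := tr_c3_uses hP 1 fun _ => trV (gcDK feat hs) hs.length (τ₂ q (q + 1))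
        simpa using this
      refine hc.congr fun θ hθ => ?_
      exact (tr_c3_deriv hB feat hhs hτ z P hP hθ).derivWithin (uniqueDiffOn_Icc zero_lt_one θ hθ)

theorem tr_cov_contDiffOn {B : GhB S} (hB : B.Ok) (feat : Φ → S → ι → ℝ) {hs : List (ℝ × (Φ → ℝ) × (Φ → ℝ))}
    (hhs : GcAffAdm B.a hs) {q : ℕ} {τ : ℕ → ℕ → ℕ} (hτ : IsTr hs.length q τ) (z : S → ℝ) (P : (ℕ → S) → ℝ) (hP : TrUses q P) :
    ContDiffOn ℝ (⊤ : ℕ∞) (fun θ => gcNu B feat hs θ q τ z P) (Set.Icc 0 1) :=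
  contDiffOn_infty.2 fun n => tr_c3_contDiffOn_nat hB feat hhs z n hτ P hP

/-- the masses of an affine family -/
theorem tr_c3_isMs {B : GhB S} (hB : B.Ok) (feat : Φ → S → ι → ℝ) {hs : List (ℝ × (Φ → ℝ) × (Φ → ℝ))}
    (hhs : GcAffAdm B.a hs) : IsMs hs.length (gcMs B.a hs) ∧ gcMs B.a hs hs.length = B.a := by
  obtain ⟨h1, h2, h3⟩ := gc_adm (B := B) feat hhs 0
  have h4 := tr_ms_isMs hB h1
  have h5 : trMs B (gcLs feat (gcAff hs 0)) = gcMs B.a hs := funext h3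
  rw [h2, h5] at h4
  exact h4

/-- sup bound -/
theorem tr_c3_abs_le {B : GhB S} (hB : B.Ok) (feat : Φ → S → ι → ℝ) {hs : List (ℝ × (Φ → ℝ) × (Φ → ℝ))}
    (hhs : GcAffAdm B.a hs) (θ : ℝ) (q : ℕ) (τ : ℕ → ℕ → ℕ) (z : S → ℝ) (P : (ℕ → S) → ℝ) (C : ℝ) (hC : ∀ σ, |P σ| ≤ C) :
    |gcNu B feat hs θ q τ z P| ≤ C :=
  gh_n_abs_le B hB C _ ((gc_adm (B := B) feat hhs θ).1.ghNn le_rfl) _ _ _ fun _ _ => hC _

/-- TEX[PE:lem:found-taylor] Lemma 2.9, Taylor bounds -/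
theorem tr_taylor {B : GhB S} (hB : B.Ok) (feat : Φ → S → ι → ℝ) {hs : List (ℝ × (Φ → ℝ) × (Φ → ℝ))}
    (hhs : GcAffAdm B.a hs) {q : ℕ} {τ : ℕ → ℕ → ℕ} (hτ : IsTr hs.length q τ) (z : S → ℝ) (P : (ℕ → S) → ℝ) (hP : TrUses q P)
    (M K : ℝ) (hM : ∀ t s s', |trV (gcDK feat hs) hs.length t s s'| ≤ M) (hK : ∀ σ, |P σ| ≤ K) (j : ℕ)
    {θ : ℝ} (hθ : θ ∈ Set.Icc (0 : ℝ) 1) :
    |iteratedDerivWithin j (fun θ => gcNu B feat hs θ q τ z P) (Set.Icc 0 1) θ|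
      ≤ (2 * B.a ^ 2) ^ j * (∏ i ∈ Finset.range (2 * j), ((q : ℝ) + i)) * M ^ j * K := by
  obtain ⟨hms, hmsN⟩ := tr_c3_isMs hB feat hhs
  have hK0 : 0 ≤ K := (abs_nonneg _).trans (hK fun _ => default)
  rw [tr_cov_deriv_iter hB feat hhs hτ z P hP j hθ, abs_mul, abs_of_nonneg (by positivity)]
  have h1 := tr_sumK_le (ms := gcMs B.a hs) (N := hs.length) (q := q) (τ := τ) (2 * j) fun τ' =>
        gcNu B feat hs θ (q + 2 * j) τ' z fun σ => P σ * ∏ i ∈ Finset.range j,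
          trV (gcDK feat hs) hs.length (τ' (q + 2 * i) (q + 2 * i + 1)) (σ (q + 2 * i)) (σ (q + 2 * i + 1))
  have h2 := tr_absK_le hτ hms (2 * j) (fun τ' =>
        gcNu B feat hs θ (q + 2 * j) τ' z fun σ => P σ * ∏ i ∈ Finset.range j,
          trV (gcDK feat hs) hs.length (τ' (q + 2 * i) (q + 2 * i + 1)) (σ (q + 2 * i)) (σ (q + 2 * i + 1)))
        (K * M ^ j) (fun τ' _ => tr_c3_abs_le hB feat hhs θ _ _ z _ _ fun σ => by
          rw [abs_mul, Finset.abs_prod]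
          refine mul_le_mul (hK σ) ?_ (Finset.prod_nonneg fun _ _ => abs_nonneg _) hK0
          calc ∏ i ∈ Finset.range j, |trV (gcDK feat hs) hs.length (τ' (q + 2 * i) (q + 2 * i + 1)) (σ (q + 2 * i))
                (σ (q + 2 * i + 1))| ≤ ∏ _i ∈ Finset.range j, M :=
                Finset.prod_le_prod (fun _ _ => abs_nonneg _) fun _ _ => hM _ _ _
            _ = M ^ j := by simp)
  rw [hmsN] at h2
  calc (1 / 2 : ℝ) ^ j * _ ≤ (1 / 2 : ℝ) ^ j * ((2 * B.a) ^ (2 * j) * (∏ i ∈ Finset.range (2 * j), ((q : ℝ) + i)) * (K * M ^ j)) :=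
        mul_le_mul_of_nonneg_left (h1.trans h2) (by positivity)
    _ = (2 * B.a ^ 2) ^ j * (∏ i ∈ Finset.range (2 * j), ((q : ℝ) + i)) * M ^ j * K := by
        have : (1 / 2 : ℝ) ^ j * (2 * B.a) ^ (2 * j) = (2 * B.a ^ 2) ^ j := by
          rw [pow_mul, ← mul_pow]
          congr 1
          ring
        rw [← this]
        ring

end

/-- two-sided Gronwall comparison on `[0,1]` -/
theorem tr_c3_gronwall_abs (f f' : ℝ → ℝ) (C : ℝ)
    (hd : ∀ t ∈ Set.Icc (0 : ℝ) 1, HasDerivWithinAt f (f' t) (Set.Icc 0 1) t)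
    (hb : ∀ t ∈ Set.Icc (0 : ℝ) 1, |f' t| ≤ C * f t) {θ θ' : ℝ} (hθ : θ ∈ Set.Icc (0 : ℝ) 1)
    (hθ' : θ' ∈ Set.Icc (0 : ℝ) 1) : f θ ≤ Real.exp (C * |θ - θ'|) * f θ' := by
  have hcont : ContinuousOn f (Set.Icc 0 1) := fun t ht => (hd t ht).continuousWithinAt
  have hint : ∀ t ∈ interior (Set.Icc (0 : ℝ) 1), HasDerivAt f (f' t) t := by
    intro t ht
    rw [interior_Icc] at ht
    exact (hd t ⟨ht.1.le, ht.2.le⟩).hasDerivAt (Icc_mem_nhds ht.1 ht.2)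
  have hsub : interior (Set.Icc (0 : ℝ) 1) ⊆ Set.Icc 0 1 := interior_subset
  have hE : ∀ (c t : ℝ), HasDerivAt (fun t => Real.exp (c * t)) (Real.exp (c * t) * c) t := by
    intro c t
    have := ((hasDerivAt_id t).const_mul c).exp
    simpa using this
  rcases le_total θ' θ with h | h
  · -- `f t * exp (- C t)` is antitone
    have hg : ∀ t ∈ interior (Set.Icc (0 : ℝ) 1),
        HasDerivAt (fun t => f t * Real.exp (-C * t)) (f' t * Real.exp (-C * t) + f t * (Real.exp (-C * t) * -C)) t :=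
      fun t ht => (hint t ht).mul (hE (-C) t)
    have hanti : AntitoneOn (fun t => f t * Real.exp (-C * t)) (Set.Icc 0 1) := by
      refine antitoneOn_of_deriv_nonpos (convex_Icc 0 1) (hcont.mul (by fun_prop))
        (fun t ht => (hg t ht).differentiableAt.differentiableWithinAt) fun t ht => ?_
      rw [(hg t ht).deriv]
      have h1 := (abs_le.1 (hb t (hsub ht))).2
      have h2 := Real.exp_pos (-C * t)
      nlinarith
    have h3 := hanti hθ' hθ h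
    simp only at h3
    rw [abs_of_nonneg (sub_nonneg.2 h)]
    have h4 : Real.exp (C * (θ - θ')) = Real.exp (-C * θ') * Real.exp (C * θ) := by
      rw [← Real.exp_add]; congr 1; ring
    have h5 : f θ = f θ * Real.exp (-C * θ) * Real.exp (C * θ) := by
      rw [mul_assoc, ← Real.exp_add]; simp
    rw [h4, h5]
    have := mul_le_mul_of_nonneg_right h3 (Real.exp_pos (C * θ)).le
    linarith
  · have hg : ∀ t ∈ interior (Set.Icc (0 : ℝ) 1),
        HasDerivAt (fun t => f t * Real.exp (C * t)) (f' t * Real.exp (C * t) + f t * (Real.exp (C * t) * C)) t :=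
      fun t ht => (hint t ht).mul (hE C t)
    have hmono : MonotoneOn (fun t => f t * Real.exp (C * t)) (Set.Icc 0 1) := by
      refine monotoneOn_of_deriv_nonneg (convex_Icc 0 1) (hcont.mul (by fun_prop))
        (fun t ht => (hg t ht).differentiableAt.differentiableWithinAt) fun t ht => ?_
      rw [(hg t ht).deriv]
      have h1 := (abs_le.1 (hb t (hsub ht))).1
      have h2 := Real.exp_pos (C * t)
      nlinarith
    have h3 := hmono hθ hθ' h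
    simp only at h3
    rw [abs_of_nonpos (sub_nonpos.2 h)]
    have h4 : Real.exp (C * -(θ - θ')) = Real.exp (C * θ') * Real.exp (-C * θ) := by
      rw [← Real.exp_add]; congr 1; ring
    have h5 : f θ = f θ * Real.exp (C * θ) * Real.exp (-C * θ) := by
      rw [mul_assoc, ← Real.exp_add]; simp
    rw [h4, h5]
    have := mul_le_mul_of_nonneg_right h3 (Real.exp_pos (-C * θ)).le
    linarith

section
variable {S Φ ι : Type} [Fintype S] [Fintype Φ] [Fintype ι] [Inhabited S]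

/-- a bounded factor under a nonnegative test -/
theorem tr_c3_abs_mul_le {B : GhB S} (hB : B.Ok) {ls : List (GhLv S ι)} (hls : GhAdm B 0 ls) (q : ℕ) (τ : ℕ → ℕ → ℕ)
    (z : S → ℝ) (P V : (ℕ → S) → ℝ) (M : ℝ) (hP0 : ∀ σ, 0 ≤ P σ) (hV : ∀ σ, |V σ| ≤ M) :
    |trNu B ls q τ z fun σ => P σ * V σ| ≤ M * trNu B ls q τ z P := by
  classical
  rw [tr_nu_eq_sum hB hls q τ z, tr_nu_eq_sum hB hls q τ z P, Finset.mul_sum]
  refine (Finset.abs_sum_le_sum_abs _ _).trans (Finset.sum_le_sum fun σ₀ _ => ?_)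
  have h0 := tr_pr_nonneg hB hls q τ z σ₀
  rw [abs_mul, abs_mul, abs_of_nonneg h0, abs_of_nonneg (hP0 _)]
  have := mul_le_mul_of_nonneg_left (hV (trExt σ₀)) (mul_nonneg h0 (hP0 (trExt σ₀)))
  linarith

/-- two more labels which the test does not read -/
theorem tr_c3_prune_two {B : GhB S} (hB : B.Ok) {ls : List (GhLv S ι)} (hls : GhAdm B 0 ls) {q : ℕ} {τ τ₂ : ℕ → ℕ → ℕ}
    (hτ₂ : IsTr ls.length (q + 2) τ₂) (hag : ∀ y z, y < q → z < q → τ₂ y z = τ y z) (z : S → ℝ) {P : (ℕ → S) → ℝ}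
    (hP : TrUses q P) : trNu B ls (q + 2) τ₂ z P = trNu B ls q τ z P := by
  rw [tr_nu_prune hB hls (q := q + 1) hτ₂ z (fun σ σ' h => hP σ σ' fun i hi => h i (by omega)),
    tr_nu_prune hB hls (tr_isTr_mono hτ₂ (by omega)) z hP]
  exact tr_nu_congr B ls hag z P

/-- TEX[PE:lem:found-taylor] Lemma 2.9, two-sided comparison for nonnegative tests -/
theorem tr_gronwall {B : GhB S} (hB : B.Ok) (feat : Φ → S → ι → ℝ) {hs : List (ℝ × (Φ → ℝ) × (Φ → ℝ))}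
    (hhs : GcAffAdm B.a hs) {q : ℕ} {τ : ℕ → ℕ → ℕ} (hτ : IsTr hs.length q τ) (z : S → ℝ) (P : (ℕ → S) → ℝ) (hP : TrUses q P)
    (M : ℝ) (hM : ∀ t s s', |trV (gcDK feat hs) hs.length t s s'| ≤ M) (hP0 : ∀ σ, 0 ≤ P σ)
    {θ θ' : ℝ} (hθ : θ ∈ Set.Icc (0 : ℝ) 1) (hθ' : θ' ∈ Set.Icc (0 : ℝ) 1) :
    gcNu B feat hs θ q τ z P ≤ Real.exp (2 * B.a ^ 2 * q * (q + 1) * M * |θ - θ'|) * gcNu B feat hs θ' q τ z P := by
  classical
  obtain ⟨hms, hmsN⟩ := tr_c3_isMs hB feat hhs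
  have hM0 : 0 ≤ M := (abs_nonneg _).trans (hM 0 default default)
  refine tr_c3_gronwall_abs (fun θ => gcNu B feat hs θ q τ z P) _ (2 * B.a ^ 2 * q * (q + 1) * M)
    (fun t ht => tr_c3_deriv hB feat hhs hτ z P hP ht) (fun t _ => ?_) hθ hθ'
  obtain ⟨hadm, hlen, -⟩ := gc_adm (B := B) feat hhs t
  have hf0 : 0 ≤ gcNu B feat hs t q τ z P := gh_n_nonneg B hB _ _ _ _ fun _ _ => hP0 _
  set Φ₂ : (ℕ → ℕ → ℕ) → ℝ := fun τ₂ =>
        gcNu B feat hs t (q + 2) τ₂ z fun σ => P σ * trV (gcDK feat hs) hs.length (τ₂ q (q + 1)) (σ q) (σ (q + 1)) with hΦ₂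
  let Ψ : (ℕ → ℕ → ℕ) → ℝ := fun τ₂ => if ∀ y z, y < q → z < q → τ₂ y z = τ y z then Φ₂ τ₂ else 0
  have h1 := tr_sumK_le (ms := gcMs B.a hs) (N := hs.length) (q := q) (τ := τ) 2 Φ₂
  have h2 : trAbsK (gcMs B.a hs) hs.length 2 q τ (fun τ' => |Φ₂ τ'|)
      = trAbsK (gcMs B.a hs) hs.length 2 q τ (fun τ' => |Ψ τ'|) :=
    tr_absK_congr hτ 2 _ _ fun τ' _ hag => by simp only [Ψ, if_pos hag]
  have h3 := tr_absK_le hτ hms 2 Ψ (M * gcNu B feat hs t q τ z P) (fun τ₂ hτ₂ => by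
    by_cases hag : ∀ y z, y < q → z < q → τ₂ y z = τ y z
    · simp only [Ψ, if_pos hag, hΦ₂]
      unfold gcNu
      rw [← hlen] at hτ₂
      rw [← tr_c3_prune_two hB hadm hτ₂ hag z hP]
      exact tr_c3_abs_mul_le hB hadm _ _ z P _ M hP0 fun σ => hM _ _ _
    · simp only [Ψ, if_neg hag, abs_zero]
      exact mul_nonneg hM0 hf0)
  rw [hmsN] at h3
  rw [abs_mul, abs_of_nonneg (by norm_num : (0 : ℝ) ≤ 1 / 2)]
  have h4 : (∏ i ∈ Finset.range 2, ((q : ℝ) + i)) = q * (q + 1) := by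
    simp [Finset.prod_range_succ]
  rw [h4] at h3
  have h5 := h1.trans (h2.le.trans h3)
  calc (1 / 2 : ℝ) * |trSumK (gcMs B.a hs) hs.length 2 q τ Φ₂|
      ≤ 1 / 2 * ((2 * B.a) ^ 2 * (q * (q + 1)) * (M * gcNu B feat hs t q τ z P)) :=
        mul_le_mul_of_nonneg_left h5 (by norm_num)
    _ = 2 * B.a ^ 2 * q * (q + 1) * M * gcNu B feat hs t q τ z P := by ring

end

end Claimed.Agent.R286
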