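import Claimed.Agent.R286.Cav.Hol
import Claimed.Agent.R286.Fd.TrB6

/-!
# Row 286 (S0533), Fd/BdT : TEX[PE:lem:found-boundary-tests] = PE Lemma 2.13 (boundary tests)      (owner helper144; prefix `bdt_`; no sorry of its own)

Part A (abstract, on the positive normalised functionals `CvExp` of `Cav/Hol`, natural exponents):
* `bdt_sum_prod`   `E |∑_k c_k ∏_{i ∈ s k} f k i|^m ≤ (∑_k |c_k| ∏ a k i)^m`  from  `E (f k i)^(2R) ≤ (a k i)^(2R)`, `m * card (s k) ≤ 2R`   (Minkowski + generalised Hoelder in one)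
* `bdt_telescope`  `∏ A - ∏ A' = ∑_j (A_j - A'_j) ∏_{i ≠ j} (A_i or A'_i)`
* `bdt_poly`       **the product rule**: `E |P - P'|^m ≤ (∑_k |c_k| ∑_j δ k j ∏_{i ≠ j} a k i)^m`;   `bdt_monomial`, `bdt_poly_rel` (relative form `D ρ p₀`)
Part B (tree laws of `Defs/Tr`; the resampled copy of the affected subtree `{b : t < τ a b}` is carried by the labels `q + b` of `trDup`, as in `tr_coupling`):
* `trCv`           the tree law on spin tests as a `CvExp`
* `bdt_dup_old`, `bdt_dup_new`   both copies have the old law;   `bdt_dup_ext`  factors supported in the exterior do not vary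
* `tr_boundary_tests`   Lemma 2.13 in the form of the second factor of `tr_coupling` (`p' = m`)
-/

set_option autoImplicit false

namespace Claimed.Agent.R286

open Finset

section abstract
variable {Ω : Type*} (ν : CvExp Ω)

/-- Minkowski + generalised Hoelder: the `m`-th moment of a sum of products -/
theorem bdt_sum_prod {κ ι : Type*} (K : Finset κ) (c : κ → ℝ) (s : κ → Finset ι) (f : κ → ι → Ω → ℝ) (a : κ → ι → ℝ)
    (m D R : ℕ) (hD : ∀ k ∈ K, (s k).card ≤ D) (hR : m * D ≤ 2 * R)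
    (ha : ∀ k ∈ K, ∀ i ∈ s k, 0 ≤ a k i)
    (hf : ∀ k ∈ K, ∀ i ∈ s k, ν.E (fun ω => f k i ω ^ (2 * R)) ≤ a k i ^ (2 * R)) :
    ν.E (fun ω => |∑ k ∈ K, c k * ∏ i ∈ s k, f k i ω| ^ m) ≤ (∑ k ∈ K, |c k| * ∏ i ∈ s k, a k i) ^ m := by
  classical
  have h1 : ∀ ω, |∑ k ∈ K, c k * ∏ i ∈ s k, f k i ω| ^ m
      ≤ ∑ p ∈ Fintype.piFinset fun _ : Fin m => K, ∏ j, (|c (p j)| * ∏ i ∈ s (p j), |f (p j) i ω|) := by
    intro ω
    rw [← Finset.sum_pow' K (fun k => |c k| * ∏ i ∈ s k, |f k i ω|) m]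
    refine pow_le_pow_left₀ (abs_nonneg _) ?_ m
    refine (Finset.abs_sum_le_sum_abs _ _).trans (le_of_eq ?_)
    refine Finset.sum_congr rfl fun k _ => ?_
    rw [abs_mul, Finset.abs_prod]
  refine (ν.mono _ _ h1).trans ?_
  rw [ν.sum, Finset.sum_pow']
  refine Finset.sum_le_sum fun p hp => ?_
  have hpK : ∀ j, p j ∈ K := fun j => (Fintype.mem_piFinset.1 hp) j
  have e : (fun ω => ∏ j, (|c (p j)| * ∏ i ∈ s (p j), |f (p j) i ω|))
      = fun ω => (∏ j, |c (p j)|)
          * ∏ x ∈ (Finset.univ : Finset (Fin m)).sigma (fun j => s (p j)), |f (p x.1) x.2 ω| := by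
    funext ω
    rw [Finset.prod_mul_distrib, Finset.prod_sigma]
  rw [e, ν.smul, Finset.prod_mul_distrib]
  refine mul_le_mul_of_nonneg_left ?_ (Finset.prod_nonneg fun j _ => abs_nonneg _)
  have := sk_cavhol_prod_abs ν ((Finset.univ : Finset (Fin m)).sigma (fun j => s (p j)))
    (fun x => f (p x.1) x.2) (fun x => a (p x.1) x.2) R ?_ ?_ ?_
  · rwa [Finset.prod_sigma] at this
  · rw [Finset.card_sigma]
    calc ∑ j, (s (p j)).card ≤ ∑ _j : Fin m, D := Finset.sum_le_sum fun j _ => hD _ (hpK j)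
      _ = m * D := by simp
      _ ≤ 2 * R := hR
  · intro x hx
    exact ha _ (hpK x.1) _ (Finset.mem_sigma.1 hx).2
  · intro x hx
    exact hf _ (hpK x.1) _ (Finset.mem_sigma.1 hx).2

/-- the exact identity of the proof of Lemma 2.13, without an order on the factors -/
theorem bdt_telescope {ι : Type*} [DecidableEq ι] (s : Finset ι) (A A' : ι → Ω → ℝ) :
    ∃ Bf : ι → ι → Ω → ℝ, (∀ j i, Bf j i = A i ∨ Bf j i = A' i) ∧
      ∀ ω, ∏ i ∈ s, A i ω - ∏ i ∈ s, A' i ω = ∑ j ∈ s, (A j ω - A' j ω) * ∏ i ∈ s.erase j, Bf j i ω := by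
  induction s using Finset.induction_on with
  | empty => exact ⟨fun _ i => A i, fun _ _ => Or.inl rfl, fun ω => by simp⟩
  | insert x s hx ih =>
    obtain ⟨Bf, hB, hid⟩ := ih
    refine ⟨fun j i ω => if j = x then A' i ω else if i = x then A i ω else Bf j i ω, ?_, ?_⟩
    · intro j i
      by_cases hj : j = x
      · right; funext ω; simp [hj]
      · by_cases hi : i = x
        · left; funext ω; simp [hj, hi]
        · rcases hB j i with h | h
          · left; funext ω; simp [hj, hi, h]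
          · right; funext ω; simp [hj, hi, h]
    · intro ω
      rw [Finset.prod_insert hx, Finset.prod_insert hx, Finset.sum_insert hx, Finset.erase_insert hx]
      have h2 : ∀ j ∈ s, (A j ω - A' j ω) * ∏ i ∈ (insert x s).erase j,
            (if j = x then A' i ω else if i = x then A i ω else Bf j i ω)
          = A x ω * ((A j ω - A' j ω) * ∏ i ∈ s.erase j, Bf j i ω) := by
        intro j hj
        have hjx : j ≠ x := fun h => hx (h ▸ hj)
        rw [Finset.erase_insert_of_ne (Ne.symm hjx), Finset.prod_insert (fun h => hx (Finset.mem_of_mem_erase h))]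
        simp only [if_neg hjx, if_true]
        have : ∏ i ∈ s.erase j, (if i = x then A i ω else Bf j i ω) = ∏ i ∈ s.erase j, Bf j i ω :=
          Finset.prod_congr rfl fun i hi => if_neg fun (h : i = x) => hx (h ▸ Finset.mem_of_mem_erase hi)
        rw [this]; ring
      rw [Finset.sum_congr rfl h2, ← Finset.mul_sum, ← hid ω]
      simp only [if_true]
      ring

/-- **PE Lemma 2.13, abstract form (product rule)**: `A' k i` = the factor after resampling; `a` = moment bounds of the factors, `δ` = resampling-difference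
bounds (`δ = 0` for the factors which do not vary) -/
theorem bdt_poly {κ ι : Type*} [DecidableEq ι] (K : Finset κ) (c : κ → ℝ) (s : κ → Finset ι) (A A' : κ → ι → Ω → ℝ) (a δ : κ → ι → ℝ)
    (m D R : ℕ) (hD : ∀ k ∈ K, (s k).card ≤ D) (hR : m * D ≤ 2 * R)
    (ha : ∀ k ∈ K, ∀ i ∈ s k, 0 ≤ a k i) (hδ : ∀ k ∈ K, ∀ i ∈ s k, 0 ≤ δ k i)
    (hA : ∀ k ∈ K, ∀ i ∈ s k, ν.E (fun ω => A k i ω ^ (2 * R)) ≤ a k i ^ (2 * R))
    (hA' : ∀ k ∈ K, ∀ i ∈ s k, ν.E (fun ω => A' k i ω ^ (2 * R)) ≤ a k i ^ (2 * R))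
    (hd : ∀ k ∈ K, ∀ i ∈ s k, ν.E (fun ω => (A k i ω - A' k i ω) ^ (2 * R)) ≤ δ k i ^ (2 * R)) :
    ν.E (fun ω => |∑ k ∈ K, c k * ∏ i ∈ s k, A k i ω - ∑ k ∈ K, c k * ∏ i ∈ s k, A' k i ω| ^ m)
      ≤ (∑ k ∈ K, |c k| * ∑ j ∈ s k, δ k j * ∏ i ∈ (s k).erase j, a k i) ^ m := by
  classical
  choose Bf hB hid using fun k => bdt_telescope (s k) (A k) (A' k)
  have e : (fun ω => |∑ k ∈ K, c k * ∏ i ∈ s k, A k i ω - ∑ k ∈ K, c k * ∏ i ∈ s k, A' k i ω| ^ m)
      = fun ω => |∑ x ∈ K.sigma s, c x.1 * ∏ i ∈ s x.1,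
          (if i = x.2 then A x.1 i ω - A' x.1 i ω else Bf x.1 x.2 i ω)| ^ m := by
    funext ω
    congr 2
    rw [← Finset.sum_sub_distrib, Finset.sum_sigma]
    refine Finset.sum_congr rfl fun k _ => ?_
    rw [← mul_sub, hid k ω, Finset.mul_sum]
    refine Finset.sum_congr rfl fun j hj => ?_
    rw [← Finset.mul_prod_erase (s k) _ hj, if_pos rfl]
    congr 2
    exact Finset.prod_congr rfl fun i hi => (if_neg (Finset.ne_of_mem_erase hi)).symm
  rw [e]
  have h := bdt_sum_prod ν (K.sigma s) (fun x => c x.1) (fun x => s x.1)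
    (fun x i ω => if i = x.2 then A x.1 i ω - A' x.1 i ω else Bf x.1 x.2 i ω)
    (fun x i => if i = x.2 then δ x.1 i else a x.1 i) m D R
    (fun x hx => hD _ (Finset.mem_sigma.1 hx).1) hR
    (fun x hx i hi => by
      have hk := (Finset.mem_sigma.1 hx).1
      by_cases h : i = x.2
      · simpa [h] using hδ _ hk _ (Finset.mem_sigma.1 hx).2
      · simpa [h] using ha _ hk _ hi)
    (fun x hx i hi => by
      have hk := (Finset.mem_sigma.1 hx).1
      by_cases h : i = x.2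
      · simp only [if_pos h]
        exact hd _ hk _ hi
      · simp only [if_neg h]
        rcases hB x.1 x.2 i with h' | h'
        · rw [h']; exact hA _ hk _ hi
        · rw [h']; exact hA' _ hk _ hi)
  refine h.trans (le_of_eq ?_)
  congr 1
  rw [Finset.sum_sigma]
  refine Finset.sum_congr rfl fun k _ => ?_
  rw [Finset.mul_sum]
  refine Finset.sum_congr rfl fun j hj => ?_
  rw [← Finset.mul_prod_erase (s k) _ hj, if_pos rfl]
  congr 2
  exact Finset.prod_congr rfl fun i hi => if_neg (Finset.ne_of_mem_erase hi)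

/-- one monomial -/
theorem bdt_monomial {ι : Type*} [DecidableEq ι] (s : Finset ι) (A A' : ι → Ω → ℝ) (a δ : ι → ℝ) (m R : ℕ) (hR : m * s.card ≤ 2 * R)
    (ha : ∀ i ∈ s, 0 ≤ a i) (hδ : ∀ i ∈ s, 0 ≤ δ i)
    (hA : ∀ i ∈ s, ν.E (fun ω => A i ω ^ (2 * R)) ≤ a i ^ (2 * R))
    (hA' : ∀ i ∈ s, ν.E (fun ω => A' i ω ^ (2 * R)) ≤ a i ^ (2 * R))
    (hd : ∀ i ∈ s, ν.E (fun ω => (A i ω - A' i ω) ^ (2 * R)) ≤ δ i ^ (2 * R)) :
    ν.E (fun ω => |∏ i ∈ s, A i ω - ∏ i ∈ s, A' i ω| ^ m) ≤ (∑ j ∈ s, δ j * ∏ i ∈ s.erase j, a i) ^ m := by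
  have h := bdt_poly ν ({()} : Finset Unit) (fun _ => 1) (fun _ => s) (fun _ => A) (fun _ => A') (fun _ => a) (fun _ => δ)
    m s.card R (fun _ _ => le_rfl) hR (fun _ _ => ha) (fun _ _ => hδ) (fun _ _ => hA) (fun _ _ => hA') (fun _ _ => hd)
  simpa using h

/-- relative form: every varying factor gains the factor `ρ` against its natural scale; `p₀ = ∑ |c_k| ∏ a k i` = natural scale of the test -/
theorem bdt_poly_rel {κ ι : Type*} (K : Finset κ) (c : κ → ℝ) (s : κ → Finset ι) (A A' : κ → ι → Ω → ℝ) (a : κ → ι → ℝ) (ρ : ℝ)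
    (m D R : ℕ) (hD : ∀ k ∈ K, (s k).card ≤ D) (hR : m * D ≤ 2 * R) (hρ : 0 ≤ ρ)
    (ha : ∀ k ∈ K, ∀ i ∈ s k, 0 ≤ a k i)
    (hA : ∀ k ∈ K, ∀ i ∈ s k, ν.E (fun ω => A k i ω ^ (2 * R)) ≤ a k i ^ (2 * R))
    (hA' : ∀ k ∈ K, ∀ i ∈ s k, ν.E (fun ω => A' k i ω ^ (2 * R)) ≤ a k i ^ (2 * R))
    (hd : ∀ k ∈ K, ∀ i ∈ s k, ν.E (fun ω => (A k i ω - A' k i ω) ^ (2 * R)) ≤ (ρ * a k i) ^ (2 * R)) :
    ν.E (fun ω => |∑ k ∈ K, c k * ∏ i ∈ s k, A k i ω - ∑ k ∈ K, c k * ∏ i ∈ s k, A' k i ω| ^ m)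
      ≤ (D * ρ * ∑ k ∈ K, |c k| * ∏ i ∈ s k, a k i) ^ m := by
  classical
  refine (bdt_poly ν K c s A A' a (fun k i => ρ * a k i) m D R hD hR ha (fun k hk i hi => mul_nonneg hρ (ha k hk i hi))
    hA hA' hd).trans ?_
  refine pow_le_pow_left₀ (Finset.sum_nonneg fun k hk => mul_nonneg (abs_nonneg _) (Finset.sum_nonneg fun j hj =>
    mul_nonneg (mul_nonneg hρ (ha k hk j hj)) (Finset.prod_nonneg fun i hi => ha k hk i (Finset.mem_of_mem_erase hi)))) ?_ m
  rw [Finset.mul_sum]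
  refine Finset.sum_le_sum fun k hk => ?_
  have hP : 0 ≤ ∏ i ∈ s k, a k i := Finset.prod_nonneg fun i hi => ha k hk i hi
  have e : ∑ j ∈ s k, ρ * a k j * ∏ i ∈ (s k).erase j, a k i = (s k).card * (ρ * ∏ i ∈ s k, a k i) := by
    rw [← nsmul_eq_mul, ← Finset.sum_const]
    refine Finset.sum_congr rfl fun j hj => ?_
    rw [mul_assoc, Finset.mul_prod_erase (s k) _ hj]
  rw [e]
  have hc : ((s k).card : ℝ) ≤ D := by exact_mod_cast hD k hk
  calc |c k| * ((s k).card * (ρ * ∏ i ∈ s k, a k i)) ≤ |c k| * (D * (ρ * ∏ i ∈ s k, a k i)) :=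
        mul_le_mul_of_nonneg_left (mul_le_mul_of_nonneg_right hc (mul_nonneg hρ hP)) (abs_nonneg _)
    _ = D * ρ * (|c k| * ∏ i ∈ s k, a k i) := by ring

end abstract

section tree
variable {S ι : Type} [Fintype S] [Fintype ι] [Inhabited S]

/-- the tree law on spin tests as a positive normalised functional -/
noncomputable def trCv {B : GhB S} (hB : B.Ok) {ls : List (GhLv S ι)} (hls : GhAdm B 0 ls) (q : ℕ) (τ : ℕ → ℕ → ℕ)
    (z : S → ℝ) : CvExp (ℕ → S) where
  E := trNu B ls q τ z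
  add := fun f g => by
    classical
    rw [tr_nu_eq_sum hB hls, tr_nu_eq_sum hB hls q τ z f, tr_nu_eq_sum hB hls q τ z g, ← Finset.sum_add_distrib]
    exact Finset.sum_congr rfl fun σ _ => by ring
  smul := fun c f => by
    classical
    rw [tr_nu_eq_sum hB hls, tr_nu_eq_sum hB hls q τ z f, Finset.mul_sum]
    exact Finset.sum_congr rfl fun σ _ => by ring
  mono := fun f g h => by
    classical
    rw [tr_nu_eq_sum hB hls q τ z f, tr_nu_eq_sum hB hls q τ z g]
    exact Finset.sum_le_sum fun σ _ => mul_le_mul_of_nonneg_left (h _) (tr_pr_nonneg hB hls q τ z σ)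
  one := by
    classical
    rw [tr_nu_eq_sum hB hls]
    simpa using tr_pr_sum hB hls q τ z

theorem bdt_eqns_cite : True := by
  have := @trCv.eq_1
  trivial

theorem trCv_E {B : GhB S} (hB : B.Ok) {ls : List (GhLv S ι)} (hls : GhAdm B 0 ls) (q : ℕ) (τ : ℕ → ℕ → ℕ) (z : S → ℝ) :
    (trCv hB hls q τ z).E = trNu B ls q τ z := rfl

/-- a label whose original lies outside the affected subtree: its copy is not resampled -/
theorem bdt_dup_left (q : ℕ) (τ : ℕ → ℕ → ℕ) (a t x y : ℕ) (h : τ a (x % q) ≤ t) :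
    trDup q τ a t x y = τ (x % q) (y % q) := by
  unfold trDup
  split_ifs with h1 h2
  · rfl
  · omega
  · rfl

theorem bdt_dup_right (q : ℕ) (τ : ℕ → ℕ → ℕ) (a t x y : ℕ) (h : τ a (y % q) ≤ t) :
    trDup q τ a t x y = τ (x % q) (y % q) := by
  unfold trDup
  split_ifs with h1 h2
  · rfl
  · omega
  · rfl

/-- the old labels of the duplicated tree have the old law -/
theorem bdt_dup_old {B : GhB S} (hB : B.Ok) {ls : List (GhLv S ι)} (hls : GhAdm B 0 ls) {q : ℕ} {τ : ℕ → ℕ → ℕ}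
    (hτ : IsTr ls.length q τ) (z : S → ℝ) {a t : ℕ} (ha : a < q) (ht : t ≤ ls.length) (Φ : (ℕ → S) → ℝ) (hΦ : TrUses q Φ) :
    trNu B ls (2 * q) (trDup q τ a t) z Φ = trNu B ls q τ z Φ := by
  have h := tr_nu_comap hB hls (tr_dup_isTr hτ ha ht) z id (p := q) (fun x hx => by simp only [id]; omega) Φ hΦ
  refine h.trans (tr_nu_congr B ls (fun x y hx hy => ?_) z Φ)
  simp only [id, trDup, Nat.mod_eq_of_lt hx, Nat.mod_eq_of_lt hy, hx, hy, if_true]

/-- the copies have the old law -/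
theorem bdt_dup_new {B : GhB S} (hB : B.Ok) {ls : List (GhLv S ι)} (hls : GhAdm B 0 ls) {q : ℕ} {τ : ℕ → ℕ → ℕ}
    (hτ : IsTr ls.length q τ) (z : S → ℝ) {a t : ℕ} (ha : a < q) (ht : t ≤ ls.length) (Φ : (ℕ → S) → ℝ) (hΦ : TrUses q Φ) :
    trNu B ls (2 * q) (trDup q τ a t) z (fun σ => Φ fun b => σ (q + b)) = trNu B ls q τ z Φ := by
  have h := tr_nu_comap hB hls (tr_dup_isTr hτ ha ht) z (fun b => q + b) (p := q) (fun x hx => by omega) Φ hΦ
  refine h.trans (tr_nu_congr B ls (fun x y hx hy => ?_) z Φ)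
  have e1 : ¬ (q + x < q) := by omega
  have e2 : ¬ (q + y < q) := by omega
  simp only [trDup, e1, e2, if_true, Nat.add_mod_left, Nat.mod_eq_of_lt hx, Nat.mod_eq_of_lt hy]

/-- under the duplicated law the copy of a label outside the affected subtree IS that label -/
theorem bdt_dup_fold {B : GhB S} (hB : B.Ok) {ls : List (GhLv S ι)} (hls : GhAdm B 0 ls) {q : ℕ} {τ : ℕ → ℕ → ℕ}
    (hτ : IsTr ls.length q τ) (z : S → ℝ) {a t : ℕ} (ha : a < q) (ht : t ≤ ls.length) (Φ : (ℕ → S) → ℝ)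
    (hΦ : TrUses (2 * q) Φ) :
    trNu B ls (2 * q) (trDup q τ a t) z Φ
      = trNu B ls (2 * q) (trDup q τ a t) z fun σ => Φ fun x => σ (if q ≤ x ∧ τ a (x - q) ≤ t then x - q else x) := by
  have h := tr_nu_comap hB hls (tr_dup_isTr hτ ha ht) z (fun x => if q ≤ x ∧ τ a (x - q) ≤ t then x - q else x) (p := 2 * q)
    (fun x hx => by split_ifs <;> omega) Φ hΦ
  rw [h]
  refine tr_nu_congr B ls (fun x y hx hy => ?_) z Φ
  have key : ∀ x, x < 2 * q → ∀ y, trDup q τ a t (if q ≤ x ∧ τ a (x - q) ≤ t then x - q else x) y = trDup q τ a t x y := by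
    intro x hx y
    split_ifs with h1
    · have hb : x - q < q := by omega
      have e1 : (x - q) % q = x - q := Nat.mod_eq_of_lt hb
      have e2 : x % q = x - q := by
        conv_lhs => rw [show x = q + (x - q) by omega]
        rw [Nat.add_mod_left, e1]
      rw [bdt_dup_left q τ a t (x - q) y (by rw [e1]; exact h1.2), bdt_dup_left q τ a t x y (by rw [e2]; exact h1.2), e1, e2]
    · rfl
  have key' : ∀ y, y < 2 * q → ∀ x, trDup q τ a t x (if q ≤ y ∧ τ a (y - q) ≤ t then y - q else y) = trDup q τ a t x y := by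
    intro y hy x
    split_ifs with h1
    · have hb : y - q < q := by omega
      have e1 : (y - q) % q = y - q := Nat.mod_eq_of_lt hb
      have e2 : y % q = y - q := by
        conv_lhs => rw [show y = q + (y - q) by omega]
        rw [Nat.add_mod_left, e1]
      rw [bdt_dup_right q τ a t x (y - q) (by rw [e1]; exact h1.2), bdt_dup_right q τ a t x y (by rw [e2]; exact h1.2), e1, e2]
    · rfl
  exact ((key x hx _).trans (key' y hy x)).symm

/-- factors supported in the exterior have `A = A'` -/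
theorem bdt_dup_ext {B : GhB S} (hB : B.Ok) {ls : List (GhLv S ι)} (hls : GhAdm B 0 ls) {q : ℕ} {τ : ℕ → ℕ → ℕ}
    (hτ : IsTr ls.length q τ) (z : S → ℝ) {a t : ℕ} (ha : a < q) (ht : t ≤ ls.length) (A : (ℕ → S) → ℝ)
    (hA : ∀ σ σ' : ℕ → S, (∀ b, b < q → τ a b ≤ t → σ b = σ' b) → A σ = A σ') (Ψ : ℝ → ℝ → ℝ) :
    trNu B ls (2 * q) (trDup q τ a t) z (fun σ => Ψ (A σ) (A fun b => σ (q + b)))
      = trNu B ls (2 * q) (trDup q τ a t) z fun σ => Ψ (A σ) (A σ) := by
  rw [bdt_dup_fold hB hls hτ z ha ht (fun σ => Ψ (A σ) (A fun b => σ (q + b)))]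
  · congr 1
    funext σ
    have e1 : A (fun x => σ (if q ≤ x ∧ τ a (x - q) ≤ t then x - q else x)) = A σ := by
      refine hA _ _ fun b hb _ => ?_
      rw [if_neg (by omega)]
    have e2 : A (fun b => σ (if q ≤ q + b ∧ τ a (q + b - q) ≤ t then q + b - q else q + b)) = A σ := by
      refine hA _ _ fun b _ hbt => ?_
      rw [if_pos ⟨by omega, by rwa [Nat.add_sub_cancel_left]⟩, Nat.add_sub_cancel_left]
    rw [e1, e2]
  · intro σ σ' h
    have e1 : A σ = A σ' := hA _ _ fun b hb _ => h b (by omega)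
    have e2 : A (fun b => σ (q + b)) = A fun b => σ' (q + b) := hA _ _ fun b hb _ => h (q + b) (by omega)
    simp only [e1, e2]

/-- TEX[PE:lem:found-boundary-tests] **PE Lemma 2.13 (boundary tests)**, in the form of the second factor of `tr_coupling` (Lemma 2.12).
The test `P = ∑_k c_k ∏_{i ∈ s k} A k i` is a polynomial in factors `A k i` of the old labels (centered overlaps: the fixed scalar centers are part of `A k i`; the
coefficients `c k` may depend on the whole fixed old topology).  Resampling of the affected subtree `{b : t < τ a b}` with its prefix retained = the labels `q + b` of `trDup`.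
A factor either is supported in the exterior (it does not vary) or has a resampling-difference bound `δ k i`; all factors have the moment bounds `al k i` under the OLD law. -/
theorem tr_boundary_tests {B : GhB S} (hB : B.Ok) {ls : List (GhLv S ι)} (hls : GhAdm B 0 ls) {q : ℕ} {τ : ℕ → ℕ → ℕ}
    (hτ : IsTr ls.length q τ) (z : S → ℝ) {a t : ℕ} (ha : a < q) (ht : t ≤ ls.length)
    {κ J : Type*} [DecidableEq J] (K : Finset κ) (c : κ → ℝ) (s : κ → Finset J) (A : κ → J → (ℕ → S) → ℝ) (al δ : κ → J → ℝ)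
    (m D R : ℕ) (hm : 0 < m) (hD : ∀ k ∈ K, (s k).card ≤ D) (hR : m * D ≤ 2 * R)
    (hU : ∀ k ∈ K, ∀ i ∈ s k, TrUses q (A k i))
    (hal : ∀ k ∈ K, ∀ i ∈ s k, 0 ≤ al k i) (hδ : ∀ k ∈ K, ∀ i ∈ s k, 0 ≤ δ k i)
    (hA : ∀ k ∈ K, ∀ i ∈ s k, trNu B ls q τ z (fun σ => A k i σ ^ (2 * R)) ≤ al k i ^ (2 * R))
    (hd : ∀ k ∈ K, ∀ i ∈ s k, (∀ σ σ' : ℕ → S, (∀ b, b < q → τ a b ≤ t → σ b = σ' b) → A k i σ = A k i σ') ∨
      trNu B ls (2 * q) (trDup q τ a t) z (fun σ => (A k i σ - A k i fun b => σ (q + b)) ^ (2 * R)) ≤ δ k i ^ (2 * R)) :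
    (trNu B ls (2 * q) (trDup q τ a t) z fun σ =>
        |(∑ k ∈ K, c k * ∏ i ∈ s k, A k i σ) - ∑ k ∈ K, c k * ∏ i ∈ s k, A k i fun b => σ (q + b)| ^ (m : ℝ)) ^ (1 / (m : ℝ))
      ≤ ∑ k ∈ K, |c k| * ∑ j ∈ s k, δ k j * ∏ i ∈ (s k).erase j, al k i := by
  set ν := trCv hB hls (2 * q) (trDup q τ a t) z with hν
  have hpow : ∀ k ∈ K, ∀ i ∈ s k, TrUses q fun σ => A k i σ ^ (2 * R) := fun k hk i hi σ σ' h => by
    simp only [hU k hk i hi σ σ' h]
  have h := bdt_poly ν K c s A (fun k i σ => A k i fun b => σ (q + b)) al δ m D R hD hR hal hδ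
    (fun k hk i hi => by
      rw [hν, trCv_E, bdt_dup_old hB hls hτ z ha ht _ (hpow k hk i hi)]
      exact hA k hk i hi)
    (fun k hk i hi => by
      rw [hν, trCv_E, bdt_dup_new hB hls hτ z ha ht (fun σ => A k i σ ^ (2 * R)) (hpow k hk i hi)]
      exact hA k hk i hi)
    (fun k hk i hi => by
      rcases hd k hk i hi with h | h
      · rw [hν, trCv_E, bdt_dup_ext hB hls hτ z ha ht (A k i) h fun x y => (x - y) ^ (2 * R)]
        simp only [sub_self]
        rw [← trCv_E hB hls, CvExp.const]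
        exact pow_le_pow_left₀ le_rfl (hδ k hk i hi) _
      · exact h)
  have hb : 0 ≤ ∑ k ∈ K, |c k| * ∑ j ∈ s k, δ k j * ∏ i ∈ (s k).erase j, al k i :=
    Finset.sum_nonneg fun k hk => mul_nonneg (abs_nonneg _) (Finset.sum_nonneg fun j hj =>
      mul_nonneg (hδ k hk j hj) (Finset.prod_nonneg fun i hi => hal k hk i (Finset.mem_of_mem_erase hi)))
  simp only [Real.rpow_natCast]
  rw [hν, trCv_E] at h
  have h0 : 0 ≤ trNu B ls (2 * q) (trDup q τ a t) z fun σ =>
      |(∑ k ∈ K, c k * ∏ i ∈ s k, A k i σ) - ∑ k ∈ K, c k * ∏ i ∈ s k, A k i fun b => σ (q + b)| ^ m := by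
    rw [← trCv_E hB hls]
    exact CvExp.nonneg _ fun σ => pow_nonneg (abs_nonneg _) _
  calc _ ≤ ((∑ k ∈ K, |c k| * ∑ j ∈ s k, δ k j * ∏ i ∈ (s k).erase j, al k i) ^ m) ^ (1 / (m : ℝ)) :=
        Real.rpow_le_rpow h0 h (by positivity)
    _ = _ := by
        rw [one_div, Real.pow_rpow_inv_natCast hb hm.ne']

end tree

end Claimed.Agent.R286
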