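import Claimed.Agent.R286.Base.Kit
import Claimed.Agent.R286.Fd.RegA

/-!
# Row 286 (S0533), Fd/ClkHeat : abstract heat calculus for the clock identity (PE Lemma 2.2, eq. (1) line 2)      (owner helper79; prefix `obk`)

`obkQ A g r y = ∫ g (y + r • A η) dγ(η)`: Gaussian average at the STANDARD DEVIATION `r ∈ ℝ` (smooth in `r`, no boundary).
* `obk_cont`, `obk_bound`   joint continuity / growth
* `obk_heat`                `d/dr obkQ A g r y = r ∑_α obkQ A (∂_α∂_α g) r y`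
* `obk_two`                 two-parameter lemma: `d/ds obkQ A (h √(1-s)) √s z = ½ obkQ A (∑_α ∂_α∂_α h - k₂) √s z` within `[0,1]`
-/

set_option autoImplicit false
set_option linter.unusedSectionVars false

namespace Claimed.Agent.R286

open MeasureTheory ProbabilityTheory Set Filter Topology

section heat

variable {E : Type} [NormedAddCommGroup E] [NormedSpace ℝ E] {ι : Type} [Fintype ι]

/-- Gaussian average at the standard deviation `r` -/
noncomputable def obkQ (A : (ι → ℝ) →L[ℝ] E) (g : E → ℝ) (r : ℝ) (y : E) : ℝ := ∫ η, g (y + r • A η) ∂ghStd ι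

/-- exponential growth in the space variable, locally uniformly in the parameter -/
def ObkGr (k : ℝ → E → ℝ) : Prop :=
  ∀ R : ℝ, ∃ C c : ℝ, 0 ≤ C ∧ 0 ≤ c ∧ ∀ r, |r| ≤ R → ∀ y, |k r y| ≤ C * Real.exp (c * ‖y‖)

theorem obk_heat_eqns_cite : True := by
  have := @obkQ.eq_1
  have := @ObkGr.eq_1
  trivial

theorem obk_pt (A : (ι → ℝ) →L[ℝ] E) {g : E → ℝ} {C c R Z : ℝ} (hC : 0 ≤ C) (hc : 0 ≤ c)
    (h : ∀ y, |g y| ≤ C * Real.exp (c * ‖y‖)) {r : ℝ} (hr : |r| ≤ R) {z : E} (hz : ‖z‖ ≤ Z) (η : ι → ℝ) :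
    |g (z + r • A η)| ≤ C * Real.exp (c * Z) * Real.exp (c * R * ‖A‖ * ‖η‖) := by
  refine (h _).trans ?_
  rw [mul_assoc, ← Real.exp_add]
  refine mul_le_mul_of_nonneg_left (Real.exp_le_exp.2 ?_) hC
  have h1 : ‖z + r • A η‖ ≤ Z + R * ‖A‖ * ‖η‖ := by
    refine (norm_add_le _ _).trans (add_le_add hz ?_)
    rw [norm_smul, Real.norm_eq_abs, mul_assoc]
    exact mul_le_mul hr (A.le_opNorm η) (norm_nonneg _) ((abs_nonneg r).trans hr)
  calc c * ‖z + r • A η‖ ≤ c * (Z + R * ‖A‖ * ‖η‖) := mul_le_mul_of_nonneg_left h1 hc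
    _ = c * Z + c * R * ‖A‖ * ‖η‖ := by ring

theorem obk_int_bound (C' c' : ℝ) : Integrable (fun η : ι → ℝ => C' * Real.exp (c' * ‖η‖)) (ghStd ι) :=
  (gh_ra_int_exp_norm c').const_mul C'

theorem obk_int (A : (ι → ℝ) →L[ℝ] E) {g : E → ℝ} (hc : Continuous g) {C c : ℝ} (hC : 0 ≤ C) (hc0 : 0 ≤ c)
    (h : ∀ y, |g y| ≤ C * Real.exp (c * ‖y‖)) (r : ℝ) (z : E) :
    Integrable (fun η : ι → ℝ => g (z + r • A η)) (ghStd ι) := by
  refine (obk_int_bound (C * Real.exp (c * ‖z‖)) (c * |r| * ‖A‖)).mono' ?_ (Eventually.of_forall fun η => ?_)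
  · exact (hc.comp (by fun_prop)).aestronglyMeasurable
  · rw [Real.norm_eq_abs]
    exact obk_pt A hC hc0 h le_rfl le_rfl η

/-- joint continuity -/
theorem obk_cont (A : (ι → ℝ) →L[ℝ] E) {k : ℝ → E → ℝ} (hc : Continuous fun p : ℝ × E => k p.1 p.2) (hg : ObkGr k) :
    Continuous fun p : ℝ × ℝ × E => obkQ A (k p.1) p.2.1 p.2.2 := by
  refine continuous_iff_continuousAt.2 fun p₀ => ?_
  obtain ⟨C, c, hC, hc0, hb⟩ := hg (|p₀.1| + 1)
  unfold obkQ
  refine continuousAt_of_dominated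
    (bound := fun η => C * Real.exp (c * (‖p₀.2.2‖ + 1)) * Real.exp (c * (|p₀.2.1| + 1) * ‖A‖ * ‖η‖))
    (Eventually.of_forall fun p => ?_) ?_ (obk_int_bound _ _) (Eventually.of_forall fun η => ?_)
  · exact (hc.comp (by fun_prop : Continuous fun η : ι → ℝ => (p.1, p.2.2 + p.2.1 • A η))).aestronglyMeasurable
  · filter_upwards [Metric.ball_mem_nhds p₀ one_pos] with p hp
    refine Eventually.of_forall fun η => ?_
    rw [Real.norm_eq_abs]
    have hp' : ‖p - p₀‖ < 1 := by simpa [dist_eq_norm] using hp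
    have h1 : ‖p.1 - p₀.1‖ < 1 := lt_of_le_of_lt (norm_fst_le (p - p₀)) hp'
    have h2 : ‖p.2 - p₀.2‖ < 1 := lt_of_le_of_lt (norm_snd_le (p - p₀)) hp'
    have h3 : ‖p.2.1 - p₀.2.1‖ < 1 := lt_of_le_of_lt (norm_fst_le (p.2 - p₀.2)) h2
    have h4 : ‖p.2.2 - p₀.2.2‖ < 1 := lt_of_le_of_lt (norm_snd_le (p.2 - p₀.2)) h2
    have e1 : |p.1| ≤ |p₀.1| + 1 := by
      have := abs_sub_abs_le_abs_sub p.1 p₀.1
      rw [Real.norm_eq_abs] at h1
      linarith
    have e3 : |p.2.1| ≤ |p₀.2.1| + 1 := by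
      have := abs_sub_abs_le_abs_sub p.2.1 p₀.2.1
      rw [Real.norm_eq_abs] at h3
      linarith
    have e4 : ‖p.2.2‖ ≤ ‖p₀.2.2‖ + 1 := by
      have := norm_sub_norm_le p.2.2 p₀.2.2
      linarith
    exact obk_pt A hC hc0 (hb p.1 e1) e3 e4 η
  · exact (hc.comp (by fun_prop : Continuous fun p : ℝ × ℝ × E => (p.1, p.2.2 + p.2.1 • A η))).continuousAt

/-- growth -/
theorem obk_bound (A : (ι → ℝ) →L[ℝ] E) {k : ℝ → E → ℝ} (hg : ObkGr k) (R : ℝ) :
    ∃ C c : ℝ, 0 ≤ C ∧ 0 ≤ c ∧ ∀ r₂ r₁ : ℝ, |r₂| ≤ R → |r₁| ≤ R → ∀ z, |obkQ A (k r₂) r₁ z| ≤ C * Real.exp (c * ‖z‖) := by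
  obtain ⟨C, c, hC, hc0, hb⟩ := hg R
  refine ⟨C * ∫ η : ι → ℝ, Real.exp (c * R * ‖A‖ * ‖η‖) ∂ghStd ι, c,
    mul_nonneg hC (integral_nonneg fun _ => (Real.exp_pos _).le), hc0, fun r₂ r₁ h2 h1 z => ?_⟩
  unfold obkQ
  rw [← Real.norm_eq_abs]
  refine (norm_integral_le_of_norm_le (obk_int_bound (C * Real.exp (c * ‖z‖)) (c * R * ‖A‖))
    (Eventually.of_forall fun η => ?_)).trans (le_of_eq ?_)
  · rw [Real.norm_eq_abs]
    exact obk_pt A hC hc0 (hb r₂ h2) h1 le_rfl η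
  · rw [integral_const_mul]; ring

theorem obk_A_expand [DecidableEq ι] (A : (ι → ℝ) →L[ℝ] E) (η : ι → ℝ) : A η = ∑ α, η α • A (Pi.single α 1) := by
  conv_lhs => rw [pi_eq_sum_univ' η]
  rw [map_sum]
  exact Finset.sum_congr rfl fun α _ => by rw [map_smul]

theorem obk_coord_le (η : ι → ℝ) (α : ι) : |η α| ≤ Real.exp ‖η‖ := by
  have h1 : |η α| ≤ ‖η‖ := by rw [← Real.norm_eq_abs]; exact norm_le_pi_norm η α
  have h2 : ‖η‖ + 1 ≤ Real.exp ‖η‖ := Real.add_one_le_exp _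
  linarith

/-- **the heat equation in the standard deviation** -/
theorem obk_heat [DecidableEq ι] (A : (ι → ℝ) →L[ℝ] E) {g : E → ℝ} {g' : E → E →L[ℝ] ℝ} {g1 g2 : ι → E → ℝ}
    (hd : ∀ y, HasFDerivAt g (g' y) y) (h1 : ∀ α y, g' y (A (Pi.single α 1)) = g1 α y)
    (h2 : ∀ α y, HasDerivAt (fun t : ℝ => g1 α (y + t • A (Pi.single α 1))) (g2 α y) 0)
    (c1 : ∀ α, Continuous (g1 α)) (c2 : ∀ α, Continuous (g2 α))
    {C c : ℝ} (hC : 0 ≤ C) (hc : 0 ≤ c) (b0 : ∀ y, |g y| ≤ C * Real.exp (c * ‖y‖))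
    (b1 : ∀ α y, |g1 α y| ≤ C * Real.exp (c * ‖y‖)) (b2 : ∀ α y, |g2 α y| ≤ C * Real.exp (c * ‖y‖)) (r : ℝ) (y : E) :
    HasDerivAt (fun r => obkQ A g r y) (r * ∑ α, obkQ A (g2 α) r y) r := by
  have c0 : Continuous g := continuous_iff_continuousAt.2 fun y => (hd y).continuousAt
  have key := hasDerivAt_integral_of_dominated_loc_of_deriv_le (μ := ghStd ι) (x₀ := r)
    (F := fun r η => g (y + r • A η)) (F' := fun r η => ∑ α, η α * g1 α (y + r • A η))
    (s := Metric.ball r 1)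
    (bound := fun η => (Fintype.card ι * (C * Real.exp (c * ‖y‖))) * Real.exp ((c * (|r| + 1) * ‖A‖ + 1) * ‖η‖))
    (Metric.ball_mem_nhds r one_pos)
    (Eventually.of_forall fun r' => (c0.comp (by fun_prop)).aestronglyMeasurable)
    (obk_int A c0 hC hc b0 r y)
    (Continuous.aestronglyMeasurable (continuous_finsetSum _ fun α _ =>
      (continuous_apply α).mul ((c1 α).comp (by fun_prop))))
    (Eventually.of_forall fun η r' hr' => ?_) (obk_int_bound _ _) (Eventually.of_forall fun η r' _ => ?_)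
  · obtain ⟨_, hk⟩ := key
    have e : ∫ η, ∑ α, η α * g1 α (y + r • A η) ∂ghStd ι = r * ∑ α, obkQ A (g2 α) r y := by
      rw [integral_finsetSum, Finset.mul_sum]
      · refine Finset.sum_congr rfl fun α _ => ?_
        have hi := sk_b_ibp_pi (ι := ι) (V := ℝ) α (ψ := fun η => g1 α (y + r • A η)) (ψ' := fun η => r * g2 α (y + r • A η))
          ((c1 α).comp (by fun_prop)) (continuous_const.mul ((c2 α).comp (by fun_prop)))
          (fun η => ?_) (A := (1 + |r|) * (C * Real.exp (c * ‖y‖))) (B := c * |r| * ‖A‖) (fun η => ?_) (fun η => ?_)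
        · simp only [smul_eq_mul] at hi
          unfold obkQ ghStd
          rw [hi, integral_const_mul]
        · have h3 := h2 α (y + r • A η)
          have h4 : HasDerivAt (fun t : ℝ => t * r) r 0 := by simpa using (hasDerivAt_id (0 : ℝ)).mul_const r
          have h5 : HasDerivAt (fun t : ℝ => g1 α (y + r • A η + t • A (Pi.single α 1))) (g2 α (y + r • A η)) ((fun t : ℝ => t * r) 0) := by
            simpa using h3
          have h6 := h5.comp (0 : ℝ) h4
          have e2 : (fun t : ℝ => g1 α (y + r • A (η + t • Pi.single α (1 : ℝ))))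
              = (fun t : ℝ => g1 α (y + r • A η + t • A (Pi.single α 1))) ∘ (fun t : ℝ => t * r) := by
            funext t
            simp only [Function.comp, map_add, map_smul, smul_add, smul_smul]
            rw [add_assoc, mul_comm r t]
          rw [e2, mul_comm]
          exact h6
        · rw [Real.norm_eq_abs]
          refine (obk_pt A hC hc (b1 α) le_rfl le_rfl η).trans ?_
          have : 0 ≤ C * Real.exp (c * ‖y‖) * Real.exp (c * |r| * ‖A‖ * ‖η‖) := by positivity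
          nlinarith [abs_nonneg r]
        · rw [Real.norm_eq_abs, abs_mul]
          have h7 := obk_pt A hC hc (b2 α) (le_refl |r|) (le_refl ‖y‖) η
          have : 0 ≤ C * Real.exp (c * ‖y‖) * Real.exp (c * |r| * ‖A‖ * ‖η‖) := by positivity
          nlinarith [abs_nonneg r, mul_le_mul_of_nonneg_left h7 (abs_nonneg r)]
      · intro α _
        refine (obk_int_bound (C * Real.exp (c * ‖y‖)) (c * |r| * ‖A‖ + 1)).mono'
          (((continuous_apply α).mul ((c1 α).comp (by fun_prop))).aestronglyMeasurable) (Eventually.of_forall fun η => ?_)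
        rw [Real.norm_eq_abs, abs_mul, add_mul, Real.exp_add, one_mul]
        have h7 := obk_pt A hC hc (b1 α) (le_refl |r|) (le_refl ‖y‖) η
        have h8 := obk_coord_le η α
        calc |η α| * |g1 α (y + r • A η)| ≤ Real.exp ‖η‖ * (C * Real.exp (c * ‖y‖) * Real.exp (c * |r| * ‖A‖ * ‖η‖)) :=
              mul_le_mul h8 h7 (abs_nonneg _) (Real.exp_pos _).le
          _ = _ := by ring
    rw [← e]
    exact hk
  · rw [Real.norm_eq_abs]
    have hr2 : |r'| ≤ |r| + 1 := by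
      have h3 : |r' - r| < 1 := by simpa [Real.dist_eq] using hr'
      have := abs_sub_abs_le_abs_sub r' r
      linarith
    refine (Finset.abs_sum_le_sum_abs _ _).trans ?_
    have hb : ∀ α ∈ (Finset.univ : Finset ι), |η α * g1 α (y + r' • A η)|
        ≤ (C * Real.exp (c * ‖y‖)) * Real.exp ((c * (|r| + 1) * ‖A‖ + 1) * ‖η‖) := by
      intro α _
      rw [abs_mul, add_mul, Real.exp_add, one_mul]
      have h7 := obk_pt A hC hc (b1 α) hr2 (le_refl ‖y‖) η
      have h8 := obk_coord_le η α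
      calc |η α| * |g1 α (y + r' • A η)| ≤ Real.exp ‖η‖ * (C * Real.exp (c * ‖y‖) * Real.exp (c * (|r| + 1) * ‖A‖ * ‖η‖)) :=
            mul_le_mul h8 h7 (abs_nonneg _) (Real.exp_pos _).le
        _ = _ := by ring
    refine (Finset.sum_le_sum hb).trans (le_of_eq ?_)
    rw [Finset.sum_const, Finset.card_univ, nsmul_eq_mul]
    ring
  · have h3 : HasDerivAt (fun r : ℝ => y + r • A η) (A η) r' := by
      simpa using ((hasDerivAt_id r').smul_const (A η)).const_add y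
    have h4 := (hd (y + r' • A η)).comp_hasDerivAt r' h3
    have e0 : ∀ L : E →L[ℝ] ℝ, L (A η) = ∑ α, η α * L (A (Pi.single α 1)) := fun L => by
      rw [obk_A_expand A η, map_sum]
      exact Finset.sum_congr rfl fun α _ => by rw [map_smul, smul_eq_mul]
    have e3 : g' (y + r' • A η) (A η) = ∑ α, η α * g1 α (y + r' • A η) := by
      rw [e0]
      exact Finset.sum_congr rfl fun α _ => by rw [h1]
    rw [← e3]
    exact h4

end heat

section calc1

/-- interior derivative + continuity up to the ends => derivative within `[0,1]` -/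
theorem obk_within {f Ψ : ℝ → ℝ} (hf : ContinuousOn f (Icc 0 1)) (hΨ : ContinuousOn Ψ (Icc 0 1))
    (hd : ∀ s ∈ Ioo (0 : ℝ) 1, HasDerivAt f (Ψ s) s) {t : ℝ} (ht : t ∈ Icc (0 : ℝ) 1) :
    HasDerivWithinAt f (Ψ t) (Icc 0 1) t := by
  have hdiff : DifferentiableOn ℝ f (Ioo 0 1) := fun s hs => (hd s hs).differentiableAt.differentiableWithinAt
  rcases eq_or_lt_of_le ht.1 with h0 | h0
  · subst h0
    have h1 : Ioo (0 : ℝ) 1 ∈ 𝓝[>] (0 : ℝ) := Ioo_mem_nhdsGT one_pos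
    refine (hasDerivWithinAt_Ici_of_tendsto_deriv hdiff ((hf 0 ht).mono Ioo_subset_Icc_self) h1 ?_).mono Icc_subset_Ici_self
    have h2 : Tendsto Ψ (𝓝[>] (0 : ℝ)) (𝓝 (Ψ 0)) :=
      ((hΨ 0 ht).mono Ioo_subset_Icc_self).tendsto.mono_left (le_inf nhdsWithin_le_nhds (le_principal_iff.2 h1))
    refine h2.congr' ?_
    filter_upwards [h1] with s hs
    exact (hd s hs).deriv.symm
  rcases eq_or_lt_of_le ht.2 with h1 | h1
  · subst h1
    have h1 : Ioo (0 : ℝ) 1 ∈ 𝓝[<] (1 : ℝ) := Ioo_mem_nhdsLT one_pos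
    refine (hasDerivWithinAt_Iic_of_tendsto_deriv hdiff ((hf 1 ht).mono Ioo_subset_Icc_self) h1 ?_).mono Icc_subset_Iic_self
    have h2 : Tendsto Ψ (𝓝[<] (1 : ℝ)) (𝓝 (Ψ 1)) :=
      ((hΨ 1 ht).mono Ioo_subset_Icc_self).tendsto.mono_left (le_inf nhdsWithin_le_nhds (le_principal_iff.2 h1))
    refine h2.congr' ?_
    filter_upwards [h1] with s hs
    exact (hd s hs).deriv.symm
  · exact (hd t ⟨h0, h1⟩).hasDerivWithinAt

/-- from standard deviations to the fraction `s`: `r₁ = √s`, `r₂ = √(1-s)` -/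
theorem obk_chain2 {f K1 K2 : ℝ → ℝ → ℝ}
    (d1 : ∀ r₁ r₂, HasDerivAt (fun r => f r r₂) (r₁ * K1 r₁ r₂) r₁)
    (d2 : ∀ r₁ r₂, HasDerivAt (fun r => f r₁ r) (r₂ * K2 r₁ r₂) r₂)
    (c1 : Continuous fun p : ℝ × ℝ => K1 p.1 p.2) (c2 : Continuous fun p : ℝ × ℝ => K2 p.1 p.2)
    {t : ℝ} (ht : t ∈ Icc (0 : ℝ) 1) :
    HasDerivWithinAt (fun s => f (Real.sqrt s) (Real.sqrt (1 - s)))
      ((1 / 2) * (K1 (Real.sqrt t) (Real.sqrt (1 - t)) - K2 (Real.sqrt t) (Real.sqrt (1 - t)))) (Icc 0 1) t := by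
  have hF : ∀ u : ℝ × ℝ, HasFDerivAt (fun p : ℝ × ℝ => f p.1 p.2)
      ((ContinuousLinearMap.toSpanSingleton ℝ (u.1 * K1 u.1 u.2)).coprod
        (ContinuousLinearMap.toSpanSingleton ℝ (u.2 * K2 u.1 u.2))) u := by
    intro u
    have := hasStrictFDerivAt_uncurry_coprod (𝕜 := ℝ) (u := u) (f := f)
      (f₁ := fun r₁ r₂ => ContinuousLinearMap.toSpanSingleton ℝ (r₁ * K1 r₁ r₂))
      (f₂ := fun r₁ r₂ => ContinuousLinearMap.toSpanSingleton ℝ (r₂ * K2 r₁ r₂))
      (Eventually.of_forall fun v => (d1 v.1 v.2).hasFDerivAt)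
      (Eventually.of_forall fun v => (d2 v.1 v.2).hasFDerivAt)
      (((ContinuousLinearMap.toSpanSingletonLIE ℝ ℝ).continuous.comp (continuous_fst.mul c1)).continuousAt)
      (((ContinuousLinearMap.toSpanSingletonLIE ℝ ℝ).continuous.comp (continuous_snd.mul c2)).continuousAt)
    exact this.hasFDerivAt
  have hcF : Continuous fun p : ℝ × ℝ => f p.1 p.2 := continuous_iff_continuousAt.2 fun u => (hF u).continuousAt
  have hcurve : Continuous fun s : ℝ => (Real.sqrt s, Real.sqrt (1 - s)) := by fun_prop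
  refine obk_within (f := fun s => f (Real.sqrt s) (Real.sqrt (1 - s)))
    (Ψ := fun t => (1 / 2) * (K1 (Real.sqrt t) (Real.sqrt (1 - t)) - K2 (Real.sqrt t) (Real.sqrt (1 - t))))
    (hcF.comp hcurve).continuousOn
    (continuous_const.mul ((c1.comp hcurve).sub (c2.comp hcurve))).continuousOn (fun s hs => ?_) ht
  have hs0 : 0 < Real.sqrt s := Real.sqrt_pos.2 hs.1
  have hs1 : 0 < Real.sqrt (1 - s) := Real.sqrt_pos.2 (by linarith [hs.2])
  have e1 : HasDerivAt Real.sqrt (1 / (2 * Real.sqrt s)) s := Real.hasDerivAt_sqrt hs.1.ne'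
  have e2 : HasDerivAt (fun s : ℝ => Real.sqrt (1 - s)) (-1 / (2 * Real.sqrt (1 - s))) s := by
    have h3 : HasDerivAt (fun s : ℝ => 1 - s) (-1) s := by simpa using (hasDerivAt_id s).const_sub 1
    exact h3.sqrt (by linarith [hs.2])
  have e3 := (hF (Real.sqrt s, Real.sqrt (1 - s))).comp_hasDerivAt s (e1.prodMk e2)
  rw [ContinuousLinearMap.coprod_apply] at e3
  simp only [ContinuousLinearMap.toSpanSingleton_apply, smul_eq_mul] at e3
  have e4 : 1 / (2 * Real.sqrt s) * (Real.sqrt s * K1 (Real.sqrt s) (Real.sqrt (1 - s)))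
      + -1 / (2 * Real.sqrt (1 - s)) * (Real.sqrt (1 - s) * K2 (Real.sqrt s) (Real.sqrt (1 - s)))
      = (1 / 2) * (K1 (Real.sqrt s) (Real.sqrt (1 - s)) - K2 (Real.sqrt s) (Real.sqrt (1 - s))) := by
    field_simp
    ring
  rw [e4] at e3
  exact e3

end calc1

section two

variable {E : Type} [NormedAddCommGroup E] [NormedSpace ℝ E] {ι : Type} [Fintype ι]

theorem obk_mono_bd {C C' c c' x : ℝ} (hx : 0 ≤ x) (hC : C ≤ C') (hc : c ≤ c') (hC' : 0 ≤ C') :
    C * Real.exp (c * x) ≤ C' * Real.exp (c' * x) :=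
  (mul_le_mul_of_nonneg_right hC (Real.exp_pos _).le).trans
    (mul_le_mul_of_nonneg_left (Real.exp_le_exp.2 (mul_le_mul_of_nonneg_right hc hx)) hC')

theorem ObkGr.common {J : Type} [Fintype J] {k : J → ℝ → E → ℝ} (h : ∀ j, ObkGr (k j)) (R : ℝ) :
    ∃ C c : ℝ, 0 ≤ C ∧ 0 ≤ c ∧ ∀ j r, |r| ≤ R → ∀ y, |k j r y| ≤ C * Real.exp (c * ‖y‖) := by
  choose C c hC hc hb using fun j => h j R
  refine ⟨∑ j, C j, ∑ j, c j, Finset.sum_nonneg fun j _ => hC j, Finset.sum_nonneg fun j _ => hc j, fun j r hr y => ?_⟩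
  exact (hb j r hr y).trans (obk_mono_bd (norm_nonneg y)
    (Finset.single_le_sum (fun j _ => hC j) (Finset.mem_univ j))
    (Finset.single_le_sum (fun j _ => hc j) (Finset.mem_univ j)) (Finset.sum_nonneg fun j _ => hC j))

theorem ObkGr.add {k k' : ℝ → E → ℝ} (h : ObkGr k) (h' : ObkGr k') : ObkGr fun r y => k r y + k' r y := by
  intro R
  obtain ⟨C, c, hC, hc, hb⟩ := h R
  obtain ⟨C', c', hC', hc', hb'⟩ := h' R
  refine ⟨C + C', c + c', by positivity, by positivity, fun r hr y => ?_⟩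
  have h1 := (hb r hr y).trans (obk_mono_bd (norm_nonneg y) le_rfl (le_add_of_nonneg_right hc') hC)
  have h2 := (hb' r hr y).trans (obk_mono_bd (norm_nonneg y) le_rfl (le_add_of_nonneg_left hc) hC')
  calc |k r y + k' r y| ≤ |k r y| + |k' r y| := abs_add_le _ _
    _ ≤ C * Real.exp ((c + c') * ‖y‖) + C' * Real.exp ((c + c') * ‖y‖) := add_le_add h1 h2
    _ = _ := by ring

theorem ObkGr.mul {k k' : ℝ → E → ℝ} (h : ObkGr k) (h' : ObkGr k') : ObkGr fun r y => k r y * k' r y := by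
  intro R
  obtain ⟨C, c, hC, hc, hb⟩ := h R
  obtain ⟨C', c', hC', hc', hb'⟩ := h' R
  refine ⟨C * C', c + c', by positivity, by positivity, fun r hr y => ?_⟩
  rw [abs_mul, add_mul, Real.exp_add]
  calc |k r y| * |k' r y| ≤ (C * Real.exp (c * ‖y‖)) * (C' * Real.exp (c' * ‖y‖)) :=
        mul_le_mul (hb r hr y) (hb' r hr y) (abs_nonneg _) (by positivity)
    _ = _ := by ring

theorem ObkGr.of_le {k k' : ℝ → E → ℝ} (h : ObkGr k) (hle : ∀ r y, |k' r y| ≤ |k r y|) : ObkGr k' := by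
  intro R
  obtain ⟨C, c, hC, hc, hb⟩ := h R
  exact ⟨C, c, hC, hc, fun r hr y => (hle r y).trans (hb r hr y)⟩

theorem obk_gr_bdd {k : ℝ → E → ℝ} {M : ℝ} (h : ∀ r y, |k r y| ≤ M) : ObkGr k := by
  intro R
  refine ⟨|M|, 0, abs_nonneg _, le_rfl, fun r _ y => ?_⟩
  simpa using (h r y).trans (le_abs_self M)

theorem ObkGr.neg {k : ℝ → E → ℝ} (h : ObkGr k) : ObkGr fun r y => - k r y :=
  h.of_le fun r y => by rw [abs_neg]

theorem ObkGr.sub {k k' : ℝ → E → ℝ} (h : ObkGr k) (h' : ObkGr k') : ObkGr fun r y => k r y - k' r y := by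
  simpa [sub_eq_add_neg] using h.add h'.neg

theorem ObkGr.const_mul {k : ℝ → E → ℝ} (h : ObkGr k) (a : ℝ) : ObkGr fun r y => a * k r y :=
  (obk_gr_bdd (k := fun _ _ => a) (M := |a|) fun _ _ => le_rfl).mul h

theorem ObkGr.sum {J : Type} (s : Finset J) {k : J → ℝ → E → ℝ} (h : ∀ j ∈ s, ObkGr (k j)) :
    ObkGr fun r y => ∑ j ∈ s, k j r y := by
  classical
  induction s using Finset.induction_on with
  | empty => simpa using obk_gr_bdd (E := E) (k := fun _ _ => (0 : ℝ)) (M := 0) (fun _ _ => by simp)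
  | insert j s hj ih =>
    simp only [Finset.sum_insert hj]
    exact (h j (Finset.mem_insert_self _ _)).add (ih fun i hi => h i (Finset.mem_insert_of_mem hi))

/-- the Gaussian average of a family is again a family of the class (fixed outer standard deviation family) -/
theorem ObkGr.Q (A : (ι → ℝ) →L[ℝ] E) {g : E → ℝ} {C c : ℝ} (hC : 0 ≤ C) (hc : 0 ≤ c)
    (h : ∀ y, |g y| ≤ C * Real.exp (c * ‖y‖)) : ObkGr fun r y => obkQ A g r y := by
  intro R
  obtain ⟨C', c', hC', hc', hb⟩ := obk_bound A (k := fun _ => g) (fun _ => ⟨C, c, hC, hc, fun _ _ y => h y⟩) |R|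
  exact ⟨C', c', hC', hc', fun r hr y => hb 0 r (by simp) (hr.trans (le_abs_self R)) y⟩

theorem obk_Q_cont (A : (ι → ℝ) →L[ℝ] E) {g : E → ℝ} (hg : Continuous g) {C c : ℝ} (hC : 0 ≤ C) (hc : 0 ≤ c)
    (h : ∀ y, |g y| ≤ C * Real.exp (c * ‖y‖)) : Continuous fun p : ℝ × E => obkQ A g p.1 p.2 := by
  have := obk_cont A (k := fun _ => g) (hg.comp continuous_snd) (fun _ => ⟨C, c, hC, hc, fun _ _ y => h y⟩)
  exact this.comp (by fun_prop : Continuous fun p : ℝ × E => ((0 : ℝ), p.1, p.2))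

/-- **the two-parameter lemma** -/
theorem obk_two [DecidableEq ι] (A : (ι → ℝ) →L[ℝ] E) {h k₂ : ℝ → E → ℝ} {h' : ℝ → E → E →L[ℝ] ℝ} {h1 h2 : ι → ℝ → E → ℝ}
    (hd : ∀ r y, HasFDerivAt (h r) (h' r y) y)
    (e1 : ∀ α r y, h' r y (A (Pi.single α 1)) = h1 α r y)
    (d2 : ∀ α r y, HasDerivAt (fun t : ℝ => h1 α r (y + t • A (Pi.single α 1))) (h2 α r y) 0)
    (dr : ∀ r y, HasDerivAt (fun r => h r y) (r * k₂ r y) r)
    (c0 : Continuous fun p : ℝ × E => h p.1 p.2) (c1 : ∀ α, Continuous fun p : ℝ × E => h1 α p.1 p.2)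
    (c2 : ∀ α, Continuous fun p : ℝ × E => h2 α p.1 p.2) (ck : Continuous fun p : ℝ × E => k₂ p.1 p.2)
    (g0 : ObkGr h) (g1 : ∀ α, ObkGr (h1 α)) (g2 : ∀ α, ObkGr (h2 α)) (gk : ObkGr k₂) (z : E)
    {t : ℝ} (ht : t ∈ Icc (0 : ℝ) 1) :
    HasDerivWithinAt (fun s => obkQ A (h (Real.sqrt (1 - s))) (Real.sqrt s) z)
      ((1 / 2) * (∑ α, obkQ A (h2 α (Real.sqrt (1 - t))) (Real.sqrt t) z - obkQ A (k₂ (Real.sqrt (1 - t))) (Real.sqrt t) z))
      (Icc 0 1) t := by
  have sec : ∀ {k : ℝ → E → ℝ}, (Continuous fun p : ℝ × E => k p.1 p.2) → ∀ r, Continuous (k r) := fun hk r =>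
    hk.comp (by fun_prop : Continuous fun y : E => (r, y))
  refine obk_chain2 (f := fun r₁ r₂ => obkQ A (h r₂) r₁ z) (K1 := fun r₁ r₂ => ∑ α, obkQ A (h2 α r₂) r₁ z)
    (K2 := fun r₁ r₂ => obkQ A (k₂ r₂) r₁ z) (fun r₁ r₂ => ?_) (fun r₁ r₂ => ?_) ?_ ?_ ht
  · obtain ⟨C0, a0, hC0, ha0, hb0⟩ := g0 |r₂|
    obtain ⟨C1, a1, hC1, ha1, hb1⟩ := ObkGr.common g1 |r₂|
    obtain ⟨C2, a2, hC2, ha2, hb2⟩ := ObkGr.common g2 |r₂|
    refine obk_heat A (g := h r₂) (g' := h' r₂) (g1 := fun α => h1 α r₂) (g2 := fun α => h2 α r₂)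
      (hd r₂) (fun α => e1 α r₂) (fun α => d2 α r₂) (fun α => sec (c1 α) r₂) (fun α => sec (c2 α) r₂)
      (C := C0 + C1 + C2) (c := a0 + a1 + a2) (by positivity) (by positivity)
      (fun y => ?_) (fun α y => ?_) (fun α y => ?_) r₁ z
    · exact (hb0 r₂ le_rfl y).trans (obk_mono_bd (norm_nonneg y) (by linarith) (by linarith) (by positivity))
    · exact (hb1 α r₂ le_rfl y).trans (obk_mono_bd (norm_nonneg y) (by linarith) (by linarith) (by positivity))
    · exact (hb2 α r₂ le_rfl y).trans (obk_mono_bd (norm_nonneg y) (by linarith) (by linarith) (by positivity))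
  · obtain ⟨C0, a0, hC0, ha0, hb0⟩ := g0 |r₂|
    obtain ⟨Ck, ak, hCk, hak, hbk⟩ := gk (|r₂| + 1)
    have key := hasDerivAt_integral_of_dominated_loc_of_deriv_le (μ := ghStd ι) (x₀ := r₂)
      (F := fun r η => h r (z + r₁ • A η)) (F' := fun r η => r * k₂ r (z + r₁ • A η))
      (s := Metric.ball r₂ 1)
      (bound := fun η => ((|r₂| + 1) * (Ck * Real.exp (ak * ‖z‖))) * Real.exp (ak * |r₁| * ‖A‖ * ‖η‖))
      (Metric.ball_mem_nhds r₂ one_pos)
      (Eventually.of_forall fun r' => ((sec c0 r').comp (by fun_prop)).aestronglyMeasurable)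
      (obk_int A (sec c0 r₂) hC0 ha0 (hb0 r₂ le_rfl) r₁ z)
      ((continuous_const.mul ((sec ck r₂).comp (by fun_prop))).aestronglyMeasurable)
      (Eventually.of_forall fun η r' hr' => ?_) (obk_int_bound _ _) (Eventually.of_forall fun η r' _ => dr r' _)
    · have := key.2
      rw [integral_const_mul] at this
      exact this
    · have hr2 : |r'| ≤ |r₂| + 1 := by
        have h3 : |r' - r₂| < 1 := by simpa [Real.dist_eq] using hr'
        have := abs_sub_abs_le_abs_sub r' r₂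
        linarith
      rw [Real.norm_eq_abs, abs_mul]
      have h7 := obk_pt A hCk hak (hbk r' hr2) (le_refl |r₁|) (le_refl ‖z‖) η
      calc |r'| * |k₂ r' (z + r₁ • A η)| ≤ (|r₂| + 1) * (Ck * Real.exp (ak * ‖z‖) * Real.exp (ak * |r₁| * ‖A‖ * ‖η‖)) :=
            mul_le_mul hr2 h7 (abs_nonneg _) (by positivity)
        _ = _ := by ring
  · refine continuous_finsetSum _ fun α _ => ?_
    exact (obk_cont A (c2 α) (g2 α)).comp (by fun_prop : Continuous fun p : ℝ × ℝ => (p.2, p.1, z))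
  · exact (obk_cont A ck gk).comp (by fun_prop : Continuous fun p : ℝ × ℝ => (p.2, p.1, z))

end two

end Claimed.Agent.R286
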