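import Claimed.Agent.R286.Fd.ClkHeat
import Claimed.Agent.R286.Gk.Heat
import Claimed.Agent.R286.Fd.ObsSp

/-!
# Row 286 (S0533), Fd/EntA : ENTROPY PRODUCTION of one Gaussian step, abstract form      (owner helper278; prefix `obn`)

Two sided logarithmic Sobolev bound along the Gaussian semigroup (Bakry-Emery), for a weight `w` of the multiplicative class `GkPos` (Gk/Reg):
with `Q g = obkQ A g 1 z = ∫ g (z + A η) dγ(η)`, `∂_α` = derivative in the direction `A e_α`,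

    1/2 ∑_α (Q ∂_α w)² / Q w   ≤   Q (w log w) - Q w log Q w   ≤   1/2 ∑_α Q ((∂_α w)² / w).

Proof: `φ(s) = Q_{√s} [ η (Q_{√(1-s)} w) ]`, `η x = x log x`; `obk_two` (Fd/ClkHeat) gives `φ' = 1/2 ∑_α Q_{√s} [ (Q_r ∂_α w)² / Q_r w ]`;
Cauchy-Schwarz + semigroup bound `φ'` from both sides; mean value theorem.
Used by `Fd/EntB.lean` (one planted step), `Fd/EntC.lean` (K12 `ob_entropy` = LL (D13) `L8Z_Ent`).
-/

set_option autoImplicit false
set_option linter.unusedSectionVars false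

namespace Claimed.Agent.R286

open MeasureTheory ProbabilityTheory Set Filter Topology

section abs

variable {E : Type} [NormedAddCommGroup E] [NormedSpace ℝ E] {ι : Type} [Fintype ι]

/-- `obkQ` is the smoothing `gkP` with the noise `r • A` -/
theorem obn_Q_eq (A : (ι → ℝ) →L[ℝ] E) (g : E → ℝ) (r : ℝ) :
    (fun y => obkQ A g r y) = gkP (ghStd ι) (fun η => (r • A) η) g := rfl

theorem obn_Q_zero (A : (ι → ℝ) →L[ℝ] E) (g : E → ℝ) (y : E) : obkQ A g 0 y = g y := by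
  simp [obkQ]

theorem obn_Q_pos (A : (ι → ℝ) →L[ℝ] E) {w : E → ℝ} (hw : GkPos w) (r : ℝ) (y : E) : 0 < obkQ A w r y :=
  (hw.P (ghr_noise_clm (r • A))).pos y

/-- Frechet derivative of the smoothing -/
theorem obn_Q_hasFDerivAt (A : (ι → ℝ) →L[ℝ] E) {u : E → ℝ} (hu : GkEG 1 u) (r : ℝ) (y : E) :
    HasFDerivAt (fun y => obkQ A u r y) (fderiv ℝ (fun y => obkQ A u r y) y) y := by
  rw [obn_Q_eq]
  exact ((hu.P (ghr_noise_clm (r • A))).differentiable y).hasFDerivAt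

theorem obn_Q_fderiv (A : (ι → ℝ) →L[ℝ] E) {u : E → ℝ} (hu : GkEG 1 u) (r : ℝ) (y v : E) :
    fderiv ℝ (fun y => obkQ A u r y) y v = obkQ A (ghhD v u) r y := by
  have := congrFun (ghh_D_P (ghr_noise_clm (r • A)) (k := 0) hu v) y
  exact this

/-- derivative of the smoothing along a line -/
theorem obn_Q_line (A : (ι → ℝ) →L[ℝ] E) {u : E → ℝ} (hu : GkEG 1 u) (r : ℝ) (y v : E) :
    HasDerivAt (fun t : ℝ => obkQ A u r (y + t • v)) (obkQ A (ghhD v u) r y) 0 := by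
  have h1 := obn_Q_hasFDerivAt A hu r y
  have h2 : HasDerivAt (fun t : ℝ => y + t • v) v 0 := by
    simpa using ((hasDerivAt_id (0 : ℝ)).smul_const v).const_add y
  have h3 : HasFDerivAt (fun y => obkQ A u r y) (fderiv ℝ (fun y => obkQ A u r y) y) (y + (0 : ℝ) • v) := by
    simpa using h1
  have := h3.comp_hasDerivAt (0 : ℝ) h2
  rw [obn_Q_fderiv A hu] at this
  exact this


theorem obn_pos_d1 {w : E → ℝ} (hw : GkPos w) : ∃ C : ℝ, 0 ≤ C ∧ ∀ v y, |ghhD v w y| ≤ C * ‖v‖ * w y := by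
  obtain ⟨C, hC⟩ := hw.bdd 1
  have hC0 : 0 ≤ C := nonneg_of_mul_nonneg_left ((norm_nonneg _).trans (hC 0)) (hw.pos 0)
  refine ⟨C, hC0, fun v y => ?_⟩
  have h1 : ‖fderiv ℝ w y‖ ≤ C * w y := by rw [← norm_iteratedFDeriv_one]; exact hC y
  calc |ghhD v w y| = ‖fderiv ℝ w y v‖ := rfl
    _ ≤ ‖fderiv ℝ w y‖ * ‖v‖ := (fderiv ℝ w y).le_opNorm v
    _ ≤ C * w y * ‖v‖ := mul_le_mul_of_nonneg_right h1 (norm_nonneg _)
    _ = _ := by ring

theorem obn_pos_d2 {w : E → ℝ} (hw : GkPos w) : ∃ C : ℝ, 0 ≤ C ∧ ∀ v y, |ghhD v (ghhD v w) y| ≤ C * ‖v‖ ^ 2 * w y := by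
  obtain ⟨C, hC⟩ := hw.bdd 2
  have hC0 : 0 ≤ C := nonneg_of_mul_nonneg_left ((norm_nonneg _).trans (hC 0)) (hw.pos 0)
  refine ⟨C, hC0, fun v y => ?_⟩
  have h1 : ‖fderiv ℝ (fderiv ℝ w) y‖ ≤ C * w y := by
    rw [← norm_iteratedFDeriv_one, norm_iteratedFDeriv_fderiv]; exact hC y
  have hd : DifferentiableAt ℝ (fderiv ℝ w) y := ((hw.eg 2).fderiv.differentiable) y
  have e : ghhD v (ghhD v w) y = fderiv ℝ (fderiv ℝ w) y v v := by
    unfold ghhD
    rw [fderiv_clm_apply hd (differentiableAt_const v)]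
    simp
  rw [e]
  calc |fderiv ℝ (fderiv ℝ w) y v v| = ‖fderiv ℝ (fderiv ℝ w) y v v‖ := rfl
    _ ≤ ‖fderiv ℝ (fderiv ℝ w) y v‖ * ‖v‖ := (fderiv ℝ (fderiv ℝ w) y v).le_opNorm v
    _ ≤ ‖fderiv ℝ (fderiv ℝ w) y‖ * ‖v‖ * ‖v‖ :=
        mul_le_mul_of_nonneg_right ((fderiv ℝ (fderiv ℝ w) y).le_opNorm v) (norm_nonneg _)
    _ ≤ C * w y * ‖v‖ * ‖v‖ := by gcongr
    _ = _ := by ring

/-- growth of a weight of the class -/
theorem obn_pos_gr {w : E → ℝ} (hw : GkPos w) : ∃ C c : ℝ, 0 ≤ C ∧ 0 ≤ c ∧ ∀ y, |w y| ≤ C * Real.exp (c * ‖y‖) :=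
  (hw.eg 0).abs_le

/-- domination passes through the smoothing -/
theorem obn_Q_dom (A : (ι → ℝ) →L[ℝ] E) {w u : E → ℝ} (hw : GkPos w) {C : ℝ}
    (h : ∀ y, |u y| ≤ C * w y) (r : ℝ) (y : E) : |obkQ A u r y| ≤ C * obkQ A w r y := by
  obtain ⟨C0, c0, hC0, hc0, hb⟩ := obn_pos_gr hw
  have hi := obk_int A hw.smooth.continuous hC0 hc0 hb r y
  unfold obkQ
  rw [← integral_const_mul]
  refine (abs_integral_le_integral_abs).trans (integral_mono_of_nonneg (Eventually.of_forall fun _ => abs_nonneg _)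
    (hi.const_mul C) (Eventually.of_forall fun η => h _))


theorem obn_xlogx (x : ℝ) (hx : 0 < x) : |x * Real.log x| ≤ 1 + x * x := by
  rcases le_total x 1 with h | h
  · have := Real.abs_log_mul_self_lt x hx h
    rw [mul_comm] at this
    nlinarith [mul_pos hx hx]
  · have h1 := Real.mul_log_nonneg h
    have h2 := Real.log_le_sub_one_of_pos hx
    rw [abs_of_nonneg h1]
    nlinarith


theorem obn_int (A : (ι → ℝ) →L[ℝ] E) {k : ℝ → E → ℝ} (hc : Continuous fun p : ℝ × E => k p.1 p.2) (hg : ObkGr k)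
    (r r' : ℝ) (z : E) : Integrable (fun η : ι → ℝ => k r (z + r' • A η)) (ghStd ι) := by
  obtain ⟨C, c, hC, hc0, hb⟩ := hg |r|
  exact obk_int A (hc.comp (by fun_prop : Continuous fun y : E => (r, y))) hC hc0 (hb r le_rfl) r' z

/-- Cauchy-Schwarz in the form `(∫ p)² / ∫ q ≤ ∫ p²/q` -/
theorem obn_cs {Ω : Type} [MeasurableSpace Ω] {μ : Measure Ω} {p q : Ω → ℝ} (hq : ∀ o, 0 < q o)
    (ip : Integrable p μ) (iq : Integrable q μ) (ipq : Integrable (fun o => p o ^ 2 / q o) μ) (hQ : 0 < ∫ o, q o ∂μ) :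
    (∫ o, p o ∂μ) ^ 2 / ∫ o, q o ∂μ ≤ ∫ o, p o ^ 2 / q o ∂μ := by
  set c : ℝ := (∫ o, p o ∂μ) / ∫ o, q o ∂μ with hc
  have h0 : 0 ≤ ∫ o, (p o ^ 2 / q o - 2 * c * p o + c ^ 2 * q o) ∂μ := by
    refine integral_nonneg fun o => ?_
    have : p o ^ 2 / q o - 2 * c * p o + c ^ 2 * q o = (p o - c * q o) ^ 2 / q o := by
      have := (hq o).ne'
      field_simp
      ring
    rw [this]
    exact div_nonneg (sq_nonneg _) (hq o).le
  have e0 : ∫ o, (p o ^ 2 / q o - 2 * c * p o + c ^ 2 * q o) ∂μ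
      = (∫ o, p o ^ 2 / q o ∂μ) - 2 * c * (∫ o, p o ∂μ) + c ^ 2 * ∫ o, q o ∂μ := by
    have i1 : Integrable (fun o => 2 * c * p o) μ := ip.const_mul _
    have i2 : Integrable (fun o => c ^ 2 * q o) μ := iq.const_mul _
    have i3 : Integrable (fun o => p o ^ 2 / q o - 2 * c * p o) μ := ipq.sub i1
    rw [integral_add i3 i2, integral_sub ipq i1, integral_const_mul, integral_const_mul]
  rw [e0] at h0
  have e : 2 * c * (∫ o, p o ∂μ) - c ^ 2 * ∫ o, q o ∂μ = (∫ o, p o ∂μ) ^ 2 / ∫ o, q o ∂μ := by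
    rw [hc]
    field_simp
    ring
  linarith

section fam
variable [DecidableEq ι]

/-- the level on `S = ι` whose increment is `r ξ` -/
def obnLv (ι : Type) [DecidableEq ι] (r : ℝ) : GhLv ι ι := ⟨0, fun s i => if s = i then r else 0⟩

theorem obn_lv_inc (r : ℝ) (ξ : ι → ℝ) : (obnLv ι r).inc ξ = r • ξ := by
  funext s
  simp [obnLv, GhLv.inc]

theorem obn_lv_cov (r : ℝ) (s t : ι) : (obnLv ι r).cov s t = if s = t then r ^ 2 else 0 := by
  unfold GhLv.cov obnLv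
  by_cases h : s = t
  · subst h; simp [sq]
  · simp only [h, if_false]
    refine Finset.sum_eq_zero fun i _ => ?_
    by_cases h1 : s = i
    · have : ¬ t = i := fun h2 => h (h1.trans h2.symm)
      simp [this]
    · simp [h1]

/-- the Gaussian semigroup in the standard deviations -/
theorem obn_semigroup (A : (ι → ℝ) →L[ℝ] E) {g : E → ℝ} (hg : Continuous g) {C c : ℝ} (hC : 0 ≤ C) (hc : 0 ≤ c)
    (hb : ∀ y, |g y| ≤ C * Real.exp (c * ‖y‖)) {r₁ r₂ : ℝ} (h : r₁ ^ 2 + r₂ ^ 2 = 1) (z : E) :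
    obkQ A (fun y => obkQ A g r₂ y) r₁ z = obkQ A g 1 z := by
  have key := obp_conv (obnLv ι r₁) (obnLv ι r₂) (obnLv ι 1) (fun s t => by
      simp only [obn_lv_cov]
      by_cases hst : s = t
      · simp [hst, h]
      · simp [hst]) (fun u => g (z + A u)) (hg.comp (by fun_prop)).measurable (by
      have := obk_int (A.comp (ghrInc (obpJoin (obnLv ι r₁) (obnLv ι r₂)))) hg hC hc hb 1 z
      simpa [ghrInc_apply] using this)
  simp only [obn_lv_inc, map_add, map_smul, one_smul] at key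
  unfold obkQ
  simp only [one_smul]
  rw [← key]
  simp only [add_assoc]


/-- the smoothed weight and its first and second derivatives in the direction `A e_α` -/
noncomputable def obnW (A : (ι → ℝ) →L[ℝ] E) (w : E → ℝ) (r : ℝ) (y : E) : ℝ := obkQ A w r y
noncomputable def obnN (A : (ι → ℝ) →L[ℝ] E) (w : E → ℝ) (α : ι) (r : ℝ) (y : E) : ℝ :=
  obkQ A (ghhD (A (Pi.single α 1)) w) r y
noncomputable def obnM (A : (ι → ℝ) →L[ℝ] E) (w : E → ℝ) (α : ι) (r : ℝ) (y : E) : ℝ :=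
  obkQ A (ghhD (A (Pi.single α 1)) (ghhD (A (Pi.single α 1)) w)) r y

theorem obn_eqns_cite : True := by
  have := @obnW.eq_1
  have := @obnN.eq_1
  have := @obnM.eq_1
  trivial

theorem obn_dir_le (A : (ι → ℝ) →L[ℝ] E) (α : ι) : ‖A (Pi.single α 1)‖ ≤ ‖A‖ := by
  refine (A.le_opNorm _).trans ?_
  rw [Pi.norm_single]; simp

variable (A : (ι → ℝ) →L[ℝ] E) {w : E → ℝ} (hw : GkPos w)
include hw

theorem obn_W_pos (r : ℝ) (y : E) : 0 < obnW A w r y := obn_Q_pos A hw r y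

theorem obn_W_cont : Continuous fun p : ℝ × E => obnW A w p.1 p.2 := by
  obtain ⟨C, c, hC, hc, hb⟩ := obn_pos_gr hw
  exact obk_Q_cont A hw.smooth.continuous hC hc hb

theorem obn_W_gr : ObkGr (obnW A w) := by
  obtain ⟨C, c, hC, hc, hb⟩ := obn_pos_gr hw
  exact ObkGr.Q A hC hc hb

theorem obn_N_cont (α : ι) : Continuous fun p : ℝ × E => obnN A w α p.1 p.2 := by
  have h := (hw.eg 1).dir (A (Pi.single α 1))
  obtain ⟨C, c, hC, hc, hb⟩ := h.abs_le
  exact obk_Q_cont A h.continuous hC hc hb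

theorem obn_M_cont (α : ι) : Continuous fun p : ℝ × E => obnM A w α p.1 p.2 := by
  have h := ((hw.eg 2).dir (A (Pi.single α 1))).dir (A (Pi.single α 1))
  obtain ⟨C, c, hC, hc, hb⟩ := h.abs_le
  exact obk_Q_cont A h.continuous hC hc hb

/-- `|N| ≤ C W`, `|M| ≤ C W`, one constant -/
theorem obn_NM_le : ∃ C : ℝ, 0 ≤ C ∧ ∀ α r y, |obnN A w α r y| ≤ C * obnW A w r y ∧ |obnM A w α r y| ≤ C * obnW A w r y := by
  obtain ⟨C1, hC1, h1⟩ := obn_pos_d1 hw
  obtain ⟨C2, hC2, h2⟩ := obn_pos_d2 hw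
  refine ⟨C1 * ‖A‖ + C2 * ‖A‖ ^ 2, by positivity, fun α r y => ⟨?_, ?_⟩⟩
  · refine obn_Q_dom A hw (fun y => (h1 _ y).trans ?_) r y
    refine mul_le_mul_of_nonneg_right ?_ (hw.pos y).le
    have := mul_le_mul_of_nonneg_left (obn_dir_le A α) hC1
    have h3 : 0 ≤ C2 * ‖A‖ ^ 2 := by positivity
    linarith
  · refine obn_Q_dom A hw (fun y => (h2 _ y).trans ?_) r y
    refine mul_le_mul_of_nonneg_right ?_ (hw.pos y).le
    have : ‖A (Pi.single α 1)‖ ^ 2 ≤ ‖A‖ ^ 2 := pow_le_pow_left₀ (norm_nonneg _) (obn_dir_le A α) 2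
    have := mul_le_mul_of_nonneg_left this hC2
    have h3 : 0 ≤ C1 * ‖A‖ := by positivity
    linarith


omit hw [DecidableEq ι] in
theorem obn_gr_one : ObkGr (fun (_ : ℝ) (_ : E) => (1 : ℝ)) := obk_gr_bdd (M := 1) fun _ _ => by simp

theorem obn_gr_h : ObkGr fun r y => obnW A w r y * Real.log (obnW A w r y) := by
  have hW := obn_W_gr A hw
  refine (obn_gr_one.add (hW.mul hW)).of_le fun r y => ?_
  exact (obn_xlogx _ (obn_W_pos A hw r y)).trans (le_abs_self _)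

theorem obn_gr_logK {K : ℝ → E → ℝ} {C : ℝ} (hK : ∀ r y, |K r y| ≤ C * obnW A w r y) :
    ObkGr fun r y => (Real.log (obnW A w r y) + 1) * K r y := by
  have hW := obn_W_gr A hw
  refine (((obn_gr_one.add (hW.mul hW)).add hW).const_mul C).of_le fun r y => ?_
  have hp := obn_W_pos A hw r y
  have h1 := obn_xlogx _ hp
  have hC : 0 ≤ C := nonneg_of_mul_nonneg_left ((abs_nonneg _).trans (hK r y)) hp
  refine le_trans ?_ (le_abs_self _)
  rw [abs_mul]
  calc |Real.log (obnW A w r y) + 1| * |K r y| ≤ |Real.log (obnW A w r y) + 1| * (C * obnW A w r y) :=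
        mul_le_mul_of_nonneg_left (hK r y) (abs_nonneg _)
    _ = C * |obnW A w r y * Real.log (obnW A w r y) + obnW A w r y| := by
        rw [show obnW A w r y * Real.log (obnW A w r y) + obnW A w r y
          = (Real.log (obnW A w r y) + 1) * obnW A w r y by ring, abs_mul, abs_of_pos hp]; ring
    _ ≤ C * (1 + obnW A w r y * obnW A w r y + obnW A w r y) := by
        refine mul_le_mul_of_nonneg_left ?_ hC
        refine (abs_add_le _ _).trans ?_
        rw [abs_of_pos hp]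
        linarith

theorem obn_gr_sq (α : ι) : ObkGr fun r y => obnN A w α r y ^ 2 / obnW A w r y := by
  obtain ⟨C, hC, hb⟩ := obn_NM_le A hw
  refine ((obn_W_gr A hw).const_mul (C ^ 2)).of_le fun r y => ?_
  have hp := obn_W_pos A hw r y
  refine le_trans ?_ (le_abs_self _)
  rw [abs_div, abs_of_pos hp, div_le_iff₀ hp, abs_pow, ← sq_abs]
  calc |(|obnN A w α r y|)| ^ 2 ≤ (C * obnW A w r y) ^ 2 := by
        rw [abs_abs]; exact pow_le_pow_left₀ (abs_nonneg _) (hb α r y).1 2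
    _ = _ := by ring


/-- the heat equation of the smoothed weight in the standard deviation -/
theorem obn_W_dr (r : ℝ) (y : E) : HasDerivAt (fun r => obnW A w r y) (r * ∑ α, obnM A w α r y) r := by
  obtain ⟨C0, c0, hC0, hc0, hb0⟩ := obn_pos_gr hw
  obtain ⟨C1, hC1, h1⟩ := obn_pos_d1 hw
  obtain ⟨C2, hC2, h2⟩ := obn_pos_d2 hw
  have hw1 : ∀ α, GkEG 1 (ghhD (A (Pi.single α 1)) w) := fun α => (hw.eg 2).dir _
  have hw2 : ∀ α, GkEG 0 (ghhD (A (Pi.single α 1)) (ghhD (A (Pi.single α 1)) w)) := fun α => (hw1 α).dir _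
  have hwy : ∀ y, w y ≤ C0 * Real.exp (c0 * ‖y‖) := fun y => (le_abs_self _).trans (hb0 y)
  refine obk_heat A (g := w) (g' := fun y => fderiv ℝ w y) (g1 := fun α => ghhD (A (Pi.single α 1)) w)
    (g2 := fun α => ghhD (A (Pi.single α 1)) (ghhD (A (Pi.single α 1)) w))
    (fun y => ((hw.eg 1).differentiable y).hasFDerivAt) (fun α y => rfl) (fun α y => ?_)
    (fun α => (hw1 α).continuous) (fun α => (hw2 α).continuous)
    (C := (1 + C1 * ‖A‖ + C2 * ‖A‖ ^ 2) * C0) (c := c0) (by positivity) hc0 (fun y => ?_) (fun α y => ?_) (fun α y => ?_) r y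
  · have h3 : HasDerivAt (fun t : ℝ => y + t • A (Pi.single α 1)) (A (Pi.single α 1)) 0 := by
      simpa using ((hasDerivAt_id (0 : ℝ)).smul_const (A (Pi.single α 1))).const_add y
    have h4 : HasFDerivAt (ghhD (A (Pi.single α 1)) w) (fderiv ℝ (ghhD (A (Pi.single α 1)) w) y)
        (y + (0 : ℝ) • A (Pi.single α 1)) := by
      simpa using ((hw1 α).differentiable y).hasFDerivAt
    exact h4.comp_hasDerivAt (0 : ℝ) h3
  · refine (hb0 y).trans ?_
    rw [mul_assoc]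
    refine le_mul_of_one_le_left (by positivity) ?_
    have : 0 ≤ C1 * ‖A‖ + C2 * ‖A‖ ^ 2 := by positivity
    linarith
  · refine (h1 _ y).trans ?_
    rw [mul_assoc _ C0]
    refine mul_le_mul ?_ (hwy y) (hw.pos y).le (by positivity)
    have := mul_le_mul_of_nonneg_left (obn_dir_le A α) hC1
    have h3 : 0 ≤ C2 * ‖A‖ ^ 2 := by positivity
    linarith
  · refine (h2 _ y).trans ?_
    rw [mul_assoc _ C0]
    refine mul_le_mul ?_ (hwy y) (hw.pos y).le (by positivity)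
    have : ‖A (Pi.single α 1)‖ ^ 2 ≤ ‖A‖ ^ 2 := pow_le_pow_left₀ (norm_nonneg _) (obn_dir_le A α) 2
    have := mul_le_mul_of_nonneg_left this hC2
    have h3 : 0 ≤ C1 * ‖A‖ := by positivity
    linarith


theorem obn_logW_cont : Continuous fun p : ℝ × E => Real.log (obnW A w p.1 p.2) + 1 :=
  ((obn_W_cont A hw).log fun p => (obn_W_pos A hw p.1 p.2).ne').add continuous_const

/-- raw output of the two-parameter lemma -/
theorem obn_deriv_raw (z : E) {t : ℝ} (ht : t ∈ Icc (0 : ℝ) 1) :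
    HasDerivWithinAt
      (fun s => obkQ A (fun y => obnW A w (Real.sqrt (1 - s)) y * Real.log (obnW A w (Real.sqrt (1 - s)) y)) (Real.sqrt s) z)
      ((1 / 2) * (∑ α, obkQ A (fun y => (Real.log (obnW A w (Real.sqrt (1 - t)) y) + 1) * obnM A w α (Real.sqrt (1 - t)) y
            + obnN A w α (Real.sqrt (1 - t)) y ^ 2 / obnW A w (Real.sqrt (1 - t)) y) (Real.sqrt t) z
          - obkQ A (fun y => (Real.log (obnW A w (Real.sqrt (1 - t)) y) + 1) * ∑ α, obnM A w α (Real.sqrt (1 - t)) y)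
              (Real.sqrt t) z))
      (Icc 0 1) t := by
  obtain ⟨C, hC, hb⟩ := obn_NM_le A hw
  have hw1 : ∀ α, GkEG 1 (ghhD (A (Pi.single α 1)) w) := fun α => (hw.eg 2).dir _
  have hlog : ∀ r y, HasDerivAt (fun x : ℝ => x * Real.log x) (Real.log (obnW A w r y) + 1) (obnW A w r y) := fun r y =>
    Real.hasDerivAt_mul_log (obn_W_pos A hw r y).ne'
  refine obk_two A (h := fun r y => obnW A w r y * Real.log (obnW A w r y))
    (k₂ := fun r y => (Real.log (obnW A w r y) + 1) * ∑ α, obnM A w α r y)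
    (h' := fun r y => (Real.log (obnW A w r y) + 1) • fderiv ℝ (fun y => obkQ A w r y) y)
    (h1 := fun α r y => (Real.log (obnW A w r y) + 1) * obnN A w α r y)
    (h2 := fun α r y => (Real.log (obnW A w r y) + 1) * obnM A w α r y + obnN A w α r y ^ 2 / obnW A w r y)
    (fun r y => ?_) (fun α r y => ?_) (fun α r y => ?_) (fun r y => ?_) ?_ (fun α => ?_) (fun α => ?_) ?_
    (obn_gr_h A hw) (fun α => obn_gr_logK A hw fun r y => (hb α r y).1) (fun α => ?_) ?_ z ht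
  · exact (hlog r y).comp_hasFDerivAt y (obn_Q_hasFDerivAt A (hw.eg 1) r y)
  · simp only [_root_.smul_apply, smul_eq_mul]
    rw [obn_Q_fderiv A (hw.eg 1)]
    rfl
  · have hp := obn_W_pos A hw r y
    have d1 : HasDerivAt (fun t : ℝ => obnW A w r (y + t • A (Pi.single α 1))) (obnN A w α r y) 0 :=
      obn_Q_line A (hw.eg 1) r y _
    have d2 : HasDerivAt (fun t : ℝ => obnN A w α r (y + t • A (Pi.single α 1))) (obnM A w α r y) 0 :=
      obn_Q_line A (hw1 α) r y _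
    have hp0 : obnW A w r (y + (0 : ℝ) • A (Pi.single α 1)) ≠ 0 := by simpa using hp.ne'
    have d3 := ((d1.log hp0).add_const 1).mul d2
    simp only [zero_smul, add_zero] at d3
    refine HasDerivAt.congr_deriv (f := fun t : ℝ => (Real.log (obnW A w r (y + t • A (Pi.single α 1))) + 1)
      * obnN A w α r (y + t • A (Pi.single α 1))) d3 ?_
    field_simp
    ring
  · have := (hlog r y).comp r (obn_W_dr A hw r y)
    refine HasDerivAt.congr_deriv (f := fun r : ℝ => obnW A w r y * Real.log (obnW A w r y)) this ?_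
    ring
  · exact Real.continuous_mul_log.comp (obn_W_cont A hw)
  · exact (obn_logW_cont A hw).mul (obn_N_cont A hw α)
  · exact ((obn_logW_cont A hw).mul (obn_M_cont A hw α)).add
      (((obn_N_cont A hw α).pow 2).div (obn_W_cont A hw) fun p => (obn_W_pos A hw p.1 p.2).ne')
  · exact (obn_logW_cont A hw).mul (continuous_finsetSum _ fun α _ => obn_M_cont A hw α)
  · exact (obn_gr_logK A hw fun r y => (hb α r y).2).add (obn_gr_sq A hw α)
  · refine obn_gr_logK A hw (C := Fintype.card ι * C) fun r y => ?_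
    refine (Finset.abs_sum_le_sum_abs _ _).trans ?_
    refine (Finset.sum_le_sum fun α _ => (hb α r y).2).trans (le_of_eq ?_)
    simp [mul_assoc]


theorem obn_sq_cont (α : ι) : Continuous fun p : ℝ × E => obnN A w α p.1 p.2 ^ 2 / obnW A w p.1 p.2 :=
  ((obn_N_cont A hw α).pow 2).div (obn_W_cont A hw) fun p => (obn_W_pos A hw p.1 p.2).ne'

/-- the derivative of the entropy along the semigroup -/
theorem obn_deriv (z : E) {t : ℝ} (ht : t ∈ Icc (0 : ℝ) 1) :
    HasDerivWithinAt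
      (fun s => obkQ A (fun y => obnW A w (Real.sqrt (1 - s)) y * Real.log (obnW A w (Real.sqrt (1 - s)) y)) (Real.sqrt s) z)
      ((1 / 2) * ∑ α, obkQ A (fun y => obnN A w α (Real.sqrt (1 - t)) y ^ 2 / obnW A w (Real.sqrt (1 - t)) y) (Real.sqrt t) z)
      (Icc 0 1) t := by
  obtain ⟨C, hC, hb⟩ := obn_NM_le A hw
  refine (obn_deriv_raw A hw z ht).congr_deriv ?_
  congr 1
  set r := Real.sqrt (1 - t)
  set r' := Real.sqrt t
  have ia : ∀ α, Integrable (fun η : ι → ℝ => (Real.log (obnW A w r (z + r' • A η)) + 1) * obnM A w α r (z + r' • A η))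
      (ghStd ι) := fun α =>
    obn_int A (k := fun r y => (Real.log (obnW A w r y) + 1) * obnM A w α r y)
      ((obn_logW_cont A hw).mul (obn_M_cont A hw α)) (obn_gr_logK A hw fun r y => (hb α r y).2) r r' z
  have ib : ∀ α, Integrable (fun η : ι → ℝ => obnN A w α r (z + r' • A η) ^ 2 / obnW A w r (z + r' • A η)) (ghStd ι) :=
    fun α => obn_int A (k := fun r y => obnN A w α r y ^ 2 / obnW A w r y) (obn_sq_cont A hw α) (obn_gr_sq A hw α) r r' z
  unfold obkQ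
  simp only [Finset.mul_sum]
  rw [integral_finsetSum _ fun α _ => ia α, ← Finset.sum_sub_distrib]
  refine Finset.sum_congr rfl fun α _ => ?_
  rw [integral_add (ia α) (ib α)]
  ring


theorem obn_N_gr (α : ι) : ObkGr (obnN A w α) := by
  obtain ⟨C, c, hC, hc, hb⟩ := ((hw.eg 1).dir (A (Pi.single α 1))).abs_le
  exact ObkGr.Q A hC hc hb

/-- lower bound of the dissipation -/
theorem obn_diss_lower (α : ι) {r₁ r₂ : ℝ} (h : r₁ ^ 2 + r₂ ^ 2 = 1) (z : E) :
    obnN A w α 1 z ^ 2 / obnW A w 1 z ≤ obkQ A (fun y => obnN A w α r₂ y ^ 2 / obnW A w r₂ y) r₁ z := by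
  obtain ⟨C0, c0, hC0, hc0, hb0⟩ := obn_pos_gr hw
  have h1 := (hw.eg 1).dir (A (Pi.single α 1))
  obtain ⟨C1, c1, hC1, hc1, hb1⟩ := h1.abs_le
  have eW : obkQ A (fun y => obnW A w r₂ y) r₁ z = obnW A w 1 z :=
    obn_semigroup A hw.smooth.continuous hC0 hc0 hb0 h z
  have eN : obkQ A (fun y => obnN A w α r₂ y) r₁ z = obnN A w α 1 z :=
    obn_semigroup A h1.continuous hC1 hc1 hb1 h z
  rw [← eW, ← eN]
  refine obn_cs (fun η => obn_W_pos A hw r₂ _) (obn_int A (obn_N_cont A hw α) (obn_N_gr A hw α) r₂ r₁ z)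
    (obn_int A (obn_W_cont A hw) (obn_W_gr A hw) r₂ r₁ z)
    (obn_int A (k := fun r y => obnN A w α r y ^ 2 / obnW A w r y) (obn_sq_cont A hw α) (obn_gr_sq A hw α) r₂ r₁ z) ?_
  have : 0 < obkQ A (fun y => obnW A w r₂ y) r₁ z := by rw [eW]; exact obn_W_pos A hw 1 z
  exact this

/-- the Fisher integrand `(∂_α w)²/w`: continuity and growth -/
theorem obn_fi_cont (α : ι) : Continuous fun y => ghhD (A (Pi.single α 1)) w y ^ 2 / w y :=
  ((((hw.eg 1).dir (A (Pi.single α 1))).continuous).pow 2).div hw.smooth.continuous fun y => (hw.pos y).ne'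

theorem obn_fi_gr (α : ι) : ∃ C c : ℝ, 0 ≤ C ∧ 0 ≤ c ∧ ∀ y, |ghhD (A (Pi.single α 1)) w y ^ 2 / w y| ≤ C * Real.exp (c * ‖y‖) := by
  obtain ⟨C0, c0, hC0, hc0, hb0⟩ := obn_pos_gr hw
  obtain ⟨C1, hC1, h1⟩ := obn_pos_d1 hw
  refine ⟨(C1 * ‖A (Pi.single α 1)‖) ^ 2 * C0, c0, by positivity, hc0, fun y => ?_⟩
  have hp := hw.pos y
  rw [abs_div, abs_of_pos hp, div_le_iff₀ hp, abs_pow]
  calc |ghhD (A (Pi.single α 1)) w y| ^ 2 ≤ (C1 * ‖A (Pi.single α 1)‖ * w y) ^ 2 :=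
        pow_le_pow_left₀ (abs_nonneg _) (h1 _ y) 2
    _ = (C1 * ‖A (Pi.single α 1)‖) ^ 2 * w y * w y := by ring
    _ ≤ (C1 * ‖A (Pi.single α 1)‖) ^ 2 * (C0 * Real.exp (c0 * ‖y‖)) * w y := by
        have := (le_abs_self _).trans (hb0 y)
        gcongr
    _ = _ := by ring

/-- upper bound of the dissipation -/
theorem obn_diss_upper (α : ι) {r₁ r₂ : ℝ} (h : r₁ ^ 2 + r₂ ^ 2 = 1) (z : E) :
    obkQ A (fun y => obnN A w α r₂ y ^ 2 / obnW A w r₂ y) r₁ z
      ≤ obkQ A (fun y => ghhD (A (Pi.single α 1)) w y ^ 2 / w y) 1 z := by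
  obtain ⟨C0, c0, hC0, hc0, hb0⟩ := obn_pos_gr hw
  have h1 := (hw.eg 1).dir (A (Pi.single α 1))
  obtain ⟨C1, c1, hC1, hc1, hb1⟩ := h1.abs_le
  obtain ⟨C2, c2, hC2, hc2, hb2⟩ := obn_fi_gr A hw α
  rw [← obn_semigroup A (obn_fi_cont A hw α) hC2 hc2 hb2 h z]
  unfold obkQ
  refine integral_mono
    (obn_int A (k := fun r y => obnN A w α r y ^ 2 / obnW A w r y) (obn_sq_cont A hw α) (obn_gr_sq A hw α) r₂ r₁ z)
    (obn_int A (k := fun r y => obkQ A (fun y => ghhD (A (Pi.single α 1)) w y ^ 2 / w y) r y)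
      (obk_Q_cont A (obn_fi_cont A hw α) hC2 hc2 hb2) (ObkGr.Q A hC2 hc2 hb2) r₂ r₁ z) fun η => ?_
  exact obn_cs (fun η' => hw.pos _) (obk_int A h1.continuous hC1 hc1 hb1 r₂ _)
    (obk_int A hw.smooth.continuous hC0 hc0 hb0 r₂ _) (obk_int A (obn_fi_cont A hw α) hC2 hc2 hb2 r₂ _)
    (obn_W_pos A hw r₂ _)

/-- **two sided logarithmic Sobolev bound along the Gaussian semigroup** -/
theorem obn_sandwich (z : E) :
    (1 / 2) * ∑ α, obkQ A (ghhD (A (Pi.single α 1)) w) 1 z ^ 2 / obkQ A w 1 z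
        ≤ obkQ A (fun y => w y * Real.log (w y)) 1 z - obkQ A w 1 z * Real.log (obkQ A w 1 z) ∧
      obkQ A (fun y => w y * Real.log (w y)) 1 z - obkQ A w 1 z * Real.log (obkQ A w 1 z)
        ≤ (1 / 2) * ∑ α, obkQ A (fun y => ghhD (A (Pi.single α 1)) w y ^ 2 / w y) 1 z := by
  set φ : ℝ → ℝ := fun s =>
    obkQ A (fun y => obnW A w (Real.sqrt (1 - s)) y * Real.log (obnW A w (Real.sqrt (1 - s)) y)) (Real.sqrt s) z with hφ
  set φ' : ℝ → ℝ := fun t =>
    (1 / 2) * ∑ α, obkQ A (fun y => obnN A w α (Real.sqrt (1 - t)) y ^ 2 / obnW A w (Real.sqrt (1 - t)) y) (Real.sqrt t) z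
    with hφ'
  have hd : ∀ t ∈ Icc (0 : ℝ) 1, HasDerivWithinAt φ (φ' t) (Icc 0 1) t := fun t ht => obn_deriv A hw z ht
  obtain ⟨c, hc, hcs⟩ := exists_hasDerivAt_eq_slope φ φ' one_pos (fun t ht => (hd t ht).continuousWithinAt)
    (fun t ht => (hd t (Ioo_subset_Icc_self ht)).hasDerivAt (Icc_mem_nhds ht.1 ht.2))
  have e0 : φ 0 = obkQ A w 1 z * Real.log (obkQ A w 1 z) := by
    simp only [hφ, sub_zero, Real.sqrt_one, Real.sqrt_zero, obn_Q_zero]
    rfl
  have e1 : φ 1 = obkQ A (fun y => w y * Real.log (w y)) 1 z := by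
    simp only [hφ, sub_self, Real.sqrt_one, Real.sqrt_zero, obnW, obn_Q_zero]
  have hsq : Real.sqrt c ^ 2 + Real.sqrt (1 - c) ^ 2 = 1 := by
    rw [Real.sq_sqrt hc.1.le, Real.sq_sqrt (by linarith [hc.2])]; ring
  rw [← e0, ← e1]
  have hs : φ 1 - φ 0 = φ' c := by rw [hcs]; ring
  rw [hs]
  constructor
  · exact mul_le_mul_of_nonneg_left (Finset.sum_le_sum fun α _ => obn_diss_lower A hw α hsq z) (by norm_num)
  · exact mul_le_mul_of_nonneg_left (Finset.sum_le_sum fun α _ => obn_diss_upper A hw α hsq z) (by norm_num)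

end fam

end abs

end Claimed.Agent.R286
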