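import Claimed.Agent.R286.Fd.TrB3
import Claimed.Agent.R286.Fd.TrBe

/-!
# Row 286 (S0533), Fd/ExtB : groups of labels which share only EMPTY levels are independent      (owner helper16; prefix `gh_x_`, `tr_x_`)      0 sorry

PE cavity l.318-320 ("At `l = 0` the site has independent flip symmetries in its cut blocks. At `l = t = 0` it is an independent scalar recursion"); 137: "block independence of
`ν^s` at `l = 0` as a product formula over `U`-blocks".
-/

set_option autoImplicit false
set_option linter.unusedSectionVars false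

namespace Claimed.Agent.R286

open MeasureTheory ProbabilityTheory

variable {S ι : Type} [Fintype S] [Fintype ι]

/-- for spin tests the representatives of the empty levels are irrelevant -/
theorem gh_x_rep_empty (B : GhB S) {q : ℕ} (P : (Fin q → S) → ℝ) : ∀ (ls : List (GhLv S ι)) (rep rep' : ℕ → Fin q → Fin q),
    (∀ t (h : t < ls.length), (∀ s i, (ls[t]).A s i = 0) ∨ rep t = rep' t) → rep ls.length = rep' ls.length →
    ∀ G : Fin q → S → ℝ, ghNu B ls rep G (fun _ σ => P σ) = ghNu B ls rep' G fun _ σ => P σ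
  | [], rep, rep', _, ht, G => by
    simp only [ghNu]
    have : rep 0 = rep' 0 := ht
    rw [this]
  | l :: ls, rep, rep', h, ht, G => by
    have ih := gh_x_rep_empty B P ls (fun t => rep (t + 1)) (fun t => rep' (t + 1))
      (fun t ht' => h (t + 1) (by simpa using ht')) (by simpa using ht)
    rcases h 0 (by simp) with h0 | h0
    · have h0' : ∀ s i, l.A s i = 0 := by simpa using h0
      rw [tr_e_nu_empty_head B P h0', tr_e_nu_empty_head B P h0', ih]
    · simp only [ghNu]
      rw [h0]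
      simp only [ih]

/-- raw form: two groups of labels which share only empty levels are independent (spin tests) -/
theorem gh_x_indep_empty [Inhabited S] (B : GhB S) (hB : B.Ok) (ls : List (GhLv S ι)) (hls : GhNn ls) {q : ℕ}
    (rep : ℕ → Fin q → Fin q) (A : Fin q → Prop)
    (h : ∀ t (ht : t < ls.length), (∀ s i, (ls[t]).A s i = 0) ∨ ∀ a, A (rep t a) ↔ A a) (hterm : ∀ a, A (rep ls.length a) ↔ A a)
    (G : Fin q → S → ℝ) (P Q : (Fin q → S) → ℝ) (hP : ∀ σ σ', (∀ a, A a → σ a = σ' a) → P σ = P σ')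
    (hQ : ∀ σ σ', (∀ a, ¬ A a → σ a = σ' a) → Q σ = Q σ') :
    ghNu B ls rep G (fun _ σ => P σ * Q σ) = ghNu B ls rep G (fun _ σ => P σ) * ghNu B ls rep G fun _ σ => Q σ := by
  classical
  let rep' : ℕ → Fin q → Fin q := fun t => if ∀ a, A (rep t a) ↔ A a then rep t else id
  have h1 : ∀ t a, A (rep' t a) ↔ A a := by
    intro t a
    by_cases hc : ∀ a, A (rep t a) ↔ A a
    · simp only [rep', if_pos hc]; exact hc a
    · simp only [rep', if_neg hc]; exact Iff.rfl
  have h2 : ∀ t (ht : t < ls.length), (∀ s i, (ls[t]).A s i = 0) ∨ rep t = rep' t := by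
    intro t ht
    rcases h t ht with h0 | h0
    · exact Or.inl h0
    · right; simp only [rep', if_pos h0]
  have h3 : rep ls.length = rep' ls.length := by simp only [rep', if_pos hterm]
  rw [gh_x_rep_empty B _ ls rep rep' h2 h3, gh_x_rep_empty B _ ls rep rep' h2 h3, gh_x_rep_empty B _ ls rep rep' h2 h3]
  exact tr_b3_indep_raw B hB ls hls rep' A h1 G G G (fun _ _ => rfl) (fun _ _ => rfl) (fun _ σ => P σ) (fun _ σ => Q σ)
    (fun _ _ σ σ' _ h => hP σ σ' h) (fun _ _ σ σ' _ h => hQ σ σ' h)

/-- **independence of groups of leaves which share only empty levels** -/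
theorem tr_x_indep_empty [Inhabited S] {B : GhB S} (hB : B.Ok) {ls : List (GhLv S ι)} (hls : GhAdm B 0 ls) {q : ℕ} {τ : ℕ → ℕ → ℕ}
    (hτ : IsTr ls.length q τ) (z : S → ℝ) (A : ℕ → Prop)
    (hA : ∀ x y, x < q → y < q → A x → ¬ A y → ∀ j, j < τ x y → ∃ h : j < ls.length, ∀ s i, (ls[j]).A s i = 0)
    (P Q : (ℕ → S) → ℝ) (hP : ∀ σ σ' : ℕ → S, (∀ x, x < q → A x → σ x = σ' x) → P σ = P σ')
    (hQ : ∀ σ σ' : ℕ → S, (∀ x, x < q → ¬ A x → σ x = σ' x) → Q σ = Q σ') :
    trNu B ls q τ z (fun σ => P σ * Q σ) = trNu B ls q τ z P * trNu B ls q τ z Q := by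
  classical
  have key : ∀ t, (∀ a : Fin q, A (trRep q τ t a).1 ↔ A a.1) ∨ ∃ h : t < ls.length, ∀ s i, (ls[t]).A s i = 0 := by
    intro t
    by_cases hc : ∀ a : Fin q, A (trRep q τ t a).1 ↔ A a.1
    · exact Or.inl hc
    · right
      push Not at hc
      obtain ⟨a, ha⟩ := hc
      rcases tr_b3_rep_spec q τ t a with h0 | h0
      · rw [h0] at ha
        rcases ha with ha | ha
        · exact absurd ha.1 ha.2
        · exact absurd ha.2 ha.1
      · rcases ha with ha | ha
        · have := hA _ _ (trRep q τ t a).2 a.2 ha.1 ha.2 t (by rwa [hτ.symm _ _ (trRep q τ t a).2 a.2])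
          exact this
        · exact hA _ _ a.2 (trRep q τ t a).2 ha.2 ha.1 t h0
  unfold trNu
  refine gh_x_indep_empty B hB ls (hls.ghNn le_rfl) (fun t => trRep q τ t) (fun a => A a.1) (fun t ht => ?_) ?_ _
    (fun σ => P (trExt σ)) (fun σ => Q (trExt σ)) (fun σ σ' h => hP _ _ fun x hx hAx => ?_) (fun σ σ' h => hQ _ _ fun x hx hAx => ?_)
  · rcases key t with h0 | ⟨_, h0⟩
    · exact Or.inr h0
    · exact Or.inl h0
  · rcases key ls.length with h0 | ⟨h0, _⟩
    · exact h0
    · exact absurd h0 (lt_irrefl _)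
  · simp only [trExt, dif_pos hx]; exact h ⟨x, hx⟩ hAx
  · simp only [trExt, dif_pos hx]; exact h ⟨x, hx⟩ hAx

end Claimed.Agent.R286
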