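import Claimed.Agent.R286.Fd.P02Comb
import Claimed.Agent.R286.Fd.TrA2

/-!
# Row 286 (S0533), P02 engine, bridges part B      (prover helper140; architect helper299; prefix `p2b_`)
`p2b_prune` (= `p2_prune`), `p2b_row` (= `p2_brg_row`), `p2b_snoc`, `p2b_ms`, `p2b_cst`;  `p2b_W_bc` : the block weights are bounded continuous.
-/

set_option autoImplicit false
set_option linter.unusedSectionVars false

namespace Claimed.Agent.R286

open MeasureTheory ProbabilityTheory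

variable {S ι : Type} [Fintype S] [Fintype ι]

/-! ### small bridges -/

theorem p2b_ms (B : GhB S) (ls : List (GhLv S ι)) : trMs B ls = fun j => (ls.map GhLv.m).getD j B.a := by
  funext j
  simp [trMs, List.getD]

theorem p2b_cst (ls : List (GhLv S ι)) (θ : ℝ) : p2L (ls.map p2Cst) θ = ls := by
  unfold p2L
  rw [List.map_map]
  conv_rhs => rw [← List.map_id ls]
  refine List.map_congr_left fun l _ => ?_
  simp [p2Cst, P2Lv.lv, ghLvF]

theorem p2b_snoc [Inhabited S] (q : ℕ) (f : (ℕ → S) → ℝ) (hf : TrUses (q + 1) f) :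
    ∑ σ : Fin (q + 1) → S, f (trExt σ) = ∑ σ : Fin q → S, ∑ t : S, f (Function.update (trExt σ) q t) := by
  rw [← (Fin.snocEquiv fun _ : Fin (q + 1) => S).sum_comp, Fintype.sum_prod_type, Finset.sum_comm]
  refine Finset.sum_congr rfl fun σ _ => Finset.sum_congr rfl fun t _ => ?_
  apply hf
  intro i hi
  by_cases hq : i = q
  · subst hq
    simp only [Function.update_self, trExt, hi, dif_pos, Fin.snocEquiv, Equiv.coe_fn_mk]
    exact Fin.snoc_last (α := fun _ => S) t σ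
  · have hi' : i < q := by omega
    simp only [Function.update_of_ne hq, trExt, hi, hi', dif_pos, Fin.snocEquiv, Equiv.coe_fn_mk]
    exact Fin.snoc_castSucc (α := fun _ => S) t σ ⟨i, hi'⟩

/-! ### the block weights are bounded continuous -/

theorem p2b_bc_prod {κ : Type} (s : Finset κ) (g : κ → (S → ℝ) → ℝ) (h : ∀ k ∈ s, GhBC (g k) 1) :
    GhBC (fun z => ∏ k ∈ s, g k z) 1 := by
  classical
  induction s using Finset.induction_on with
  | empty => simpa using gh_b_bc_const (S := S) 1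
  | insert k s hk ih =>
    have := (h k (Finset.mem_insert_self k s)).mul (ih fun k' hk' => h k' (Finset.mem_insert_of_mem hk'))
    simp only [Finset.prod_insert hk]
    simpa using this

open Classical in
/-- the factor of one child of a block -/
noncomputable def p2bF (B : GhB S) (τ : ℕ → ℕ → ℕ) (σ : ℕ → S) : List (GhLv S ι) → ℕ → Finset ℕ → (S → ℝ) → ℝ
  | [], _, c, z => ∑ t, ghGw B z t * (if ∀ x ∈ c, σ x = t then 1 else 0)
  | l :: ls, j, c, z => ∫ ξ, ghD B l ls z ξ * p2W B τ σ ls (j + 1) c (z + l.inc ξ) ∂ghStd ι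

theorem p2b_W_eq (B : GhB S) (τ : ℕ → ℕ → ℕ) (σ : ℕ → S) (ls : List (GhLv S ι)) (j : ℕ) (b : Finset ℕ) (z : S → ℝ) :
    p2W B τ σ ls j b z = ∏ c ∈ p2Cls τ j b, p2bF B τ σ ls j c z := by
  cases ls <;> rfl

open Classical in
theorem p2b_leaf_bc {B : GhB S} (hB : B.Ok) (σ : ℕ → S) (c : Finset ℕ) :
    GhBC (fun z => ∑ t, ghGw B z t * (if ∀ x ∈ c, σ x = t then (1 : ℝ) else 0)) 1 := by
  refine ⟨continuous_finsetSum _ fun t _ => (gh_b_Gw_continuous hB t).mul continuous_const, fun z => ?_⟩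
  have h0 : 0 ≤ ∑ t, ghGw B z t * (if ∀ x ∈ c, σ x = t then (1 : ℝ) else 0) :=
    Finset.sum_nonneg fun t _ => mul_nonneg (gh_b_Gw_nonneg hB z t) (by split_ifs <;> norm_num)
  rw [abs_of_nonneg h0]
  calc _ ≤ ∑ t, ghGw B z t := by
        refine Finset.sum_le_sum fun t _ => ?_
        have := gh_b_Gw_nonneg hB z t
        split_ifs <;> simp [this]
    _ = 1 := gh_b_Gw_sum hB z

theorem p2b_W_bc {B : GhB S} (hB : B.Ok) (τ : ℕ → ℕ → ℕ) (σ : ℕ → S) : ∀ (ls : List (GhLv S ι)), GhNn ls →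
    ∀ (j : ℕ) (b : Finset ℕ), GhBC (p2W B τ σ ls j b) 1
  | [], _, j, b => p2b_bc_prod (p2Cls τ j b) _ fun c _ => p2b_leaf_bc hB σ c
  | _ :: ls, h, j, b => p2b_bc_prod (p2Cls τ j b) _ fun c _ => gh_b_A_bc hB h (p2b_W_bc hB τ σ ls h.tail (j + 1) c)

/-! ### pruning -/

theorem p2b_cls_sub {τ : ℕ → ℕ → ℕ} {j : ℕ} {b c : Finset ℕ} (hc : c ∈ p2Cls τ j b) : c ⊆ b := by
  unfold p2Cls at hc
  obtain ⟨x, _, rfl⟩ := Finset.mem_image.1 hc
  exact Finset.filter_subset _ _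

open Classical in
theorem p2b_F_congr (B : GhB S) {τ τ' : ℕ → ℕ → ℕ} {σ σ' : ℕ → S} (ls : List (GhLv S ι)) (j : ℕ) (c : Finset ℕ) (z : S → ℝ)
    (hτ : ∀ x ∈ c, ∀ y ∈ c, τ x y = τ' x y) (hσ : ∀ x ∈ c, σ x = σ' x) : p2bF B τ σ ls j c z = p2bF B τ' σ' ls j c z := by
  cases ls with
  | nil =>
    simp only [p2bF]
    refine Finset.sum_congr rfl fun t _ => ?_
    have : (∀ x ∈ c, σ x = t) ↔ (∀ x ∈ c, σ' x = t) := forall₂_congr fun x hx => by rw [hσ x hx]
    rw [if_congr this rfl rfl]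
  | cons l ls =>
    simp only [p2bF]
    refine integral_congr_ae (Filter.Eventually.of_forall fun ξ => ?_)
    simp only
    rw [p2W_congr B ls (j + 1) c _ hτ hσ]

theorem p2b_F_empty {B : GhB S} (hB : B.Ok) (τ : ℕ → ℕ → ℕ) (σ : ℕ → S) {ls : List (GhLv S ι)} (hls : GhNn ls) (j : ℕ)
    (z : S → ℝ) : p2bF B τ σ ls j ∅ z = 1 := by
  cases ls with
  | nil => simp [p2bF, gh_b_Gw_sum hB]
  | cons l ls => simp [p2bF, p2W_empty, gh_b_D_integral hB hls.tail]

open Classical in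
theorem p2b_leaf_sum (B : GhB S) (z : S → ℝ) (σ : ℕ → S) (q : ℕ) (c : Finset ℕ) (hq : q ∉ c) :
    ∑ t, ∑ t', ghGw B z t' * (if ∀ y ∈ insert q c, Function.update σ q t y = t' then (1 : ℝ) else 0)
      = ∑ t', ghGw B z t' * (if ∀ y ∈ c, σ y = t' then (1 : ℝ) else 0) := by
  rw [Finset.sum_comm]
  refine Finset.sum_congr rfl fun t' _ => ?_
  rw [← Finset.mul_sum]
  congr 1
  have : ∀ t, (∀ y ∈ insert q c, Function.update σ q t y = t') ↔ (t = t' ∧ ∀ y ∈ c, σ y = t') := by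
    intro t
    simp only [Finset.forall_mem_insert, Function.update_self]
    refine and_congr Iff.rfl (forall₂_congr fun y hy => ?_)
    rw [Function.update_of_ne (by rintro rfl; exact hq hy)]
  by_cases hc : ∀ y ∈ c, σ y = t'
  · have h2 : ∀ t, (∀ y ∈ insert q c, Function.update σ q t y = t') ↔ t = t' := fun t => by rw [this]; exact and_iff_left hc
    rw [if_pos hc, Finset.sum_congr rfl fun t _ => if_congr (h2 t) rfl rfl]
    simp
  · have h2 : ∀ t, ¬ (∀ y ∈ insert q c, Function.update σ q t y = t') := fun t => by rw [this]; exact fun h => hc h.2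
    rw [if_neg hc, Finset.sum_congr rfl fun t _ => if_neg (h2 t)]
    simp

theorem p2b_prune_step {B : GhB S} (hB : B.Ok) (σ : ℕ → S) {N q : ℕ} {ls : List (GhLv S ι)} (hls : GhNn ls)
    {j x i : ℕ} {τ : ℕ → ℕ → ℕ} {b : Finset ℕ} (hjN : j ≤ N) (h : P2Tr τ b j (N + 1)) (hq : q ∉ b) (hx : x ∈ b ∨ b = ∅)
    (hji : j ≤ i) (z : S → ℝ)
    (HS : ∀ (c₀ : Finset ℕ) (i' : ℕ), P2Tr τ c₀ (j + 1) (N + 1) → q ∉ c₀ → (x ∈ c₀ ∨ c₀ = ∅) → j + 1 ≤ i' → (i' = i ∨ i' = j + 1) →
      ∑ t, p2bF B (trAtt N q τ x i') (Function.update σ q t) ls j (insert q c₀) z = p2bF B τ σ ls j c₀ z) :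
    ∑ t, p2W B (trAtt N q τ x i) (Function.update σ q t) ls j (insert q b) z = p2W B τ σ ls j b z := by
  classical
  have hold : ∀ (i' : ℕ) (t : S) (c : Finset ℕ), c ⊆ b →
      p2bF B (trAtt N q τ x i') (Function.update σ q t) ls j c z = p2bF B τ σ ls j c z := by
    intro i' t c hc
    have hne : ∀ y ∈ c, y ≠ q := fun y hy hyq => hq (hyq ▸ hc hy)
    exact p2b_F_congr B ls j c z (fun y hy y' hy' => p2_att_old τ x i' (hne y hy) (hne y' hy'))
      (fun y hy => Function.update_of_ne (hne y hy) _ _)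
  by_cases hcase : x ∈ b ∧ j < i
  · obtain ⟨hxb, hlt⟩ := hcase
    have hcls := p2_cls_in (i := i) h hq hxb hlt hjN
    have hc0 : p2Cl τ j b x ∈ p2Cls τ j b := p2_cl_mem hxb
    obtain ⟨htr, hsub, _⟩ := p2_cls_tr h (Nat.lt_succ_of_le hjN) hc0
    have hxc : x ∈ p2Cl τ j b x := by
      simp only [p2Cl, Finset.mem_filter]
      exact ⟨hxb, by rw [h.diag x hxb]; omega⟩
    simp_rw [p2b_W_eq, hcls, Finset.prod_insert (p2_cls_in_not_mem hq)]
    have : ∀ t, ∏ c ∈ (p2Cls τ j b).erase (p2Cl τ j b x),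
        p2bF B (trAtt N q τ x i) (Function.update σ q t) ls j c z
        = ∏ c ∈ (p2Cls τ j b).erase (p2Cl τ j b x), p2bF B τ σ ls j c z := fun t =>
      Finset.prod_congr rfl fun c hc => hold i t c (p2b_cls_sub (Finset.mem_of_mem_erase hc))
    simp_rw [this]
    rw [← Finset.sum_mul, HS _ i htr (fun hqc => hq (hsub hqc)) (Or.inl hxc) hlt (Or.inl rfl),
      Finset.mul_prod_erase (p2Cls τ j b) (fun c => p2bF B τ σ ls j c z) hc0]
  · have htab : ∀ y ∈ insert q b, ∀ y' ∈ insert q b, trAtt N q τ x i y y' = trAtt N q τ x j y y' := by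
      rcases hx with hxb | hb
      · have : i = j := by
          by_contra hne
          exact hcase ⟨hxb, lt_of_le_of_ne hji (Ne.symm hne)⟩
        subst this
        intro _ _ _ _; rfl
      · subst hb
        intro y hy y' hy'
        simp only [insert_empty_eq, Finset.mem_singleton] at hy hy'
        subst hy; subst hy'
        simp [trAtt]
    have e1 : ∀ t, p2W B (trAtt N q τ x i) (Function.update σ q t) ls j (insert q b) z
        = p2W B (trAtt N q τ x j) (Function.update σ q t) ls j (insert q b) z := fun t =>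
      p2W_congr B ls j _ z htab fun _ _ => rfl
    simp_rw [e1, p2b_W_eq, p2_cls_new (τ := τ) (x := x) hq hjN, Finset.prod_insert (p2_cls_new_not_mem hq)]
    have : ∀ t, ∏ c ∈ p2Cls τ j b, p2bF B (trAtt N q τ x j) (Function.update σ q t) ls j c z
        = ∏ c ∈ p2Cls τ j b, p2bF B τ σ ls j c z := fun t =>
      Finset.prod_congr rfl fun c hc => hold j t c (p2b_cls_sub hc)
    simp_rw [this]
    rw [← Finset.sum_mul]
    have e2 : ∀ t, p2bF B (trAtt N q τ x j) (Function.update σ q t) ls j {q} z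
        = p2bF B (trAtt N q τ x (j + 1)) (Function.update σ q t) ls j (insert q ∅) z := by
      intro t
      rw [insert_empty_eq]
      refine p2b_F_congr B ls j {q} z ?_ fun _ _ => rfl
      intro y hy y' hy'
      simp only [Finset.mem_singleton] at hy hy'
      subst hy; subst hy'
      simp [trAtt]
    simp_rw [e2]
    rw [HS ∅ (j + 1) (p2_tr_empty _ _ _) (Finset.notMem_empty q) (Or.inr rfl) le_rfl (Or.inr rfl),
      p2b_F_empty hB τ σ hls, one_mul]

/-- pruning: the sum over the spin of the new label -/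
theorem p2b_prune {B : GhB S} (hB : B.Ok) (σ : ℕ → S) {N q : ℕ} : ∀ (ls : List (GhLv S ι)), GhNn ls →
    ∀ {j x i : ℕ} {τ : ℕ → ℕ → ℕ} {b : Finset ℕ}, j + ls.length = N → P2Tr τ b j (N + 1) → q ∉ b → (x ∈ b ∨ b = ∅) →
    j ≤ i → i ≤ N + 1 → ∀ z : S → ℝ,
    ∑ t, p2W B (trAtt N q τ x i) (Function.update σ q t) ls j (insert q b) z = p2W B τ σ ls j b z
  | [], hls, j, x, i, τ, b, hN, h, hq, hx, hji, hiN, z =>
      p2b_prune_step hB σ hls (by simpa using hN.le) h hq hx hji z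
        fun c₀ i' _ hqc _ _ _ => p2b_leaf_sum B z σ q c₀ hqc
  | l :: ls, hls, j, x, i, τ, b, hN, h, hq, hx, hji, hiN, z =>
      p2b_prune_step hB σ hls (by simp at hN; omega) h hq hx hji z
        fun c₀ i' hc hqc hxc h1 h2 => by
          simp only [p2bF]
          rw [← integral_finsetSum _ fun t _ => gh_b_A_integrable hB hls (p2b_W_bc hB _ _ ls hls.tail (j + 1) _) z]
          refine integral_congr_ae (Filter.Eventually.of_forall fun ξ => ?_)
          simp only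
          rw [← Finset.mul_sum, p2b_prune hB σ ls hls.tail (by simp at hN; omega) hc hqc hxc h1
            (by simp at hN; rcases h2 with h2 | h2 <;> omega)]

/-! ### the signed sum `trSum` = the recursive row -/

theorem p2b_bl_congr {N q : ℕ} {τ : ℕ → ℕ → ℕ} (hτ : IsTr N q τ) {x x' j : ℕ} (hx : x < q) (hx' : x' < q) (h : j ≤ τ x x') :
    tra2Bl q τ j x = tra2Bl q τ j x' := by
  ext y
  simp only [tra2Bl, Finset.mem_filter, Finset.mem_range]
  constructor
  · rintro ⟨hy, h1⟩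
    have := hτ.ultra x' x y hx' hx hy
    rw [hτ.symm x' x hx' hx] at this
    exact ⟨hy, by omega⟩
  · rintro ⟨hy, h1⟩
    have := hτ.ultra x x' y hx hx' hy
    exact ⟨hy, by omega⟩

theorem p2b_rep_bl {N q : ℕ} {τ : ℕ → ℕ → ℕ} (hτ : IsTr N q τ) {x j : ℕ} (hx : x < q) (hj : j ≤ N + 1) :
    p2Rep (tra2Bl q τ j x) = tra2Rp τ j x := by
  obtain ⟨a1, a2, _⟩ := tra2_rp_spec hτ hx hj
  have hmem : tra2Rp τ j x ∈ tra2Bl q τ j x := by
    simp only [tra2Bl, Finset.mem_filter, Finset.mem_range]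
    exact ⟨lt_of_le_of_lt a1 hx, a2⟩
  have hne : (tra2Bl q τ j x).Nonempty := ⟨_, hmem⟩
  unfold p2Rep
  rw [dif_pos hne]
  apply le_antisymm (Finset.min'_le _ _ hmem)
  apply Finset.le_min'
  intro y hy
  simp only [tra2Bl, Finset.mem_filter, Finset.mem_range] at hy
  exact Nat.sInf_le hy.2

theorem p2b_cl_bl {N q : ℕ} {τ : ℕ → ℕ → ℕ} (hτ : IsTr N q τ) {x y j : ℕ} (hx : x < q) (hy : y ∈ tra2Bl q τ j x) :
    p2Cl τ j (tra2Bl q τ j x) y = tra2Bl q τ (j + 1) y := by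
  simp only [tra2Bl, Finset.mem_filter, Finset.mem_range] at hy
  ext y'
  simp only [p2Cl, tra2Bl, Finset.mem_filter, Finset.mem_range]
  constructor
  · rintro ⟨⟨h1, _⟩, h2⟩
    exact ⟨h1, h2⟩
  · rintro ⟨h1, h2⟩
    have := hτ.ultra x y y' hx hy.1 h1
    exact ⟨⟨h1, by omega⟩, h2⟩

theorem p2b_cls_bl {N q : ℕ} {τ : ℕ → ℕ → ℕ} (hτ : IsTr N q τ) {x j : ℕ} (hx : x < q) (hj : j ≤ N) :
    p2Cls τ j (tra2Bl q τ j x) = (tra2Ch q τ j x).image (tra2Bl q τ (j + 1)) := by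
  ext c
  simp only [p2Cls, Finset.mem_image]
  constructor
  · rintro ⟨y, hy, rfl⟩
    rw [p2b_cl_bl hτ hx hy]
    have hy' := hy
    simp only [tra2Bl, Finset.mem_filter, Finset.mem_range] at hy'
    obtain ⟨a1, a2, a3⟩ := tra2_rp_spec hτ hy'.1 (show j + 1 ≤ N + 1 by omega)
    have hr : tra2Rp τ (j + 1) y < q := lt_of_le_of_lt a1 hy'.1
    refine ⟨tra2Rp τ (j + 1) y, ?_, (p2b_bl_congr hτ hy'.1 hr a2).symm⟩
    simp only [tra2Ch, Finset.mem_filter, Finset.mem_range]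
    have := hτ.ultra x y _ hx hy'.1 hr
    exact ⟨hr, by omega, a3⟩
  · rintro ⟨r, hr, rfl⟩
    simp only [tra2Ch, Finset.mem_filter, Finset.mem_range] at hr
    have hrb : r ∈ tra2Bl q τ j x := by
      simp only [tra2Bl, Finset.mem_filter, Finset.mem_range]
      exact ⟨hr.1, hr.2.1⟩
    exact ⟨r, hrb, p2b_cl_bl hτ hx hrb⟩

theorem p2b_bl_inj {N q : ℕ} {τ : ℕ → ℕ → ℕ} (hτ : IsTr N q τ) {x j : ℕ} (hj : j ≤ N) :
    Set.InjOn (tra2Bl q τ (j + 1)) (tra2Ch q τ j x) := by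
  intro r hr r' hr' h
  simp only [tra2Ch, Finset.coe_filter, Set.mem_ofPred_eq, Finset.mem_range] at hr hr'
  have hmem : r ∈ tra2Bl q τ (j + 1) r' := by
    rw [← h]
    simp only [tra2Bl, Finset.mem_filter, Finset.mem_range]
    exact ⟨hr.1, by rw [hτ.diag r hr.1]; omega⟩
  simp only [tra2Bl, Finset.mem_filter, Finset.mem_range] at hmem
  have e1 := tra2_rp_eq hτ hr.1 hr'.1 (show j + 1 ≤ N + 1 by omega) hmem.2 hr'.2.2
  have e2 := tra2_rp_eq hτ hr.1 hr.1 (show j + 1 ≤ N + 1 by omega) (by rw [hτ.diag r hr.1]; omega) hr.2.2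
  exact e2.symm.trans e1

theorem p2b_head {N q : ℕ} {τ : ℕ → ℕ → ℕ} (hτ : IsTr N q τ) (ms : ℕ → ℝ) (Ψ : ℕ → ℕ → ℝ) {x j : ℕ} (hx : x < q) (hj : j ≤ N) :
    ∑ y ∈ tra2Bl q τ j x, trWt ms N q τ y j * Ψ y j
      = (trPm ms j - ((tra2Ch q τ j x).card : ℝ) * ms j) * Ψ (tra2Rp τ j x) j := by
  obtain ⟨a1, a2, _⟩ := tra2_rp_spec hτ hx (show j ≤ N + 1 by omega)
  have hr := lt_of_le_of_lt a1 hx
  rw [← tra2_deg_eq_card, tra2_deg_congr hτ hx hr a2,
    ← tra2_bl_sum_min hτ hx (show j ≤ N + 1 by omega) (fun y => (trPm ms j - (trDeg q τ j y : ℝ) * ms j) * Ψ y j)]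
  refine Finset.sum_congr rfl fun y _ => ?_
  unfold trWt
  rw [if_neg (show j ≠ N + 1 by omega)]
  split_ifs <;> simp

theorem p2b_top {N q : ℕ} {τ : ℕ → ℕ → ℕ} (hτ : IsTr N q τ) (ms : ℕ → ℝ) (Ψ : ℕ → ℕ → ℝ) {r : ℕ} (hr : r < q)
    (hmin : trIsMin τ (N + 1) r) :
    ∑ y ∈ tra2Bl q τ (N + 1) r, ∑ i ∈ Finset.Icc (N + 1) (N + 1), trWt ms N q τ y i * Ψ y i = ms N * Ψ r (N + 1) := by
  simp only [Finset.Icc_self, Finset.sum_singleton]
  have e := tra2_rp_eq hτ hr hr le_rfl (by rw [hτ.diag r hr]) hmin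
  have := tra2_bl_sum_min hτ hr le_rfl (fun y => ms N * Ψ y (N + 1))
  rw [e] at this
  rw [← this]
  refine Finset.sum_congr rfl fun y _ => ?_
  unfold trWt
  rw [if_pos rfl]
  split_ifs <;> simp

theorem p2b_row_gen {N q : ℕ} {τ : ℕ → ℕ → ℕ} (hτ : IsTr N q τ) (a : ℝ) (ms : ℕ → ℝ) (Ψ : ℕ → ℕ → ℝ) :
    ∀ (rem : List ℝ) (μ : ℝ) (j x : ℕ), x < q → j + rem.length = N → (∀ i, rem.getD i a = ms (j + i)) →
    p2Row a τ rem μ j (tra2Bl q τ j x) Ψ = (μ - trPm ms j) * Ψ (tra2Rp τ j x) j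
      + ∑ y ∈ tra2Bl q τ j x, ∑ i ∈ Finset.Icc j (N + 1), trWt ms N q τ y i * Ψ y i
  | [], μ, j, x, hx, hN, hm => by
    have hj : j = N := by simpa using hN
    subst hj
    have ha : a = ms j := by simpa using hm 0
    have hch : ∀ r ∈ tra2Ch q τ j x, r < q ∧ trIsMin τ (j + 1) r := fun r hr => by
      simp only [tra2Ch, Finset.mem_filter, Finset.mem_range] at hr
      exact ⟨hr.1, hr.2.2⟩
    rw [tra2_bl_rec hτ hx le_rfl, p2b_head hτ ms Ψ hx le_rfl,
      Finset.sum_congr rfl fun r hr => p2b_top hτ ms Ψ (hch r hr).1 (hch r hr).2]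
    simp only [p2Row]
    rw [p2b_cls_bl hτ hx le_rfl, Finset.card_image_of_injOn (p2b_bl_inj hτ le_rfl), Finset.sum_image (p2b_bl_inj hτ le_rfl),
      p2b_rep_bl hτ hx (by omega), Finset.sum_congr rfl fun r hr => by
        rw [p2b_rep_bl hτ (hch r hr).1 le_rfl,
          tra2_rp_eq hτ (hch r hr).1 (hch r hr).1 le_rfl (by rw [hτ.diag r (hch r hr).1]) (hch r hr).2],
      ← Finset.mul_sum, ← ha]
    ring
  | m :: rem, μ, j, x, hx, hN, hm => by
    have hj : j + 1 + rem.length = N := by simp at hN; omega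
    have hjN : j ≤ N := by omega
    have hm0 : m = ms j := by simpa using hm 0
    have hm' : ∀ i, rem.getD i a = ms (j + 1 + i) := fun i => by
      have := hm (i + 1)
      rw [List.getD_cons_succ] at this
      rw [this]; congr 1; omega
    have hch : ∀ r ∈ tra2Ch q τ j x, r < q := fun r hr => by
      simp only [tra2Ch, Finset.mem_filter, Finset.mem_range] at hr
      exact hr.1
    rw [tra2_bl_rec hτ hx hjN, p2b_head hτ ms Ψ hx hjN]
    simp only [p2Row]
    rw [p2b_cls_bl hτ hx hjN, Finset.card_image_of_injOn (p2b_bl_inj hτ hjN), Finset.sum_image (p2b_bl_inj hτ hjN),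
      p2b_rep_bl hτ hx (by omega), Finset.sum_congr rfl fun r hr => by
        rw [p2b_row_gen hτ a ms Ψ rem m (j + 1) r (hch r hr) hj hm', tra2_pm_succ, hm0, sub_self, zero_mul, zero_add],
      ← hm0]
    ring

/-- **the signed sum `trSum` = the recursive row.** -/
theorem p2b_row (a : ℝ) (ml : List ℝ) {q : ℕ} {τ : ℕ → ℕ → ℕ} (hτ : IsTr ml.length q τ) (Φ : (ℕ → ℕ → ℕ) → ℝ) :
    trSum (fun j => ml.getD j a) ml.length q τ Φ
      = p2Row a τ ml 0 0 (Finset.range q) fun x i => Φ (trAtt ml.length q τ x i) := by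
  rcases Nat.eq_zero_or_pos q with h0 | hpos
  · subst h0
    simp [trSum, p2Row_empty]
  · have e1 : Finset.range q = tra2Bl q τ 0 0 := by
      simp [tra2Bl]
    have e2 : Finset.range (ml.length + 2) = Finset.Icc 0 (ml.length + 1) := by
      ext i
      simp only [Finset.mem_range, Finset.mem_Icc]
      omega
    unfold trSum
    rw [e2]
    conv_lhs => rw [e1]
    conv_rhs => rw [e1]
    rw [p2b_row_gen hτ a (fun j => ml.getD j a) _ ml 0 0 0 hpos (by simp) (fun i => by simp)]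
    simp [trPm]

end Claimed.Agent.R286
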