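import Claimed.Agent.R286.Fd.P02Comb
import Claimed.Agent.R286.Fd.TrB2

/-!
# Row 286 (S0533), P02 engine, bridge `p2_brg_nu` : the tree number of a spin test = sum over the configurations of the block weights      (helper266; prefix `p2bn_`)

Induction on `ls` for raw `ghNu`: forest of the blocks of depth `j`, fields constant on the blocks.
-/

set_option autoImplicit false

namespace Claimed.Agent.R286

open MeasureTheory ProbabilityTheory

variable {S ι : Type} [Fintype S] [Fintype ι]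

/-! ### the weights are bounded continuous -/

theorem p2bn_bc_prod {κ : Type} (s : Finset κ) (g : κ → (S → ℝ) → ℝ) (h : ∀ c ∈ s, GhBC (g c) 1) :
    GhBC (fun z => ∏ c ∈ s, g c z) 1 := by
  classical
  induction s using Finset.induction_on with
  | empty => simpa using (gh_b_bc_const (S := S) (1 : ℝ))
  | insert a s ha ih =>
    have h1 := (h a (Finset.mem_insert_self a s)).mul (ih fun c hc => h c (Finset.mem_insert_of_mem hc))
    simp only [Finset.prod_insert ha]
    simpa using h1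

theorem p2bn_W_bc {B : GhB S} (hB : B.Ok) (τ : ℕ → ℕ → ℕ) (σ : ℕ → S) : ∀ (ls : List (GhLv S ι)), GhNn ls →
    ∀ (j : ℕ) (b : Finset ℕ), GhBC (p2W B τ σ ls j b) 1
  | [], _, j, b => by
    classical
    have : p2W B τ σ ([] : List (GhLv S ι)) j b = fun z => ∏ c ∈ p2Cls τ j b, ∑ t, ghGw B z t * (if ∀ x ∈ c, σ x = t then 1 else 0) := by
      funext z; simp only [p2W]
    rw [this]
    refine p2bn_bc_prod _ _ fun c _ => ⟨?_, fun z => ?_⟩
    · exact continuous_finsetSum _ fun t _ => (gh_b_Gw_continuous hB t).mul continuous_const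
    · rw [abs_of_nonneg (Finset.sum_nonneg fun t _ => mul_nonneg (gh_b_Gw_nonneg hB z t) (by split_ifs <;> norm_num))]
      refine le_trans (Finset.sum_le_sum fun t _ => ?_) (gh_b_Gw_sum hB z).le
      have := gh_b_Gw_nonneg hB z t
      split_ifs <;> simp [this]
  | l :: ls, h, j, b => by
    have : p2W B τ σ (l :: ls) j b = fun z => ∏ c ∈ p2Cls τ j b, ghA B l ls (p2W B τ σ ls (j + 1) c) z := by
      funext z; simp only [p2W]; rfl
    rw [this]
    exact p2bn_bc_prod _ _ fun c _ => gh_b_A_bc hB h (p2bn_W_bc hB τ σ ls h.tail (j + 1) c)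

/-! ### blocks -/

/-- the block of depth `j` of the label `x` -/
def p2bnBk (q : ℕ) (τ : ℕ → ℕ → ℕ) (j x : ℕ) : Finset ℕ := (Finset.range q).filter fun y => j ≤ τ x y

/-- the blocks of depth `j` -/
def p2bnBks (q : ℕ) (τ : ℕ → ℕ → ℕ) (j : ℕ) : Finset (Finset ℕ) := (Finset.range q).image (p2bnBk q τ j)

/-- extension of a family of fields to all labels -/
def p2bnX {q : ℕ} (G : Fin q → S → ℝ) (x : ℕ) : S → ℝ := if h : x < q then G ⟨x, h⟩ else 0

theorem p2bn_eqns_cite : True := by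
  have := @p2bnBk.eq_1
  have := @p2bnBks.eq_1
  have := @p2bnX.eq_1
  trivial

section comb
variable {N q : ℕ} {τ : ℕ → ℕ → ℕ}

theorem p2bn_mem_bk {j x y : ℕ} : y ∈ p2bnBk q τ j x ↔ y < q ∧ j ≤ τ x y := by
  simp [p2bnBk]

theorem p2bn_self (hτ : IsTr N q τ) {j x : ℕ} (hx : x < q) (hj : j ≤ N + 1) : x ∈ p2bnBk q τ j x := by
  rw [p2bn_mem_bk, hτ.diag x hx]; exact ⟨hx, hj⟩

theorem p2bn_bk_eq (hτ : IsTr N q τ) {j x y : ℕ} (hx : x < q) (hy : y < q) (h : j ≤ τ x y) :
    p2bnBk q τ j x = p2bnBk q τ j y := by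
  ext w
  simp only [p2bn_mem_bk]
  refine and_congr_right fun hw => ?_
  have h1 := hτ.ultra y x w hy hx hw
  have h2 := hτ.ultra x y w hx hy hw
  have h3 := hτ.symm x y hx hy
  omega

theorem p2bn_cl (hτ : IsTr N q τ) {j x0 x : ℕ} (hx0 : x0 < q) (hx : x ∈ p2bnBk q τ j x0) :
    p2Cl τ j (p2bnBk q τ j x0) x = p2bnBk q τ (j + 1) x := by
  rw [p2bn_mem_bk] at hx
  ext w
  show w ∈ (p2bnBk q τ j x0).filter (fun y => j < τ x y) ↔ _
  simp only [Finset.mem_filter, p2bn_mem_bk]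
  constructor
  · rintro ⟨⟨h1, _⟩, h3⟩; exact ⟨h1, h3⟩
  · rintro ⟨h1, h2⟩
    have := hτ.ultra x0 x w hx0 hx.1 h1
    exact ⟨⟨h1, by omega⟩, h2⟩

theorem p2bn_cls (hτ : IsTr N q τ) {j x0 : ℕ} (hx0 : x0 < q) :
    p2Cls τ j (p2bnBk q τ j x0) = (p2bnBk q τ j x0).image (p2bnBk q τ (j + 1)) := by
  show (p2bnBk q τ j x0).image (p2Cl τ j (p2bnBk q τ j x0)) = _
  exact Finset.image_congr fun x hx => p2bn_cl hτ hx0 hx

theorem p2bn_bks_succ (hτ : IsTr N q τ) {j : ℕ} (hj : j ≤ N + 1) :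
    p2bnBks q τ (j + 1) = (p2bnBks q τ j).biUnion (p2Cls τ j) := by
  ext c
  simp only [p2bnBks, Finset.mem_image, Finset.mem_biUnion, Finset.mem_range]
  constructor
  · rintro ⟨x, hx, rfl⟩
    refine ⟨_, ⟨x, hx, rfl⟩, ?_⟩
    rw [p2bn_cls hτ hx]
    exact Finset.mem_image_of_mem _ (p2bn_self hτ hx hj)
  · rintro ⟨_, ⟨x0, hx0, rfl⟩, hc⟩
    rw [p2bn_cls hτ hx0, Finset.mem_image] at hc
    obtain ⟨x, hx, rfl⟩ := hc
    exact ⟨x, (p2bn_mem_bk.1 hx).1, rfl⟩

theorem p2bn_disj (hτ : IsTr N q τ) {j : ℕ} (hj : j ≤ N) :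
    Set.PairwiseDisjoint (↑(p2bnBks q τ j) : Set (Finset ℕ)) (p2Cls τ j) := by
  intro b hb b' hb' hne
  simp only [p2bnBks, Finset.coe_image, Set.mem_image, Finset.mem_coe, Finset.mem_range] at hb hb'
  obtain ⟨x0, hx0, rfl⟩ := hb
  obtain ⟨x0', hx0', rfl⟩ := hb'
  rw [Function.onFun, Finset.disjoint_left]
  intro c hc hc'
  rw [p2bn_cls hτ hx0, Finset.mem_image] at hc
  rw [p2bn_cls hτ hx0', Finset.mem_image] at hc'
  obtain ⟨x, hx, rfl⟩ := hc
  obtain ⟨x', hx', he⟩ := hc'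
  apply hne
  rw [p2bn_mem_bk] at hx hx'
  have h1 : x ∈ p2bnBk q τ (j + 1) x' := by rw [he]; exact p2bn_self hτ hx.1 (by omega)
  rw [p2bn_mem_bk] at h1
  rw [p2bn_bk_eq hτ hx0 hx.1 hx.2, p2bn_bk_eq hτ hx0' hx'.1 hx'.2]
  exact (p2bn_bk_eq hτ hx'.1 hx.1 (by omega)).symm

theorem p2bn_rep_mem {b : Finset ℕ} (h : b.Nonempty) : p2Rep b ∈ b := by
  unfold p2Rep; rw [dif_pos h]; exact Finset.min'_mem _ _

/-- product over the representatives = product over the blocks -/
theorem p2bn_prod_rep (hτ : IsTr N q τ) {j : ℕ} (hj : j ≤ N) (f : Finset ℕ → ℝ) :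
    ∏ a : Fin q, (if trRep q τ j a = a then f (p2bnBk q τ (j + 1) a.1) else 1) = ∏ c ∈ p2bnBks q τ (j + 1), f c := by
  classical
  rw [← Finset.prod_filter]
  have him : p2bnBks q τ (j + 1)
      = (Finset.univ.filter fun a : Fin q => trRep q τ j a = a).image fun a => p2bnBk q τ (j + 1) a.1 := by
    ext c
    simp only [p2bnBks, Finset.mem_image, Finset.mem_range, Finset.mem_filter, Finset.mem_univ, true_and]
    constructor
    · rintro ⟨x, hx, rfl⟩
      refine ⟨trRep q τ j ⟨x, hx⟩, tb2_rep_idem hτ j _, ?_⟩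
      rcases tb2_rep_rel q τ j ⟨x, hx⟩ with h | h
      · rw [h]
      · exact (p2bn_bk_eq hτ hx (trRep q τ j ⟨x, hx⟩).2 h).symm
    · rintro ⟨a, _, rfl⟩
      exact ⟨a.1, a.2, rfl⟩
  rw [him, Finset.prod_image]
  intro a ha a' ha' he
  simp only [Finset.coe_filter, Finset.mem_univ, true_and, Set.mem_ofPred_eq] at ha ha'
  have he' : p2bnBk q τ (j + 1) a.1 = p2bnBk q τ (j + 1) a'.1 := he
  have h1 : a'.1 ∈ p2bnBk q τ (j + 1) a.1 := by rw [he']; exact p2bn_self hτ a'.2 (by omega)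
  rw [p2bn_mem_bk] at h1
  have := (tb2_rep_iff hτ j a a').2 (Or.inr h1.2)
  rw [ha, ha'] at this
  exact this

end comb

/-! ### the terminal draw -/

open Classical in
theorem p2bn_base {q : ℕ} (r : Fin q → Fin q) (hr : ∀ a, r (r a) = r a) (g : Fin q → S → ℝ) (hg : ∀ a, ∑ s, g a s = 1)
    (Φ : (Fin q → S) → ℝ) :
    ∑ σ : Fin q → S, (∏ a, g a (σ a)) * Φ (fun a => σ (r a))
      = ∑ σ₀ : Fin q → S, (∏ a, if r a = a then ∑ t, g a t * (if ∀ x, r x = a → σ₀ x = t then 1 else 0) else 1) * Φ σ₀ := by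
  classical
  have key : ∀ σ₀ : Fin q → S,
      (∏ a, if r a = a then ∑ t, g a t * (if ∀ x, r x = a → σ₀ x = t then (1 : ℝ) else 0) else 1)
        = ∑ σ : Fin q → S, (∏ a, g a (σ a)) * (if σ₀ = fun x => σ (r x) then 1 else 0) := by
    intro σ₀
    have e1 : ∀ a, (if r a = a then ∑ t, g a t * (if ∀ x, r x = a → σ₀ x = t then (1 : ℝ) else 0) else 1)
        = ∑ t, g a t * (if (r a = a → ∀ x, r x = a → σ₀ x = t) then 1 else 0) := by
      intro a
      by_cases h : r a = a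
      · simp only [h, if_true, true_imp_iff]
      · simp only [h, if_false, false_imp_iff, if_true, mul_one, hg a]
    simp only [e1]
    have := Finset.prod_univ_sum (fun _ : Fin q => (Finset.univ : Finset S))
      (fun a t => g a t * (if (r a = a → ∀ x, r x = a → σ₀ x = t) then (1 : ℝ) else 0))
    rw [Fintype.piFinset_univ] at this
    rw [this]
    refine Finset.sum_congr rfl fun σ _ => ?_
    rw [Finset.prod_mul_distrib, Finset.prod_boole]
    congr 1
    by_cases h : σ₀ = fun x => σ (r x)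
    · rw [if_pos h, if_pos]
      intro a _ _ x hx
      rw [h]; show σ (r x) = σ a; rw [hx]
    · rw [if_neg h, if_neg]
      intro h'
      exact h (funext fun x => h' (r x) (Finset.mem_univ _) (hr x) x rfl)
  simp only [key, Finset.sum_mul]
  rw [Finset.sum_comm]
  refine Finset.sum_congr rfl fun σ _ => ?_
  simp only [mul_assoc, ← Finset.mul_sum]
  congr 1
  simp

/-! ### regrouping -/

section regroup
variable {N q : ℕ} {τ : ℕ → ℕ → ℕ}

omit [Fintype S] in
theorem p2bn_X_rep (hτ : IsTr N q τ) {j j' x : ℕ} (hx : x < q) (hj' : j' ≤ N + 1) (hjj : j ≤ j') (G : Fin q → S → ℝ)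
    (hG : ∀ a b : Fin q, j ≤ τ a.1 b.1 → G a = G b) : p2bnX G (p2Rep (p2bnBk q τ j' x)) = G ⟨x, hx⟩ := by
  have h1 : p2Rep (p2bnBk q τ j' x) ∈ p2bnBk q τ j' x := p2bn_rep_mem ⟨x, p2bn_self hτ hx hj'⟩
  rw [p2bn_mem_bk] at h1
  unfold p2bnX
  rw [dif_pos h1.1]
  exact (hG ⟨x, hx⟩ ⟨_, h1.1⟩ (hjj.trans h1.2)).symm

omit [Fintype S] in
theorem p2bn_regroup (hτ : IsTr N q τ) {j : ℕ} (hj : j ≤ N) (G : Fin q → S → ℝ)
    (hG : ∀ a b : Fin q, j ≤ τ a.1 b.1 → G a = G b) (F : Finset ℕ → (S → ℝ) → ℝ) :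
    ∏ b ∈ p2bnBks q τ j, ∏ c ∈ p2Cls τ j b, F c (p2bnX G (p2Rep b))
      = ∏ a : Fin q, (if trRep q τ j a = a then F (p2bnBk q τ (j + 1) a.1) (G a) else 1) := by
  have s1 : ∏ b ∈ p2bnBks q τ j, ∏ c ∈ p2Cls τ j b, F c (p2bnX G (p2Rep b))
      = ∏ b ∈ p2bnBks q τ j, ∏ c ∈ p2Cls τ j b, F c (p2bnX G (p2Rep c)) := by
    refine Finset.prod_congr rfl fun b hb => Finset.prod_congr rfl fun c hc => ?_
    simp only [p2bnBks, Finset.mem_image, Finset.mem_range] at hb
    obtain ⟨x0, hx0, rfl⟩ := hb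
    rw [p2bn_cls hτ hx0, Finset.mem_image] at hc
    obtain ⟨x, hx, rfl⟩ := hc
    rw [p2bn_mem_bk] at hx
    rw [p2bn_X_rep hτ hx0 (by omega) le_rfl G hG, p2bn_X_rep hτ hx.1 (by omega) (Nat.le_succ j) G hG]
    rw [hG ⟨x0, hx0⟩ ⟨x, hx.1⟩ hx.2]
  rw [s1, ← Finset.prod_biUnion (p2bn_disj hτ hj), ← p2bn_bks_succ hτ (by omega),
    ← p2bn_prod_rep hτ hj fun c => F c (p2bnX G (p2Rep c))]
  refine Finset.prod_congr rfl fun a _ => ?_
  rw [p2bn_X_rep hτ a.2 (by omega) (Nat.le_succ j) G hG]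

end regroup

/-! ### the induction -/

theorem p2bn_main [Inhabited S] {B : GhB S} (hB : B.Ok) {q : ℕ} {τ : ℕ → ℕ → ℕ} (P : (ℕ → S) → ℝ) :
    ∀ (ls : List (GhLv S ι)), GhNn ls → ∀ (j : ℕ), IsTr (j + ls.length) q τ → ∀ (G : Fin q → S → ℝ),
      (∀ a b : Fin q, j ≤ τ a.1 b.1 → G a = G b) →
      ghNu B ls (fun t => trRep q τ (j + t)) G (fun _ σ => P (trExt σ))
        = ∑ σ : Fin q → S, (∏ b ∈ p2bnBks q τ j, p2W B τ (trExt σ) ls j b (p2bnX G (p2Rep b))) * P (trExt σ)
  | [], _, j, hτ, G, hG => by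
    classical
    have hτ' : IsTr j q τ := by simpa using hτ
    simp only [ghNu, Nat.add_zero]
    rw [p2bn_base (trRep q τ j) (tb2_rep_idem hτ' j) (fun a => ghGw B (G a)) (fun a => gh_b_Gw_sum hB _)
      (fun σ => P (trExt σ))]
    refine Finset.sum_congr rfl fun σ _ => ?_
    congr 1
    simp only [p2W]
    rw [p2bn_regroup hτ' le_rfl G hG fun c z => ∑ t, ghGw B z t * (if ∀ x ∈ c, trExt σ x = t then 1 else 0)]
    refine Finset.prod_congr rfl fun a _ => ?_
    by_cases ha : trRep q τ j a = a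
    · rw [if_pos ha, if_pos ha]
      refine Finset.sum_congr rfl fun t _ => ?_
      congr 1
      have hiff : (∀ x, trRep q τ j x = a → σ x = t) ↔ (∀ x ∈ p2bnBk q τ (j + 1) a.1, trExt σ x = t) := by
        constructor
        · intro h x hx
          rw [p2bn_mem_bk] at hx
          have h1 : trRep q τ j ⟨x, hx.1⟩ = a := by
            have h0 := (tb2_rep_iff hτ' j a ⟨x, hx.1⟩).2 (Or.inr hx.2)
            rw [ha] at h0
            exact h0.symm
          have := h ⟨x, hx.1⟩ h1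
          simpa [trExt, hx.1] using this
        · intro h x hx
          have h1 : x.1 ∈ p2bnBk q τ (j + 1) a.1 := by
            rw [← ha] at hx
            rcases (tb2_rep_iff hτ' j x a).1 hx with h2 | h2
            · rw [h2]; exact p2bn_self hτ' a.2 le_rfl
            · rw [p2bn_mem_bk, hτ'.symm _ _ a.2 x.2]; exact ⟨x.2, h2⟩
          have := h x.1 h1
          simpa [trExt, x.2] using this
      by_cases hh : ∀ x, trRep q τ j x = a → σ x = t
      · rw [if_pos hh, if_pos (hiff.1 hh)]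
      · rw [if_neg hh, if_neg fun h' => hh (hiff.2 h')]
    · rw [if_neg ha, if_neg ha]
  | l :: ls, h, j, hτ, G, hG => by
    classical
    have hN : j + (l :: ls).length = j + 1 + ls.length := by simp only [List.length_cons]; omega
    have hτ1 : IsTr (j + 1 + ls.length) q τ := hN ▸ hτ
    have hjN : j ≤ j + 1 + ls.length := by omega
    set r := trRep q τ j with hr
    simp only [ghNu, Nat.add_zero]
    have hrep : (fun t => trRep q τ (j + (t + 1))) = fun t => trRep q τ (j + 1 + t) := by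
      funext t; congr 1; omega
    rw [hrep]
    -- the factors
    set f : (Fin q → S) → Fin q → (ι → ℝ) → ℝ := fun σ a ξ =>
      if r a = a then ghD B l ls (G a) ξ * p2W B τ (trExt σ) ls (j + 1) (p2bnBk q τ (j + 1) a.1) (G a + l.inc ξ) else 1 with hf
    have hfi : ∀ σ a, Integrable (f σ a) (ghStd ι) := by
      intro σ a
      simp only [hf]
      split_ifs
      · exact gh_b_A_integrable hB h (p2bn_W_bc hB τ (trExt σ) ls h.tail (j + 1) _) (G a)
      · exact integrable_const _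
    have hint : ∀ W : Fin q → ι → ℝ,
        ghDT B l ls r G W * ghNu B ls (fun t => trRep q τ (j + 1 + t)) (fun a => G a + l.inc (W (r a))) (fun _ σ => P (trExt σ))
          = ∑ σ : Fin q → S, (∏ a, f σ a (W a)) * P (trExt σ) := by
      intro W
      have hG1 : ∀ a b : Fin q, j + 1 ≤ τ a.1 b.1 → G a + l.inc (W (r a)) = G b + l.inc (W (r b)) := by
        intro a b hab
        have h0 : r a = r b := (tb2_rep_iff hτ1 j a b).2 (Or.inr hab)
        rw [hG a b (by omega), h0]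
      rw [p2bn_main hB P ls h.tail (j + 1) hτ1 _ hG1, Finset.mul_sum]
      refine Finset.sum_congr rfl fun σ _ => ?_
      rw [← mul_assoc]
      congr 1
      rw [← p2bn_prod_rep hτ1 hjN fun c => p2W B τ (trExt σ) ls (j + 1) c
        (p2bnX (fun a => G a + l.inc (W (r a))) (p2Rep c))]
      unfold ghDT
      rw [← Finset.prod_mul_distrib]
      refine Finset.prod_congr rfl fun a _ => ?_
      simp only [hf]
      by_cases ha : r a = a
      · rw [if_pos ha, if_pos ha, if_pos ha, p2bn_X_rep hτ1 a.2 (by omega) le_rfl _ hG1, ha]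
      · rw [if_neg ha, if_neg ha, if_neg ha, one_mul]
    rw [integral_congr_ae (Filter.Eventually.of_forall hint)]
    rw [integral_finsetSum _ fun σ _ => (Integrable.fintype_prod (μ := fun _ : Fin q => ghStd ι) (f := f σ)
      (fun a => hfi σ a)).mul_const _]
    refine Finset.sum_congr rfl fun σ _ => ?_
    rw [integral_mul_const]
    congr 1
    rw [integral_fintype_prod_eq_prod (μ := fun _ : Fin q => ghStd ι) (f σ)]
    simp only [p2W]
    rw [p2bn_regroup hτ1 hjN G hG fun c z => ∫ ξ, ghD B l ls z ξ * p2W B τ (trExt σ) ls (j + 1) c (z + l.inc ξ) ∂ghStd ι]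
    refine Finset.prod_congr rfl fun a _ => ?_
    simp only [hf]
    by_cases ha : r a = a
    · have ha' : trRep q τ j a = a := ha
      simp only [if_pos ha, if_pos ha']
    · have ha' : ¬ trRep q τ j a = a := ha
      simp only [if_neg ha, if_neg ha', integral_const, probReal_univ, smul_eq_mul, mul_one]

/-- **exit** : verbatim statement of `p2_brg_nu` (Fd/P02Brg). -/
theorem p2_brg_nu_pf [Inhabited S] {B : GhB S} (hB : B.Ok) {ls : List (GhLv S ι)} (hls : GhNn ls) {q : ℕ} {τ : ℕ → ℕ → ℕ}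
    (hτ : IsTr ls.length q τ) (z : S → ℝ) (P : (ℕ → S) → ℝ) :
    trNu B ls q τ z P = ∑ σ : Fin q → S, p2W B τ (trExt σ) ls 0 (Finset.range q) z * P (trExt σ) := by
  classical
  have hτ0 : IsTr (0 + ls.length) q τ := by simpa using hτ
  have h := p2bn_main hB P ls hls 0 hτ0 (fun _ => z) (fun _ _ _ => rfl)
  simp only [Nat.zero_add] at h
  unfold trNu
  rw [h]
  refine Finset.sum_congr rfl fun σ _ => ?_
  congr 1
  have hbk : ∀ x, p2bnBk q τ 0 x = Finset.range q := by
    intro x; ext y; simp [p2bn_mem_bk]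
  rcases Nat.eq_zero_or_pos q with hq | hq
  · subst hq
    have h1 : p2bnBks 0 τ 0 = ∅ := by simp [p2bnBks]
    rw [h1, Finset.prod_empty]
    have h2 : ∀ j, p2Cls τ j (Finset.range 0) = ∅ := by
      intro j
      show (Finset.range 0).image (p2Cl τ j (Finset.range 0)) = ∅
      simp
    cases ls with
    | nil => simp only [p2W, h2, Finset.prod_empty]
    | cons l ls => simp only [p2W, h2, Finset.prod_empty]
  · have h1 : p2bnBks q τ 0 = {Finset.range q} := by
      ext c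
      simp only [p2bnBks, Finset.mem_image, Finset.mem_range, Finset.mem_singleton, hbk]
      constructor
      · rintro ⟨_, _, rfl⟩; rfl
      · rintro rfl; exact ⟨0, hq, rfl⟩
    rw [h1, Finset.prod_singleton]
    have h2 : p2Rep (Finset.range q) < q := by
      have := p2bn_rep_mem (b := Finset.range q) ⟨0, Finset.mem_range.2 hq⟩
      exact Finset.mem_range.1 this
    have h3 : p2bnX (fun _ : Fin q => z) (p2Rep (Finset.range q)) = z := by
      unfold p2bnX; rw [dif_pos h2]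
    rw [h3]

end Claimed.Agent.R286
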