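import Claimed.Agent.R286.Fd.P02Main
import Claimed.Agent.R286.Fd.P02BrgB
import Claimed.Agent.R286.Fd.P02BrgNu

/-!
# Row 286 (S0533), P02 engine: BRIDGES to the shared vocabulary `Defs/Tr` (`trNu`, `trSum`)   (architect: helper299)

With these bridges `tr_src_deriv`, `tr_cov_deriv`, `tr_pressure_deriv` (`Fd/TrC`) follow from `p2_main` (`j = 0`, `b = range q`, `μ = 0`, new labels
`q, q + 1`; resp. `b = ∅`, `μ = 1`), `p2_cont` (end points: `hasDerivWithinAt_Ici_of_tendsto_deriv` style) and finite sums.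
-/

set_option autoImplicit false

namespace Claimed.Agent.R286

open MeasureTheory ProbabilityTheory Filter Topology

variable {S ι : Type} [Fintype S] [Fintype ι]

/-- **the tree number of a spin test = sum over the configurations of the block weights.**
Induction on `ls` for raw `ghNu` (statement for `rep`, fields `G` constant on the classes of `rep 0`; test = indicator of a configuration);
Fubini on `Measure.pi` = `integral_fintype_prod_eq_prod`. -/
theorem p2_brg_nu [Inhabited S] {B : GhB S} (hB : B.Ok) {ls : List (GhLv S ι)} (hls : GhNn ls) {q : ℕ} {τ : ℕ → ℕ → ℕ}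
    (hτ : IsTr ls.length q τ) (z : S → ℝ) (P : (ℕ → S) → ℝ) :
    trNu B ls q τ z P = ∑ σ : Fin q → S, p2W B τ (trExt σ) ls 0 (Finset.range q) z * P (trExt σ) :=
  p2_brg_nu_pf hB hls hτ z P

/-- **the signed sum `trSum` = the recursive row.**  Generalise to blocks: `∑ x ∈ b, ∑ i ∈ Icc j (N+1)`, incoming power instead of `trPm ms j`. -/
theorem p2_brg_row (a : ℝ) (ml : List ℝ) {q : ℕ} {τ : ℕ → ℕ → ℕ} (hτ : IsTr ml.length q τ) (Φ : (ℕ → ℕ → ℕ) → ℝ) :
    trSum (fun j => ml.getD j a) ml.length q τ Φ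
      = p2Row a τ ml 0 0 (Finset.range q) fun x i => Φ (trAtt ml.length q τ x i) :=
  p2b_row a ml hτ Φ

theorem p2_brg_ms (B : GhB S) (ls : List (GhLv S ι)) : trMs B ls = fun j => (ls.map GhLv.m).getD j B.a :=
  p2b_ms B ls

/-- one more label: sum over its spin -/
theorem p2_brg_snoc [Inhabited S] (q : ℕ) (f : (ℕ → S) → ℝ) (hf : TrUses (q + 1) f) :
    ∑ σ : Fin (q + 1) → S, f (trExt σ) = ∑ σ : Fin q → S, ∑ t : S, f (Function.update (trExt σ) q t) :=
  p2b_snoc q f hf

/-- a constant family is the hierarchy itself -/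
theorem p2_brg_cst (ls : List (GhLv S ι)) (θ : ℝ) : p2L (ls.map p2Cst) θ = ls :=
  p2b_cst ls θ

/-- pruning: the sum over the spin of the new label -/
theorem p2_prune {B : GhB S} (hB : B.Ok) {ls : List (GhLv S ι)} (hls : GhNn ls) {N j q x i : ℕ} {τ : ℕ → ℕ → ℕ} {b : Finset ℕ}
    (hN : j + ls.length = N) (h : P2Tr τ b j (N + 1)) (hq : q ∉ b) (hx : x ∈ b ∨ b = ∅) (hji : j ≤ i) (hiN : i ≤ N + 1) (σ : ℕ → S)
    (z : S → ℝ) :
    ∑ t, p2W B (trAtt N q τ x i) (Function.update σ q t) ls j (insert q b) z = p2W B τ σ ls j b z :=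
  p2b_prune hB σ ls hls hN h hq hx hji hiN z

end Claimed.Agent.R286
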