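import Claimed.Agent.R286.Fd.P02Defs

/-!
# Row 286 (S0533), P02 engine: calculus of `P2HasD` (coordinates of Fréchet derivatives on `ℝ × (S → ℝ)`)   (owner: helper299)
-/

set_option autoImplicit false

namespace Claimed.Agent.R286

open MeasureTheory ProbabilityTheory Filter Topology

variable {S ι : Type} [Fintype S] [Fintype ι]

theorem p2Lin_apply (a : ℝ) (g : S → ℝ) (p : ℝ × (S → ℝ)) : p2Lin a g p = a * p.1 + ∑ t, g t * p.2 t := by
  simp [p2Lin]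

theorem p2Lin_add (a a' : ℝ) (g g' : S → ℝ) : p2Lin a g + p2Lin a' g' = p2Lin (a + a') (fun t => g t + g' t) := by
  ext p <;> simp [p2Lin_apply, add_mul, Finset.sum_add_distrib]

theorem p2Lin_smul (c a : ℝ) (g : S → ℝ) : c • p2Lin a g = p2Lin (c * a) (fun t => c * g t) := by
  ext p <;> simp [p2Lin_apply, mul_assoc, Finset.mul_sum]

theorem p2Lin_zero : p2Lin 0 (fun _ : S => (0 : ℝ)) = 0 := by
  ext p <;> simp [p2Lin_apply]

theorem p2Lin_sum {κ : Type} (s : Finset κ) (a : κ → ℝ) (g : κ → S → ℝ) :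
    ∑ k ∈ s, p2Lin (a k) (g k) = p2Lin (∑ k ∈ s, a k) (fun t => ∑ k ∈ s, g k t) := by
  classical
  induction s using Finset.induction_on with
  | empty => simp [p2Lin_zero]
  | insert k s hk ih => simp only [Finset.sum_insert hk, ih, p2Lin_add]

theorem P2HasD.congr {G : ℝ × (S → ℝ) → ℝ} {a a' : ℝ} {g g' : S → ℝ} {p : ℝ × (S → ℝ)} (h : P2HasD G a g p)
    (ha : a = a') (hg : ∀ t, g t = g' t) : P2HasD G a' g' p := by
  have : g = g' := funext hg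
  subst ha; subst this; exact h

theorem P2HasD.congr_fun {G G' : ℝ × (S → ℝ) → ℝ} {a : ℝ} {g : S → ℝ} {p : ℝ × (S → ℝ)} (h : P2HasD G a g p)
    (hG : G' =ᶠ[𝓝 p] G) : P2HasD G' a g p := HasFDerivAt.congr_of_eventuallyEq h hG

theorem p2HasD_const (c : ℝ) (p : ℝ × (S → ℝ)) : P2HasD (fun _ => c) 0 (fun _ => 0) p := by
  unfold P2HasD; rw [p2Lin_zero]; exact hasFDerivAt_const c p

theorem P2HasD.add {G H : ℝ × (S → ℝ) → ℝ} {a a' : ℝ} {g g' : S → ℝ} {p : ℝ × (S → ℝ)} (h : P2HasD G a g p)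
    (h' : P2HasD H a' g' p) : P2HasD (fun x => G x + H x) (a + a') (fun t => g t + g' t) p := by
  unfold P2HasD at *; rw [← p2Lin_add]; exact h.add h'

theorem P2HasD.const_mul {G : ℝ × (S → ℝ) → ℝ} {a : ℝ} {g : S → ℝ} {p : ℝ × (S → ℝ)} (h : P2HasD G a g p) (c : ℝ) :
    P2HasD (fun x => c * G x) (c * a) (fun t => c * g t) p := by
  unfold P2HasD at *; rw [← p2Lin_smul]; exact h.const_mul c

theorem P2HasD.mul {G H : ℝ × (S → ℝ) → ℝ} {a a' : ℝ} {g g' : S → ℝ} {p : ℝ × (S → ℝ)} (h : P2HasD G a g p)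
    (h' : P2HasD H a' g' p) : P2HasD (fun x => G x * H x) (G p * a' + H p * a) (fun t => G p * g' t + H p * g t) p := by
  unfold P2HasD at *
  have := h.mul h'
  rwa [p2Lin_smul, p2Lin_smul, p2Lin_add] at this

theorem P2HasD.exp {G : ℝ × (S → ℝ) → ℝ} {a : ℝ} {g : S → ℝ} {p : ℝ × (S → ℝ)} (h : P2HasD G a g p) :
    P2HasD (fun x => Real.exp (G x)) (Real.exp (G p) * a) (fun t => Real.exp (G p) * g t) p := by
  unfold P2HasD at *
  have := h.exp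
  rwa [p2Lin_smul] at this

theorem P2HasD.log {G : ℝ × (S → ℝ) → ℝ} {a : ℝ} {g : S → ℝ} {p : ℝ × (S → ℝ)} (h : P2HasD G a g p) (h0 : G p ≠ 0) :
    P2HasD (fun x => Real.log (G x)) ((G p)⁻¹ * a) (fun t => (G p)⁻¹ * g t) p := by
  unfold P2HasD at *
  have := h.log h0
  rwa [p2Lin_smul] at this

theorem P2HasD.inv {G : ℝ × (S → ℝ) → ℝ} {a : ℝ} {g : S → ℝ} {p : ℝ × (S → ℝ)} (h : P2HasD G a g p) (h0 : G p ≠ 0) :
    P2HasD (fun x => (G x)⁻¹) (-((G p) ^ 2)⁻¹ * a) (fun t => -((G p) ^ 2)⁻¹ * g t) p := by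
  unfold P2HasD at *
  have := (hasDerivAt_inv h0).comp_hasFDerivAt p h
  rwa [p2Lin_smul] at this

theorem P2HasD.sum {κ : Type} {s : Finset κ} {G : κ → ℝ × (S → ℝ) → ℝ} {a : κ → ℝ} {g : κ → S → ℝ} {p : ℝ × (S → ℝ)}
    (h : ∀ k ∈ s, P2HasD (G k) (a k) (g k) p) :
    P2HasD (fun x => ∑ k ∈ s, G k x) (∑ k ∈ s, a k) (fun t => ∑ k ∈ s, g k t) p := by
  unfold P2HasD at *; rw [← p2Lin_sum]; exact HasFDerivAt.fun_sum h

theorem P2HasD.prod {κ : Type} [DecidableEq κ] {s : Finset κ} {G : κ → ℝ × (S → ℝ) → ℝ} {a : κ → ℝ} {g : κ → S → ℝ}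
    {p : ℝ × (S → ℝ)} (h : ∀ k ∈ s, P2HasD (G k) (a k) (g k) p) :
    P2HasD (fun x => ∏ k ∈ s, G k x) (∑ k ∈ s, (∏ k' ∈ s.erase k, G k' p) * a k)
      (fun t => ∑ k ∈ s, (∏ k' ∈ s.erase k, G k' p) * g k t) p := by
  unfold P2HasD at *
  have := HasFDerivAt.finsetProd h
  simp only [p2Lin_smul, p2Lin_sum] at this
  exact this

theorem P2HasD.continuousAt {G : ℝ × (S → ℝ) → ℝ} {a : ℝ} {g : S → ℝ} {p : ℝ × (S → ℝ)} (h : P2HasD G a g p) :
    ContinuousAt G p := HasFDerivAt.continuousAt h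

/-- restriction to the source variable -/
theorem P2HasD.snd {G : ℝ × (S → ℝ) → ℝ} {a : ℝ} {g : S → ℝ} {θ : ℝ} {z : S → ℝ} (h : P2HasD G a g (θ, z)) :
    HasFDerivAt (fun y => G (θ, y)) (∑ t, g t • (ContinuousLinearMap.proj t : (S → ℝ) →L[ℝ] ℝ)) z := by
  unfold P2HasD at h
  have h2 : HasFDerivAt (fun y : S → ℝ => (θ, y)) (ContinuousLinearMap.inr ℝ ℝ (S → ℝ)) z :=
    hasFDerivAt_prodMk_right θ z
  have := h.comp z h2
  refine this.congr_fderiv ?_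
  ext y
  simp [p2Lin_apply]

/-- restriction to the parameter -/
theorem P2HasD.fst {G : ℝ × (S → ℝ) → ℝ} {a : ℝ} {g : S → ℝ} {θ : ℝ} {z : S → ℝ} (h : P2HasD G a g (θ, z)) :
    HasDerivAt (fun x => G (x, z)) a θ := by
  unfold P2HasD at h
  have h2 : HasFDerivAt (fun x : ℝ => (x, z)) (ContinuousLinearMap.inl ℝ ℝ (S → ℝ)) θ :=
    hasFDerivAt_prodMk_left θ z
  have h3 := (h.comp θ h2).hasDerivAt
  have e : (p2Lin a g ∘SL ContinuousLinearMap.inl ℝ ℝ (S → ℝ)) 1 = a := by simp [p2Lin_apply]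
  rw [e] at h3
  exact h3

end Claimed.Agent.R286
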