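import Claimed.Agent.R286.Fd.P02Defs

/-!
# Row 286 (S0533), P02 engine: COMBINATORICS of blocks, classes, attachments, rows   (architect: helper299; PROVED by helper210, 0 sorry)

No analysis.  Every statement is elementary (finite sets, `min`, ultrametric inequality); induction on the list for `p2Row`, `p2W`.
-/

set_option autoImplicit false

namespace Claimed.Agent.R286

open MeasureTheory ProbabilityTheory

/-! ### anchors, classes -/

theorem p2Rep_mem {b : Finset ℕ} (h : b.Nonempty) : p2Rep b ∈ b := by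
  unfold p2Rep
  rw [dif_pos h]
  exact Finset.min'_mem b h

theorem p2Rep_singleton (q : ℕ) : p2Rep {q} = q := by
  unfold p2Rep
  rw [dif_pos (Finset.singleton_nonempty q)]
  exact Finset.min'_singleton q

theorem p2Cls_empty (τ : ℕ → ℕ → ℕ) (j : ℕ) : p2Cls τ j ∅ = ∅ := by
  unfold p2Cls
  exact Finset.image_empty _

theorem p2_cl_sub (τ : ℕ → ℕ → ℕ) (j : ℕ) (b : Finset ℕ) (x : ℕ) : p2Cl τ j b x ⊆ b := Finset.filter_subset _ _

theorem p2_cls_sub {τ : ℕ → ℕ → ℕ} {j : ℕ} {b c : Finset ℕ} (hc : c ∈ p2Cls τ j b) : c ⊆ b := by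
  obtain ⟨x, _, rfl⟩ := Finset.mem_image.1 hc
  exact p2_cl_sub τ j b x

theorem p2_mem_cl {τ : ℕ → ℕ → ℕ} {j : ℕ} {b : Finset ℕ} {x y : ℕ} : y ∈ p2Cl τ j b x ↔ y ∈ b ∧ j < τ x y := by
  unfold p2Cl
  exact Finset.mem_filter

/-- the children of a block are blocks of depth `j + 1` -/
theorem p2_cls_tr {τ : ℕ → ℕ → ℕ} {b c : Finset ℕ} {j D : ℕ} (h : P2Tr τ b j D) (hjD : j < D) (hc : c ∈ p2Cls τ j b) :
    P2Tr τ c (j + 1) D ∧ c ⊆ b ∧ c.Nonempty := by
  obtain ⟨x, hx, rfl⟩ := Finset.mem_image.1 hc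
  have hs := p2_cl_sub τ j b x
  refine ⟨⟨fun y hy => h.diag y (hs hy), fun y hy z hz => h.le y (hs hy) z (hs hz), ?_,
    fun y hy z hz => h.symm y (hs hy) z (hs hz), fun y hy z hz w hw => h.ultra y (hs hy) z (hs hz) w (hs hw)⟩, hs,
    ⟨x, p2_mem_cl.2 ⟨hx, by rw [h.diag x hx]; exact hjD⟩⟩⟩
  intro y hy z hz
  have hy' := p2_mem_cl.1 hy
  have hz' := p2_mem_cl.1 hz
  have h1 := h.ultra y hy'.1 x hx z hz'.1
  have h2 := h.symm y hy'.1 x hx
  have h3 : j + 1 ≤ min (τ y x) (τ x z) := le_min (by rw [h2]; exact hy'.2) hz'.2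
  exact h3.trans h1

theorem p2_cl_eq {τ : ℕ → ℕ → ℕ} {b c : Finset ℕ} {j D x : ℕ} (h : P2Tr τ b j D) (hjD : j < D) (hc : c ∈ p2Cls τ j b)
    (hx : x ∈ c) : p2Cl τ j b x = c := by
  obtain ⟨x0, hx0, rfl⟩ := Finset.mem_image.1 hc
  have hx' := p2_mem_cl.1 hx
  ext y
  rw [p2_mem_cl, p2_mem_cl]
  refine and_congr_right fun hy => ⟨fun hxy => ?_, fun hxy => ?_⟩
  · exact lt_of_lt_of_le (lt_min hx'.2 hxy) (h.ultra x0 hx0 x hx'.1 y hy)
  · have h2 := h.symm x hx'.1 x0 hx0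
    exact lt_of_lt_of_le (lt_min (by rw [h2]; exact hx'.2) hxy) (h.ultra x hx'.1 x0 hx0 y hy)

theorem p2_cl_mem {τ : ℕ → ℕ → ℕ} {b : Finset ℕ} {j x : ℕ} (hx : x ∈ b) : p2Cl τ j b x ∈ p2Cls τ j b :=
  Finset.mem_image_of_mem _ hx

theorem p2_cls_singleton {τ : ℕ → ℕ → ℕ} {j q : ℕ} (h : j < τ q q) : p2Cls τ j {q} = {{q}} := by
  unfold p2Cls
  rw [Finset.image_singleton]
  congr 1
  ext y
  rw [p2_mem_cl, Finset.mem_singleton]
  exact ⟨fun hy => hy.1, fun hy => ⟨hy, by rw [hy]; exact h⟩⟩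

theorem P2Tr.mono {τ : ℕ → ℕ → ℕ} {b c : Finset ℕ} {j D : ℕ} (h : P2Tr τ b j D) (hc : c ⊆ b) : P2Tr τ c j D :=
  ⟨fun y hy => h.diag y (hc hy), fun y hy z hz => h.le y (hc hy) z (hc hz), fun y hy z hz => h.ge y (hc hy) z (hc hz),
    fun y hy z hz => h.symm y (hc hy) z (hc hz), fun y hy z hz w hw => h.ultra y (hc hy) z (hc hz) w (hc hw)⟩

theorem p2_tr_empty (τ : ℕ → ℕ → ℕ) (j D : ℕ) : P2Tr τ ∅ j D :=
  ⟨fun y hy => absurd hy (Finset.notMem_empty y), fun y hy => absurd hy (Finset.notMem_empty y),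
    fun y hy => absurd hy (Finset.notMem_empty y), fun y hy => absurd hy (Finset.notMem_empty y),
    fun y hy => absurd hy (Finset.notMem_empty y)⟩

theorem p2_tr_congr {τ τ' : ℕ → ℕ → ℕ} {b : Finset ℕ} {j D : ℕ} (h : P2Tr τ b j D)
    (hτ : ∀ x ∈ b, ∀ y ∈ b, τ x y = τ' x y) : P2Tr τ' b j D :=
  ⟨fun y hy => by rw [← hτ y hy y hy]; exact h.diag y hy,
    fun y hy z hz => by rw [← hτ y hy z hz]; exact h.le y hy z hz,
    fun y hy z hz => by rw [← hτ y hy z hz]; exact h.ge y hy z hz,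
    fun y hy z hz => by rw [← hτ y hy z hz, ← hτ z hz y hy]; exact h.symm y hy z hz,
    fun y hy z hz w hw => by rw [← hτ y hy z hz, ← hτ z hz w hw, ← hτ y hy w hw]; exact h.ultra y hy z hz w hw⟩

theorem p2_tr_of_isTr {N q : ℕ} {τ : ℕ → ℕ → ℕ} (h : IsTr N q τ) : P2Tr τ (Finset.range q) 0 (N + 1) :=
  ⟨fun y hy => h.diag y (Finset.mem_range.1 hy),
    fun y hy z hz => h.le y z (Finset.mem_range.1 hy) (Finset.mem_range.1 hz),
    fun _ _ _ _ => Nat.zero_le _,
    fun y hy z hz => h.symm y z (Finset.mem_range.1 hy) (Finset.mem_range.1 hz),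
    fun y hy z hz w hw => h.ultra y z w (Finset.mem_range.1 hy) (Finset.mem_range.1 hz) (Finset.mem_range.1 hw)⟩

/-! ### attachment -/

theorem p2_att_qq (N q : ℕ) (τ : ℕ → ℕ → ℕ) (x i : ℕ) : trAtt N q τ x i q q = N + 1 := by
  simp [trAtt]

theorem p2_att_qz (N q : ℕ) (τ : ℕ → ℕ → ℕ) (x i : ℕ) {z : ℕ} (hz : z ≠ q) : trAtt N q τ x i q z = min i (τ x z) := by
  simp [trAtt, hz]

theorem p2_att_yq (N q : ℕ) (τ : ℕ → ℕ → ℕ) (x i : ℕ) {y : ℕ} (hy : y ≠ q) : trAtt N q τ x i y q = min i (τ y x) := by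
  simp [trAtt, hy]

/-- the old part of the table does not change -/
theorem p2_att_old {N q : ℕ} (τ : ℕ → ℕ → ℕ) (x i : ℕ) {y z : ℕ} (hy : y ≠ q) (hz : z ≠ q) : trAtt N q τ x i y z = τ y z := by
  simp [trAtt, hy, hz]

/-- the extended table is a block table -/
theorem p2_att_tr {τ : ℕ → ℕ → ℕ} {b : Finset ℕ} {j N q x i : ℕ} (h : P2Tr τ b j (N + 1)) (hq : q ∉ b) (hx : x ∈ b ∨ b = ∅)
    (hji : j ≤ i) (hiN : i ≤ N + 1) : P2Tr (trAtt N q τ x i) (insert q b) j (N + 1) := by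
  have hne : ∀ y ∈ b, y ≠ q := fun y hy e => hq (e ▸ hy)
  have hxb : ∀ y ∈ b, x ∈ b := fun y hy => hx.elim id fun e => absurd hy (by rw [e]; exact Finset.notMem_empty y)
  refine ⟨?_, ?_, ?_, ?_, ?_⟩
  · intro y hy
    rcases Finset.mem_insert.1 hy with rfl | hy1
    · exact p2_att_qq N _ τ x i
    · rw [p2_att_old τ x i (hne y hy1) (hne y hy1)]; exact h.diag y hy1
  · intro y hy z hz
    rcases Finset.mem_insert.1 hy with rfl | hy1 <;> rcases Finset.mem_insert.1 hz with rfl | hz1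
    · rw [p2_att_qq]
    · rw [p2_att_qz N _ τ x i (hne z hz1)]; exact (min_le_left _ _).trans hiN
    · rw [p2_att_yq N _ τ x i (hne y hy1)]; exact (min_le_left _ _).trans hiN
    · rw [p2_att_old τ x i (hne y hy1) (hne z hz1)]; exact h.le y hy1 z hz1
  · intro y hy z hz
    rcases Finset.mem_insert.1 hy with rfl | hy1 <;> rcases Finset.mem_insert.1 hz with rfl | hz1
    · rw [p2_att_qq]; exact hji.trans hiN
    · rw [p2_att_qz N _ τ x i (hne z hz1)]; exact le_min hji (h.ge x (hxb z hz1) z hz1)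
    · rw [p2_att_yq N _ τ x i (hne y hy1)]; exact le_min hji (h.ge y hy1 x (hxb y hy1))
    · rw [p2_att_old τ x i (hne y hy1) (hne z hz1)]; exact h.ge y hy1 z hz1
  · intro y hy z hz
    rcases Finset.mem_insert.1 hy with rfl | hy1 <;> rcases Finset.mem_insert.1 hz with rfl | hz1
    · rfl
    · rw [p2_att_qz N _ τ x i (hne z hz1), p2_att_yq N _ τ x i (hne z hz1), h.symm x (hxb z hz1) z hz1]
    · rw [p2_att_qz N _ τ x i (hne y hy1), p2_att_yq N _ τ x i (hne y hy1), h.symm x (hxb y hy1) y hy1]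
    · rw [p2_att_old τ x i (hne y hy1) (hne z hz1), p2_att_old τ x i (hne z hz1) (hne y hy1)]; exact h.symm y hy1 z hz1
  · intro y hy z hz w hw
    rcases Finset.mem_insert.1 hy with rfl | hy1 <;> rcases Finset.mem_insert.1 hz with rfl | hz1 <;>
      rcases Finset.mem_insert.1 hw with rfl | hw1
    · exact min_le_left _ _
    · exact min_le_right _ _
    · rw [p2_att_qq, p2_att_qz N _ τ x i (hne z hz1)]
      exact (min_le_left _ _).trans ((min_le_left _ _).trans hiN)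
    · rw [p2_att_qz N _ τ x i (hne z hz1), p2_att_qz N _ τ x i (hne w hw1), p2_att_old τ x i (hne z hz1) (hne w hw1)]
      have := h.ultra x (hxb z hz1) z hz1 w hw1
      omega
    · exact min_le_left _ _
    · rw [p2_att_yq N _ τ x i (hne y hy1), p2_att_qz N _ τ x i (hne w hw1), p2_att_old τ x i (hne y hy1) (hne w hw1)]
      have := h.ultra y hy1 x (hxb y hy1) w hw1
      omega
    · rw [p2_att_yq N _ τ x i (hne y hy1), p2_att_yq N _ τ x i (hne z hz1), p2_att_old τ x i (hne y hy1) (hne z hz1)]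
      have := h.ultra y hy1 z hz1 x (hxb y hy1)
      omega
    · rw [p2_att_old τ x i (hne y hy1) (hne z hz1), p2_att_old τ x i (hne z hz1) (hne w hw1),
        p2_att_old τ x i (hne y hy1) (hne w hw1)]
      exact h.ultra y hy1 z hz1 w hw1

/-- the extended table depends only on the node (`156`'s `ext_congr`) -/
theorem p2_att_congr {τ : ℕ → ℕ → ℕ} {b : Finset ℕ} {j N q x x' i : ℕ} (h : P2Tr τ b j (N + 1)) (hq : q ∉ b) (hx : x ∈ b) (hx' : x' ∈ b)
    (hi : i ≤ τ x x') : ∀ y ∈ insert q b, ∀ z ∈ insert q b, trAtt N q τ x i y z = trAtt N q τ x' i y z := by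
  have hne : ∀ y ∈ b, y ≠ q := fun y hy e => hq (e ▸ hy)
  have key : ∀ z ∈ b, min i (τ x z) = min i (τ x' z) := by
    intro z hz1
    have h1 := h.ultra x hx x' hx' z hz1
    have h2 := h.ultra x' hx' x hx z hz1
    have h3 := h.symm x hx x' hx'
    omega
  intro y hy z hz
  rcases Finset.mem_insert.1 hy with rfl | hy1 <;> rcases Finset.mem_insert.1 hz with rfl | hz1
  · rw [p2_att_qq, p2_att_qq]
  · rw [p2_att_qz N _ τ x i (hne z hz1), p2_att_qz N _ τ x' i (hne z hz1)]; exact key z hz1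
  · rw [p2_att_yq N _ τ x i (hne y hy1), p2_att_yq N _ τ x' i (hne y hy1), h.symm y hy1 x hx, h.symm y hy1 x' hx']
    exact key y hy1
  · rw [p2_att_old τ x i (hne y hy1) (hne z hz1), p2_att_old τ x' i (hne y hy1) (hne z hz1)]

/-- NEW CHILD: the label `q` attached at the depth of the block is a new class -/
theorem p2_cls_new {τ : ℕ → ℕ → ℕ} {b : Finset ℕ} {j N q x : ℕ} (hq : q ∉ b) (hjN : j ≤ N) :
    p2Cls (trAtt N q τ x j) j (insert q b) = insert {q} (p2Cls τ j b) := by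
  have hne : ∀ y ∈ b, y ≠ q := fun y hy e => hq (e ▸ hy)
  unfold p2Cls
  rw [Finset.image_insert]
  congr 1
  · ext z
    rw [p2_mem_cl, Finset.mem_singleton, Finset.mem_insert]
    constructor
    · rintro ⟨hz | hz, h2⟩
      · exact hz
      · rw [p2_att_qz N q τ x j (hne z hz)] at h2
        exact absurd h2 (not_lt.2 (min_le_left _ _))
    · rintro rfl
      exact ⟨Or.inl rfl, by rw [p2_att_qq]; omega⟩
  · refine Finset.image_congr fun y hy => ?_
    have hy : y ∈ b := hy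
    ext z
    rw [p2_mem_cl, p2_mem_cl, Finset.mem_insert]
    constructor
    · rintro ⟨hz | hz, h2⟩
      · rw [hz, p2_att_yq N q τ x j (hne y hy)] at h2
        exact absurd h2 (not_lt.2 (min_le_left _ _))
      · rw [p2_att_old τ x j (hne y hy) (hne z hz)] at h2
        exact ⟨hz, h2⟩
    · rintro ⟨hz, h2⟩
      exact ⟨Or.inr hz, by rw [p2_att_old τ x j (hne y hy) (hne z hz)]; exact h2⟩

theorem p2_cls_new_not_mem {τ : ℕ → ℕ → ℕ} {b : Finset ℕ} {j q : ℕ} (hq : q ∉ b) : ({q} : Finset ℕ) ∉ p2Cls τ j b :=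
  fun h => hq (p2_cls_sub h (Finset.mem_singleton_self q))

/-- INSIDE: the label `q` attached below the depth of the block joins the class of `x` -/
theorem p2_cls_in {τ : ℕ → ℕ → ℕ} {b : Finset ℕ} {j N q x i : ℕ} (h : P2Tr τ b j (N + 1)) (hq : q ∉ b) (hx : x ∈ b) (hji : j < i)
    (hjN : j ≤ N) :
    p2Cls (trAtt N q τ x i) j (insert q b) = insert (insert q (p2Cl τ j b x)) ((p2Cls τ j b).erase (p2Cl τ j b x)) := by
  have hne : ∀ y ∈ b, y ≠ q := fun y hy e => hq (e ▸ hy)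
  have hjD : j < N + 1 := by omega
  -- the class of `q`
  have hclq : p2Cl (trAtt N q τ x i) j (insert q b) q = insert q (p2Cl τ j b x) := by
    ext z
    rw [p2_mem_cl, Finset.mem_insert, Finset.mem_insert, p2_mem_cl]
    constructor
    · rintro ⟨hz | hz, h2⟩
      · exact Or.inl hz
      · rw [p2_att_qz N q τ x i (hne z hz)] at h2
        exact Or.inr ⟨hz, lt_of_lt_of_le h2 (min_le_right _ _)⟩
    · rintro (rfl | ⟨hz, h2⟩)
      · exact ⟨Or.inl rfl, by rw [p2_att_qq]; exact hjD⟩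
      · exact ⟨Or.inr hz, by rw [p2_att_qz N q τ x i (hne z hz)]; exact lt_min hji h2⟩
  -- the class of an old label in the class of `x`
  have hcl1 : ∀ y ∈ b, j < τ x y → p2Cl (trAtt N q τ x i) j (insert q b) y = insert q (p2Cl τ j b x) := by
    intro y hy hxy
    have hyc : y ∈ p2Cl τ j b x := p2_mem_cl.2 ⟨hy, hxy⟩
    rw [← p2_cl_eq h hjD (p2_cl_mem hx) hyc]
    ext z
    rw [p2_mem_cl, Finset.mem_insert, Finset.mem_insert, p2_mem_cl]
    constructor
    · rintro ⟨hz | hz, h2⟩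
      · exact Or.inl hz
      · rw [p2_att_old τ x i (hne y hy) (hne z hz)] at h2
        exact Or.inr ⟨hz, h2⟩
    · rintro (rfl | ⟨hz, h2⟩)
      · exact ⟨Or.inl rfl, by rw [p2_att_yq N _ τ x i (hne y hy), h.symm y hy x hx]; exact lt_min hji hxy⟩
      · exact ⟨Or.inr hz, by rw [p2_att_old τ x i (hne y hy) (hne z hz)]; exact h2⟩
  -- the class of an old label outside
  have hcl2 : ∀ y ∈ b, ¬ j < τ x y → p2Cl (trAtt N q τ x i) j (insert q b) y = p2Cl τ j b y := by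
    intro y hy hxy
    ext z
    rw [p2_mem_cl, Finset.mem_insert, p2_mem_cl]
    constructor
    · rintro ⟨hz | hz, h2⟩
      · rw [hz, p2_att_yq N q τ x i (hne y hy), h.symm y hy x hx] at h2
        exact absurd (lt_of_lt_of_le h2 (min_le_right _ _)) hxy
      · rw [p2_att_old τ x i (hne y hy) (hne z hz)] at h2
        exact ⟨hz, h2⟩
    · rintro ⟨hz, h2⟩
      exact ⟨Or.inr hz, by rw [p2_att_old τ x i (hne y hy) (hne z hz)]; exact h2⟩
  ext c
  rw [Finset.mem_insert, Finset.mem_erase]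
  constructor
  · intro hc
    obtain ⟨y, hy, rfl⟩ := Finset.mem_image.1 hc
    rcases Finset.mem_insert.1 hy with rfl | hy1
    · exact Or.inl hclq
    · by_cases hxy : j < τ x y
      · exact Or.inl (hcl1 y hy1 hxy)
      · refine Or.inr ?_
        rw [hcl2 y hy1 hxy]
        refine ⟨fun e => hxy ?_, p2_cl_mem hy1⟩
        have : y ∈ p2Cl τ j b y := p2_mem_cl.2 ⟨hy1, by rw [h.diag y hy1]; exact hjD⟩
        rw [e] at this
        exact (p2_mem_cl.1 this).2
  · rintro (rfl | ⟨hne', hc⟩)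
    · rw [← hclq]
      exact p2_cl_mem (Finset.mem_insert_self q b)
    · obtain ⟨y, hy, rfl⟩ := Finset.mem_image.1 hc
      have hxy : ¬ j < τ x y := by
        intro hxy
        exact hne' (p2_cl_eq h hjD (p2_cl_mem hx) (p2_mem_cl.2 ⟨hy, hxy⟩))
      rw [← hcl2 y hy hxy]
      exact p2_cl_mem (Finset.mem_insert_of_mem hy)

theorem p2_cls_in_not_mem {τ : ℕ → ℕ → ℕ} {b : Finset ℕ} {j q x : ℕ} (hq : q ∉ b) :
    insert q (p2Cl τ j b x) ∉ (p2Cls τ j b).erase (p2Cl τ j b x) :=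
  fun h => hq (p2_cls_sub (Finset.mem_of_mem_erase h) (Finset.mem_insert_self q _))

/-! ### rows -/

theorem p2_cls_congr {τ τ' : ℕ → ℕ → ℕ} (j : ℕ) (b : Finset ℕ) (hτ : ∀ x ∈ b, ∀ y ∈ b, τ x y = τ' x y) :
    p2Cls τ j b = p2Cls τ' j b := by
  unfold p2Cls
  refine Finset.image_congr fun x hx => ?_
  unfold p2Cl
  exact Finset.filter_congr fun y hy => by rw [hτ x hx y hy]

/-- the row depends on the table only through the block -/
theorem p2Row_congr_tab (a : ℝ) {τ τ' : ℕ → ℕ → ℕ} (ms : List ℝ) (μ : ℝ) (j : ℕ) (b : Finset ℕ) (Ψ : ℕ → ℕ → ℝ)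
    (hτ : ∀ x ∈ b, ∀ y ∈ b, τ x y = τ' x y) : p2Row a τ ms μ j b Ψ = p2Row a τ' ms μ j b Ψ := by
  induction ms generalizing μ j b with
  | nil => simp only [p2Row, p2_cls_congr j b hτ]
  | cons m ms ih =>
    simp only [p2Row, p2_cls_congr j b hτ]
    congr 1
    refine Finset.sum_congr rfl fun c hc => ?_
    have hs := p2_cls_sub hc
    exact ih m (j + 1) c fun x hx y hy => hτ x (hs hx) y (hs hy)

/-- functionals which are finite combinations of values at good placements -/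
def P2Flat (good : ℕ × ℕ → Prop) (L : (ℕ → ℕ → ℝ) → ℝ) : Prop :=
  ∃ (s : Finset (ℕ × ℕ)) (w : ℕ × ℕ → ℝ), (∀ p ∈ s, good p) ∧ ∀ Ψ : ℕ → ℕ → ℝ, L Ψ = ∑ p ∈ s, w p * Ψ p.1 p.2

theorem p2_flat_eqns_cite : True := by
  have := @P2Flat.eq_1
  trivial

theorem P2Flat.zero (good : ℕ × ℕ → Prop) : P2Flat good fun _ => 0 :=
  ⟨∅, fun _ => 0, fun p hp => absurd hp (Finset.notMem_empty p), fun _ => by simp⟩

theorem P2Flat.single {good : ℕ × ℕ → Prop} (c : ℝ) (x i : ℕ) (h : good (x, i)) : P2Flat good fun Ψ => c * Ψ x i :=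
  ⟨{(x, i)}, fun _ => c, fun p hp => by rw [Finset.mem_singleton.1 hp]; exact h, fun _ => by simp⟩

theorem P2Flat.add {good : ℕ × ℕ → Prop} {L L' : (ℕ → ℕ → ℝ) → ℝ} (h : P2Flat good L) (h' : P2Flat good L') :
    P2Flat good fun Ψ => L Ψ + L' Ψ := by
  classical
  obtain ⟨s, w, hs, hL⟩ := h
  obtain ⟨s', w', hs', hL'⟩ := h'
  refine ⟨s ∪ s', fun p => (if p ∈ s then w p else 0) + (if p ∈ s' then w' p else 0), ?_, fun Ψ => ?_⟩
  · intro p hp
    rcases Finset.mem_union.1 hp with hp | hp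
    · exact hs p hp
    · exact hs' p hp
  · show L Ψ + L' Ψ = _
    rw [hL, hL']
    simp only [add_mul, Finset.sum_add_distrib, ite_mul, zero_mul]
    rw [Finset.sum_ite_mem, Finset.sum_ite_mem, Finset.union_inter_cancel_left, Finset.union_inter_cancel_right]

theorem P2Flat.smul {good : ℕ × ℕ → Prop} {L : (ℕ → ℕ → ℝ) → ℝ} (c : ℝ) (h : P2Flat good L) :
    P2Flat good fun Ψ => c * L Ψ := by
  obtain ⟨s, w, hs, hL⟩ := h
  refine ⟨s, fun p => c * w p, hs, fun Ψ => ?_⟩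
  show c * L Ψ = _
  rw [hL, Finset.mul_sum]
  exact Finset.sum_congr rfl fun p _ => by ring

theorem P2Flat.sum {good : ℕ × ℕ → Prop} {α : Type} (t : Finset α) (L : α → (ℕ → ℕ → ℝ) → ℝ)
    (h : ∀ c ∈ t, P2Flat good (L c)) : P2Flat good fun Ψ => ∑ c ∈ t, L c Ψ := by
  classical
  induction t using Finset.induction_on with
  | empty => simpa using P2Flat.zero good
  | insert c t hc ih =>
    have h1 := (h c (Finset.mem_insert_self c t)).add (ih fun c' hc' => h c' (Finset.mem_insert_of_mem hc'))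
    simpa only [Finset.sum_insert hc] using h1

theorem P2Flat.mono {good good' : ℕ × ℕ → Prop} {L : (ℕ → ℕ → ℝ) → ℝ} (h : P2Flat good L) (hg : ∀ p, good p → good' p) :
    P2Flat good' L := by
  obtain ⟨s, w, hs, hL⟩ := h
  exact ⟨s, w, fun p hp => hg p (hs p hp), hL⟩

theorem p2Rep_good (b : Finset ℕ) : p2Rep b ∈ b ∨ b = ∅ := by
  rcases b.eq_empty_or_nonempty with h | h
  · exact Or.inr h
  · exact Or.inl (p2Rep_mem h)

/-- **flat form of the row**: a finite combination of the values of `Ψ` at admissible placements -/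
theorem p2Row_repr (a : ℝ) {τ : ℕ → ℕ → ℕ} (ms : List ℝ) (μ : ℝ) {j : ℕ} {b : Finset ℕ} (h : P2Tr τ b j (j + ms.length + 1)) :
    ∃ (s : Finset (ℕ × ℕ)) (w : ℕ × ℕ → ℝ), (∀ p ∈ s, (p.1 ∈ b ∨ b = ∅) ∧ j ≤ p.2 ∧ p.2 ≤ j + ms.length + 1) ∧
      ∀ Ψ : ℕ → ℕ → ℝ, p2Row a τ ms μ j b Ψ = ∑ p ∈ s, w p * Ψ p.1 p.2 := by
  change P2Flat (fun p => (p.1 ∈ b ∨ b = ∅) ∧ j ≤ p.2 ∧ p.2 ≤ j + ms.length + 1) (p2Row a τ ms μ j b)
  induction ms generalizing μ j b with
  | nil =>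
    have hjD : j < j + ([] : List ℝ).length + 1 := by simp
    have e : p2Row a τ [] μ j b = fun Ψ => (μ - ((p2Cls τ j b).card : ℝ) * a) * Ψ (p2Rep b) j
        + a * ∑ c ∈ p2Cls τ j b, 1 * Ψ (p2Rep c) (j + 1) := by
      funext Ψ; simp only [p2Row, one_mul]
    rw [e]
    refine (P2Flat.single _ _ _ ⟨p2Rep_good b, le_rfl, by simp⟩).add (P2Flat.smul a (P2Flat.sum _ _ fun c hc => ?_))
    obtain ⟨_, h2, h3⟩ := p2_cls_tr h hjD hc
    exact P2Flat.single _ _ _ ⟨Or.inl (h2 (p2Rep_mem h3)), by simp, by simp⟩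
  | cons m ms ih =>
    have hjD : j < j + (m :: ms).length + 1 := by omega
    have e : p2Row a τ (m :: ms) μ j b = fun Ψ => (μ - ((p2Cls τ j b).card : ℝ) * m) * Ψ (p2Rep b) j
        + ∑ c ∈ p2Cls τ j b, p2Row a τ ms m (j + 1) c Ψ := by
      funext Ψ; simp only [p2Row]
    rw [e]
    refine (P2Flat.single _ _ _ ⟨p2Rep_good b, le_rfl, by omega⟩).add (P2Flat.sum _ _ fun c hc => ?_)
    obtain ⟨h1, h2, h3⟩ := p2_cls_tr h hjD hc
    have h1' : P2Tr τ c (j + 1) (j + 1 + ms.length + 1) := by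
      have : j + 1 + ms.length + 1 = j + (m :: ms).length + 1 := by simp only [List.length_cons]; omega
      rw [this]; exact h1
    refine (ih m h1').mono ?_
    rintro p ⟨hp1, hp2, hp3⟩
    refine ⟨Or.inl ?_, by omega, by simp only [List.length_cons]; omega⟩
    rcases hp1 with hp1 | hp1
    · exact h2 hp1
    · exact absurd hp1 h3.ne_empty

/-- change of the incoming power -/
theorem p2Row_sub (a : ℝ) (τ : ℕ → ℕ → ℕ) (ms : List ℝ) (μ μ' : ℝ) (j : ℕ) (b : Finset ℕ) (Ψ : ℕ → ℕ → ℝ) :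
    p2Row a τ ms μ j b Ψ = p2Row a τ ms μ' j b Ψ + (μ - μ') * Ψ (p2Rep b) j := by
  cases ms with
  | nil => simp only [p2Row]; ring
  | cons m ms => simp only [p2Row]; ring

/-- the row of the empty block -/
theorem p2Row_empty (a : ℝ) (τ : ℕ → ℕ → ℕ) (ms : List ℝ) (μ : ℝ) (j : ℕ) (Ψ : ℕ → ℕ → ℝ) :
    p2Row a τ ms μ j ∅ Ψ = μ * Ψ 0 j := by
  have h0 : p2Rep ∅ = 0 := by
    unfold p2Rep
    rw [dif_neg Finset.not_nonempty_empty]
  cases ms with
  | nil => simp only [p2Row, p2Cls_empty, h0]; simp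
  | cons m ms => simp only [p2Row, p2Cls_empty, h0]; simp

/-! ### weights -/

variable {S ι : Type} [Fintype S] [Fintype ι]

/-- the weight depends on the table and on the configuration only through the block -/
theorem p2W_congr (B : GhB S) {τ τ' : ℕ → ℕ → ℕ} {σ σ' : ℕ → S} (ls : List (GhLv S ι)) (j : ℕ) (b : Finset ℕ) (z : S → ℝ)
    (hτ : ∀ x ∈ b, ∀ y ∈ b, τ x y = τ' x y) (hσ : ∀ x ∈ b, σ x = σ' x) : p2W B τ σ ls j b z = p2W B τ' σ' ls j b z := by
  induction ls generalizing j b z with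
  | nil =>
    simp only [p2W, p2_cls_congr j b hτ]
    refine Finset.prod_congr rfl fun c hc => Finset.sum_congr rfl fun t _ => ?_
    have hs := p2_cls_sub hc
    have : (∀ x ∈ c, σ x = t) ↔ ∀ x ∈ c, σ' x = t :=
      forall₂_congr fun x hx => by rw [hσ x (hs hx)]
    by_cases h : ∀ x ∈ c, σ x = t
    · rw [if_pos h, if_pos (this.1 h)]
    · rw [if_neg h, if_neg fun h' => h (this.2 h')]
  | cons l ls ih =>
    simp only [p2W, p2_cls_congr j b hτ]
    refine Finset.prod_congr rfl fun c hc => ?_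
    have hs := p2_cls_sub hc
    refine integral_congr_ae (Filter.Eventually.of_forall fun ξ => ?_)
    show _ * _ = _ * _
    rw [ih (j + 1) c (z + l.inc ξ) (fun x hx y hy => hτ x (hs hx) y (hs hy)) fun x hx => hσ x (hs hx)]

theorem p2W_empty (B : GhB S) (τ : ℕ → ℕ → ℕ) (σ : ℕ → S) (ls : List (GhLv S ι)) (j : ℕ) (z : S → ℝ) :
    p2W B τ σ ls j ∅ z = 1 := by
  cases ls with
  | nil => simp only [p2W, p2Cls_empty, Finset.prod_empty]
  | cons l ls => simp only [p2W, p2Cls_empty, Finset.prod_empty]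

theorem p2W_nonneg {B : GhB S} (hB : B.Ok) (τ : ℕ → ℕ → ℕ) (σ : ℕ → S) (ls : List (GhLv S ι)) (j : ℕ) (b : Finset ℕ) (z : S → ℝ) :
    0 ≤ p2W B τ σ ls j b z := by
  induction ls generalizing j b z with
  | nil =>
    simp only [p2W]
    refine Finset.prod_nonneg fun c _ => Finset.sum_nonneg fun t _ => mul_nonneg (gh_b_Gw_nonneg hB z t) ?_
    split_ifs
    · exact zero_le_one
    · exact le_rfl
  | cons l ls ih =>
    simp only [p2W]
    exact Finset.prod_nonneg fun c _ => integral_nonneg fun ξ => mul_nonneg (gh_b_D_pos B l ls z ξ).le (ih _ _ _)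

theorem p2W_le_one {B : GhB S} (hB : B.Ok) (τ : ℕ → ℕ → ℕ) (σ : ℕ → S) {ls : List (GhLv S ι)} (hls : GhNn ls) (j : ℕ) (b : Finset ℕ)
    (z : S → ℝ) : p2W B τ σ ls j b z ≤ 1 := by
  induction ls generalizing j b z with
  | nil =>
    simp only [p2W]
    refine Finset.prod_le_one (fun c _ => Finset.sum_nonneg fun t _ => mul_nonneg (gh_b_Gw_nonneg hB z t) ?_) fun c _ => ?_
    · split_ifs
      · exact zero_le_one
      · exact le_rfl
    · refine le_of_le_of_eq ?_ (gh_b_Gw_sum hB z)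
      refine Finset.sum_le_sum fun t _ => ?_
      have := gh_b_Gw_nonneg hB z t
      split_ifs
      · rw [mul_one]
      · rw [mul_zero]; exact this
  | cons l ls ih =>
    simp only [p2W]
    refine Finset.prod_le_one (fun c _ => integral_nonneg fun ξ =>
      mul_nonneg (gh_b_D_pos B l ls z ξ).le (p2W_nonneg hB τ σ ls _ _ _)) fun c _ => ?_
    rw [← gh_b_D_integral hB hls.tail l z]
    refine integral_mono_of_nonneg (Filter.Eventually.of_forall fun ξ =>
      mul_nonneg (gh_b_D_pos B l ls z ξ).le (p2W_nonneg hB τ σ ls _ _ _)) (gh_b_D_integrable hB hls.tail l z)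
      (Filter.Eventually.of_forall fun ξ => ?_)
    exact mul_le_of_le_one_right (gh_b_D_pos B l ls z ξ).le (ih hls.tail _ _ _)

end Claimed.Agent.R286
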