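import Claimed.Agent.R286.Fd.P02StepN

/-!
# Row 286 (S0533), P02 engine: the induction step, part 1: children integrals, derivative of `I`, `F`, structure of the extended weights   (owner: helper299)
-/

set_option autoImplicit false

namespace Claimed.Agent.R286

open MeasureTheory ProbabilityTheory Filter Topology

variable {S ι : Type} [Fintype S] [Fintype ι]


/-- the tested child integral -/
noncomputable def p2N (B : GhB S) (τ : ℕ → ℕ → ℕ) (σ : ℕ → S) (l : GhLv S ι) (ls : List (GhLv S ι)) (j : ℕ) (c : Finset ℕ)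
    (z : S → ℝ) : ℝ := ∫ ξ, p2U B τ σ ls j c l.m (z + l.inc ξ) ∂ghStd ι

theorem p2N_congr (B : GhB S) {τ τ' : ℕ → ℕ → ℕ} {σ σ' : ℕ → S} (l : GhLv S ι) (ls : List (GhLv S ι)) (j : ℕ) (c : Finset ℕ)
    (z : S → ℝ) (hτ : ∀ x ∈ c, ∀ y ∈ c, τ x y = τ' x y) (hσ : ∀ x ∈ c, σ x = σ' x) :
    p2N B τ σ l ls j c z = p2N B τ' σ' l ls j c z := by
  unfold p2N p2U
  refine integral_congr_ae (Eventually.of_forall fun ξ => ?_)
  simp only
  rw [p2W_congr B ls j c _ hτ hσ]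

/-- the weight of a block through its children -/
theorem p2U_cons {B : GhB S} (hB : B.Ok) (τ : ℕ → ℕ → ℕ) (σ : ℕ → S) (l : GhLv S ι) {ls : List (GhLv S ι)} (hls : GhNn ls) (j : ℕ)
    (b : Finset ℕ) (μ : ℝ) (z : S → ℝ) :
    p2U B τ σ (l :: ls) j b μ z
      = Real.exp (μ * ghF B (l :: ls) z) * ∏ c ∈ p2Cls τ j b, (p2N B τ σ l ls (j + 1) c z * (ghI B l ls z)⁻¹) := by
  unfold p2U
  congr 1
  simp only [p2W]
  refine Finset.prod_congr rfl fun c _ => ?_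
  unfold p2N p2U
  rw [← integral_mul_const]
  refine integral_congr_ae (Eventually.of_forall fun ξ => ?_)
  simp only
  rw [gh_b_D_eq hB hls]
  ring

/-- an old class does not see the new label -/
theorem p2N_old (B : GhB S) {N q : ℕ} (τ : ℕ → ℕ → ℕ) (x i : ℕ) {σ σ' : ℕ → S} (l : GhLv S ι) (ls : List (GhLv S ι)) (j : ℕ)
    {c : Finset ℕ} (hq : q ∉ c) (hσ : ∀ y ∈ c, σ' y = σ y) (z : S → ℝ) :
    p2N B (trAtt N q τ x i) σ' l ls j c z = p2N B τ σ l ls j c z :=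
  p2N_congr B l ls j c z (fun _ hy _ hy' => p2_att_old τ x i (fun e => hq (e ▸ hy)) (fun e => hq (e ▸ hy'))) hσ

/-- NEW CHILD -/
theorem p2U_new {B : GhB S} (hB : B.Ok) {τ : ℕ → ℕ → ℕ} {σ σ' : ℕ → S} (l : GhLv S ι) {ls : List (GhLv S ι)} (hls : GhNn ls)
    {j N q : ℕ} {b : Finset ℕ} (htr : P2Tr τ b j (N + 1)) (hjN : j ≤ N) (hq : q ∉ b) (hσ : ∀ y ∈ b, σ' y = σ y) (x : ℕ) (μ : ℝ)
    (z : S → ℝ) :
    p2U B (trAtt N q τ x j) σ' (l :: ls) j (insert q b) μ z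
      = Real.exp (μ * ghF B (l :: ls) z) * (∏ c ∈ p2Cls τ j b, (p2N B τ σ l ls (j + 1) c z * (ghI B l ls z)⁻¹))
          * (p2N B (trAtt N q τ x j) σ' l ls (j + 1) {q} z * (ghI B l ls z)⁻¹) := by
  rw [p2U_cons hB _ _ l hls, p2_prod_new x hq hjN]
  have : ∀ c ∈ p2Cls τ j b, p2N B (trAtt N q τ x j) σ' l ls (j + 1) c z * (ghI B l ls z)⁻¹
      = p2N B τ σ l ls (j + 1) c z * (ghI B l ls z)⁻¹ := by
    intro c hc
    have hcb := (p2_cls_tr htr (by omega) hc).2.1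
    rw [p2N_old B τ x j l ls (j + 1) (fun e => hq (hcb e)) (fun y hy => hσ y (hcb hy))]
  rw [Finset.prod_congr rfl this]
  ring

/-- INSIDE a child -/
theorem p2U_in {B : GhB S} (hB : B.Ok) {τ : ℕ → ℕ → ℕ} {σ σ' : ℕ → S} (l : GhLv S ι) {ls : List (GhLv S ι)} (hls : GhNn ls)
    {j N q x i : ℕ} {b c : Finset ℕ} (htr : P2Tr τ b j (N + 1)) (hjN : j ≤ N) (hq : q ∉ b) (hσ : ∀ y ∈ b, σ' y = σ y)
    (hc : c ∈ p2Cls τ j b) (hx : x ∈ c) (hji : j < i) (μ : ℝ) (z : S → ℝ) :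
    p2U B (trAtt N q τ x i) σ' (l :: ls) j (insert q b) μ z
      = Real.exp (μ * ghF B (l :: ls) z) * (∏ c' ∈ (p2Cls τ j b).erase c, (p2N B τ σ l ls (j + 1) c' z * (ghI B l ls z)⁻¹))
          * (p2N B (trAtt N q τ x i) σ' l ls (j + 1) (insert q c) z * (ghI B l ls z)⁻¹) := by
  rw [p2U_cons hB _ _ l hls, p2_prod_in htr hq hc hx hji hjN]
  have : ∀ c' ∈ (p2Cls τ j b).erase c, p2N B (trAtt N q τ x i) σ' l ls (j + 1) c' z * (ghI B l ls z)⁻¹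
      = p2N B τ σ l ls (j + 1) c' z * (ghI B l ls z)⁻¹ := by
    intro c' hc'
    have hcb := (p2_cls_tr htr (by omega) (Finset.mem_of_mem_erase hc')).2.1
    rw [p2N_old B τ x i l ls (j + 1) (fun e => hq (hcb e)) (fun y hy => hσ y (hcb hy))]
  rw [Finset.prod_congr rfl this]
  ring



theorem p2N_empty (B : GhB S) (τ : ℕ → ℕ → ℕ) (σ : ℕ → S) (l : GhLv S ι) (ls : List (GhLv S ι)) (j : ℕ) (z : S → ℝ) :
    p2N B τ σ l ls j ∅ z = ghI B l ls z := by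
  unfold p2N p2U ghI
  simp only [p2W_empty, mul_one]

/-- source coordinates of `p2N` -/
noncomputable def p2Nz (B : GhB S) (N : ℕ) (τ : ℕ → ℕ → ℕ) (σ : ℕ → S) (h : P2Lv S ι) (hs : List (P2Lv S ι)) (θ : ℝ) (j : ℕ)
    (c : Finset ℕ) (q : ℕ) (z : S → ℝ) (t : S) : ℝ :=
  p2Row B.a τ (hs.map P2Lv.m) h.m j c fun x i =>
    p2N B (trAtt N q τ x i) (Function.update σ q t) (h.lv θ) (p2L hs θ) j (insert q c) z

/-- entries of the double rows -/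
noncomputable def p2En (B : GhB S) (N : ℕ) (τ : ℕ → ℕ → ℕ) (σ : ℕ → S) (h : P2Lv S ι) (hs : List (P2Lv S ι)) (θ : ℝ) (j : ℕ)
    (c : Finset ℕ) (q q' : ℕ) (z : S → ℝ) (x' i' : ℕ) : ℝ :=
  ∑ t, ∑ t', (p2V hs (trAtt N q' τ x' i' q q' - j) t t' + h.dK t t') *
    p2N B (trAtt N q' τ x' i') (Function.update (Function.update σ q t) q' t') (h.lv θ) (p2L hs θ) j (insert q' c) z

/-- `θ`-coordinate of `p2N` -/
noncomputable def p2Nt (B : GhB S) (N : ℕ) (τ : ℕ → ℕ → ℕ) (σ : ℕ → S) (h : P2Lv S ι) (hs : List (P2Lv S ι)) (θ : ℝ) (j : ℕ)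
    (c : Finset ℕ) (q q' : ℕ) (z : S → ℝ) : ℝ :=
  (1 / 2) * p2Row B.a τ (hs.map P2Lv.m) h.m j c fun x i =>
    p2Row B.a (trAtt N q τ x i) (hs.map P2Lv.m) h.m j (insert q c) (p2En B N (trAtt N q τ x i) σ h hs θ j (insert q c) q q' z)

theorem p2N_hasD {B : GhB S} (hB : B.Ok) (h : P2Lv S ι) (hok : h.Ok) (hs : List (P2Lv S ι)) (hoks : ∀ h' ∈ hs, h'.Ok)
    (IH : P2Main B hs) {N j : ℕ} (hN : j + hs.length = N) {τ : ℕ → ℕ → ℕ} (σ : ℕ → S) {c : Finset ℕ} {q q' : ℕ}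
    (hq : q ∉ c) (hq' : q' ∉ c) (hqq : q ≠ q') (htr : P2Tr τ c j (N + 1)) {θ : ℝ} (hθ : θ ∈ Set.Ioo (0 : ℝ) 1) (z : S → ℝ) :
    P2HasD (fun p => p2N B τ σ (h.lv p.1) (p2L hs p.1) j c p.2) (p2Nt B N τ σ h hs θ j c q q' z)
      (p2Nz B N τ σ h hs θ j c q z) (θ, z) :=
  p2_N_hasD_pf hB h hok hs hoks IH hN σ h.m hq hq' hqq htr hθ z

/-- coordinates of `I = ghI` divided by the mass -/
noncomputable def p2Az (B : GhB S) (N : ℕ) (τ : ℕ → ℕ → ℕ) (σ : ℕ → S) (h : P2Lv S ι) (hs : List (P2Lv S ι)) (θ : ℝ) (j : ℕ)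
    (q : ℕ) (z : S → ℝ) (t : S) : ℝ :=
  p2N B (trAtt N q τ 0 j) (Function.update σ q t) (h.lv θ) (p2L hs θ) j (insert q ∅) z

noncomputable def p2At (B : GhB S) (N : ℕ) (τ : ℕ → ℕ → ℕ) (σ : ℕ → S) (h : P2Lv S ι) (hs : List (P2Lv S ι)) (θ : ℝ) (j : ℕ)
    (q q' : ℕ) (z : S → ℝ) : ℝ :=
  (1 / 2) * p2Row B.a (trAtt N q τ 0 j) (hs.map P2Lv.m) h.m j (insert q ∅)
    (p2En B N (trAtt N q τ 0 j) σ h hs θ j (insert q ∅) q q' z)

theorem p2I_hasD {B : GhB S} (hB : B.Ok) (h : P2Lv S ι) (hok : h.Ok) (hs : List (P2Lv S ι)) (hoks : ∀ h' ∈ hs, h'.Ok)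
    (IH : P2Main B hs) {N j : ℕ} (hN : j + hs.length = N) (τ : ℕ → ℕ → ℕ) (σ : ℕ → S) {q q' : ℕ}
    (hqq : q ≠ q') {θ : ℝ} (hθ : θ ∈ Set.Ioo (0 : ℝ) 1) (z : S → ℝ) :
    P2HasD (fun p => ghI B (h.lv p.1) (p2L hs p.1) p.2) (h.m * p2At B N τ σ h hs θ j q q' z)
      (fun t => h.m * p2Az B N τ σ h hs θ j q z t) (θ, z) := by
  have h1 := p2N_hasD hB h hok hs hoks IH hN σ (c := ∅) (Finset.notMem_empty q) (Finset.notMem_empty q') hqq
    (p2_tr_empty τ j (N + 1)) hθ z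
  simp only [p2N_empty] at h1
  refine h1.congr ?_ fun t => ?_
  · unfold p2Nt p2At
    rw [p2Row_empty]; ring
  · unfold p2Nz p2Az
    rw [p2Row_empty]

theorem p2F'_hasD {B : GhB S} (hB : B.Ok) (h : P2Lv S ι) (hok : h.Ok) (hs : List (P2Lv S ι)) (hoks : ∀ h' ∈ hs, h'.Ok)
    (IH : P2Main B hs) {N j : ℕ} (hN : j + hs.length = N) (τ : ℕ → ℕ → ℕ) (σ : ℕ → S) {q q' : ℕ}
    (hqq : q ≠ q') {θ : ℝ} (hθ : θ ∈ Set.Ioo (0 : ℝ) 1) (z : S → ℝ) :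
    P2HasD (fun p => ghF B (p2L (h :: hs) p.1) p.2) ((ghI B (h.lv θ) (p2L hs θ) z)⁻¹ * p2At B N τ σ h hs θ j q q' z)
      (fun t => (ghI B (h.lv θ) (p2L hs θ) z)⁻¹ * p2Az B N τ σ h hs θ j q z t) (θ, z) := by
  have hI := p2I_hasD hB h hok hs hoks IH hN τ σ hqq hθ z
  have hpos : 0 < ghI B (h.lv θ) (p2L hs θ) z := gh_b_I_pos hB (p2L_nn hoks θ) _ _
  by_cases hm : h.m = 0
  · have hfun : (fun p : ℝ × (S → ℝ) => ghF B (p2L (h :: hs) p.1) p.2)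
        = fun p => ∫ ξ, ghF B (p2L hs p.1) (p.2 + (h.lv p.1).inc ξ) ∂ghStd ι := by
      funext p
      exact gh_b_F_cons_zero (l := h.lv p.1) hm (p2L hs p.1) p.2
    have hI1 : ghI B (h.lv θ) (p2L hs θ) z = 1 := by
      have : (h.lv θ).m = 0 := hm
      simp [ghI, this]
    rw [hfun, hI1]
    refine (p2_KF_hasD hB h hok hs hoks IH hN τ σ hqq hθ z).congr ?_ fun t => ?_
    · unfold p2At p2En p2N
      have : ∀ θ, (h.lv θ).m = 0 := fun _ => hm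
      simp only [this, hm, inv_one, one_mul]
    · unfold p2Az p2N
      have : ∀ θ, (h.lv θ).m = 0 := fun _ => hm
      simp only [this, inv_one, one_mul]
  · have hfun : (fun p : ℝ × (S → ℝ) => ghF B (p2L (h :: hs) p.1) p.2)
        = fun p => h.m⁻¹ * Real.log (ghI B (h.lv p.1) (p2L hs p.1) p.2) := by
      funext p
      exact gh_b_F_cons (l := h.lv p.1) hm (p2L hs p.1) p.2
    rw [hfun]
    refine ((hI.log hpos.ne').const_mul h.m⁻¹).congr ?_ fun t => ?_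
    · field_simp
    · field_simp


end Claimed.Agent.R286
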