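import Claimed.Agent.R286.Fd.P02ConsA

/-!
# Row 286 (S0533), P02 engine: the induction step, part 2: matching of the coordinates with the rows   (owner: helper299)
-/

set_option autoImplicit false

namespace Claimed.Agent.R286

open MeasureTheory ProbabilityTheory Filter Topology

variable {S ι : Type} [Fintype S] [Fintype ι]


omit [Fintype S] in
theorem p2_upd_old {σ : ℕ → S} {q : ℕ} {b : Finset ℕ} (hq : q ∉ b) (t : S) : ∀ y ∈ b, Function.update σ q t y = σ y :=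
  fun y hy => Function.update_of_ne (fun e : y = q => hq (e ▸ hy)) _ _

omit [Fintype S] in
theorem p2V_succ (h : P2Lv S ι) (hs : List (P2Lv S ι)) {r j : ℕ} (hr : j + 1 ≤ r) (t t' : S) :
    p2V (h :: hs) (r - j) t t' = p2V hs (r - (j + 1)) t t' + h.dK t t' := by
  obtain ⟨k, rfl⟩ := Nat.exists_eq_add_of_le hr
  have e1 : j + 1 + k - j = k + 1 := by omega
  have e2 : j + 1 + k - (j + 1) = k := by omega
  rw [e1, e2]
  simp only [p2V]
  ring

omit [Fintype S] in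
theorem p2V_zero (hs : List (P2Lv S ι)) (t t' : S) : p2V hs 0 t t' = 0 := by
  cases hs <;> rfl

theorem p2_att_pair {N q q' : ℕ} (hqq : q ≠ q') (τ : ℕ → ℕ → ℕ) (x i : ℕ) : trAtt N q' τ x i q q' = min i (τ q x) := by
  simp [trAtt, hqq]

/-- **the entries of the double row**: both new labels in the same child `c` (`q ∈ c`) of the block `b` -/
theorem p2_entry {B : GhB S} (hB : B.Ok) (h : P2Lv S ι) (hs : List (P2Lv S ι)) (hoks : ∀ h' ∈ hs, h'.Ok)
    {N j : ℕ} (hjN : j ≤ N) {τ : ℕ → ℕ → ℕ} (σ : ℕ → S) {b c : Finset ℕ} (μ : ℝ) {q q' x i : ℕ} (hqq : q ≠ q')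
    (hq' : q' ∉ b) (htr : P2Tr τ b j (N + 1)) (hc : c ∈ p2Cls τ j b) (hqc : q ∈ c) (hx : x ∈ c) (hji : j < i) (θ : ℝ) (z : S → ℝ)
    (κ : ℝ)
    (hκ : ∀ t, Real.exp (μ * ghF B (p2L (h :: hs) θ) z) * (∏ c' ∈ (p2Cls τ j b).erase c,
      (p2N B τ (Function.update σ q t) (h.lv θ) (p2L hs θ) (j + 1) c' z * (ghI B (h.lv θ) (p2L hs θ) z)⁻¹))
        * (ghI B (h.lv θ) (p2L hs θ) z)⁻¹ = κ) :
    ∑ t, ∑ t', p2V (h :: hs) (trAtt N q' τ x i q q' - j) t t' *
        p2U B (trAtt N q' τ x i) (Function.update (Function.update σ q t) q' t') (p2L (h :: hs) θ) j (insert q' b) μ z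
      = κ * p2En B N τ σ h hs θ (j + 1) c q q' z x i := by
  have hls := p2L_nn hoks θ
  have hL : p2L (h :: hs) θ = h.lv θ :: p2L hs θ := rfl
  have hc3 := p2_cls_tr htr (by omega) hc
  have hr : j + 1 ≤ trAtt N q' τ x i q q' := by
    rw [p2_att_pair hqq]
    exact le_min (by omega) (hc3.1.ge q hqc x hx)
  unfold p2En
  rw [Finset.mul_sum]
  refine Finset.sum_congr rfl fun t _ => ?_
  rw [Finset.mul_sum]
  refine Finset.sum_congr rfl fun t' _ => ?_
  rw [p2V_succ h hs hr, hL, p2U_in hB (h.lv θ) hls htr hjN hq' (p2_upd_old hq' t') hc hx hji, ← hκ t, hL]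
  ring



/-- matching of the source coordinates -/
theorem p2_match_z {B : GhB S} (hB : B.Ok) (h : P2Lv S ι) (hs : List (P2Lv S ι)) (hoks : ∀ h' ∈ hs, h'.Ok)
    {N j : ℕ} (hN : j + (h :: hs).length = N) {τ : ℕ → ℕ → ℕ} (σ : ℕ → S) {b : Finset ℕ} (μ : ℝ) {q : ℕ}
    (hq : q ∉ b) (htr : P2Tr τ b j (N + 1)) (θ : ℝ) (z : S → ℝ) (t : S) :
    (μ - ((p2Cls τ j b).card : ℝ) * h.m) * (((ghI B (h.lv θ) (p2L hs θ) z)⁻¹ * p2Az B N τ σ h hs θ (j + 1) q z t)
        * (Real.exp (μ * ghF B (p2L (h :: hs) θ) z)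
          * ∏ c ∈ p2Cls τ j b, (p2N B τ σ (h.lv θ) (p2L hs θ) (j + 1) c z * (ghI B (h.lv θ) (p2L hs θ) z)⁻¹)))
      + ∑ c ∈ p2Cls τ j b, Real.exp (μ * ghF B (p2L (h :: hs) θ) z)
          * (∏ c' ∈ (p2Cls τ j b).erase c, (p2N B τ σ (h.lv θ) (p2L hs θ) (j + 1) c' z * (ghI B (h.lv θ) (p2L hs θ) z)⁻¹))
          * ((ghI B (h.lv θ) (p2L hs θ) z)⁻¹ * p2Nz B N τ σ h hs θ (j + 1) c q z t)
      = p2Gz B N ((h :: hs).map P2Lv.m) τ σ (p2L (h :: hs) θ) j b μ q z t := by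
  have hlen : j + hs.length + 1 = N := by simpa [add_assoc] using hN
  have hjN : j ≤ N := by omega
  have hls := p2L_nn hoks θ
  have hL : p2L (h :: hs) θ = h.lv θ :: p2L hs θ := rfl
  unfold p2Gz
  simp only [List.map_cons, p2Row]
  congr 1
  · congr 1
    rw [hL, p2U_new hB (h.lv θ) hls htr hjN hq (p2_upd_old hq t)]
    have e : p2N B (trAtt N q τ (p2Rep b) j) (Function.update σ q t) (h.lv θ) (p2L hs θ) (j + 1) {q} z
        = p2Az B N τ σ h hs θ (j + 1) q z t := by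
      unfold p2Az
      rw [insert_empty_eq]
      refine p2N_congr B _ _ _ _ _ (fun x hx y hy => ?_) fun _ _ => rfl
      rw [Finset.mem_singleton] at hx hy
      subst hx; subst hy
      simp [trAtt]
    rw [e]; ring
  · refine Finset.sum_congr rfl fun c hc => ?_
    have hc3 := p2_cls_tr htr (by omega) hc
    have hD : j + 1 + (hs.map P2Lv.m).length + 1 = N + 1 := by simp; omega
    have htc : P2Tr τ c (j + 1) (j + 1 + (hs.map P2Lv.m).length + 1) := by rw [hD]; exact hc3.1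
    unfold p2Nz
    rw [← mul_assoc, ← p2Row_smul htc]
    refine p2Row_congr htc fun x i hs' => ?_
    have hx : x ∈ c := hs'.1.resolve_right hc3.2.2.ne_empty
    rw [hL, p2U_in hB (h.lv θ) hls htr hjN hq (p2_upd_old hq t) hc hx (by have := hs'.2.1; omega)]
    ring



/-- the entries over the one-leaf block depend on the table only through its value at `(q, q)` -/
theorem p2En_single (B : GhB S) (N : ℕ) {τ₁ τ₂ : ℕ → ℕ → ℕ} (σ : ℕ → S) (h : P2Lv S ι) (hs : List (P2Lv S ι)) (θ : ℝ) (j : ℕ)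
    {q q' : ℕ} (hqq : q ≠ q') (hτ : τ₁ q q = τ₂ q q) (z : S → ℝ) (i : ℕ) :
    p2En B N τ₁ σ h hs θ j {q} q q' z q i = p2En B N τ₂ σ h hs θ j {q} q q' z q i := by
  unfold p2En
  refine Finset.sum_congr rfl fun t _ => Finset.sum_congr rfl fun t' _ => ?_
  rw [p2_att_pair hqq, p2_att_pair hqq, hτ]
  congr 1
  refine p2N_congr B _ _ _ _ _ (fun x hx y hy => ?_) fun _ _ => rfl
  simp only [Finset.mem_insert, Finset.mem_singleton] at hx hy
  rcases hx with rfl | rfl <;> rcases hy with rfl | rfl <;> simp [trAtt, hqq, hτ]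


end Claimed.Agent.R286
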