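import Claimed.Agent.R286.Fd.P02ConsB

/-!
# Row 286 (S0533), P02 engine: the induction step, part 3: the `θ`-coordinate, assembly of `p2_main_cons`   (owner: helper299)
-/

set_option autoImplicit false

namespace Claimed.Agent.R286

open MeasureTheory ProbabilityTheory Filter Topology

variable {S ι : Type} [Fintype S] [Fintype ι]


/-- matching of the `θ`-coordinate -/
theorem p2_match_t {B : GhB S} (hB : B.Ok) (h : P2Lv S ι) (hs : List (P2Lv S ι)) (hoks : ∀ h' ∈ hs, h'.Ok)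
    {N j : ℕ} (hN : j + (h :: hs).length = N) {τ : ℕ → ℕ → ℕ} (σ : ℕ → S) {b : Finset ℕ} (μ : ℝ) {q q' : ℕ}
    (hq : q ∉ b) (hq' : q' ∉ b) (hqq : q ≠ q') (htr : P2Tr τ b j (N + 1)) (θ : ℝ) (z : S → ℝ) :
    (μ - ((p2Cls τ j b).card : ℝ) * h.m) * (((ghI B (h.lv θ) (p2L hs θ) z)⁻¹ * p2At B N τ σ h hs θ (j + 1) q q' z)
        * (Real.exp (μ * ghF B (p2L (h :: hs) θ) z)
          * ∏ c ∈ p2Cls τ j b, (p2N B τ σ (h.lv θ) (p2L hs θ) (j + 1) c z * (ghI B (h.lv θ) (p2L hs θ) z)⁻¹)))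
      + ∑ c ∈ p2Cls τ j b, Real.exp (μ * ghF B (p2L (h :: hs) θ) z)
          * (∏ c' ∈ (p2Cls τ j b).erase c, (p2N B τ σ (h.lv θ) (p2L hs θ) (j + 1) c' z * (ghI B (h.lv θ) (p2L hs θ) z)⁻¹))
          * ((ghI B (h.lv θ) (p2L hs θ) z)⁻¹ * p2Nt B N τ σ h hs θ (j + 1) c q q' z)
      = p2Gt B N ((h :: hs).map P2Lv.m) τ σ (h :: hs) θ j b μ q q' z := by
  have hlen : j + hs.length + 1 = N := by simpa [add_assoc] using hN
  have hjN : j ≤ N := by omega
  have hq'b : q' ∉ insert q b := by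
    rw [Finset.mem_insert]; rintro (e | e)
    · exact hqq e.symm
    · exact hq' e
  have hD : j + 1 + (hs.map P2Lv.m).length + 1 = N + 1 := by simp; omega
  have hN' : j + ((hs.map P2Lv.m).length + 1) = N := by simp; omega
  have hdrd := p2_drd (a := B.a) (m := h.m) (ms := hs.map P2Lv.m) μ hN' htr hq hq' hqq
    (fun x i x' i' => ∑ t, ∑ t', p2V (h :: hs) (trAtt N q' (trAtt N q τ x i) x' i' q q' - j) t t' *
        p2U B (trAtt N q' (trAtt N q τ x i) x' i') (Function.update (Function.update σ q t) q' t') (p2L (h :: hs) θ) j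
          (insert q' (insert q b)) μ z)
    (by
      intro x i x' i' _ _ hle
      have : trAtt N q' (trAtt N q τ x i) x' i' q q' - j = 0 := by omega
      simp only [this, p2V_zero, zero_mul, Finset.sum_const_zero])
  unfold p2Gt
  simp only [List.map_cons]
  rw [hdrd, mul_add]
  congr 1
  · -- the new child
    have hrep : p2Rep b ∈ b ∨ b = ∅ := by
      rcases b.eq_empty_or_nonempty with e | e
      · exact Or.inr e
      · exact Or.inl (p2Rep_mem e)
    have htr0 : P2Tr (trAtt N q τ (p2Rep b) j) (insert q b) j (N + 1) := p2_att_tr htr hq hrep le_rfl (by omega)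
    have hcls : p2Cls (trAtt N q τ (p2Rep b) j) j (insert q b) = insert {q} (p2Cls τ j b) := p2_cls_new hq hjN
    have hqc : ({q} : Finset ℕ) ∈ p2Cls (trAtt N q τ (p2Rep b) j) j (insert q b) := by
      rw [hcls]; exact Finset.mem_insert_self _ _
    have ht1 : P2Tr (trAtt N q τ (p2Rep b) j) {q} (j + 1) (j + 1 + (hs.map P2Lv.m).length + 1) := by
      rw [hD]; exact (p2_cls_tr htr0 (by omega) hqc).1
    have hκ : ∀ t, Real.exp (μ * ghF B (p2L (h :: hs) θ) z) * (∏ c' ∈ (p2Cls (trAtt N q τ (p2Rep b) j) j (insert q b)).erase {q},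
        (p2N B (trAtt N q τ (p2Rep b) j) (Function.update σ q t) (h.lv θ) (p2L hs θ) (j + 1) c' z
          * (ghI B (h.lv θ) (p2L hs θ) z)⁻¹)) * (ghI B (h.lv θ) (p2L hs θ) z)⁻¹
        = Real.exp (μ * ghF B (p2L (h :: hs) θ) z) * (∏ c ∈ p2Cls τ j b,
          (p2N B τ σ (h.lv θ) (p2L hs θ) (j + 1) c z * (ghI B (h.lv θ) (p2L hs θ) z)⁻¹)) * (ghI B (h.lv θ) (p2L hs θ) z)⁻¹ := by
      intro t
      rw [hcls, Finset.erase_insert (p2_cls_new_not_mem hq)]
      congr 2
      refine Finset.prod_congr rfl fun c hc => ?_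
      have hcb := (p2_cls_tr htr (by omega) hc).2.1
      rw [p2N_old B τ _ _ _ _ _ (fun e => hq (hcb e)) (fun y hy => p2_upd_old hq t y (hcb hy))]
    have key : p2Row B.a (trAtt N q τ (p2Rep b) j) (hs.map P2Lv.m) h.m (j + 1) {q}
        (fun x' i' => ∑ t, ∑ t', p2V (h :: hs) (trAtt N q' (trAtt N q τ (p2Rep b) j) x' i' q q' - j) t t' *
          p2U B (trAtt N q' (trAtt N q τ (p2Rep b) j) x' i') (Function.update (Function.update σ q t) q' t')
            (p2L (h :: hs) θ) j (insert q' (insert q b)) μ z)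
        = (Real.exp (μ * ghF B (p2L (h :: hs) θ) z) * (∏ c ∈ p2Cls τ j b,
          (p2N B τ σ (h.lv θ) (p2L hs θ) (j + 1) c z * (ghI B (h.lv θ) (p2L hs θ) z)⁻¹)) * (ghI B (h.lv θ) (p2L hs θ) z)⁻¹)
          * p2Row B.a (trAtt N q τ 0 (j + 1)) (hs.map P2Lv.m) h.m (j + 1) (insert q ∅)
              (p2En B N (trAtt N q τ 0 (j + 1)) σ h hs θ (j + 1) (insert q ∅) q q' z) := by
      rw [insert_empty_eq, p2Row_congr_tab B.a (τ := trAtt N q τ 0 (j + 1)) (τ' := trAtt N q τ (p2Rep b) j) _ _ _ {q} _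
        (by
          intro x hx y hy
          rw [Finset.mem_singleton] at hx hy
          subst hx; subst hy
          simp [trAtt]), ← p2Row_smul ht1]
      refine p2Row_congr ht1 fun x' i' hs' => ?_
      have hx' : x' ∈ ({q} : Finset ℕ) := hs'.1.resolve_right (Finset.singleton_ne_empty q)
      rw [p2_entry hB h hs hoks hjN σ μ hqq hq'b htr0 hqc (Finset.mem_singleton_self q) hx'
        (by have := hs'.2.1; omega) θ z _ hκ]
      congr 1
      rw [Finset.mem_singleton] at hx'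
      subst hx'
      exact p2En_single B N σ h hs θ (j + 1) hqq (by simp [trAtt]) z i'
    rw [key]
    unfold p2At
    ring
  · -- the old children
    rw [Finset.mul_sum]
    refine Finset.sum_congr rfl fun c hc => ?_
    have hc3 := p2_cls_tr htr (by omega) hc
    have htc : P2Tr τ c (j + 1) (j + 1 + (hs.map P2Lv.m).length + 1) := by rw [hD]; exact hc3.1
    have key : p2Row B.a τ (hs.map P2Lv.m) h.m (j + 1) c (fun x i =>
          p2Row B.a (trAtt N q τ x i) (hs.map P2Lv.m) h.m (j + 1) (insert q c)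
            (fun x' i' => ∑ t, ∑ t', p2V (h :: hs) (trAtt N q' (trAtt N q τ x i) x' i' q q' - j) t t' *
              p2U B (trAtt N q' (trAtt N q τ x i) x' i') (Function.update (Function.update σ q t) q' t')
                (p2L (h :: hs) θ) j (insert q' (insert q b)) μ z))
        = (Real.exp (μ * ghF B (p2L (h :: hs) θ) z) * (∏ c' ∈ (p2Cls τ j b).erase c,
          (p2N B τ σ (h.lv θ) (p2L hs θ) (j + 1) c' z * (ghI B (h.lv θ) (p2L hs θ) z)⁻¹)) * (ghI B (h.lv θ) (p2L hs θ) z)⁻¹)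
          * p2Row B.a τ (hs.map P2Lv.m) h.m (j + 1) c (fun x i =>
              p2Row B.a (trAtt N q τ x i) (hs.map P2Lv.m) h.m (j + 1) (insert q c)
                (p2En B N (trAtt N q τ x i) σ h hs θ (j + 1) (insert q c) q q' z)) := by
      rw [← p2Row_smul htc]
      refine p2Row_congr htc fun x i hs1 => ?_
      have hx : x ∈ c := hs1.1.resolve_right hc3.2.2.ne_empty
      have hxb : x ∈ b := hc3.2.1 hx
      have hji : j < i := by have := hs1.2.1; omega
      have hiN : i ≤ N + 1 := by have := hs1.2.2; omega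
      have htr' : P2Tr (trAtt N q τ x i) (insert q b) j (N + 1) := p2_att_tr htr hq (Or.inl hxb) hji.le hiN
      have hcl := p2_cl_eq htr (by omega) hc hx
      have hcls : p2Cls (trAtt N q τ x i) j (insert q b) = insert (insert q c) ((p2Cls τ j b).erase c) := by
        have := p2_cls_in (i := i) htr hq hxb hji hjN
        rwa [hcl] at this
      have hnot : insert q c ∉ (p2Cls τ j b).erase c := by
        have := p2_cls_in_not_mem (τ := τ) (j := j) (x := x) hq
        rwa [hcl] at this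
      have hcc : insert q c ∈ p2Cls (trAtt N q τ x i) j (insert q b) := by
        rw [hcls]; exact Finset.mem_insert_self _ _
      have htc' : P2Tr (trAtt N q τ x i) (insert q c) (j + 1) (j + 1 + (hs.map P2Lv.m).length + 1) := by
        rw [hD]; exact (p2_cls_tr htr' (by omega) hcc).1
      have hκ : ∀ t, Real.exp (μ * ghF B (p2L (h :: hs) θ) z) * (∏ c' ∈ (p2Cls (trAtt N q τ x i) j (insert q b)).erase (insert q c),
          (p2N B (trAtt N q τ x i) (Function.update σ q t) (h.lv θ) (p2L hs θ) (j + 1) c' z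
            * (ghI B (h.lv θ) (p2L hs θ) z)⁻¹)) * (ghI B (h.lv θ) (p2L hs θ) z)⁻¹
          = Real.exp (μ * ghF B (p2L (h :: hs) θ) z) * (∏ c' ∈ (p2Cls τ j b).erase c,
            (p2N B τ σ (h.lv θ) (p2L hs θ) (j + 1) c' z * (ghI B (h.lv θ) (p2L hs θ) z)⁻¹)) * (ghI B (h.lv θ) (p2L hs θ) z)⁻¹ := by
        intro t
        rw [hcls, Finset.erase_insert hnot]
        congr 2
        refine Finset.prod_congr rfl fun c' hc' => ?_
        have hcb := (p2_cls_tr htr (by omega) (Finset.mem_of_mem_erase hc')).2.1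
        rw [p2N_old B τ _ _ _ _ _ (fun e => hq (hcb e)) (fun y hy => p2_upd_old hq t y (hcb hy))]
      rw [← p2Row_smul htc']
      refine p2Row_congr htc' fun x' i' hs2 => ?_
      have hx' : x' ∈ insert q c := hs2.1.resolve_right (Finset.insert_ne_empty q c)
      exact p2_entry hB h hs hoks hjN σ μ hqq hq'b htr' hcc (Finset.mem_insert_self q c) hx'
        (by have := hs2.2.1; omega) θ z _ hκ
    rw [key]
    unfold p2Nt
    ring


/-- step of the induction -/
theorem p2_main_cons {B : GhB S} (hB : B.Ok) (h : P2Lv S ι) (hok : h.Ok) (hs : List (P2Lv S ι)) (hoks : ∀ h' ∈ hs, h'.Ok)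
    (IH : P2Main B hs) : P2Main B (h :: hs) := by
  classical
  intro N j τ σ b μ q q' hN hq hq' hqq htr θ hθ z
  have hN1 : j + 1 + hs.length = N := by
    have : j + (hs.length + 1) = N := by simpa using hN
    omega
  have hF := p2F'_hasD hB h hok hs hoks IH hN1 τ σ hqq hθ z
  have hI := p2I_hasD hB h hok hs hoks IH hN1 τ σ hqq hθ z
  have hpos : 0 < ghI B (h.lv θ) (p2L hs θ) z := gh_b_I_pos hB (p2L_nn hoks θ) _ _
  have hJ : ∀ c ∈ p2Cls τ j b,
      P2HasD (fun p : ℝ × (S → ℝ) => p2N B τ σ (h.lv p.1) (p2L hs p.1) (j + 1) c p.2 * (ghI B (h.lv p.1) (p2L hs p.1) p.2)⁻¹)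
        ((ghI B (h.lv θ) (p2L hs θ) z)⁻¹ * p2Nt B N τ σ h hs θ (j + 1) c q q' z
          - h.m * ((ghI B (h.lv θ) (p2L hs θ) z)⁻¹ * p2At B N τ σ h hs θ (j + 1) q q' z)
            * (p2N B τ σ (h.lv θ) (p2L hs θ) (j + 1) c z * (ghI B (h.lv θ) (p2L hs θ) z)⁻¹))
        (fun t => (ghI B (h.lv θ) (p2L hs θ) z)⁻¹ * p2Nz B N τ σ h hs θ (j + 1) c q z t
          - h.m * ((ghI B (h.lv θ) (p2L hs θ) z)⁻¹ * p2Az B N τ σ h hs θ (j + 1) q z t)
            * (p2N B τ σ (h.lv θ) (p2L hs θ) (j + 1) c z * (ghI B (h.lv θ) (p2L hs θ) z)⁻¹)) (θ, z) := by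
    intro c hc
    have hc3 := p2_cls_tr htr (by omega) hc
    have hNc := p2N_hasD hB h hok hs hoks IH hN1 σ (c := c) (fun e => hq (hc3.2.1 e)) (fun e => hq' (hc3.2.1 e)) hqq hc3.1 hθ z
    refine (hNc.mul (hI.inv hpos.ne')).congr ?_ fun t => ?_
    · simp only; field_simp; ring
    · simp only; field_simp; ring
  have key := p2_node μ hF hJ
  have hfun : (fun p : ℝ × (S → ℝ) => p2U B τ σ (p2L (h :: hs) p.1) j b μ p.2)
      = fun x => Real.exp (μ * ghF B (p2L (h :: hs) x.1) x.2) * ∏ c ∈ p2Cls τ j b,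
          (p2N B τ σ (h.lv x.1) (p2L hs x.1) (j + 1) c x.2 * (ghI B (h.lv x.1) (p2L hs x.1) x.2)⁻¹) := by
    funext p
    exact p2U_cons hB τ σ (h.lv p.1) (p2L_nn hoks p.1) j b μ p.2
  rw [hfun]
  exact key.congr (p2_match_t hB h hs hoks hN σ μ hq hq' hqq htr θ z) fun t => p2_match_z hB h hs hoks hN σ μ hq htr θ z t

end Claimed.Agent.R286
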