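import Claimed.Agent.R286.Defs.Tr
import Claimed.Agent.R286.Defs.GhBasic

/-!
# Row 286 (S0533), package P02 = PE Prop 2.5 (formula (2)), source slots.   ENGINE VOCABULARY   (owner: helper299)

INTERNAL vocabulary of the proof of `tr_src_deriv`, `tr_cov_deriv`, `tr_pressure_deriv` (`Fd/TrC`); nobody outside `Fd/P02*` needs it.

* labels are natural numbers, a tree is a table `τ : ℕ → ℕ → ℕ` as in `Defs/Tr` (`τ x y` = number of shared stages, `N + 1` = coincide);
  a BLOCK of depth `j` is a finite set `b` of labels which share the stages `0, .., j-1`  (`P2Tr τ b j (N+1)`);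
* `p2W`   : weight of the spin configuration `σ` on the block `b` under the positive tree law started from the field `z`
            (recursion on the remaining levels, ONE-driver integrals only);
* `p2U`   : `exp (μ F) * W`, the unnormalised weight with incoming power `μ` (ANY real `μ`);
* `p2Row` : the signed row of the block `b` with incoming power `μ`, by recursion on the remaining masses
            (`Ψ x i` = value at the placement "follow `x` through `i` stages" = `trAtt N q τ x i`);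
* `P2Lv`  : a level whose coordinate variances are affine in `θ` (features may depend on the level; constant family: `p2Cst`);
* `P2HasD`: Fréchet derivative at `(θ, z)` given by its coordinates;
* `p2Gz, p2Gzz, p2Gt` : the coordinates of the derivatives of `p2U` (one label / two labels / formula (2)).
-/

set_option autoImplicit false

namespace Claimed.Agent.R286

open MeasureTheory ProbabilityTheory

/-! ### blocks and classes -/

/-- the labels of `b` which share the stage number `j` with `x` -/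
def p2Cl (τ : ℕ → ℕ → ℕ) (j : ℕ) (b : Finset ℕ) (x : ℕ) : Finset ℕ := b.filter fun y => j < τ x y

/-- the children of the block `b` of depth `j` -/
def p2Cls (τ : ℕ → ℕ → ℕ) (j : ℕ) (b : Finset ℕ) : Finset (Finset ℕ) := b.image (p2Cl τ j b)

/-- the anchor (least label) of a block -/
def p2Rep (b : Finset ℕ) : ℕ := if h : b.Nonempty then b.min' h else 0

/-- `b` is a block of depth `j` of the table `τ`; `D` = value of coincidence (`N + 1`) -/
structure P2Tr (τ : ℕ → ℕ → ℕ) (b : Finset ℕ) (j D : ℕ) : Prop where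
  diag : ∀ x ∈ b, τ x x = D
  le : ∀ x ∈ b, ∀ y ∈ b, τ x y ≤ D
  ge : ∀ x ∈ b, ∀ y ∈ b, j ≤ τ x y
  symm : ∀ x ∈ b, ∀ y ∈ b, τ x y = τ y x
  ultra : ∀ x ∈ b, ∀ y ∈ b, ∀ z ∈ b, min (τ x y) (τ y z) ≤ τ x z

/-- **signed row** of the block `b` of depth `j`, incoming power `μ`; the list = the masses of the remaining levels, `a` = terminal mass.
`Ψ x i` = value at the placement "follow `x` through `i` stages". -/
def p2Row (a : ℝ) (τ : ℕ → ℕ → ℕ) : List ℝ → ℝ → ℕ → Finset ℕ → (ℕ → ℕ → ℝ) → ℝ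
  | [], μ, j, b, Ψ => (μ - ((p2Cls τ j b).card : ℝ) * a) * Ψ (p2Rep b) j + a * ∑ c ∈ p2Cls τ j b, Ψ (p2Rep c) (j + 1)
  | m :: ms, μ, j, b, Ψ =>
      (μ - ((p2Cls τ j b).card : ℝ) * m) * Ψ (p2Rep b) j + ∑ c ∈ p2Cls τ j b, p2Row a τ ms m (j + 1) c Ψ

/-! ### weights -/

variable {S ι : Type} [Fintype S] [Fintype ι]

open Classical in
/-- weight of the spin configuration `σ` on the block `b` of depth `j`; the labels of `b` share the field `z` -/
noncomputable def p2W (B : GhB S) (τ : ℕ → ℕ → ℕ) (σ : ℕ → S) : List (GhLv S ι) → ℕ → Finset ℕ → (S → ℝ) → ℝ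
  | [], j, b, z => ∏ c ∈ p2Cls τ j b, ∑ t, ghGw B z t * (if ∀ x ∈ c, σ x = t then 1 else 0)
  | l :: ls, j, b, z => ∏ c ∈ p2Cls τ j b, ∫ ξ, ghD B l ls z ξ * p2W B τ σ ls (j + 1) c (z + l.inc ξ) ∂ghStd ι

/-- the unnormalised weight with incoming power `μ` -/
noncomputable def p2U (B : GhB S) (τ : ℕ → ℕ → ℕ) (σ : ℕ → S) (ls : List (GhLv S ι)) (j : ℕ) (b : Finset ℕ) (μ : ℝ)
    (z : S → ℝ) : ℝ :=
  Real.exp (μ * ghF B ls z) * p2W B τ σ ls j b z

/-! ### affine families of levels -/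

/-- a level with mass `m`, features `Φ` and coordinate variances `v i + θ * e i` -/
structure P2Lv (S ι : Type) where
  m : ℝ
  Φ : S → ι → ℝ
  v : ι → ℝ
  e : ι → ℝ

/-- mass `≥ 0`, variances nonnegative on `[0,1]` -/
structure P2Lv.Ok (h : P2Lv S ι) : Prop where
  m0 : 0 ≤ h.m
  v0 : ∀ i, 0 ≤ h.v i
  v1 : ∀ i, 0 ≤ h.v i + h.e i

/-- the level at the parameter `θ` -/
noncomputable def P2Lv.lv (h : P2Lv S ι) (θ : ℝ) : GhLv S ι := ghLvF h.Φ h.m fun i => h.v i + θ * h.e i

/-- the hierarchy at the parameter `θ` -/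
noncomputable def p2L (hs : List (P2Lv S ι)) (θ : ℝ) : List (GhLv S ι) := hs.map fun h => h.lv θ

/-- derivative of the covariance increment -/
def P2Lv.dK (h : P2Lv S ι) (s t : S) : ℝ := ∑ i, h.e i * h.Φ s i * h.Φ t i

/-- derivative of the covariance accumulated on the first `r` of the remaining levels -/
def p2V : List (P2Lv S ι) → ℕ → S → S → ℝ
  | [], _, _, _ => 0
  | _ :: _, 0, _, _ => 0
  | h :: hs, r + 1, s, t => h.dK s t + p2V hs r s t

/-- a constant family -/
def p2Cst (l : GhLv S ι) : P2Lv S ι := ⟨l.m, l.A, fun _ => 1, fun _ => 0⟩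

/-! ### the derivatives -/

/-- the linear form on `ℝ × (S → ℝ)` with the coordinates `a` and `g t` -/
noncomputable def p2Lin (a : ℝ) (g : S → ℝ) : ℝ × (S → ℝ) →L[ℝ] ℝ :=
  a • ContinuousLinearMap.fst ℝ ℝ (S → ℝ)
    + ∑ t, g t • ((ContinuousLinearMap.proj t : (S → ℝ) →L[ℝ] ℝ).comp (ContinuousLinearMap.snd ℝ ℝ (S → ℝ)))

/-- "`G` has at `p = (θ, z)` the partial derivatives `Gθ` and `Gz t`", as a Fréchet derivative -/
def P2HasD (G : ℝ × (S → ℝ) → ℝ) (Gθ : ℝ) (Gz : S → ℝ) (p : ℝ × (S → ℝ)) : Prop := HasFDerivAt G (p2Lin Gθ Gz) p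

/-- source derivative of `p2U` in the coordinate `t`: one new label `q` with the spin `t` -/
noncomputable def p2Gz (B : GhB S) (N : ℕ) (ms : List ℝ) (τ : ℕ → ℕ → ℕ) (σ : ℕ → S) (ls : List (GhLv S ι)) (j : ℕ)
    (b : Finset ℕ) (μ : ℝ) (q : ℕ) (z : S → ℝ) (t : S) : ℝ :=
  p2Row B.a τ ms μ j b fun x i => p2U B (trAtt N q τ x i) (Function.update σ q t) ls j (insert q b) μ z

/-- second source derivative: two new labels `q, q'` with the spins `t, t'` -/
noncomputable def p2Gzz (B : GhB S) (N : ℕ) (ms : List ℝ) (τ : ℕ → ℕ → ℕ) (σ : ℕ → S) (ls : List (GhLv S ι)) (j : ℕ)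
    (b : Finset ℕ) (μ : ℝ) (q q' : ℕ) (z : S → ℝ) (t t' : S) : ℝ :=
  p2Row B.a τ ms μ j b fun x i => p2Gz B N ms (trAtt N q τ x i) (Function.update σ q t) ls j (insert q b) μ q' z t'

/-- derivative of `p2U` in `θ`: right side of formula (2) for the block -/
noncomputable def p2Gt (B : GhB S) (N : ℕ) (ms : List ℝ) (τ : ℕ → ℕ → ℕ) (σ : ℕ → S) (hs : List (P2Lv S ι)) (θ : ℝ) (j : ℕ)
    (b : Finset ℕ) (μ : ℝ) (q q' : ℕ) (z : S → ℝ) : ℝ :=
  (1 / 2) * p2Row B.a τ ms μ j b fun x i =>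
    p2Row B.a (trAtt N q τ x i) ms μ j (insert q b) fun x' i' =>
      ∑ t, ∑ t', p2V hs (trAtt N q' (trAtt N q τ x i) x' i' q q' - j) t t' *
        p2U B (trAtt N q' (trAtt N q τ x i) x' i') (Function.update (Function.update σ q t) q' t') (p2L hs θ) j
          (insert q' (insert q b)) μ z

/-- the statement proved by induction on the list of the remaining levels -/
def P2Main (B : GhB S) (hs : List (P2Lv S ι)) : Prop :=
  ∀ (N j : ℕ) (τ : ℕ → ℕ → ℕ) (σ : ℕ → S) (b : Finset ℕ) (μ : ℝ) (q q' : ℕ), j + hs.length = N → q ∉ b → q' ∉ b → q ≠ q' →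
    P2Tr τ b j (N + 1) → ∀ θ ∈ Set.Ioo (0 : ℝ) 1, ∀ z : S → ℝ,
      P2HasD (fun p => p2U B τ σ (p2L hs p.1) j b μ p.2)
        (p2Gt B N (hs.map P2Lv.m) τ σ hs θ j b μ q q' z) (p2Gz B N (hs.map P2Lv.m) τ σ (p2L hs θ) j b μ q z) (θ, z)

end Claimed.Agent.R286
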