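import Claimed.Agent.R286.Fd.P02ConsC

/-!
# Row 286 (S0533), P02 engine: THE INDUCTION (source formula + formula (2) for blocks)   (owner: helper299)

`p2_main : P2Main B hs` : for every block `b` of depth `j`, every table, every configuration, EVERY real incoming power `μ`,
`(θ, z) ↦ p2U = exp (μ F) * W` is Fréchet differentiable at every `(θ, z)`, `θ ∈ (0,1)`, with the coordinates
`p2Gt` (two signed rows, insertion `V` = formula (2)) and `p2Gz` (one signed row = source formula).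
`b = ∅, μ = 1` gives the derivatives of the continuation `F` (pressure derivative, `∇F` = path weights).
A constant family (`p2Cst`) gives the source formula for an arbitrary hierarchy.
-/

set_option autoImplicit false

namespace Claimed.Agent.R286

open MeasureTheory ProbabilityTheory Filter Topology

variable {S ι : Type} [Fintype S] [Fintype ι]

/-- **the engine** -/
theorem p2_main {B : GhB S} (hB : B.Ok) : ∀ (hs : List (P2Lv S ι)), (∀ h ∈ hs, h.Ok) → P2Main B hs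
  | [], _ => p2_main_nil hB
  | h :: hs, hok => p2_main_cons hB h (hok h List.mem_cons_self) hs (fun h' hh' => hok h' (List.mem_cons_of_mem _ hh'))
      (p2_main hB hs fun h' hh' => hok h' (List.mem_cons_of_mem _ hh'))

/-! ### continuity up to the end points   (prover helper125; helpers: prefix `p2c_`, `P2Cont`, `p2cR`) -/

omit [Fintype S] in
/-- the field increment is jointly continuous in the parameter (all `θ`: `√` is continuous on `ℝ`) -/
theorem p2c_inc_cont (h : P2Lv S ι) (ξ : ι → ℝ) : Continuous fun θ : ℝ => (h.lv θ).inc ξ := by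
  refine continuous_pi fun s => ?_
  simp only [GhLv.inc, P2Lv.lv, ghLvF]
  fun_prop

/-- crude size of the levels of the family, uniform on `[0,1]` -/
noncomputable def p2cR (h : P2Lv S ι) : ℝ := ∑ s, ∑ i, Real.sqrt (|h.v i| + |h.e i|) * |h.Φ s i|

theorem p2c_R_nonneg (h : P2Lv S ι) : 0 ≤ p2cR h :=
  Finset.sum_nonneg fun _ _ => Finset.sum_nonneg fun _ _ => by positivity

theorem p2c_nrm_le (h : P2Lv S ι) {θ : ℝ} (hθ : θ ∈ Set.Icc (0 : ℝ) 1) : (h.lv θ).nrm ≤ p2cR h := by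
  unfold GhLv.nrm p2cR
  refine Finset.sum_le_sum fun s _ => Finset.sum_le_sum fun i _ => ?_
  simp only [P2Lv.lv, ghLvF]
  rw [abs_mul, abs_of_nonneg (Real.sqrt_nonneg _)]
  refine mul_le_mul_of_nonneg_right (Real.sqrt_le_sqrt ?_) (abs_nonneg _)
  have h1 : θ * h.e i ≤ |h.e i| := by
    calc θ * h.e i ≤ |θ * h.e i| := le_abs_self _
      _ = θ * |h.e i| := by rw [abs_mul, abs_of_nonneg hθ.1]
      _ ≤ 1 * |h.e i| := mul_le_mul_of_nonneg_right hθ.2 (abs_nonneg _)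
      _ = _ := one_mul _
  linarith [le_abs_self (h.v i)]

theorem p2c_inc_norm_le (h : P2Lv S ι) {θ : ℝ} (hθ : θ ∈ Set.Icc (0 : ℝ) 1) (ξ : ι → ℝ) :
    ‖(h.lv θ).inc ξ‖ ≤ p2cR h * ∑ i, |ξ i| := by
  have h0 : 0 ≤ ∑ i, |ξ i| := Finset.sum_nonneg fun _ _ => abs_nonneg _
  refine (pi_norm_le_iff_of_nonneg (mul_nonneg (p2c_R_nonneg h) h0)).2 fun s => ?_
  rw [Real.norm_eq_abs]
  exact (gh_b_inc_le _ ξ s).trans (mul_le_mul_of_nonneg_right (p2c_nrm_le h hθ) h0)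

/-- **continuity of a Gaussian average along the family**, up to the end points -/
theorem p2c_K (h : P2Lv S ι) (G : ℝ × (S → ℝ) → ℝ) (hG : ContinuousOn G (Set.Icc (0 : ℝ) 1 ×ˢ Set.univ)) (C c : ℝ)
    (hb : ∀ θ ∈ Set.Icc (0 : ℝ) 1, ∀ y, |G (θ, y)| ≤ C * Real.exp (c * ‖y‖)) :
    ContinuousOn (fun p : ℝ × (S → ℝ) => ∫ ξ, G (p.1, p.2 + (h.lv p.1).inc ξ) ∂ghStd ι)
      (Set.Icc (0 : ℝ) 1 ×ˢ Set.univ) := by
  intro p₀ hp₀
  have hφ : ∀ ξ : ι → ℝ, Continuous fun p : ℝ × (S → ℝ) => (p.1, p.2 + (h.lv p.1).inc ξ) := fun ξ =>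
    continuous_fst.prodMk (continuous_snd.add ((p2c_inc_cont h ξ).comp continuous_fst))
  have hmaps : ∀ ξ : ι → ℝ, Set.MapsTo (fun p : ℝ × (S → ℝ) => (p.1, p.2 + (h.lv p.1).inc ξ))
      (Set.Icc (0 : ℝ) 1 ×ˢ Set.univ) (Set.Icc (0 : ℝ) 1 ×ˢ Set.univ) := fun ξ p hp => ⟨hp.1, trivial⟩
  have hmem : ∀ᶠ p in 𝓝[Set.Icc (0 : ℝ) 1 ×ˢ Set.univ] p₀, p ∈ Set.Icc (0 : ℝ) 1 ×ˢ (Set.univ : Set (S → ℝ)) :=
    self_mem_nhdsWithin
  have hnear : ∀ᶠ p in 𝓝[Set.Icc (0 : ℝ) 1 ×ˢ Set.univ] p₀, ‖p.2‖ ≤ ‖p₀.2‖ + 1 := by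
    have h1 : ContinuousAt (fun p : ℝ × (S → ℝ) => ‖p.2‖) p₀ := continuous_snd.norm.continuousAt
    exact nhdsWithin_le_nhds (h1.eventually (ge_mem_nhds (lt_add_one ‖p₀.2‖)))
  refine continuousWithinAt_of_dominated
    (bound := fun ξ => |C| * Real.exp (|c| * (‖p₀.2‖ + 1)) * Real.exp (|c| * p2cR h * ∑ i, |ξ i|)) ?_ ?_ ?_ ?_
  · filter_upwards [hmem] with p hp
    have : Continuous fun ξ : ι → ℝ => G (p.1, p.2 + (h.lv p.1).inc ξ) :=
      hG.comp_continuous (continuous_const.prodMk (continuous_const.add (gh_b_inc_continuous _)))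
        fun ξ => ⟨hp.1, trivial⟩
    exact this.aestronglyMeasurable
  · filter_upwards [hmem, hnear] with p hp hp2
    refine Eventually.of_forall fun ξ => ?_
    rw [Real.norm_eq_abs]
    have h1 := hb p.1 hp.1 (p.2 + (h.lv p.1).inc ξ)
    have h2 : ‖p.2 + (h.lv p.1).inc ξ‖ ≤ (‖p₀.2‖ + 1) + p2cR h * ∑ i, |ξ i| :=
      (norm_add_le _ _).trans (add_le_add hp2 (p2c_inc_norm_le h hp.1 ξ))
    calc |G (p.1, p.2 + (h.lv p.1).inc ξ)| ≤ C * Real.exp (c * ‖p.2 + (h.lv p.1).inc ξ‖) := h1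
      _ ≤ |C| * Real.exp (|c| * ((‖p₀.2‖ + 1) + p2cR h * ∑ i, |ξ i|)) := by
          refine mul_le_mul (le_abs_self C) (Real.exp_le_exp.2 ?_) (Real.exp_pos _).le (abs_nonneg _)
          calc c * ‖p.2 + (h.lv p.1).inc ξ‖ ≤ |c| * ‖p.2 + (h.lv p.1).inc ξ‖ :=
                mul_le_mul_of_nonneg_right (le_abs_self c) (norm_nonneg _)
            _ ≤ _ := mul_le_mul_of_nonneg_left h2 (abs_nonneg _)
      _ = _ := by rw [mul_add, Real.exp_add]; ring_nf
  · exact (gh_b_exp_l1 (|c| * p2cR h)).const_mul _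
  · refine Eventually.of_forall fun ξ => ?_
    exact (hG.comp (hφ ξ).continuousOn (hmaps ξ)) p₀ hp₀

/-- the statement proved by induction on the list -/
def P2Cont (B : GhB S) (hs : List (P2Lv S ι)) : Prop :=
  ContinuousOn (fun p : ℝ × (S → ℝ) => ghF B (p2L hs p.1) p.2) (Set.Icc (0 : ℝ) 1 ×ˢ Set.univ) ∧
  ∀ (τ : ℕ → ℕ → ℕ) (σ : ℕ → S) (j : ℕ) (b : Finset ℕ) (μ : ℝ),
    ContinuousOn (fun p : ℝ × (S → ℝ) => p2U B τ σ (p2L hs p.1) j b μ p.2) (Set.Icc (0 : ℝ) 1 ×ˢ Set.univ)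

theorem p2c_nil {B : GhB S} (hB : B.Ok) : P2Cont B ([] : List (P2Lv S ι)) := by
  classical
  have hF : Continuous fun p : ℝ × (S → ℝ) => ghF B (p2L ([] : List (P2Lv S ι)) p.1) p.2 :=
    (gh_b_continuous hB (gh_b_nn_nil (S := S) (ι := ι))).comp continuous_snd
  refine ⟨hF.continuousOn, fun τ σ j b μ => Continuous.continuousOn ?_⟩
  unfold p2U
  refine (Real.continuous_exp.comp (continuous_const.mul hF)).mul ?_
  simp only [p2L, List.map_nil, p2W]
  refine continuous_finsetProd _ fun c _ => continuous_finsetSum _ fun t _ => ?_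
  exact ((gh_b_Gw_continuous hB t).comp continuous_snd).mul continuous_const

/-- bound of `F_θ (0)` on `[0,1]` -/
theorem p2c_F0_bdd {B : GhB S} {hs : List (P2Lv S ι)} (IH : P2Cont B hs) :
    ∃ M : ℝ, 0 ≤ M ∧ ∀ θ ∈ Set.Icc (0 : ℝ) 1, |ghF B (p2L hs θ) 0| ≤ M := by
  have hc : ContinuousOn (fun θ : ℝ => ghF B (p2L hs θ) 0) (Set.Icc (0 : ℝ) 1) :=
    IH.1.comp (f := fun θ : ℝ => ((θ, 0) : ℝ × (S → ℝ))) (by fun_prop) fun θ hθ => ⟨hθ, trivial⟩
  obtain ⟨M, hM⟩ := isCompact_Icc.exists_bound_of_continuousOn hc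
  refine ⟨|M|, abs_nonneg _, fun θ hθ => ?_⟩
  have := hM θ hθ
  rw [Real.norm_eq_abs] at this
  exact this.trans (le_abs_self M)

/-- the children integrals are continuous -/
theorem p2c_N {B : GhB S} (hB : B.Ok) (h : P2Lv S ι) {hs : List (P2Lv S ι)} (hoks : ∀ h' ∈ hs, h'.Ok) (IH : P2Cont B hs)
    (τ : ℕ → ℕ → ℕ) (σ : ℕ → S) (j : ℕ) (c : Finset ℕ) :
    ContinuousOn (fun p : ℝ × (S → ℝ) => p2N B τ σ (h.lv p.1) (p2L hs p.1) j c p.2) (Set.Icc (0 : ℝ) 1 ×ˢ Set.univ) := by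
  obtain ⟨M, hM0, hM⟩ := p2c_F0_bdd IH
  unfold p2N
  refine p2c_K h (fun p => p2U B τ σ (p2L hs p.1) j c h.m p.2) (IH.2 τ σ j c h.m) (Real.exp (|h.m| * M)) |h.m| ?_
  intro θ hθ y
  refine (p2U_abs_le hB τ σ (p2L_nn hoks θ) j c h.m y).trans ?_
  refine mul_le_mul_of_nonneg_right (Real.exp_le_exp.2 ?_) (Real.exp_pos _).le
  exact mul_le_mul_of_nonneg_left (hM θ hθ) (abs_nonneg _)

theorem p2c_cons {B : GhB S} (hB : B.Ok) (h : P2Lv S ι) {hs : List (P2Lv S ι)} (hoks : ∀ h' ∈ hs, h'.Ok) (IH : P2Cont B hs) :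
    P2Cont B (h :: hs) := by
  have hL : ∀ θ, p2L (h :: hs) θ = h.lv θ :: p2L hs θ := fun θ => rfl
  have hne : Nonempty S := by
    by_contra hne
    rw [not_nonempty_iff] at hne
    have := hB.sum
    simp at this
  have hI : ContinuousOn (fun p : ℝ × (S → ℝ) => ghI B (h.lv p.1) (p2L hs p.1) p.2) (Set.Icc (0 : ℝ) 1 ×ˢ Set.univ) := by
    have := p2c_N hB h hoks IH (fun _ _ => 0) (fun _ => Classical.arbitrary S) 0 ∅
    simpa only [p2N_empty] using this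
  have hIpos : ∀ p : ℝ × (S → ℝ), 0 < ghI B (h.lv p.1) (p2L hs p.1) p.2 := fun p => gh_b_I_pos hB (p2L_nn hoks p.1) _ _
  have hF : ContinuousOn (fun p : ℝ × (S → ℝ) => ghF B (p2L (h :: hs) p.1) p.2) (Set.Icc (0 : ℝ) 1 ×ˢ Set.univ) := by
    simp only [hL]
    by_cases hm : h.m = 0
    · have hm' : ∀ θ, (h.lv θ).m = 0 := fun θ => hm
      simp only [gh_b_F_cons_zero (hm' _)]
      obtain ⟨M, hM0, hM⟩ := p2c_F0_bdd IH
      refine p2c_K h (fun p => ghF B (p2L hs p.1) p.2) IH.1 (M + 1) 1 ?_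
      intro θ hθ y
      have h2 := gh_b_lip hB (p2L_nn hoks θ) y 0
      rw [sub_zero] at h2
      have h3 := abs_sub_abs_le_abs_sub (ghF B (p2L hs θ) y) (ghF B (p2L hs θ) 0)
      have h4 := Real.add_one_le_exp (1 * ‖y‖)
      have h5 : 1 ≤ Real.exp (1 * ‖y‖) := Real.one_le_exp (by positivity)
      have h6 := hM θ hθ
      nlinarith
    · have hm' : ∀ θ, (h.lv θ).m ≠ 0 := fun θ => hm
      simp only [gh_b_F_cons (hm' _)]
      have hmm : ∀ θ, (h.lv θ).m = h.m := fun θ => rfl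
      simp only [hmm]
      exact (continuousOn_const (c := h.m⁻¹)).mul (hI.log fun p _ => (hIpos p).ne')
  refine ⟨hF, fun τ σ j b μ => ?_⟩
  simp only [hL, p2U_cons hB τ σ _ (p2L_nn hoks _)]
  simp only [hL] at hF
  refine (Real.continuous_exp.comp_continuousOn (continuousOn_const.mul hF)).mul ?_
  refine continuousOn_finsetProd _ fun c _ => ?_
  exact (p2c_N hB h hoks IH τ σ (j + 1) c).mul (hI.inv₀ fun p _ => (hIpos p).ne')

theorem p2c_main {B : GhB S} (hB : B.Ok) : ∀ (hs : List (P2Lv S ι)), (∀ h ∈ hs, h.Ok) → P2Cont B hs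
  | [], _ => p2c_nil hB
  | h :: hs, hok => p2c_cons hB h (fun h' hh' => hok h' (List.mem_cons_of_mem _ hh'))
      (p2c_main hB hs fun h' hh' => hok h' (List.mem_cons_of_mem _ hh'))

/-- joint continuity up to the end points `θ = 0, 1` (dominated convergence, induction on the list; no tree hypothesis) -/
theorem p2_cont {B : GhB S} (hB : B.Ok) (hs : List (P2Lv S ι)) (hok : ∀ h ∈ hs, h.Ok) (τ : ℕ → ℕ → ℕ) (σ : ℕ → S) (j : ℕ)
    (b : Finset ℕ) (μ : ℝ) :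
    ContinuousOn (fun p : ℝ × (S → ℝ) => p2U B τ σ (p2L hs p.1) j b μ p.2) (Set.Icc (0 : ℝ) 1 ×ˢ Set.univ) :=
  (p2c_main hB hs hok).2 τ σ j b μ

/-- the continuation is jointly continuous up to the end points -/
theorem p2c_F_cont {B : GhB S} (hB : B.Ok) (hs : List (P2Lv S ι)) (hok : ∀ h ∈ hs, h.Ok) :
    ContinuousOn (fun p : ℝ × (S → ℝ) => ghF B (p2L hs p.1) p.2) (Set.Icc (0 : ℝ) 1 ×ˢ Set.univ) :=
  (p2c_main hB hs hok).1

end Claimed.Agent.R286
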