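import Claimed.Agent.R286.Fd.P02Row

/-!
# Row 286 (S0533), P02 engine: product rule at a node, products over the classes of an extended block, BASE of the induction   (owner: helper299)
-/

set_option autoImplicit false

namespace Claimed.Agent.R286

open MeasureTheory ProbabilityTheory Filter Topology

variable {S ι : Type} [Fintype S] [Fintype ι]


open Classical in
theorem p2HasD_coord (s : S) (p : ℝ × (S → ℝ)) : P2HasD (fun x => x.2 s) 0 (fun t => if t = s then 1 else 0) p := by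
  unfold P2HasD
  have h : HasFDerivAt (fun x : ℝ × (S → ℝ) => x.2 s)
      ((ContinuousLinearMap.proj s : (S → ℝ) →L[ℝ] ℝ).comp (ContinuousLinearMap.snd ℝ ℝ (S → ℝ))) p :=
    ((ContinuousLinearMap.proj s : (S → ℝ) →L[ℝ] ℝ).comp (ContinuousLinearMap.snd ℝ ℝ (S → ℝ))).hasFDerivAt
  refine h.congr_fderiv ?_
  ext x <;> simp [p2Lin_apply]

/-- the terminal partition function -/
theorem p2HasD_Z (B : GhB S) (p : ℝ × (S → ℝ)) :
    P2HasD (fun x => ∑ s, B.w s * Real.exp (B.a * x.2 s)) 0 (fun t => B.a * (B.w t * Real.exp (B.a * p.2 t))) p := by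
  classical
  have h : ∀ s ∈ (Finset.univ : Finset S), P2HasD (fun x : ℝ × (S → ℝ) => B.w s * Real.exp (B.a * x.2 s))
      (B.w s * (Real.exp (B.a * p.2 s) * (B.a * 0)))
      (fun t => B.w s * (Real.exp (B.a * p.2 s) * (B.a * (if t = s then 1 else 0)))) p :=
    fun s _ => (((p2HasD_coord s p).const_mul B.a).exp).const_mul (B.w s)
  refine (P2HasD.sum h).congr (by simp) fun t => ?_
  simp only [mul_ite, mul_one, mul_zero, Finset.sum_ite_eq, Finset.mem_univ, if_true]
  ring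

theorem p2HasD_F0 {B : GhB S} (hB : B.Ok) (p : ℝ × (S → ℝ)) :
    P2HasD (fun x => ghF0 B x.2) 0 (fun t => ghGw B p.2 t) p := by
  unfold ghF0
  refine (((p2HasD_Z B p).log (gh_b_Z_pos hB p.2).ne').const_mul B.a⁻¹).congr (by simp) fun t => ?_
  unfold ghGw
  have := hB.pos.ne'
  have := (gh_b_Z_pos hB p.2).ne'
  field_simp

open Classical in
theorem p2HasD_Gw {B : GhB S} (hB : B.Ok) (s : S) (p : ℝ × (S → ℝ)) :
    P2HasD (fun x => ghGw B x.2 s) 0 (fun t => B.a * (ghGw B p.2 s * ((if t = s then 1 else 0) - ghGw B p.2 t))) p := by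
  unfold ghGw
  have h1 : P2HasD (fun x : ℝ × (S → ℝ) => B.w s * Real.exp (B.a * x.2 s))
      (B.w s * (Real.exp (B.a * p.2 s) * (B.a * 0)))
      (fun t => B.w s * (Real.exp (B.a * p.2 s) * (B.a * (if t = s then 1 else 0)))) p :=
    (((p2HasD_coord s p).const_mul B.a).exp).const_mul (B.w s)
  have h2 := (p2HasD_Z B p).inv (gh_b_Z_pos hB p.2).ne'
  simp only [div_eq_mul_inv]
  refine (h1.mul h2).congr (by simp) fun t => ?_
  have := (gh_b_Z_pos hB p.2).ne'
  field_simp
  ring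



theorem p2_node_alg {κ : Type} [DecidableEq κ] (C : Finset κ) (J R : κ → ℝ) (E μ m f : ℝ) :
    E * (∑ c ∈ C, (∏ c' ∈ C.erase c, J c') * (R c - m * f * J c)) + (∏ c ∈ C, J c) * (E * (μ * f))
      = (μ - C.card * m) * (f * (E * ∏ c ∈ C, J c)) + ∑ c ∈ C, E * (∏ c' ∈ C.erase c, J c') * R c := by
  have h1 : ∀ c ∈ C, (∏ c' ∈ C.erase c, J c') * (R c - m * f * J c)
      = (∏ c' ∈ C.erase c, J c') * R c - m * f * ∏ c' ∈ C, J c' := by
    intro c hc
    rw [← Finset.prod_erase_mul C J hc]; ring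
  rw [Finset.sum_congr rfl h1, Finset.sum_sub_distrib, Finset.sum_const, nsmul_eq_mul, mul_sub, Finset.mul_sum]
  have h2 : ∀ c ∈ C, E * ((∏ c' ∈ C.erase c, J c') * R c) = E * (∏ c' ∈ C.erase c, J c') * R c := fun c _ => by ring
  rw [Finset.sum_congr rfl h2]
  ring

/-- **product rule at a node**: `exp (μ F) ∏ J_c` with `∂ J_c = R_c - m ∂F J_c` -/
theorem p2_node {κ : Type} [DecidableEq κ] {C : Finset κ} {F : ℝ × (S → ℝ) → ℝ} {J : κ → ℝ × (S → ℝ) → ℝ} {Fθ : ℝ} {Fz : S → ℝ}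
    {Rθ : κ → ℝ} {Rz : κ → S → ℝ} {m : ℝ} (μ : ℝ) {p : ℝ × (S → ℝ)} (hF : P2HasD F Fθ Fz p)
    (hJ : ∀ c ∈ C, P2HasD (J c) (Rθ c - m * Fθ * J c p) (fun t => Rz c t - m * Fz t * J c p) p) :
    P2HasD (fun x => Real.exp (μ * F x) * ∏ c ∈ C, J c x)
      ((μ - C.card * m) * (Fθ * (Real.exp (μ * F p) * ∏ c ∈ C, J c p))
        + ∑ c ∈ C, Real.exp (μ * F p) * (∏ c' ∈ C.erase c, J c' p) * Rθ c)
      (fun t => (μ - C.card * m) * (Fz t * (Real.exp (μ * F p) * ∏ c ∈ C, J c p))
        + ∑ c ∈ C, Real.exp (μ * F p) * (∏ c' ∈ C.erase c, J c' p) * Rz c t) p :=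
  (((hF.const_mul μ).exp).mul (P2HasD.prod hJ)).congr (p2_node_alg C _ _ _ _ _ _) fun _ => p2_node_alg C _ _ _ _ _ _



theorem p2_prod_new {τ : ℕ → ℕ → ℕ} {b : Finset ℕ} {j N q : ℕ} (x : ℕ) (hq : q ∉ b) (hjN : j ≤ N) (f : Finset ℕ → ℝ) :
    ∏ c ∈ p2Cls (trAtt N q τ x j) j (insert q b), f c = f {q} * ∏ c ∈ p2Cls τ j b, f c := by
  rw [p2_cls_new hq hjN, Finset.prod_insert (p2_cls_new_not_mem hq)]

theorem p2_prod_in {τ : ℕ → ℕ → ℕ} {b c : Finset ℕ} {j N q x i : ℕ} (h : P2Tr τ b j (N + 1)) (hq : q ∉ b)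
    (hc : c ∈ p2Cls τ j b) (hx : x ∈ c) (hji : j < i) (hjN : j ≤ N) (f : Finset ℕ → ℝ) :
    ∏ c' ∈ p2Cls (trAtt N q τ x i) j (insert q b), f c' = f (insert q c) * ∏ c' ∈ (p2Cls τ j b).erase c, f c' := by
  have hjD : j < N + 1 := by omega
  have hxb : x ∈ b := (p2_cls_tr h hjD hc).2.1 hx
  have e := p2_cl_eq h hjD hc hx
  have h1 := p2_cls_in (i := i) h hq hxb hji hjN
  have h2 := p2_cls_in_not_mem (τ := τ) (j := j) (x := x) hq
  rw [e] at h1 h2
  rw [h1, Finset.prod_insert h2]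

open Classical in
/-- terminal factor of a class -/
noncomputable def p2g (B : GhB S) (σ : ℕ → S) (c : Finset ℕ) (z : S → ℝ) : ℝ :=
  ∑ t, ghGw B z t * (if ∀ x ∈ c, σ x = t then 1 else 0)

theorem p2W_nil (B : GhB S) (τ : ℕ → ℕ → ℕ) (σ : ℕ → S) (j : ℕ) (b : Finset ℕ) (z : S → ℝ) :
    p2W B τ σ ([] : List (GhLv S ι)) j b z = ∏ c ∈ p2Cls τ j b, p2g B σ c z := by
  simp only [p2W, p2g]

theorem p2g_singleton (B : GhB S) (σ : ℕ → S) (q : ℕ) (t' : S) (z : S → ℝ) :
    p2g B (Function.update σ q t') {q} z = ghGw B z t' := by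
  classical
  simp [p2g]

theorem p2g_old (B : GhB S) (σ : ℕ → S) {q : ℕ} {c : Finset ℕ} (hq : q ∉ c) (t' : S) (z : S → ℝ) :
    p2g B (Function.update σ q t') c z = p2g B σ c z := by
  classical
  unfold p2g
  refine Finset.sum_congr rfl fun t _ => ?_
  have : (∀ x ∈ c, Function.update σ q t' x = t) ↔ ∀ x ∈ c, σ x = t := by
    refine forall₂_congr fun x hx => ?_
    rw [Function.update_of_ne (fun h : x = q => hq (h ▸ hx))]
  simp only [this]

open Classical in
theorem p2g_insert (B : GhB S) (σ : ℕ → S) {q : ℕ} {c : Finset ℕ} (hq : q ∉ c) (t' : S) (z : S → ℝ) :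
    p2g B (Function.update σ q t') (insert q c) z = ghGw B z t' * (if ∀ x ∈ c, σ x = t' then 1 else 0) := by
  unfold p2g
  rw [Finset.sum_eq_single t']
  · congr 1
    have : (∀ x ∈ insert q c, Function.update σ q t' x = t') ↔ ∀ x ∈ c, σ x = t' := by
      rw [Finset.forall_mem_insert]
      simp only [Function.update_self, true_and]
      refine forall₂_congr fun x hx => ?_
      rw [Function.update_of_ne (fun h : x = q => hq (h ▸ hx))]
    simp only [this]
  · intro t _ ht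
    rw [if_neg, mul_zero]
    intro hall
    have := hall q (Finset.mem_insert_self _ _)
    rw [Function.update_self] at this
    exact ht this.symm
  · intro h; exact absurd (Finset.mem_univ _) h


open Classical in
theorem p2HasD_g {B : GhB S} (hB : B.Ok) (σ : ℕ → S) (c : Finset ℕ) (p : ℝ × (S → ℝ)) :
    P2HasD (fun x => p2g B σ c x.2) (0 - B.a * 0 * p2g B σ c p.2)
      (fun t' => B.a * (ghGw B p.2 t' * (if ∀ x ∈ c, σ x = t' then 1 else 0)) - B.a * ghGw B p.2 t' * p2g B σ c p.2) p := by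
  unfold p2g
  have h : ∀ t ∈ (Finset.univ : Finset S), P2HasD (fun x : ℝ × (S → ℝ) => ghGw B x.2 t * (if ∀ x ∈ c, σ x = t then 1 else 0))
      ((if ∀ x ∈ c, σ x = t then 1 else 0) * 0)
      (fun t' => (if ∀ x ∈ c, σ x = t then 1 else 0) * (B.a * (ghGw B p.2 t * ((if t' = t then 1 else 0) - ghGw B p.2 t')))) p := by
    intro t _
    have := (p2HasD_Gw hB t p).const_mul (if ∀ x ∈ c, σ x = t then 1 else 0)
    simpa only [mul_comm] using this
  refine (P2HasD.sum h).congr (by simp) fun t' => ?_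
  have e : ∀ t : S, (if ∀ x ∈ c, σ x = t then (1 : ℝ) else 0) * (B.a * (ghGw B p.2 t * ((if t' = t then 1 else 0) - ghGw B p.2 t')))
      = (if t' = t then B.a * (ghGw B p.2 t * (if ∀ x ∈ c, σ x = t then (1 : ℝ) else 0)) else 0)
        - B.a * ghGw B p.2 t' * (ghGw B p.2 t * (if ∀ x ∈ c, σ x = t then (1 : ℝ) else 0)) := by
    intro t
    by_cases ht : t' = t
    · simp only [ht, if_true]; ring
    · simp only [ht, if_false]; ring
  simp only [e, Finset.sum_sub_distrib, Finset.sum_ite_eq, Finset.mem_univ, if_true, ← Finset.mul_sum]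

/-- base of the induction: only the terminal draw remains -/
theorem p2_main_nil {B : GhB S} (hB : B.Ok) : P2Main B ([] : List (P2Lv S ι)) := by
  classical
  intro N j τ σ b μ q q' hN hq hq' hqq htr θ hθ z
  have hjN : j = N := by simpa using hN
  subst hjN
  have htr' : P2Tr τ b j (j + ([] : List ℝ).length + 1) := by simpa using htr
  have key := p2_node (C := p2Cls τ j b) (J := fun c x => p2g B σ c x.2) (Rθ := fun _ => 0)
    (Rz := fun c t' => B.a * (ghGw B z t' * (if ∀ x ∈ c, σ x = t' then 1 else 0))) (m := B.a) μ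
    (p2HasD_F0 hB (θ, z)) (fun c _ => p2HasD_g hB σ c (θ, z))
  have hfun : (fun p : ℝ × (S → ℝ) => p2U B τ σ (p2L ([] : List (P2Lv S ι)) p.1) j b μ p.2)
      = fun x => Real.exp (μ * ghF0 B x.2) * ∏ c ∈ p2Cls τ j b, p2g B σ c x.2 := by
    funext p
    simp only [p2U, p2L, List.map_nil, p2W_nil, ghF]
  rw [hfun]
  refine key.congr ?_ fun t' => ?_
  · -- the derivative in `θ` vanishes
    simp only [zero_mul, mul_zero, Finset.sum_const_zero, add_zero]
    unfold p2Gt
    rw [p2Row_zero (by simpa using htr'), mul_zero]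
    intro x i hs
    have hx : P2Tr (trAtt j q τ x i) (insert q b) j (j + 1) :=
      p2_att_tr htr hq hs.1 hs.2.1 (by simpa using hs.2.2)
    refine p2Row_zero (by simpa using hx) fun x' i' _ => ?_
    simp [p2V]
  · -- the source derivative
    simp only [p2Gz, List.map_nil, p2Row, p2L]
    have h1 : p2U B (trAtt j q τ (p2Rep b) j) (Function.update σ q t') ([] : List (GhLv S ι)) j (insert q b) μ z
        = ghGw B z t' * (Real.exp (μ * ghF0 B z) * ∏ c ∈ p2Cls τ j b, p2g B σ c z) := by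
      simp only [p2U, p2W_nil, ghF]
      rw [p2_prod_new _ hq le_rfl, p2g_singleton]
      have : ∀ c ∈ p2Cls τ j b, p2g B (Function.update σ q t') c z = p2g B σ c z := fun c hc =>
        p2g_old B σ (fun h => hq ((p2_cls_tr htr (by omega) hc).2.1 h)) t' z
      rw [Finset.prod_congr rfl this]
      ring
    have h2 : ∀ c ∈ p2Cls τ j b,
        p2U B (trAtt j q τ (p2Rep c) (j + 1)) (Function.update σ q t') ([] : List (GhLv S ι)) j (insert q b) μ z
        = Real.exp (μ * ghF0 B z) * (∏ c' ∈ (p2Cls τ j b).erase c, p2g B σ c' z)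
            * (ghGw B z t' * (if ∀ x ∈ c, σ x = t' then 1 else 0)) := by
      intro c hc
      have hc3 := p2_cls_tr htr (by omega) hc
      simp only [p2U, p2W_nil, ghF]
      rw [p2_prod_in htr hq hc (p2Rep_mem hc3.2.2) (by omega) le_rfl, p2g_insert B σ (fun h => hq (hc3.2.1 h))]
      have : ∀ c' ∈ (p2Cls τ j b).erase c, p2g B (Function.update σ q t') c' z = p2g B σ c' z := fun c' hc' =>
        p2g_old B σ (fun h => hq ((p2_cls_tr htr (by omega) (Finset.mem_of_mem_erase hc')).2.1 h)) t' z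
      rw [Finset.prod_congr rfl this]
      ring
    rw [h1, Finset.sum_congr rfl h2, Finset.mul_sum]
    congr 1
    exact Finset.sum_congr rfl fun c _ => by ring

end Claimed.Agent.R286
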