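import Claimed.Agent.R286.Fd.P02Calc
import Claimed.Agent.Lib.BLGauss

/-!
# Row 286 (S0533), P02 engine: THE ANALYTIC LEMMA (heat step of formula (2))   (architect: helper299; PROVED by helper91, 0 sorry)

`p2_OL`: joint Fréchet derivative at `(θ₀, z₀)`, `θ₀ ∈ (0,1)`, of `(θ, z) ↦ ∫ G (θ, z + A(θ) ξ) dγ(ξ)`, `A(θ) s i = √(v i + θ e i) Φ s i`.

PROOF.  (1) for `θ ∈ (0,1)` every coordinate has `v i + θ e i > 0`, or `v i = e i = 0` (affine, `≥ 0` at `0` and `1`): `θ ↦ √(v i + θ e i)` is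
differentiable at `θ` with derivative `e i / (2 √(..))` (resp. `0`).   (2) chain rule: `p ↦ G (p.1, p.2 + A(p.1) ξ)` has the derivative
`(dθ, φ) ↦ Gθ dθ + ∑ t, Gz t (φ t + dθ ∑ i, e i / (2 √(v_i)) Φ t i ξ i)`.   (3) `hasFDerivAt_integral_of_dominated_of_fderiv_le` on a small
neighbourhood; bound `C' (1 + ∑ |ξ i|) exp (c' ∑ |ξ i|)` (`gh_b_exp_l1`); measurability of the derivative: `measurable_fderiv`, or continuity.
(4) Stein in the coordinate `i`: `∫ ξ i * g (z₀ + A ξ) = √(v_i) ∑ t', Φ t' i ∫ (∂_{t'} g) (z₀ + A ξ)` for `g = Gz (θ₀, ·) t`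
(`R286/Base/Kit.lean : sk_b_ibp_pi`, or `Heat/Flow.lean : skh_stein` + Fubini on `Measure.pi`).
-/

set_option autoImplicit false

namespace Claimed.Agent.R286

open MeasureTheory ProbabilityTheory Filter Topology

variable {S ι : Type} [Fintype S] [Fintype ι]


theorem p2_stein_int {u : (ι → ℝ) → ℝ} (hm : AEStronglyMeasurable u (ghStd ι)) {C c : ℝ}
    (hb : ∀ ξ, |u ξ| ≤ C * Real.exp (c * ∑ k, |ξ k|)) : Integrable u (ghStd ι) :=
  ((gh_b_exp_l1 (ι := ι) c).const_mul C).mono' hm (Eventually.of_forall fun ξ => by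
    rw [Real.norm_eq_abs]; exact hb ξ)

/-- Stein's lemma on `ghStd ι`, coordinate `i`: `g` differentiable on `ι → ℝ`, `g` and `∂_i g` of exponential growth. -/
theorem p2_stein [DecidableEq ι] (g : (ι → ℝ) → ℝ) (g' : (ι → ℝ) → ℝ) (i : ι) (C c : ℝ)
    (hg : ∀ ξ, HasDerivAt (fun s : ℝ => g (Function.update ξ i s)) (g' ξ) (ξ i))
    (hc : Continuous g) (hc' : Measurable g')
    (b0 : ∀ ξ, |g ξ| ≤ C * Real.exp (c * ∑ k, |ξ k|)) (b1 : ∀ ξ, |g' ξ| ≤ C * Real.exp (c * ∑ k, |ξ k|)) :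
    ∫ ξ, ξ i * g ξ ∂ghStd ι = ∫ ξ, g' ξ ∂ghStd ι := by
  have hC : 0 ≤ C := by
    have := (abs_nonneg _).trans (b0 0)
    simpa using this
  set v : ι → ℝ := Pi.single i 1 with hv
  set ρ : (ι → ℝ) → ℝ := fun x => Real.exp (-((∑ k, x k ^ 2) / 2)) with hρ
  have hρd : ∀ x, HasFDerivAt ρ (ρ x • -(Claimed.Agent.BL.blDot ι x)) x := fun x =>
    ((Claimed.Agent.BL.bl_sq_hasFDerivAt x).neg).exp
  have hρl : ∀ x, HasLineDerivAt ℝ ρ (-(ρ x * x i)) x v := by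
    intro x
    have := (hρd x).hasLineDerivAt v
    have e : (ρ x • -(Claimed.Agent.BL.blDot ι x)) v = -(ρ x * x i) := by
      simp [Claimed.Agent.BL.bl_dot_apply, hv, Pi.single_apply]
    rwa [e] at this
  have hgl : ∀ x, HasLineDerivAt ℝ g (g' x) x v := by
    intro x
    have h1 : HasDerivAt (fun t : ℝ => x i + t) 1 0 := by simpa using (hasDerivAt_id (0 : ℝ)).const_add (x i)
    have h2 : HasDerivAt (fun s : ℝ => g (Function.update x i s)) (g' x) (x i + 0) := by rw [add_zero]; exact hg x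
    have h3 := h2.comp (0 : ℝ) h1
    rw [mul_one] at h3
    refine h3.congr_of_eventuallyEq (Eventually.of_forall fun t => ?_)
    simp only [Function.comp]
    congr 1
    funext k
    by_cases hk : k = i
    · subst hk; simp [hv]
    · simp [hv, hk]
  have hρi := Claimed.Agent.BL.bl_integrable_exp_neg_sq (ι := ι)
  have i1 : Integrable g' (ghStd ι) := p2_stein_int hc'.aestronglyMeasurable b1
  have i3 : Integrable g (ghStd ι) := p2_stein_int hc.aestronglyMeasurable b0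
  have i2 : Integrable (fun ξ => ξ i * g ξ) (ghStd ι) := by
    refine p2_stein_int (C := C) (c := c + 1) ((continuous_apply i).mul hc).aestronglyMeasurable fun ξ => ?_
    have h1 : |ξ i| ≤ Real.exp (∑ k, |ξ k|) := by
      have h2 : |ξ i| ≤ ∑ k, |ξ k| := Finset.single_le_sum (f := fun k => |ξ k|) (fun _ _ => abs_nonneg _) (Finset.mem_univ i)
      linarith [Real.add_one_le_exp (∑ k, |ξ k|)]
    rw [abs_mul, add_mul, one_mul, Real.exp_add]
    calc |ξ i| * |g ξ| ≤ Real.exp (∑ k, |ξ k|) * (C * Real.exp (c * ∑ k, |ξ k|)) :=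
          mul_le_mul h1 (b0 ξ) (abs_nonneg _) (Real.exp_pos _).le
      _ = _ := by ring
  unfold ghStd at i1 i2 i3 ⊢
  rw [Claimed.Agent.BL.bl_pi_gaussian_eq_tilted] at i1 i2 i3 ⊢
  rw [integrable_tilted_iff hρi] at i1 i2 i3
  have key := integral_bilinear_hasLineDerivAt_right_eq_neg_left_of_integrable (μ := (volume : Measure (ι → ℝ)))
    (f := g) (f' := g') (g := ρ) (g' := fun x => -(ρ x * x i)) (v := v) (B := ContinuousLinearMap.mul ℝ ℝ)
    (i1.congr (Eventually.of_forall fun x => by simp [hρ, mul_comm]))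
    (i2.neg.congr (Eventually.of_forall fun x => by
      simp only [Pi.neg_apply, smul_eq_mul, ContinuousLinearMap.mul_apply', hρ]; ring))
    (i3.congr (Eventually.of_forall fun x => by simp [hρ, mul_comm]))
    (fun x _ => hgl x) (fun x _ => hρl x)
  simp only [ContinuousLinearMap.mul_apply'] at key
  rw [integral_tilted, integral_tilted]
  set Z : ℝ := ∫ x : ι → ℝ, Real.exp (-((∑ k, x k ^ 2) / 2)) with hZ
  have e1 : ∫ x, g x * -(ρ x * x i) = -∫ x, ρ x * (x i * g x) := by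
    rw [← integral_neg]
    refine integral_congr_ae (Eventually.of_forall fun x => ?_)
    simp only; ring
  have e2 : ∫ x, g' x * ρ x = ∫ x, ρ x * g' x := by
    refine integral_congr_ae (Eventually.of_forall fun x => ?_)
    simp only [mul_comm]
  rw [e1, e2, neg_inj] at key
  have f1 : ∀ F : (ι → ℝ) → ℝ, ∫ x, (Real.exp (-((∑ k, x k ^ 2) / 2)) / Z) • F x = Z⁻¹ * ∫ x, ρ x * F x := by
    intro F
    rw [← integral_const_mul]
    refine integral_congr_ae (Eventually.of_forall fun x => ?_)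
    simp only [smul_eq_mul, hρ]
    ring
  rw [f1, f1, key]


theorem p2_OL_dich {v e θ : ℝ} (hv : 0 ≤ v) (hve : 0 ≤ v + e) (hθ : θ ∈ Set.Ioo (0 : ℝ) 1) :
    0 < v + θ * e ∨ (v = 0 ∧ e = 0) := by
  obtain ⟨h0, h1⟩ := hθ
  rcases hv.lt_or_eq with h | h
  · left
    have : v + θ * e = (1 - θ) * v + θ * (v + e) := by ring
    rw [this]
    have := mul_pos (sub_pos.2 h1) h
    have := mul_nonneg h0.le hve
    linarith
  · subst h
    rw [zero_add] at hve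
    rcases hve.lt_or_eq with h | h
    · left; rw [zero_add]; exact mul_pos h0 h
    · right; exact ⟨rfl, h.symm⟩

theorem p2_OL_sqrt {v e θ : ℝ} (hv : 0 ≤ v) (hve : 0 ≤ v + e) (hθ : θ ∈ Set.Ioo (0 : ℝ) 1) :
    HasDerivAt (fun t : ℝ => Real.sqrt (v + t * e)) (e / (2 * Real.sqrt (v + θ * e))) θ := by
  rcases p2_OL_dich hv hve hθ with h | ⟨rfl, rfl⟩
  · have h1 : HasDerivAt (fun t : ℝ => v + t * e) e θ := by
      simpa using ((hasDerivAt_id θ).mul_const e).const_add v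
    exact h1.sqrt h.ne'
  · simpa using hasDerivAt_const θ (0 : ℝ)

theorem p2_OL_sqrt_cont {v e θ : ℝ} (hv : 0 ≤ v) (hve : 0 ≤ v + e) (hθ : θ ∈ Set.Ioo (0 : ℝ) 1) :
    ContinuousAt (fun t : ℝ => e / (2 * Real.sqrt (v + t * e))) θ := by
  rcases p2_OL_dich hv hve hθ with h | ⟨rfl, rfl⟩
  · refine ContinuousAt.div continuousAt_const (by fun_prop) ?_
    have := Real.sqrt_pos.2 h
    positivity
  · simpa using continuousAt_const

theorem p2_OL_half {v e θ : ℝ} (hv : 0 ≤ v) (hve : 0 ≤ v + e) (hθ : θ ∈ Set.Ioo (0 : ℝ) 1) :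
    e / (2 * Real.sqrt (v + θ * e)) * Real.sqrt (v + θ * e) = e / 2 := by
  rcases p2_OL_dich hv hve hθ with h | ⟨rfl, rfl⟩
  · have := (Real.sqrt_pos.2 h).ne'
    rw [div_mul_eq_mul_div, mul_comm 2, ← div_div, mul_div_assoc, div_self this, mul_one]
  · simp

theorem p2_OL_inc_apply (h : P2Lv S ι) (θ : ℝ) (ξ : ι → ℝ) (s : S) :
    (h.lv θ).inc ξ s = ∑ i, Real.sqrt (h.v i + θ * h.e i) * h.Φ s i * ξ i := rfl

theorem p2_OL_inc (h : P2Lv S ι) (hok : h.Ok) {θ : ℝ} (hθ : θ ∈ Set.Ioo (0 : ℝ) 1) (ξ : ι → ℝ) :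
    HasDerivAt (fun t => (h.lv t).inc ξ)
      (fun s => ∑ i, h.e i / (2 * Real.sqrt (h.v i + θ * h.e i)) * h.Φ s i * ξ i) θ := by
  rw [hasDerivAt_pi]
  intro s
  simp only [p2_OL_inc_apply]
  exact HasDerivAt.fun_sum fun i _ => ((p2_OL_sqrt (hok.v0 i) (hok.v1 i) hθ).mul_const _).mul_const _

/-- the chain rule at a fixed driver -/
theorem p2_OL_chain (h : P2Lv S ι) (hok : h.Ok) {G : ℝ × (S → ℝ) → ℝ} {a : ℝ} {g : S → ℝ} {θ : ℝ} {z : S → ℝ} (ξ : ι → ℝ)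
    (hθ : θ ∈ Set.Ioo (0 : ℝ) 1) (hG : P2HasD G a g (θ, z + (h.lv θ).inc ξ)) :
    P2HasD (fun p => G (p.1, p.2 + (h.lv p.1).inc ξ))
      (a + ∑ t, g t * ∑ i, h.e i / (2 * Real.sqrt (h.v i + θ * h.e i)) * h.Φ t i * ξ i) g (θ, z) := by
  unfold P2HasD at hG ⊢
  set d : S → ℝ := fun s => ∑ i, h.e i / (2 * Real.sqrt (h.v i + θ * h.e i)) * h.Φ s i * ξ i with hd
  have h1 : HasFDerivAt (fun p : ℝ × (S → ℝ) => (h.lv p.1).inc ξ)
      ((ContinuousLinearMap.smulRight (1 : ℝ →L[ℝ] ℝ) d).comp (ContinuousLinearMap.fst ℝ ℝ (S → ℝ))) (θ, z) :=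
    HasFDerivAt.comp (g := fun t : ℝ => (h.lv t).inc ξ) (f := fun p : ℝ × (S → ℝ) => p.1) (θ, z)
      (p2_OL_inc h hok hθ ξ).hasFDerivAt hasFDerivAt_fst
  have h2 : HasFDerivAt (fun p : ℝ × (S → ℝ) => (p.1, p.2 + (h.lv p.1).inc ξ))
      ((ContinuousLinearMap.fst ℝ ℝ (S → ℝ)).prod (ContinuousLinearMap.snd ℝ ℝ (S → ℝ) +
        (ContinuousLinearMap.smulRight (1 : ℝ →L[ℝ] ℝ) d).comp (ContinuousLinearMap.fst ℝ ℝ (S → ℝ)))) (θ, z) :=
    hasFDerivAt_fst.prodMk (hasFDerivAt_snd.add h1)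
  have h3 := HasFDerivAt.comp (θ, z) hG h2
  refine h3.congr_fderiv (ContinuousLinearMap.ext fun p => ?_)
  simp only [ContinuousLinearMap.comp_apply, ContinuousLinearMap.prod_apply, p2Lin_apply, ContinuousLinearMap.add_apply,
    ContinuousLinearMap.coe_fst', ContinuousLinearMap.coe_snd', ContinuousLinearMap.smulRight_apply,
    ContinuousLinearMap.one_apply, Pi.add_apply, Pi.smul_apply, smul_eq_mul, mul_add, Finset.sum_add_distrib, add_mul,
    Finset.sum_mul]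
  have : ∀ t, g t * (p.1 * d t) = g t * d t * p.1 := fun t => by ring
  simp only [this]
  ring

theorem p2_OL_norm_lin (a : ℝ) (g : S → ℝ) : ‖p2Lin a g‖ ≤ |a| + ∑ t, |g t| := by
  refine ContinuousLinearMap.opNorm_le_bound _ (add_nonneg (abs_nonneg _) (Finset.sum_nonneg fun _ _ => abs_nonneg _)) fun p => ?_
  rw [p2Lin_apply, Real.norm_eq_abs, add_mul, Finset.sum_mul]
  refine (abs_add_le _ _).trans (add_le_add ?_ ((Finset.abs_sum_le_sum_abs _ _).trans (Finset.sum_le_sum fun t _ => ?_)))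
  · rw [abs_mul]
    exact mul_le_mul_of_nonneg_left (by simpa using norm_fst_le p) (abs_nonneg _)
  · rw [abs_mul]
    refine mul_le_mul_of_nonneg_left ?_ (abs_nonneg _)
    have h1 : ‖p.2 t‖ ≤ ‖p.2‖ := norm_le_pi_norm _ _
    exact (by simpa using h1 : |p.2 t| ≤ ‖p.2‖).trans (norm_snd_le p)

theorem p2_OL_lin_cont : Continuous fun x : ℝ × (S → ℝ) => p2Lin x.1 x.2 := by
  unfold p2Lin
  refine (continuous_fst.smul continuous_const).add (continuous_finsetSum _ fun t _ => ?_)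
  exact ((continuous_apply t).comp continuous_snd).smul continuous_const

/-- uniform size of the increments on `(0,1)` -/
theorem p2_OL_inc_norm (h : P2Lv S ι) {θ : ℝ} (hθ : θ ∈ Set.Ioo (0 : ℝ) 1) (ξ : ι → ℝ) :
    ‖(h.lv θ).inc ξ‖ ≤ (∑ s, ∑ i, Real.sqrt (h.v i + |h.e i|) * |h.Φ s i|) * ∑ k, |ξ k| := by
  have hL : 0 ≤ ∑ k, |ξ k| := Finset.sum_nonneg fun _ _ => abs_nonneg _
  have hM : ∀ s, 0 ≤ ∑ i, Real.sqrt (h.v i + |h.e i|) * |h.Φ s i| := fun s =>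
    Finset.sum_nonneg fun _ _ => mul_nonneg (Real.sqrt_nonneg _) (abs_nonneg _)
  refine (pi_norm_le_iff_of_nonneg (mul_nonneg (Finset.sum_nonneg fun s _ => hM s) hL)).2 fun s => ?_
  rw [p2_OL_inc_apply, Real.norm_eq_abs]
  have h1 : ∑ i, Real.sqrt (h.v i + |h.e i|) * |h.Φ s i| ≤ ∑ s, ∑ i, Real.sqrt (h.v i + |h.e i|) * |h.Φ s i| :=
    Finset.single_le_sum (f := fun s => ∑ i, Real.sqrt (h.v i + |h.e i|) * |h.Φ s i|) (fun s _ => hM s) (Finset.mem_univ s)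
  refine le_trans ?_ (mul_le_mul_of_nonneg_right h1 hL)
  rw [Finset.sum_mul]
  refine (Finset.abs_sum_le_sum_abs _ _).trans (Finset.sum_le_sum fun i _ => ?_)
  rw [abs_mul, abs_mul, abs_of_nonneg (Real.sqrt_nonneg _)]
  have h2 : Real.sqrt (h.v i + θ * h.e i) ≤ Real.sqrt (h.v i + |h.e i|) := by
    refine Real.sqrt_le_sqrt ?_
    have : θ * h.e i ≤ |h.e i| := by
      calc θ * h.e i ≤ θ * |h.e i| := mul_le_mul_of_nonneg_left (le_abs_self _) hθ.1.le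
        _ ≤ 1 * |h.e i| := mul_le_mul_of_nonneg_right hθ.2.le (abs_nonneg _)
        _ = _ := one_mul _
    linarith
  have h3 : |ξ i| ≤ ∑ k, |ξ k| := Finset.single_le_sum (f := fun k => |ξ k|) (fun _ _ => abs_nonneg _) (Finset.mem_univ i)
  exact mul_le_mul (mul_le_mul_of_nonneg_right h2 (abs_nonneg _)) h3 (abs_nonneg _)
    (mul_nonneg (Real.sqrt_nonneg _) (abs_nonneg _))

theorem p2_OL_gr {C c R M L : ℝ} (hC : 0 ≤ C) {u : (S → ℝ) → ℝ} (hu : ∀ y, |u y| ≤ C * Real.exp (c * ‖y‖)) {z w : S → ℝ}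
    (hz : ‖z‖ ≤ R) (hw : ‖w‖ ≤ M * L) : |u (z + w)| ≤ C * Real.exp (|c| * R) * Real.exp (|c| * M * L) := by
  rw [mul_assoc, ← Real.exp_add]
  refine (hu _).trans (mul_le_mul_of_nonneg_left (Real.exp_le_exp.2 ?_) hC)
  calc c * ‖z + w‖ ≤ |c| * ‖z + w‖ := mul_le_mul_of_nonneg_right (le_abs_self c) (norm_nonneg _)
    _ ≤ |c| * (R + M * L) := mul_le_mul_of_nonneg_left ((norm_add_le _ _).trans (add_le_add hz hw)) (abs_nonneg _)
    _ = _ := by ring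

theorem p2_OL_nrm (l : GhLv S ι) (ξ : ι → ℝ) : ‖l.inc ξ‖ ≤ l.nrm * ∑ k, |ξ k| := by
  refine (pi_norm_le_iff_of_nonneg (mul_nonneg (gh_b_nrm_nonneg l) (Finset.sum_nonneg fun _ _ => abs_nonneg _))).2 fun s => ?_
  rw [Real.norm_eq_abs]
  exact gh_b_inc_le l ξ s

/-- integrability of a function of exponential growth of the field -/
theorem p2_OL_int (l : GhLv S ι) {u : (S → ℝ) → ℝ} (hm : Measurable u) {C c : ℝ} (hC : 0 ≤ C)
    (hu : ∀ y, |u y| ≤ C * Real.exp (c * ‖y‖)) (z : S → ℝ) : Integrable (fun ξ => u (z + l.inc ξ)) (ghStd ι) := by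
  refine p2_stein_int (C := C * Real.exp (|c| * ‖z‖)) (c := |c| * l.nrm)
    (hm.comp (measurable_const.add (gh_b_inc_continuous l).measurable)).aestronglyMeasurable fun ξ => ?_
  exact p2_OL_gr hC hu le_rfl (p2_OL_nrm l ξ)

theorem p2_OL_int_mul (l : GhLv S ι) {u : (S → ℝ) → ℝ} (hm : Measurable u) {C c : ℝ} (hC : 0 ≤ C)
    (hu : ∀ y, |u y| ≤ C * Real.exp (c * ‖y‖)) (z : S → ℝ) (i : ι) :
    Integrable (fun ξ => ξ i * u (z + l.inc ξ)) (ghStd ι) := by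
  refine p2_stein_int (C := C * Real.exp (|c| * ‖z‖)) (c := |c| * l.nrm + 1)
    ((measurable_pi_apply i).mul (hm.comp (measurable_const.add (gh_b_inc_continuous l).measurable))).aestronglyMeasurable
    fun ξ => ?_
  have h1 : |ξ i| ≤ Real.exp (∑ k, |ξ k|) := by
    have h2 : |ξ i| ≤ ∑ k, |ξ k| := Finset.single_le_sum (f := fun k => |ξ k|) (fun _ _ => abs_nonneg _) (Finset.mem_univ i)
    linarith [Real.add_one_le_exp (∑ k, |ξ k|)]
  rw [abs_mul, add_mul, one_mul, Real.exp_add]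
  calc |ξ i| * |u (z + l.inc ξ)| ≤ Real.exp (∑ k, |ξ k|) * (C * Real.exp (|c| * ‖z‖) * Real.exp (|c| * l.nrm * ∑ k, |ξ k|)) :=
        mul_le_mul h1 (p2_OL_gr hC hu le_rfl (p2_OL_nrm l ξ)) (abs_nonneg _) (Real.exp_pos _).le
    _ = _ := by ring

/-- **Stein's lemma for a function of the field** -/
theorem p2_OL_stein (l : GhLv S ι) {u : (S → ℝ) → ℝ} {u' : (S → ℝ) → S → ℝ} {C c : ℝ}
    (hu : ∀ y, HasFDerivAt u (∑ t', u' y t' • (ContinuousLinearMap.proj t' : (S → ℝ) →L[ℝ] ℝ)) y)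
    (b0 : ∀ y, |u y| ≤ C * Real.exp (c * ‖y‖)) (b1 : ∀ y t', |u' y t'| ≤ C * Real.exp (c * ‖y‖)) (z : S → ℝ) (i : ι) :
    ∫ ξ, ξ i * u (z + l.inc ξ) ∂ghStd ι = ∑ t', l.A t' i * ∫ ξ, u' (z + l.inc ξ) t' ∂ghStd ι := by
  classical
  have hC : 0 ≤ C := by
    have := (abs_nonneg _).trans (b0 0)
    simpa using this
  have hcu : Continuous u := continuous_iff_continuousAt.2 fun y => (hu y).continuousAt
  have hmu' : ∀ t', Measurable fun y => u' y t' := by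
    intro t'
    have h1 := measurable_fderiv_apply_const ℝ u (Pi.single t' (1 : ℝ))
    have e : (fun y => fderiv ℝ u y (Pi.single t' (1 : ℝ))) = fun y => u' y t' := by
      funext y
      rw [(hu y).fderiv]
      simp [Pi.single_apply]
    rwa [e] at h1
  have hst := p2_stein (fun ξ => u (z + l.inc ξ)) (fun ξ => ∑ t', u' (z + l.inc ξ) t' * l.A t' i) i
    (C * Real.exp (|c| * ‖z‖) * (1 + ∑ t', |l.A t' i|)) (|c| * l.nrm) ?_ ?_ ?_ ?_ ?_
  · rw [hst, integral_finsetSum _ fun t' _ => ((p2_OL_int l (hmu' t') hC (fun y => b1 y t') z).mul_const _)]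
    refine Finset.sum_congr rfl fun t' _ => ?_
    rw [integral_mul_const, mul_comm]
  · intro ξ
    have hγ : HasDerivAt (fun s : ℝ => z + l.inc (Function.update ξ i s)) (fun t' => l.A t' i) (ξ i) := by
      rw [hasDerivAt_pi]
      intro t'
      simp only [Pi.add_apply, GhLv.inc]
      have h1 : ∀ k ∈ Finset.univ, HasDerivAt (fun s : ℝ => l.A t' k * Function.update ξ i s k) (if k = i then l.A t' i else 0) (ξ i) := by
        intro k _
        by_cases hk : k = i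
        · subst hk
          simpa using (hasDerivAt_id (ξ k)).const_mul (l.A t' k)
        · simpa [hk] using hasDerivAt_const (ξ i) (l.A t' k * ξ k)
      have h2 := (HasDerivAt.fun_sum h1).const_add (z t')
      simpa using h2
    have h3 : HasFDerivAt u (∑ t', u' (z + l.inc ξ) t' • (ContinuousLinearMap.proj t' : (S → ℝ) →L[ℝ] ℝ))
        (z + l.inc (Function.update ξ i (ξ i))) := by
      rw [Function.update_eq_self]; exact hu _
    have h4 := h3.comp_hasDerivAt (ξ i) hγ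
    refine h4.congr_deriv ?_
    simp
  · exact hcu.comp (continuous_const.add (gh_b_inc_continuous l))
  · exact Finset.measurable_sum _ fun t' _ =>
      ((hmu' t').comp (measurable_const.add (gh_b_inc_continuous l).measurable)).mul_const _
  · intro ξ
    have h1 := p2_OL_gr hC b0 (le_refl ‖z‖) (p2_OL_nrm l ξ)
    have h2 : 0 ≤ ∑ t', |l.A t' i| := Finset.sum_nonneg fun _ _ => abs_nonneg _
    have h3 : 0 ≤ C * Real.exp (|c| * ‖z‖) * Real.exp (|c| * l.nrm * ∑ k, |ξ k|) := by positivity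
    calc |u (z + l.inc ξ)| ≤ C * Real.exp (|c| * ‖z‖) * Real.exp (|c| * l.nrm * ∑ k, |ξ k|) := h1
      _ ≤ C * Real.exp (|c| * ‖z‖) * Real.exp (|c| * l.nrm * ∑ k, |ξ k|) * (1 + ∑ t', |l.A t' i|) :=
          le_mul_of_one_le_right h3 (by linarith)
      _ = _ := by ring
  · intro ξ
    have h3 : 0 ≤ C * Real.exp (|c| * ‖z‖) * Real.exp (|c| * l.nrm * ∑ k, |ξ k|) := by positivity
    calc |∑ t', u' (z + l.inc ξ) t' * l.A t' i| ≤ ∑ t', |u' (z + l.inc ξ) t' * l.A t' i| := Finset.abs_sum_le_sum_abs _ _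
      _ ≤ ∑ t', C * Real.exp (|c| * ‖z‖) * Real.exp (|c| * l.nrm * ∑ k, |ξ k|) * |l.A t' i| := by
          refine Finset.sum_le_sum fun t' _ => ?_
          rw [abs_mul]
          exact mul_le_mul_of_nonneg_right (p2_OL_gr hC (fun y => b1 y t') (le_refl ‖z‖) (p2_OL_nrm l ξ)) (abs_nonneg _)
      _ = C * Real.exp (|c| * ‖z‖) * Real.exp (|c| * l.nrm * ∑ k, |ξ k|) * ∑ t', |l.A t' i| := (Finset.mul_sum _ _ _).symm
      _ ≤ C * Real.exp (|c| * ‖z‖) * Real.exp (|c| * l.nrm * ∑ k, |ξ k|) * (1 + ∑ t', |l.A t' i|) :=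
          mul_le_mul_of_nonneg_left (by linarith) h3
      _ = _ := by ring

/-- **the heat step.** -/
theorem p2_OL (h : P2Lv S ι) (hok : h.Ok) (G Gθ : ℝ × (S → ℝ) → ℝ) (Gz : ℝ × (S → ℝ) → S → ℝ)
    (Gzz : (S → ℝ) → S → S → ℝ) (θ₀ : ℝ) (hθ : θ₀ ∈ Set.Ioo (0 : ℝ) 1) (z₀ : S → ℝ) (C c : ℝ)
    (hG : ∀ᶠ θ in 𝓝 θ₀, ∀ y, P2HasD G (Gθ (θ, y)) (Gz (θ, y)) (θ, y))
    (hGz : ∀ y t, HasFDerivAt (fun y => Gz (θ₀, y) t)
      (∑ t', Gzz y t t' • (ContinuousLinearMap.proj t' : (S → ℝ) →L[ℝ] ℝ)) y)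
    (b0 : ∀ᶠ θ in 𝓝 θ₀, ∀ y, |G (θ, y)| ≤ C * Real.exp (c * ‖y‖))
    (b1 : ∀ᶠ θ in 𝓝 θ₀, ∀ y, |Gθ (θ, y)| ≤ C * Real.exp (c * ‖y‖))
    (b2 : ∀ᶠ θ in 𝓝 θ₀, ∀ y t, |Gz (θ, y) t| ≤ C * Real.exp (c * ‖y‖))
    (b3 : ∀ y t t', |Gzz y t t'| ≤ C * Real.exp (c * ‖y‖)) :
    P2HasD (fun p => ∫ ξ, G (p.1, p.2 + (h.lv p.1).inc ξ) ∂ghStd ι)
      ((∫ ξ, Gθ (θ₀, z₀ + (h.lv θ₀).inc ξ) ∂ghStd ι)
        + (1 / 2) * ∑ t, ∑ t', h.dK t t' * ∫ ξ, Gzz (z₀ + (h.lv θ₀).inc ξ) t t' ∂ghStd ι)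
      (fun t => ∫ ξ, Gz (θ₀, z₀ + (h.lv θ₀).inc ξ) t ∂ghStd ι) (θ₀, z₀) := by
  classical
  have hC : 0 ≤ C := by
    have := (abs_nonneg _).trans (b0.self_of_nhds 0)
    simpa using this
  set sd : ℝ → ι → ℝ := fun θ i => h.e i / (2 * Real.sqrt (h.v i + θ * h.e i)) with hsd
  set d : ℝ → (ι → ℝ) → S → ℝ := fun θ ξ t => ∑ i, sd θ i * h.Φ t i * ξ i with hd
  set M : ℝ := ∑ s, ∑ i, Real.sqrt (h.v i + |h.e i|) * |h.Φ s i| with hM
  set D : ℝ := ∑ t, ∑ i, (|sd θ₀ i| + 1) * |h.Φ t i| with hD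
  set R : ℝ := ‖z₀‖ + 1 with hR
  set cS : ℝ := (Fintype.card S : ℝ) with hcS
  have hD0 : 0 ≤ D := Finset.sum_nonneg fun _ _ => Finset.sum_nonneg fun _ _ => by positivity
  have hcS0 : 0 ≤ cS := Nat.cast_nonneg _
  set F' : ℝ × (S → ℝ) → (ι → ℝ) → (ℝ × (S → ℝ) →L[ℝ] ℝ) := fun p ξ =>
    p2Lin (Gθ (p.1, p.2 + (h.lv p.1).inc ξ) + ∑ t, Gz (p.1, p.2 + (h.lv p.1).inc ξ) t * d p.1 ξ t)
      (Gz (p.1, p.2 + (h.lv p.1).inc ξ)) with hF'
  -- the neighbourhood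
  have hsdE : ∀ᶠ θ in 𝓝 θ₀, ∀ i, |sd θ i| ≤ |sd θ₀ i| + 1 := by
    rw [Filter.eventually_all]
    intro i
    have hc := (p2_OL_sqrt_cont (hok.v0 i) (hok.v1 i) hθ).abs
    exact hc.tendsto.eventually (Iic_mem_nhds (lt_add_one _))
  have hP : ∀ᶠ θ in 𝓝 θ₀, θ ∈ Set.Ioo (0 : ℝ) 1 ∧ (∀ y, P2HasD G (Gθ (θ, y)) (Gz (θ, y)) (θ, y)) ∧
      (∀ y, |G (θ, y)| ≤ C * Real.exp (c * ‖y‖)) ∧ (∀ y, |Gθ (θ, y)| ≤ C * Real.exp (c * ‖y‖)) ∧
      (∀ y t, |Gz (θ, y) t| ≤ C * Real.exp (c * ‖y‖)) ∧ ∀ i, |sd θ i| ≤ |sd θ₀ i| + 1 := by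
    filter_upwards [Ioo_mem_nhds hθ.1 hθ.2, hG, b0, b1, b2, hsdE] with θ h1 h2 h3 h4 h5 h6
    exact ⟨h1, h2, h3, h4, h5, h6⟩
  have hball : ∀ᶠ y in 𝓝 z₀, ‖y‖ ≤ R :=
    continuous_norm.continuousAt.tendsto.eventually (Iic_mem_nhds (lt_add_one ‖z₀‖))
  have hs := (hP.prod_inl_nhds z₀).and (hball.prod_inr_nhds θ₀)
  have hP0 := hP.self_of_nhds
  obtain ⟨-, hG0, hb00, hb10, hb20, -⟩ := hP0
  -- continuity in the field
  have hGc : ∀ θ, (∀ y, P2HasD G (Gθ (θ, y)) (Gz (θ, y)) (θ, y)) → Continuous fun y => G (θ, y) := fun θ hθ' =>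
    continuous_iff_continuousAt.2 fun y => (hθ' y).snd.continuousAt
  have hGzc : ∀ t, Continuous fun y => Gz (θ₀, y) t := fun t =>
    continuous_iff_continuousAt.2 fun y => (hGz y t).continuousAt
  have hGθm : Measurable fun y => Gθ (θ₀, y) := by
    have h1 := (measurable_fderiv_apply_const ℝ G ((1 : ℝ), (0 : S → ℝ))).comp
      (measurable_const.prodMk measurable_id : Measurable fun y : S → ℝ => (θ₀, y))
    have e : ((fun q => fderiv ℝ G q ((1 : ℝ), (0 : S → ℝ))) ∘ fun y : S → ℝ => (θ₀, y)) = fun y => Gθ (θ₀, y) := by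
      funext y
      simp only [Function.comp]
      rw [HasFDerivAt.fderiv (hG0 y), p2Lin_apply]
      simp
    rwa [e] at h1
  have hGzzm : ∀ t t', Measurable fun y => Gzz y t t' := by
    intro t t'
    have h1 := measurable_fderiv_apply_const ℝ (fun y => Gz (θ₀, y) t) (Pi.single t' (1 : ℝ))
    have e : (fun y => fderiv ℝ (fun y => Gz (θ₀, y) t) y (Pi.single t' (1 : ℝ))) = fun y => Gzz y t t' := by
      funext y
      rw [(hGz y t).fderiv]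
      simp [Pi.single_apply]
    rwa [e] at h1
  have hinc : Continuous (h.lv θ₀).inc := gh_b_inc_continuous _
  have hY : Measurable fun ξ : ι → ℝ => z₀ + (h.lv θ₀).inc ξ := measurable_const.add hinc.measurable
  -- the domination
  have hbound : ∀ ξ : ι → ℝ, ∀ p ∈ {x : ℝ × (S → ℝ) | (x.1 ∈ Set.Ioo (0 : ℝ) 1 ∧ (∀ y, P2HasD G (Gθ (x.1, y)) (Gz (x.1, y)) (x.1, y)) ∧
      (∀ y, |G (x.1, y)| ≤ C * Real.exp (c * ‖y‖)) ∧ (∀ y, |Gθ (x.1, y)| ≤ C * Real.exp (c * ‖y‖)) ∧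
      (∀ y t, |Gz (x.1, y) t| ≤ C * Real.exp (c * ‖y‖)) ∧ ∀ i, |sd x.1 i| ≤ |sd θ₀ i| + 1) ∧ ‖x.2‖ ≤ R},
      ‖F' p ξ‖ ≤ C * Real.exp (|c| * R) * (1 + D + cS) * Real.exp ((|c| * M + 1) * ∑ k, |ξ k|) := by
    rintro ξ p ⟨⟨h1, -, -, h4, h5, h6⟩, h7⟩
    set L : ℝ := ∑ k, |ξ k| with hL
    have hL0 : 0 ≤ L := Finset.sum_nonneg fun _ _ => abs_nonneg _
    set E : ℝ := C * Real.exp (|c| * R) * Real.exp (|c| * M * L) with hE
    have hE0 : 0 ≤ E := by positivity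
    have g1 : |Gθ (p.1, p.2 + (h.lv p.1).inc ξ)| ≤ E := p2_OL_gr hC h4 h7 (p2_OL_inc_norm h h1 ξ)
    have g2 : ∀ t, |Gz (p.1, p.2 + (h.lv p.1).inc ξ) t| ≤ E := fun t =>
      p2_OL_gr hC (fun y => h5 y t) h7 (p2_OL_inc_norm h h1 ξ)
    have g3 : ∑ t, |d p.1 ξ t| ≤ D * L := by
      rw [hD, Finset.sum_mul]
      refine Finset.sum_le_sum fun t _ => ?_
      rw [Finset.sum_mul]
      refine (Finset.abs_sum_le_sum_abs _ _).trans (Finset.sum_le_sum fun i _ => ?_)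
      rw [abs_mul, abs_mul]
      have h3 : |ξ i| ≤ L := Finset.single_le_sum (f := fun k => |ξ k|) (fun _ _ => abs_nonneg _) (Finset.mem_univ i)
      exact mul_le_mul (mul_le_mul_of_nonneg_right (h6 i) (abs_nonneg _)) h3 (abs_nonneg _) (by positivity)
    have g4 : |∑ t, Gz (p.1, p.2 + (h.lv p.1).inc ξ) t * d p.1 ξ t| ≤ E * (D * L) := by
      refine (Finset.abs_sum_le_sum_abs _ _).trans (le_trans ?_ (mul_le_mul_of_nonneg_left g3 hE0))
      rw [Finset.mul_sum]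
      refine Finset.sum_le_sum fun t _ => ?_
      rw [abs_mul]
      exact mul_le_mul_of_nonneg_right (g2 t) (abs_nonneg _)
    have g5 : ∑ t, |Gz (p.1, p.2 + (h.lv p.1).inc ξ) t| ≤ cS * E := by
      have := Finset.sum_le_sum (s := Finset.univ) fun t _ => g2 t
      simpa [hcS] using this
    have e1 : 1 ≤ Real.exp L := Real.one_le_exp hL0
    have e2 : L ≤ Real.exp L := by linarith [Real.add_one_le_exp L]
    have e3 : 1 + D * L + cS ≤ (1 + D + cS) * Real.exp L := by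
      nlinarith [mul_le_mul_of_nonneg_left e2 hD0, mul_le_mul_of_nonneg_left e1 hcS0]
    calc ‖F' p ξ‖ ≤ |Gθ (p.1, p.2 + (h.lv p.1).inc ξ) + ∑ t, Gz (p.1, p.2 + (h.lv p.1).inc ξ) t * d p.1 ξ t|
          + ∑ t, |Gz (p.1, p.2 + (h.lv p.1).inc ξ) t| := p2_OL_norm_lin _ _
      _ ≤ (E + E * (D * L)) + cS * E := add_le_add ((abs_add_le _ _).trans (add_le_add g1 g4)) g5
      _ = E * (1 + D * L + cS) := by ring
      _ ≤ E * ((1 + D + cS) * Real.exp L) := mul_le_mul_of_nonneg_left e3 hE0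
      _ = _ := by
          have e4 : Real.exp ((|c| * M + 1) * L) = Real.exp (|c| * M * L) * Real.exp L := by
            rw [← Real.exp_add]; congr 1; ring
          rw [hE, e4]; ring
  have hmem0 := mem_of_mem_nhds hs
  -- measurability of the derivative at the base point
  have hα : Measurable fun ξ : ι → ℝ => Gθ (θ₀, z₀ + (h.lv θ₀).inc ξ) + ∑ t, Gz (θ₀, z₀ + (h.lv θ₀).inc ξ) t * d θ₀ ξ t := by
    refine (hGθm.comp hY).add (Finset.measurable_sum _ fun t _ => (((hGzc t).measurable.comp hY)).mul ?_)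
    exact Finset.measurable_sum _ fun i _ => measurable_const.mul (measurable_pi_apply i)
  have hβ : Measurable fun ξ : ι → ℝ => Gz (θ₀, z₀ + (h.lv θ₀).inc ξ) :=
    measurable_pi_iff.2 fun t => (hGzc t).measurable.comp hY
  have hF'm : AEStronglyMeasurable (F' (θ₀, z₀)) (ghStd ι) :=
    (p2_OL_lin_cont.comp_stronglyMeasurable (hα.prodMk hβ).stronglyMeasurable).aestronglyMeasurable
  have hbi : Integrable (fun ξ : ι → ℝ => C * Real.exp (|c| * R) * (1 + D + cS) * Real.exp ((|c| * M + 1) * ∑ k, |ξ k|)) (ghStd ι) :=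
    (gh_b_exp_l1 _).const_mul _
  have key := hasFDerivAt_integral_of_dominated_of_fderiv_le (μ := ghStd ι) (x₀ := (θ₀, z₀))
    (F := fun p ξ => G (p.1, p.2 + (h.lv p.1).inc ξ)) (F' := F') hs ?_
    (p2_OL_int (h.lv θ₀) (hGc θ₀ hG0).measurable hC hb00 z₀) hF'm (Eventually.of_forall hbound) hbi
    (Eventually.of_forall fun ξ p hp => ?_)
  rotate_left
  · filter_upwards [hs] with p hp
    exact ((hGc p.1 hp.1.2.1).comp (continuous_const.add (gh_b_inc_continuous _))).aestronglyMeasurable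
  · obtain ⟨θ, z⟩ := p
    exact p2_OL_chain h hok ξ hp.1.1 (hp.1.2.1 _)
  -- computation of the integral of the derivative
  have hF'i : Integrable (F' (θ₀, z₀)) (ghStd ι) := hbi.mono' hF'm (Eventually.of_forall fun ξ => hbound ξ _ hmem0)
  have iθ : Integrable (fun ξ => Gθ (θ₀, z₀ + (h.lv θ₀).inc ξ)) (ghStd ι) := p2_OL_int _ hGθm hC hb10 z₀
  have iz : ∀ t, Integrable (fun ξ => Gz (θ₀, z₀ + (h.lv θ₀).inc ξ) t) (ghStd ι) := fun t =>
    p2_OL_int _ (hGzc t).measurable hC (fun y => hb20 y t) z₀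
  have izx : ∀ t i, Integrable (fun ξ : ι → ℝ => ξ i * Gz (θ₀, z₀ + (h.lv θ₀).inc ξ) t) (ghStd ι) := fun t i =>
    p2_OL_int_mul _ (hGzc t).measurable hC (fun y => hb20 y t) z₀ i
  have izd : ∀ t, Integrable (fun ξ : ι → ℝ => Gz (θ₀, z₀ + (h.lv θ₀).inc ξ) t * d θ₀ ξ t) (ghStd ι) := by
    intro t
    have := integrable_finsetSum Finset.univ fun i _ => (izx t i).const_mul (sd θ₀ i * h.Φ t i)
    refine this.congr (Eventually.of_forall fun ξ => ?_)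
    simp only [hd, Finset.mul_sum]
    exact Finset.sum_congr rfl fun i _ => by ring
  have ed : ∀ t, ∫ ξ, Gz (θ₀, z₀ + (h.lv θ₀).inc ξ) t * d θ₀ ξ t ∂ghStd ι
      = (1 / 2) * ∑ t', h.dK t t' * ∫ ξ, Gzz (z₀ + (h.lv θ₀).inc ξ) t t' ∂ghStd ι := by
    intro t
    have e1 : ∫ ξ, Gz (θ₀, z₀ + (h.lv θ₀).inc ξ) t * d θ₀ ξ t ∂ghStd ι
        = ∑ i, sd θ₀ i * h.Φ t i * ∫ ξ, ξ i * Gz (θ₀, z₀ + (h.lv θ₀).inc ξ) t ∂ghStd ι := by
      rw [← Finset.sum_congr rfl fun i _ => integral_const_mul (sd θ₀ i * h.Φ t i) _,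
        ← integral_finsetSum _ fun i _ => (izx t i).const_mul (sd θ₀ i * h.Φ t i)]
      refine integral_congr_ae (Eventually.of_forall fun ξ => ?_)
      simp only [hd, Finset.mul_sum]
      exact Finset.sum_congr rfl fun i _ => by ring
    rw [e1]
    have e2 : ∀ i, ∫ ξ, ξ i * Gz (θ₀, z₀ + (h.lv θ₀).inc ξ) t ∂ghStd ι
        = ∑ t', (h.lv θ₀).A t' i * ∫ ξ, Gzz (z₀ + (h.lv θ₀).inc ξ) t t' ∂ghStd ι := fun i =>
      p2_OL_stein (h.lv θ₀) (u := fun y => Gz (θ₀, y) t) (u' := fun y t' => Gzz y t t') (fun y => hGz y t)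
        (fun y => hb20 y t) (fun y t' => b3 y t t') z₀ i
    simp only [e2, Finset.mul_sum]
    rw [Finset.sum_comm]
    refine Finset.sum_congr rfl fun t' _ => ?_
    simp only [P2Lv.dK, Finset.sum_mul, Finset.mul_sum]
    refine Finset.sum_congr rfl fun i _ => ?_
    have e3 : (h.lv θ₀).A t' i = Real.sqrt (h.v i + θ₀ * h.e i) * h.Φ t' i := rfl
    have e4 := p2_OL_half (hok.v0 i) (hok.v1 i) hθ
    rw [e3]
    calc sd θ₀ i * h.Φ t i * (Real.sqrt (h.v i + θ₀ * h.e i) * h.Φ t' i * ∫ ξ, Gzz (z₀ + (h.lv θ₀).inc ξ) t t' ∂ghStd ι)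
        = (sd θ₀ i * Real.sqrt (h.v i + θ₀ * h.e i)) * (h.Φ t i * h.Φ t' i * ∫ ξ, Gzz (z₀ + (h.lv θ₀).inc ξ) t t' ∂ghStd ι) := by ring
      _ = h.e i / 2 * (h.Φ t i * h.Φ t' i * ∫ ξ, Gzz (z₀ + (h.lv θ₀).inc ξ) t t' ∂ghStd ι) := by rw [e4]
      _ = _ := by ring
  unfold P2HasD
  refine key.congr_fderiv (ContinuousLinearMap.ext fun p => ?_)
  rw [ContinuousLinearMap.integral_apply hF'i, p2Lin_apply]
  simp only [hF', p2Lin_apply]
  have iD : Integrable (fun ξ : ι → ℝ => ∑ t, Gz (θ₀, z₀ + (h.lv θ₀).inc ξ) t * d θ₀ ξ t) (ghStd ι) :=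
    integrable_finsetSum _ fun t _ => izd t
  have iS : Integrable (fun ξ : ι → ℝ => ∑ t, Gz (θ₀, z₀ + (h.lv θ₀).inc ξ) t * p.2 t) (ghStd ι) :=
    integrable_finsetSum _ fun t _ => (iz t).mul_const _
  have iα : Integrable (fun ξ : ι → ℝ => Gθ (θ₀, z₀ + (h.lv θ₀).inc ξ) + ∑ t, Gz (θ₀, z₀ + (h.lv θ₀).inc ξ) t * d θ₀ ξ t)
      (ghStd ι) := iθ.add iD
  rw [integral_add (iα.mul_const _) iS, integral_mul_const, integral_add iθ iD,
    integral_finsetSum _ fun t _ => izd t, integral_finsetSum _ fun t _ => (iz t).mul_const _]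
  simp only [ed, integral_mul_const, Finset.mul_sum]

end Claimed.Agent.R286
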