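import Claimed.Agent.R286.Fd.P02Calc
import Claimed.Agent.R286.Fd.P02Comb

/-!
# Row 286 (S0533), P02 engine: linear properties of the rows (all from the flat form `p2Row_repr`)   (owner: helper299)
-/

set_option autoImplicit false

namespace Claimed.Agent.R286

open MeasureTheory ProbabilityTheory Filter Topology

/-- admissible placements of a new label in the block `b` of depth `j` (`n` Gaussian levels remain) -/
def P2Sup (b : Finset ℕ) (j n x i : ℕ) : Prop := (x ∈ b ∨ b = ∅) ∧ j ≤ i ∧ i ≤ j + n + 1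

variable {a : ℝ} {τ : ℕ → ℕ → ℕ} {ms : List ℝ} {μ : ℝ} {j : ℕ} {b : Finset ℕ}

theorem p2Row_congr (h : P2Tr τ b j (j + ms.length + 1)) {Ψ Ψ' : ℕ → ℕ → ℝ}
    (hΨ : ∀ x i, P2Sup b j ms.length x i → Ψ x i = Ψ' x i) : p2Row a τ ms μ j b Ψ = p2Row a τ ms μ j b Ψ' := by
  obtain ⟨s, w, hs, hr⟩ := p2Row_repr a ms μ h
  rw [hr, hr]
  exact Finset.sum_congr rfl fun p hp => by rw [hΨ _ _ (hs p hp)]

theorem p2Row_smul (h : P2Tr τ b j (j + ms.length + 1)) (κ : ℝ) (Ψ : ℕ → ℕ → ℝ) :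
    p2Row a τ ms μ j b (fun x i => κ * Ψ x i) = κ * p2Row a τ ms μ j b Ψ := by
  obtain ⟨s, w, hs, hr⟩ := p2Row_repr a ms μ h
  rw [hr, hr, Finset.mul_sum]
  exact Finset.sum_congr rfl fun p _ => by ring

theorem p2Row_add (h : P2Tr τ b j (j + ms.length + 1)) (Ψ Ψ' : ℕ → ℕ → ℝ) :
    p2Row a τ ms μ j b (fun x i => Ψ x i + Ψ' x i) = p2Row a τ ms μ j b Ψ + p2Row a τ ms μ j b Ψ' := by
  obtain ⟨s, w, hs, hr⟩ := p2Row_repr a ms μ h
  rw [hr, hr, hr, ← Finset.sum_add_distrib]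
  exact Finset.sum_congr rfl fun p _ => by ring

theorem p2Row_sum (h : P2Tr τ b j (j + ms.length + 1)) {κ : Type} (u : Finset κ) (Ψ : κ → ℕ → ℕ → ℝ) :
    p2Row a τ ms μ j b (fun x i => ∑ k ∈ u, Ψ k x i) = ∑ k ∈ u, p2Row a τ ms μ j b (Ψ k) := by
  obtain ⟨s, w, hs, hr⟩ := p2Row_repr a ms μ h
  simp only [hr]
  rw [Finset.sum_comm]
  exact Finset.sum_congr rfl fun p _ => by rw [Finset.mul_sum]

theorem p2Row_zero (h : P2Tr τ b j (j + ms.length + 1)) {Ψ : ℕ → ℕ → ℝ}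
    (hΨ : ∀ x i, P2Sup b j ms.length x i → Ψ x i = 0) : p2Row a τ ms μ j b Ψ = 0 := by
  obtain ⟨s, w, hs, hr⟩ := p2Row_repr a ms μ h
  rw [hr]
  exact Finset.sum_eq_zero fun p hp => by rw [hΨ _ _ (hs p hp), mul_zero]

theorem p2Row_bound (a : ℝ) (μ : ℝ) (h : P2Tr τ b j (j + ms.length + 1)) :
    ∃ K : ℝ, 0 ≤ K ∧ ∀ (Ψ : ℕ → ℕ → ℝ) (M : ℝ), (∀ x i, P2Sup b j ms.length x i → |Ψ x i| ≤ M) →
      |p2Row a τ ms μ j b Ψ| ≤ K * M := by
  obtain ⟨s, w, hs, hr⟩ := p2Row_repr a ms μ h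
  refine ⟨∑ p ∈ s, |w p|, Finset.sum_nonneg fun _ _ => abs_nonneg _, fun Ψ M hM => ?_⟩
  rw [hr, Finset.sum_mul]
  refine (Finset.abs_sum_le_sum_abs _ _).trans (Finset.sum_le_sum fun p hp => ?_)
  rw [abs_mul]
  exact mul_le_mul_of_nonneg_left (hM _ _ (hs p hp)) (abs_nonneg _)

/-- bound of a row whose entries have bounds which depend on the placement -/
theorem p2Row_bound' (a : ℝ) (μ : ℝ) (h : P2Tr τ b j (j + ms.length + 1)) (k : ℕ → ℕ → ℝ) :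
    ∃ K : ℝ, 0 ≤ K ∧ ∀ (Ψ : ℕ → ℕ → ℝ) (M : ℝ), 0 ≤ M → (∀ x i, P2Sup b j ms.length x i → |Ψ x i| ≤ k x i * M) →
      |p2Row a τ ms μ j b Ψ| ≤ K * M := by
  obtain ⟨s, w, hs, hr⟩ := p2Row_repr a ms μ h
  refine ⟨∑ p ∈ s, |w p| * |k p.1 p.2|, Finset.sum_nonneg fun _ _ => by positivity, fun Ψ M hM0 hM => ?_⟩
  rw [hr, Finset.sum_mul]
  refine (Finset.abs_sum_le_sum_abs _ _).trans (Finset.sum_le_sum fun p hp => ?_)
  rw [abs_mul, mul_assoc]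
  refine mul_le_mul_of_nonneg_left ((hM _ _ (hs p hp)).trans ?_) (abs_nonneg _)
  exact mul_le_mul_of_nonneg_right (le_abs_self _) hM0

theorem p2Row_integrable {Ω : Type} [MeasurableSpace Ω] {ν : Measure Ω} (h : P2Tr τ b j (j + ms.length + 1))
    {Ψ : ℕ → ℕ → Ω → ℝ} (hΨ : ∀ x i, P2Sup b j ms.length x i → Integrable (Ψ x i) ν) :
    Integrable (fun ω => p2Row a τ ms μ j b fun x i => Ψ x i ω) ν := by
  obtain ⟨s, w, hs, hr⟩ := p2Row_repr a ms μ h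
  simp only [hr]
  exact integrable_finsetSum _ fun p hp => (hΨ _ _ (hs p hp)).const_mul _

theorem p2Row_integral {Ω : Type} [MeasurableSpace Ω] {ν : Measure Ω} (h : P2Tr τ b j (j + ms.length + 1))
    {Ψ : ℕ → ℕ → Ω → ℝ} (hΨ : ∀ x i, P2Sup b j ms.length x i → Integrable (Ψ x i) ν) :
    ∫ ω, (p2Row a τ ms μ j b fun x i => Ψ x i ω) ∂ν = p2Row a τ ms μ j b fun x i => ∫ ω, Ψ x i ω ∂ν := by
  obtain ⟨s, w, hs, hr⟩ := p2Row_repr a ms μ h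
  simp only [hr]
  rw [integral_finsetSum _ fun p hp => (hΨ _ _ (hs p hp)).const_mul _]
  exact Finset.sum_congr rfl fun p _ => integral_const_mul _ _

variable {S : Type} [Fintype S]

theorem p2Row_hasD (h : P2Tr τ b j (j + ms.length + 1)) {Ψ : ℕ → ℕ → ℝ × (S → ℝ) → ℝ} {Ψθ : ℕ → ℕ → ℝ} {Ψz : ℕ → ℕ → S → ℝ}
    {p : ℝ × (S → ℝ)} (hΨ : ∀ x i, P2Sup b j ms.length x i → P2HasD (Ψ x i) (Ψθ x i) (Ψz x i) p) :
    P2HasD (fun p' => p2Row a τ ms μ j b fun x i => Ψ x i p') (p2Row a τ ms μ j b Ψθ)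
      (fun t => p2Row a τ ms μ j b fun x i => Ψz x i t) p := by
  obtain ⟨s, w, hs, hr⟩ := p2Row_repr a ms μ h
  simp only [hr]
  exact P2HasD.sum fun p' hp' => (hΨ _ _ (hs p' hp')).const_mul _

end Claimed.Agent.R286
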