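import Claimed.Agent.R286.Fd.P02StepKF

/-!
# Row 286 (S0533), P02 engine: the three LEAVES of the induction step `p2_main_cons`   (architect: helper299)

* `p2_N_hasD`  : derivative of `N_c (θ, z) = ∫ U_hs (c; μ) (θ, z + A(θ) ξ) dγ` from the induction hypothesis `P2Main B hs` and the heat step `p2_OL`;
* `p2_KF_hasD` : the same for `∫ F_hs (θ, z + A(θ) ξ) dγ` (needed for a level of mass `0`);
* `p2_drd`     : decomposition of a double row whose entries vanish when the two new labels do not share the stage `j` (pure combinatorics).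

HOW TO PROVE `p2_N_hasD`.  Apply `p2_OL` with `G p = p2U B τ σ (p2L hs p.1) j c μ p.2`, `Gθ p = p2Gt .. hs p.1 .. p.2`, `Gz p t = p2Gz .. (p2L hs p.1) .. p.2 t`,
`Gzz y t t' = p2Gzz .. (p2L hs θ) .. y t t'`.   `hG` = `IH` (on `Ioo 0 1 ∈ 𝓝 θ`).   `hGz`: `p2Row_hasD` + `IH` for the table `trAtt N q τ x i`, the block `insert q c`
(`p2_att_tr`), first new label `q'`, second new label any fresh one (`Infinite.exists_notMem_finset`), then `P2HasD.snd`.
BOUNDS: `0 ≤ p2W ≤ 1` (`p2W_nonneg`, `p2W_le_one`), `|F y| ≤ |F 0| + ‖y‖` (`gh_b_lip`), so `|p2U| ≤ exp (|μ| |F_θ 0|) exp (|μ| ‖y‖)` for EVERY table / block / configuration;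
`θ ↦ F_θ 0` is continuous at `θ` (`p2_F_hasD`, `.continuousAt`), rows: `p2Row_bound`, `p2Row_bound'`; `p2V` is bounded.
Then push the integrals through the rows (`p2Row_integral`; integrability: `p2U` is continuous in `y` by `IH`, bounded by `C exp (c ‖y‖)`, `gh_b_exp_l1`, `gh_b_inc_le`)
and collect (`p2Row_add`, `p2Row_smul`, `p2Row_sum`).
-/

set_option autoImplicit false

namespace Claimed.Agent.R286

open MeasureTheory ProbabilityTheory Filter Topology

variable {S ι : Type} [Fintype S] [Fintype ι]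

omit [Fintype S] [Fintype ι] in
theorem p2L_nn {hs : List (P2Lv S ι)} (hoks : ∀ h' ∈ hs, h'.Ok) (θ : ℝ) : GhNn (p2L hs θ) := by
  intro l hl
  simp only [p2L, List.mem_map] at hl
  obtain ⟨h', hh', rfl⟩ := hl
  exact (hoks h' hh').m0

/-- bound of the unnormalised weights, uniform in the table, the block and the configuration -/
theorem p2U_abs_le {B : GhB S} (hB : B.Ok) (τ : ℕ → ℕ → ℕ) (σ : ℕ → S) {ls : List (GhLv S ι)} (hls : GhNn ls) (j : ℕ) (b : Finset ℕ)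
    (μ : ℝ) (y : S → ℝ) : |p2U B τ σ ls j b μ y| ≤ Real.exp (|μ| * |ghF B ls 0|) * Real.exp (|μ| * ‖y‖) :=
  p2U_abs_le_pf hB τ σ hls j b μ y

/-- **derivatives of the continuation** (`b = ∅`, `μ = 1` in the induction hypothesis, then `log`): gradient = path weights, `θ`-derivative = pressure formula -/
theorem p2_F_hasD {B : GhB S} (hB : B.Ok) (hs : List (P2Lv S ι)) (hoks : ∀ h' ∈ hs, h'.Ok) (IH : P2Main B hs) {N j : ℕ}
    (hN : j + hs.length = N) (τ : ℕ → ℕ → ℕ) (σ : ℕ → S) {q q' : ℕ} (hqq : q ≠ q') {θ : ℝ} (hθ : θ ∈ Set.Ioo (0 : ℝ) 1) (z : S → ℝ) :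
    P2HasD (fun p => ghF B (p2L hs p.1) p.2)
      ((1 / 2) * p2Row B.a (trAtt N q τ 0 j) (hs.map P2Lv.m) 0 j (insert q ∅) fun x' i' =>
        ∑ t, ∑ t', p2V hs (trAtt N q' (trAtt N q τ 0 j) x' i' q q' - j) t t' *
          p2U B (trAtt N q' (trAtt N q τ 0 j) x' i') (Function.update (Function.update σ q t) q' t') (p2L hs θ) j
            (insert q' (insert q ∅)) 0 z)
      (fun t => p2U B (trAtt N q τ 0 j) (Function.update σ q t) (p2L hs θ) j (insert q ∅) 0 z) (θ, z) :=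
  p2_F_hasD_pf hB hs hoks IH hN τ σ hqq hθ z

/- `p2_N_hasD` : proved by helper150 in `Fd/P02StepN.lean` (`p2_N_hasD_pf`), which imports this file. -/

/-- the same for the continuation itself (level of mass `0`) -/
theorem p2_KF_hasD {B : GhB S} (hB : B.Ok) (h : P2Lv S ι) (hok : h.Ok) (hs : List (P2Lv S ι)) (hoks : ∀ h' ∈ hs, h'.Ok)
    (IH : P2Main B hs) {N j : ℕ} (hN : j + hs.length = N) (τ : ℕ → ℕ → ℕ) (σ : ℕ → S) {q q' : ℕ} (hqq : q ≠ q') {θ : ℝ}
    (hθ : θ ∈ Set.Ioo (0 : ℝ) 1) (z : S → ℝ) :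
    P2HasD (fun p => ∫ ξ, ghF B (p2L hs p.1) (p.2 + (h.lv p.1).inc ξ) ∂ghStd ι)
      ((1 / 2) * p2Row B.a (trAtt N q τ 0 j) (hs.map P2Lv.m) 0 j (insert q ∅) fun x' i' =>
        ∑ t, ∑ t', (p2V hs (trAtt N q' (trAtt N q τ 0 j) x' i' q q' - j) t t' + h.dK t t') *
          ∫ ξ, p2U B (trAtt N q' (trAtt N q τ 0 j) x' i') (Function.update (Function.update σ q t) q' t') (p2L hs θ) j
            (insert q' (insert q ∅)) 0 (z + (h.lv θ).inc ξ) ∂ghStd ι)
      (fun t => ∫ ξ, p2U B (trAtt N q τ 0 j) (Function.update σ q t) (p2L hs θ) j (insert q ∅) 0 (z + (h.lv θ).inc ξ) ∂ghStd ι)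
      (θ, z) :=
  p2_KF_hasD_pf hB h hok hs hoks IH hN τ σ hqq hθ z

/-- **decomposition of a double row** whose entries vanish when the two new labels do not share the stage `j` -/
theorem p2_drd {a : ℝ} {τ : ℕ → ℕ → ℕ} {m : ℝ} {ms : List ℝ} (μ : ℝ) {j N : ℕ} {b : Finset ℕ} {q q' : ℕ}
    (hN : j + (ms.length + 1) = N) (htr : P2Tr τ b j (N + 1)) (hq : q ∉ b) (hq' : q' ∉ b) (hqq : q ≠ q') (Θ : ℕ → ℕ → ℕ → ℕ → ℝ)
    (hΘ : ∀ x i x' i', P2Sup b j (ms.length + 1) x i → P2Sup (insert q b) j (ms.length + 1) x' i' →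
      trAtt N q' (trAtt N q τ x i) x' i' q q' ≤ j → Θ x i x' i' = 0) :
    (p2Row a τ (m :: ms) μ j b fun x i => p2Row a (trAtt N q τ x i) (m :: ms) μ j (insert q b) (Θ x i))
      = (μ - ((p2Cls τ j b).card : ℝ) * m) * p2Row a (trAtt N q τ (p2Rep b) j) ms m (j + 1) {q} (Θ (p2Rep b) j)
        + ∑ c ∈ p2Cls τ j b, p2Row a τ ms m (j + 1) c fun x i =>
            p2Row a (trAtt N q τ x i) ms m (j + 1) (insert q c) (Θ x i) :=
  p2_drd_pf μ hN htr hq hq' hqq Θ hΘ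

end Claimed.Agent.R286
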