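import Claimed.Agent.R286.Fd.P02OL
import Claimed.Agent.R286.Fd.P02Nil
import Claimed.Agent.R286.Fd.P02Row

/-!
# Row 286 (S0533), P02 engine, leaves of `Fd/P02Step.lean` (architect helper299):   OWNER / PROVER helper125.   No sorry in this file.
exits (statements of 299 verbatim): `p2U_abs_le_pf`, `p2_F_hasD_pf`, `p2_KF_hasD_pf`, `p2_drd_pf`.     Helper lemmas: prefix `p2k_`, `p2d_inner`
(`p2k_U_cont` : continuity of `p2U` in the source from `P2Main`; `p2k_U0_integrable`, `p2k_U0_abs_le`, `p2k_U_mu`, `p2k_V_zero`, `p2k_L_nn`).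
They rest on `p2_OL` (Fd/P02OL) and on the combinatorial leaves of Fd/P02Comb.
-/

set_option autoImplicit false

namespace Claimed.Agent.R286

open MeasureTheory ProbabilityTheory Filter Topology

variable {S ι : Type} [Fintype S] [Fintype ι]

omit [Fintype S] [Fintype ι] in
theorem p2k_L_nn {hs : List (P2Lv S ι)} (hoks : ∀ h' ∈ hs, h'.Ok) (θ : ℝ) : GhNn (p2L hs θ) := by
  intro l hl
  simp only [p2L, List.mem_map] at hl
  obtain ⟨h', hh', rfl⟩ := hl
  exact (hoks h' hh').m0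

/-- bound of the unnormalised weights, uniform in the table, the block and the configuration -/
theorem p2U_abs_le_pf {B : GhB S} (hB : B.Ok) (τ : ℕ → ℕ → ℕ) (σ : ℕ → S) {ls : List (GhLv S ι)} (hls : GhNn ls) (j : ℕ) (b : Finset ℕ)
    (μ : ℝ) (y : S → ℝ) : |p2U B τ σ ls j b μ y| ≤ Real.exp (|μ| * |ghF B ls 0|) * Real.exp (|μ| * ‖y‖) := by
  unfold p2U
  have h0 := p2W_nonneg hB τ σ ls j b y
  have h1 := p2W_le_one hB τ σ hls j b y
  rw [abs_mul, abs_of_pos (Real.exp_pos _), abs_of_nonneg h0, ← Real.exp_add]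
  calc Real.exp (μ * ghF B ls y) * p2W B τ σ ls j b y ≤ Real.exp (μ * ghF B ls y) * 1 :=
        mul_le_mul_of_nonneg_left h1 (Real.exp_pos _).le
    _ = Real.exp (μ * ghF B ls y) := mul_one _
    _ ≤ Real.exp (|μ| * |ghF B ls 0| + |μ| * ‖y‖) := by
        refine Real.exp_le_exp.2 ?_
        have h2 := gh_b_lip hB hls y 0
        rw [sub_zero] at h2
        have h3 : |ghF B ls y| ≤ |ghF B ls 0| + ‖y‖ := by
          have := abs_sub_abs_le_abs_sub (ghF B ls y) (ghF B ls 0)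
          linarith
        calc μ * ghF B ls y ≤ |μ * ghF B ls y| := le_abs_self _
          _ = |μ| * |ghF B ls y| := abs_mul _ _
          _ ≤ |μ| * (|ghF B ls 0| + ‖y‖) := mul_le_mul_of_nonneg_left h3 (abs_nonneg _)
          _ = _ := by ring

omit [Fintype S] [Fintype ι] in
theorem p2k_V_zero (hs : List (P2Lv S ι)) (s t : S) [Fintype ι] : p2V hs 0 s t = 0 := by
  cases hs <;> rfl

theorem p2k_U_zero (B : GhB S) (τ : ℕ → ℕ → ℕ) (σ : ℕ → S) (ls : List (GhLv S ι)) (j : ℕ) (b : Finset ℕ) (z : S → ℝ) :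
    p2U B τ σ ls j b 0 z = p2W B τ σ ls j b z := by
  simp [p2U]

theorem p2k_U_mu (B : GhB S) (τ : ℕ → ℕ → ℕ) (σ : ℕ → S) (ls : List (GhLv S ι)) (j : ℕ) (b : Finset ℕ) (μ : ℝ) (z : S → ℝ) :
    p2U B τ σ ls j b μ z = Real.exp (μ * ghF B ls z) * p2U B τ σ ls j b 0 z := by
  rw [p2k_U_zero]; rfl

/-- **derivatives of the continuation** (`b = ∅`, `μ = 1` in the induction hypothesis, then `log`): gradient = path weights, `θ`-derivative = pressure formula -/
theorem p2_F_hasD_pf {B : GhB S} (_hB : B.Ok) (hs : List (P2Lv S ι)) (_hoks : ∀ h' ∈ hs, h'.Ok) (IH : P2Main B hs) {N j : ℕ}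
    (hN : j + hs.length = N) (τ : ℕ → ℕ → ℕ) (σ : ℕ → S) {q q' : ℕ} (hqq : q ≠ q') {θ : ℝ} (hθ : θ ∈ Set.Ioo (0 : ℝ) 1) (z : S → ℝ) :
    P2HasD (fun p => ghF B (p2L hs p.1) p.2)
      ((1 / 2) * p2Row B.a (trAtt N q τ 0 j) (hs.map P2Lv.m) 0 j (insert q ∅) fun x' i' =>
        ∑ t, ∑ t', p2V hs (trAtt N q' (trAtt N q τ 0 j) x' i' q q' - j) t t' *
          p2U B (trAtt N q' (trAtt N q τ 0 j) x' i') (Function.update (Function.update σ q t) q' t') (p2L hs θ) j
            (insert q' (insert q ∅)) 0 z)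
      (fun t => p2U B (trAtt N q τ 0 j) (Function.update σ q t) (p2L hs θ) j (insert q ∅) 0 z) (θ, z) := by
  have h1 := IH N j τ σ ∅ 1 q q' hN (Finset.notMem_empty _) (Finset.notMem_empty _) hqq (p2_tr_empty τ j (N + 1)) θ hθ z
  have hU : ∀ p : ℝ × (S → ℝ), p2U B τ σ (p2L hs p.1) j ∅ 1 p.2 = Real.exp (ghF B (p2L hs p.1) p.2) := by
    intro p
    simp [p2U, p2W_empty]
  have h2 := h1.log (by rw [hU]; exact (Real.exp_pos _).ne')
  have hU0 : p2U B τ σ (p2L hs θ) j ∅ 1 z = Real.exp (ghF B (p2L hs θ) z) := hU (θ, z)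
  simp only [hU, Real.log_exp, hU0] at h2
  have htr : P2Tr (trAtt N q τ 0 j) (insert q ∅) j (j + (hs.map P2Lv.m).length + 1) := by
    rw [List.length_map, hN]
    exact p2_att_tr (p2_tr_empty τ j (N + 1)) (Finset.notMem_empty _) (Or.inr rfl) le_rfl (by omega)
  have hE : (Real.exp (ghF B (p2L hs θ) z))⁻¹ * Real.exp (1 * ghF B (p2L hs θ) z) = 1 := by
    rw [one_mul]; exact inv_mul_cancel₀ (Real.exp_pos _).ne'
  refine h2.congr ?_ fun t => ?_
  · unfold p2Gt
    rw [p2Row_empty, one_mul, p2Row_sub B.a _ _ 1 0]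
    have hz : (∑ t, ∑ t', p2V hs (trAtt N q' (trAtt N q τ 0 j) (p2Rep (insert q ∅)) j q q' - j) t t' *
        p2U B (trAtt N q' (trAtt N q τ 0 j) (p2Rep (insert q ∅)) j) (Function.update (Function.update σ q t) q' t')
          (p2L hs θ) j (insert q' (insert q ∅)) 1 z) = 0 := by
      refine Finset.sum_eq_zero fun t _ => Finset.sum_eq_zero fun t' _ => ?_
      have : trAtt N q' (trAtt N q τ 0 j) (p2Rep (insert q ∅)) j q q' - j = 0 := by
        simp only [trAtt, hqq, if_false, if_true]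
        omega
      rw [this, p2k_V_zero, zero_mul]
    rw [hz, mul_zero, add_zero]
    have hsm : (fun x' i' => ∑ t, ∑ t', p2V hs (trAtt N q' (trAtt N q τ 0 j) x' i' q q' - j) t t' *
          p2U B (trAtt N q' (trAtt N q τ 0 j) x' i') (Function.update (Function.update σ q t) q' t') (p2L hs θ) j
            (insert q' (insert q ∅)) 1 z)
        = fun x' i' => Real.exp (1 * ghF B (p2L hs θ) z) *
          ∑ t, ∑ t', p2V hs (trAtt N q' (trAtt N q τ 0 j) x' i' q q' - j) t t' *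
          p2U B (trAtt N q' (trAtt N q τ 0 j) x' i') (Function.update (Function.update σ q t) q' t') (p2L hs θ) j
            (insert q' (insert q ∅)) 0 z := by
      funext x' i'
      rw [Finset.mul_sum]
      refine Finset.sum_congr rfl fun t _ => ?_
      rw [Finset.mul_sum]
      refine Finset.sum_congr rfl fun t' _ => ?_
      rw [p2k_U_mu B _ _ _ _ _ 1]
      ring
    rw [hsm, p2Row_smul htr]
    rw [show ∀ e E R : ℝ, e * (1 / 2 * (E * R)) = (e * E) * (1 / 2 * R) from fun _ _ _ => by ring, hE, one_mul]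
  · unfold p2Gz
    rw [p2Row_empty, one_mul, p2k_U_mu B _ _ _ _ _ 1, ← mul_assoc, hE, one_mul]

/-- the unnormalised weights are continuous in the source (from the induction hypothesis) -/
theorem p2k_U_cont {B : GhB S} (hs : List (P2Lv S ι)) (IH : P2Main B hs) {N j : ℕ} (hN : j + hs.length = N)
    {τ : ℕ → ℕ → ℕ} (σ : ℕ → S) {b : Finset ℕ} (htr : P2Tr τ b j (N + 1)) (μ : ℝ) {θ : ℝ} (hθ : θ ∈ Set.Ioo (0 : ℝ) 1) :
    Continuous fun y => p2U B τ σ (p2L hs θ) j b μ y := by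
  obtain ⟨r, hr⟩ := Infinite.exists_notMem_finset b
  obtain ⟨r', hr'⟩ := Infinite.exists_notMem_finset (insert r b)
  rw [Finset.mem_insert, not_or] at hr'
  refine continuous_iff_continuousAt.2 fun y => ?_
  exact (IH N j τ σ b μ r r' hN hr hr'.2 (fun h => hr'.1 h.symm) htr θ hθ y).snd.continuousAt

theorem p2k_U0_integrable {B : GhB S} (hB : B.Ok) (hs : List (P2Lv S ι)) (hoks : ∀ h' ∈ hs, h'.Ok) (IH : P2Main B hs) {N j : ℕ}
    (hN : j + hs.length = N) {τ : ℕ → ℕ → ℕ} (σ : ℕ → S) {b : Finset ℕ} (htr : P2Tr τ b j (N + 1)) {θ : ℝ}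
    (hθ : θ ∈ Set.Ioo (0 : ℝ) 1) (l : GhLv S ι) (z : S → ℝ) :
    Integrable (fun ξ => p2U B τ σ (p2L hs θ) j b 0 (z + l.inc ξ)) (ghStd ι) := by
  have hc : Continuous fun ξ => p2U B τ σ (p2L hs θ) j b 0 (z + l.inc ξ) :=
    (p2k_U_cont hs IH hN σ htr 0 hθ).comp (continuous_const.add (gh_b_inc_continuous l))
  refine (integrable_const (1 : ℝ)).mono' hc.aestronglyMeasurable (Eventually.of_forall fun ξ => ?_)
  rw [Real.norm_eq_abs, p2k_U_zero, abs_of_nonneg (p2W_nonneg hB _ _ _ _ _ _)]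
  exact p2W_le_one hB _ _ (p2k_L_nn hoks θ) _ _ _

theorem p2k_U0_abs_le {B : GhB S} (hB : B.Ok) (τ : ℕ → ℕ → ℕ) (σ : ℕ → S) {ls : List (GhLv S ι)} (hls : GhNn ls) (j : ℕ)
    (b : Finset ℕ) (y : S → ℝ) : |p2U B τ σ ls j b 0 y| ≤ 1 := by
  rw [p2k_U_zero, abs_of_nonneg (p2W_nonneg hB _ _ _ _ _ _)]
  exact p2W_le_one hB _ _ hls _ _ _

/-- the same for the continuation itself (level of mass `0`) -/
theorem p2_KF_hasD_pf {B : GhB S} (hB : B.Ok) (h : P2Lv S ι) (hok : h.Ok) (hs : List (P2Lv S ι)) (hoks : ∀ h' ∈ hs, h'.Ok)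
    (IH : P2Main B hs) {N j : ℕ} (hN : j + hs.length = N) (τ : ℕ → ℕ → ℕ) (σ : ℕ → S) {q q' : ℕ} (hqq : q ≠ q') {θ : ℝ}
    (hθ : θ ∈ Set.Ioo (0 : ℝ) 1) (z : S → ℝ) :
    P2HasD (fun p => ∫ ξ, ghF B (p2L hs p.1) (p.2 + (h.lv p.1).inc ξ) ∂ghStd ι)
      ((1 / 2) * p2Row B.a (trAtt N q τ 0 j) (hs.map P2Lv.m) 0 j (insert q ∅) fun x' i' =>
        ∑ t, ∑ t', (p2V hs (trAtt N q' (trAtt N q τ 0 j) x' i' q q' - j) t t' + h.dK t t') *
          ∫ ξ, p2U B (trAtt N q' (trAtt N q τ 0 j) x' i') (Function.update (Function.update σ q t) q' t') (p2L hs θ) j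
            (insert q' (insert q ∅)) 0 (z + (h.lv θ).inc ξ) ∂ghStd ι)
      (fun t => ∫ ξ, p2U B (trAtt N q τ 0 j) (Function.update σ q t) (p2L hs θ) j (insert q ∅) 0 (z + (h.lv θ).inc ξ) ∂ghStd ι)
      (θ, z) := by
  set T := trAtt N q τ 0 j with hT
  set ms := hs.map P2Lv.m with hms
  have hlen : j + ms.length + 1 = N + 1 := by rw [hms, List.length_map, hN]
  have htr : P2Tr T (insert q ∅) j (N + 1) :=
    p2_att_tr (p2_tr_empty τ j (N + 1)) (Finset.notMem_empty _) (Or.inr rfl) le_rfl (by omega)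
  have htr' : P2Tr T (insert q ∅) j (j + ms.length + 1) := by rw [hlen]; exact htr
  have hq' : q' ∉ (insert q ∅ : Finset ℕ) := by simp [Ne.symm hqq]
  have htr2 : ∀ x' i', P2Sup (insert q ∅) j ms.length x' i' → P2Tr (trAtt N q' T x' i') (insert q' (insert q ∅)) j (N + 1) :=
    fun x' i' hs' => p2_att_tr htr hq' hs'.1 hs'.2.1 (by have := hs'.2.2; omega)
  -- the constants
  obtain ⟨K₁, hK₁0, hK₁⟩ := p2Row_bound' B.a 0 htr' fun x' i' => ∑ t, ∑ t', |p2V hs (trAtt N q' T x' i' q q' - j) t t'|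
  obtain ⟨K₂, hK₂0, hK₂⟩ := p2Row_bound B.a 0 htr'
  have hcF : ContinuousAt (fun θ' => ghF B (p2L hs θ') 0) θ :=
    (p2_F_hasD_pf hB hs hoks IH hN τ σ hqq hθ 0).fst.continuousAt
  have hevF : ∀ᶠ θ' in 𝓝 θ, |ghF B (p2L hs θ') 0| ≤ |ghF B (p2L hs θ) 0| + 1 := by
    have := hcF.abs.eventually (ge_mem_nhds (lt_add_one |ghF B (p2L hs θ) 0|))
    exact this
  have hIoo : ∀ᶠ θ' in 𝓝 θ, θ' ∈ Set.Ioo (0 : ℝ) 1 := Ioo_mem_nhds hθ.1 hθ.2
  set C : ℝ := (|ghF B (p2L hs θ) 0| + 2) + K₁ + K₂ + 1 with hC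
  have hexp : ∀ y : S → ℝ, 1 ≤ Real.exp (1 * ‖y‖) := fun y => Real.one_le_exp (by positivity)
  have hle : ∀ (k : ℝ) (y : S → ℝ), 0 ≤ k → k ≤ C → k ≤ C * Real.exp (1 * ‖y‖) := by
    intro k y hk hkC
    have hC0 : 0 ≤ C := hk.trans hkC
    calc k ≤ C := hkC
      _ = C * 1 := (mul_one C).symm
      _ ≤ _ := mul_le_mul_of_nonneg_left (hexp y) hC0
  have hF0 := abs_nonneg (ghF B (p2L hs θ) 0)
  have key := p2_OL h hok (fun p => ghF B (p2L hs p.1) p.2)
    (fun p => (1 / 2) * p2Row B.a T ms 0 j (insert q ∅) fun x' i' =>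
        ∑ t, ∑ t', p2V hs (trAtt N q' T x' i' q q' - j) t t' *
          p2U B (trAtt N q' T x' i') (Function.update (Function.update σ q t) q' t') (p2L hs p.1) j
            (insert q' (insert q ∅)) 0 p.2)
    (fun p t => p2U B T (Function.update σ q t) (p2L hs p.1) j (insert q ∅) 0 p.2)
    (fun y t t' => p2Gz B N ms T (Function.update σ q t) (p2L hs θ) j (insert q ∅) 0 q' y t')
    θ hθ z C 1 ?_ ?_ ?_ ?_ ?_ ?_
  · refine key.congr ?_ fun t => rfl
    simp only
    have hint : ∀ x' i', P2Sup (insert q ∅) j ms.length x' i' → ∀ t t', Integrable (fun ξ =>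
        p2U B (trAtt N q' T x' i') (Function.update (Function.update σ q t) q' t') (p2L hs θ) j
            (insert q' (insert q ∅)) 0 (z + (h.lv θ).inc ξ)) (ghStd ι) :=
      fun x' i' hs' t t' => p2k_U0_integrable hB hs hoks IH hN _ (htr2 x' i' hs') hθ _ z
    -- (i)
    have e1 : ∫ ξ, (1 / 2) * p2Row B.a T ms 0 j (insert q ∅) (fun x' i' =>
        ∑ t, ∑ t', p2V hs (trAtt N q' T x' i' q q' - j) t t' *
          p2U B (trAtt N q' T x' i') (Function.update (Function.update σ q t) q' t') (p2L hs θ) j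
            (insert q' (insert q ∅)) 0 (z + (h.lv θ).inc ξ)) ∂ghStd ι
        = (1 / 2) * p2Row B.a T ms 0 j (insert q ∅) (fun x' i' =>
        ∑ t, ∑ t', p2V hs (trAtt N q' T x' i' q q' - j) t t' *
          ∫ ξ, p2U B (trAtt N q' T x' i') (Function.update (Function.update σ q t) q' t') (p2L hs θ) j
            (insert q' (insert q ∅)) 0 (z + (h.lv θ).inc ξ) ∂ghStd ι) := by
      rw [integral_const_mul, p2Row_integral htr' (Ψ := fun x' i' ξ =>
        ∑ t, ∑ t', p2V hs (trAtt N q' T x' i' q q' - j) t t' *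
          p2U B (trAtt N q' T x' i') (Function.update (Function.update σ q t) q' t') (p2L hs θ) j
            (insert q' (insert q ∅)) 0 (z + (h.lv θ).inc ξ))
        (fun x' i' hs' => integrable_finsetSum _ fun t _ => integrable_finsetSum _ fun t' _ =>
          (hint x' i' hs' t t').const_mul _)]
      congr 1
      refine p2Row_congr htr' fun x' i' hs' => ?_
      rw [integral_finsetSum _ fun t _ => integrable_finsetSum _ fun t' _ => (hint x' i' hs' t t').const_mul _]
      refine Finset.sum_congr rfl fun t _ => ?_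
      rw [integral_finsetSum _ fun t' _ => (hint x' i' hs' t t').const_mul _]
      exact Finset.sum_congr rfl fun t' _ => integral_const_mul _ _
    -- (ii)
    have e2 : ∀ t t', ∫ ξ, p2Gz B N ms T (Function.update σ q t) (p2L hs θ) j (insert q ∅) 0 q' (z + (h.lv θ).inc ξ) t' ∂ghStd ι
        = p2Row B.a T ms 0 j (insert q ∅) fun x' i' =>
          ∫ ξ, p2U B (trAtt N q' T x' i') (Function.update (Function.update σ q t) q' t') (p2L hs θ) j
            (insert q' (insert q ∅)) 0 (z + (h.lv θ).inc ξ) ∂ghStd ι := by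
      intro t t'
      unfold p2Gz
      exact p2Row_integral htr' (Ψ := fun x' i' ξ =>
          p2U B (trAtt N q' T x' i') (Function.update (Function.update σ q t) q' t') (p2L hs θ) j
            (insert q' (insert q ∅)) 0 (z + (h.lv θ).inc ξ)) (fun x' i' hs' => hint x' i' hs' t t')
    have e3 : ∑ t, ∑ t', h.dK t t' * (p2Row B.a T ms 0 j (insert q ∅) fun x' i' =>
          ∫ ξ, p2U B (trAtt N q' T x' i') (Function.update (Function.update σ q t) q' t') (p2L hs θ) j
            (insert q' (insert q ∅)) 0 (z + (h.lv θ).inc ξ) ∂ghStd ι)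
        = p2Row B.a T ms 0 j (insert q ∅) fun x' i' => ∑ t, ∑ t', h.dK t t' *
          ∫ ξ, p2U B (trAtt N q' T x' i') (Function.update (Function.update σ q t) q' t') (p2L hs θ) j
            (insert q' (insert q ∅)) 0 (z + (h.lv θ).inc ξ) ∂ghStd ι := by
      rw [p2Row_sum htr' Finset.univ fun t x' i' => ∑ t', h.dK t t' *
          ∫ ξ, p2U B (trAtt N q' T x' i') (Function.update (Function.update σ q t) q' t') (p2L hs θ) j
            (insert q' (insert q ∅)) 0 (z + (h.lv θ).inc ξ) ∂ghStd ι]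
      refine Finset.sum_congr rfl fun t _ => ?_
      rw [p2Row_sum htr' Finset.univ fun t' x' i' => h.dK t t' *
          ∫ ξ, p2U B (trAtt N q' T x' i') (Function.update (Function.update σ q t) q' t') (p2L hs θ) j
            (insert q' (insert q ∅)) 0 (z + (h.lv θ).inc ξ) ∂ghStd ι]
      exact Finset.sum_congr rfl fun t' _ => (p2Row_smul htr' _ _).symm
    rw [e1]
    simp_rw [e2]
    rw [e3, ← mul_add, ← p2Row_add htr']
    congr 2
    funext x' i'
    rw [← Finset.sum_add_distrib]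
    refine Finset.sum_congr rfl fun t _ => ?_
    rw [← Finset.sum_add_distrib]
    exact Finset.sum_congr rfl fun t' _ => by ring
  · filter_upwards [hIoo] with θ' hθ' y
    exact p2_F_hasD_pf hB hs hoks IH hN τ σ hqq hθ' y
  · intro y t
    obtain ⟨r', hr'⟩ := Infinite.exists_notMem_finset (insert q' (insert q (∅ : Finset ℕ)))
    rw [Finset.mem_insert, not_or] at hr'
    exact (IH N j T (Function.update σ q t) (insert q ∅) 0 q' r' hN hq' hr'.2 (fun h => hr'.1 h.symm) htr θ hθ y).snd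
  · filter_upwards [hevF] with θ' hθ' y
    have h2 := gh_b_lip hB (p2k_L_nn hoks θ') y 0
    rw [sub_zero] at h2
    have h3 := abs_sub_abs_le_abs_sub (ghF B (p2L hs θ') y) (ghF B (p2L hs θ') 0)
    have h4 := Real.add_one_le_exp (1 * ‖y‖)
    have h5 := hexp y
    have h6 : (|ghF B (p2L hs θ) 0| + 2) * Real.exp (1 * ‖y‖) ≤ C * Real.exp (1 * ‖y‖) :=
      mul_le_mul_of_nonneg_right (by rw [hC]; linarith) (Real.exp_pos _).le
    nlinarith
  · filter_upwards with θ' y
    refine hle _ y (abs_nonneg _) ?_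
    rw [abs_mul, abs_of_nonneg (by norm_num : (0 : ℝ) ≤ 1 / 2)]
    have := hK₁ (fun x' i' =>
        ∑ t, ∑ t', p2V hs (trAtt N q' T x' i' q q' - j) t t' *
          p2U B (trAtt N q' T x' i') (Function.update (Function.update σ q t) q' t') (p2L hs θ') j
            (insert q' (insert q ∅)) 0 y) 1 zero_le_one (fun x' i' _ => by
      rw [mul_one]
      refine (Finset.abs_sum_le_sum_abs _ _).trans (Finset.sum_le_sum fun t _ => ?_)
      refine (Finset.abs_sum_le_sum_abs _ _).trans (Finset.sum_le_sum fun t' _ => ?_)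
      rw [abs_mul]
      exact mul_le_of_le_one_right (abs_nonneg _) (p2k_U0_abs_le hB _ _ (p2k_L_nn hoks θ') _ _ _))
    rw [hC]
    linarith
  · filter_upwards with θ' y t
    refine hle _ y (abs_nonneg _) ?_
    have := p2k_U0_abs_le hB T (Function.update σ q t) (p2k_L_nn hoks θ') j (insert q ∅) y
    rw [hC]
    linarith
  · intro y t t'
    refine hle _ y (abs_nonneg _) ?_
    unfold p2Gz
    have := hK₂ (fun x i => p2U B (trAtt N q' T x i) (Function.update (Function.update σ q t) q' t') (p2L hs θ) j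
      (insert q' (insert q ∅)) 0 y) 1 (fun x i _ => p2k_U0_abs_le hB _ _ (p2k_L_nn hoks θ) _ _ _)
    rw [hC]
    linarith

/-! ### the double row (pure combinatorics) -/

/-- a row all of whose entries vanish outside ONE child `c₀` of the block -/
theorem p2d_inner {a : ℝ} {T : ℕ → ℕ → ℕ} {m : ℝ} {ms : List ℝ} (μ : ℝ) {j : ℕ} {b c₀ : Finset ℕ}
    (hT : P2Tr T b j (j + 1 + ms.length + 1)) (Ξ : ℕ → ℕ → ℝ) (hc₀ : c₀ ∈ p2Cls T j b) (h0 : Ξ (p2Rep b) j = 0)
    (hz : ∀ c' ∈ p2Cls T j b, c' ≠ c₀ → ∀ x' i', x' ∈ c' → j + 1 ≤ i' → i' ≤ j + 1 + ms.length + 1 → Ξ x' i' = 0) :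
    p2Row a T (m :: ms) μ j b Ξ = p2Row a T ms m (j + 1) c₀ Ξ := by
  rw [p2Row, h0, mul_zero, zero_add]
  refine Finset.sum_eq_single c₀ (fun c' hc' hne => ?_) (fun h => absurd hc₀ h)
  obtain ⟨h1, _, h3⟩ := p2_cls_tr hT (by omega) hc'
  refine p2Row_zero h1 fun x' i' hs' => ?_
  rcases hs'.1 with hx | hx
  · exact hz c' hc' hne x' i' hx hs'.2.1 hs'.2.2
  · exact absurd hx h3.ne_empty

/-- **decomposition of a double row** whose entries vanish when the two new labels do not share the stage `j` -/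
theorem p2_drd_pf {a : ℝ} {τ : ℕ → ℕ → ℕ} {m : ℝ} {ms : List ℝ} (μ : ℝ) {j N : ℕ} {b : Finset ℕ} {q q' : ℕ}
    (hN : j + (ms.length + 1) = N) (htr : P2Tr τ b j (N + 1)) (hq : q ∉ b) (_hq' : q' ∉ b) (hqq : q ≠ q') (Θ : ℕ → ℕ → ℕ → ℕ → ℝ)
    (hΘ : ∀ x i x' i', P2Sup b j (ms.length + 1) x i → P2Sup (insert q b) j (ms.length + 1) x' i' →
      trAtt N q' (trAtt N q τ x i) x' i' q q' ≤ j → Θ x i x' i' = 0) :
    (p2Row a τ (m :: ms) μ j b fun x i => p2Row a (trAtt N q τ x i) (m :: ms) μ j (insert q b) (Θ x i))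
      = (μ - ((p2Cls τ j b).card : ℝ) * m) * p2Row a (trAtt N q τ (p2Rep b) j) ms m (j + 1) {q} (Θ (p2Rep b) j)
        + ∑ c ∈ p2Cls τ j b, p2Row a τ ms m (j + 1) c fun x i =>
            p2Row a (trAtt N q τ x i) ms m (j + 1) (insert q c) (Θ x i) := by
  have hD : j + 1 + ms.length + 1 = N + 1 := by omega
  have hjN : j ≤ N := by omega
  have hins : (insert q b).Nonempty := Finset.insert_nonempty q b
  -- value of the doubly extended table at the two new labels
  have hval : ∀ x i x' i', x' ≠ q → trAtt N q' (trAtt N q τ x i) x' i' q q' = min i' (min i (τ x x')) := by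
    intro x i x' i' hx'
    simp only [trAtt, hqq, if_false, if_true, hx']
  have hval0 : ∀ x i x', trAtt N q' (trAtt N q τ x i) x' j q q' ≤ j := by
    intro x i x'
    simp only [trAtt, hqq, if_false, if_true]
    omega
  rw [p2Row]
  congr 1
  · -- the new child
    congr 1
    have hsup : P2Sup b j (ms.length + 1) (p2Rep b) j := by
      refine ⟨?_, le_rfl, by omega⟩
      rcases b.eq_empty_or_nonempty with h | h
      · exact Or.inr h
      · exact Or.inl (p2Rep_mem h)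
    have hT : P2Tr (trAtt N q τ (p2Rep b) j) (insert q b) j (j + 1 + ms.length + 1) := by
      rw [hD]; exact p2_att_tr htr hq hsup.1 le_rfl (by omega)
    have hcls := p2_cls_new (τ := τ) (b := b) (x := p2Rep b) hq hjN
    refine p2d_inner μ hT _ (by rw [hcls]; exact Finset.mem_insert_self _ _) ?_ ?_
    · exact hΘ _ _ _ _ hsup ⟨Or.inl (p2Rep_mem hins), le_rfl, by omega⟩ (hval0 _ _ _)
    · intro c' hc' hne x' i' hx' h1 h2
      rw [hcls, Finset.mem_insert] at hc'
      have hc'' := hc'.resolve_left hne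
      have hxb : x' ∈ b := (p2_cls_tr htr (by omega) hc'').2.1 hx'
      refine hΘ _ _ _ _ hsup ⟨Or.inl (Finset.mem_insert_of_mem hxb), by omega, by omega⟩ ?_
      rw [hval _ _ _ _ (fun h => hq (h ▸ hxb))]
      omega
  · -- inside a child
    refine Finset.sum_congr rfl fun c hc => ?_
    obtain ⟨hc1, hc2, hc3⟩ := p2_cls_tr htr (by omega) hc
    rw [← hD] at hc1
    refine p2Row_congr hc1 fun x i hs' => ?_
    have hxc : x ∈ c := hs'.1.resolve_right hc3.ne_empty
    have hxb : x ∈ b := hc2 hxc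
    have hsup : P2Sup b j (ms.length + 1) x i := ⟨Or.inl hxb, by have := hs'.2.1; omega, by have := hs'.2.2; omega⟩
    have hji : j < i := hs'.2.1
    have hT : P2Tr (trAtt N q τ x i) (insert q b) j (j + 1 + ms.length + 1) := by
      rw [hD]; exact p2_att_tr htr hq (Or.inl hxb) hji.le (by have := hs'.2.2; omega)
    have hcl : p2Cl τ j b x = c := p2_cl_eq htr (by omega) hc hxc
    have hcls := p2_cls_in htr hq hxb hji hjN
    rw [hcl] at hcls
    refine p2d_inner μ hT _ (by rw [hcls]; exact Finset.mem_insert_self _ _) ?_ ?_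
    · exact hΘ _ _ _ _ hsup ⟨Or.inl (p2Rep_mem hins), le_rfl, by omega⟩ (hval0 _ _ _)
    · intro c' hc' hne x' i' hx' h1 h2
      rw [hcls, Finset.mem_insert] at hc'
      have hc'' := Finset.mem_erase.1 (hc'.resolve_left hne)
      have hxb' : x' ∈ b := (p2_cls_tr htr (by omega) hc''.2).2.1 hx'
      refine hΘ _ _ _ _ hsup ⟨Or.inl (Finset.mem_insert_of_mem hxb'), by omega, by omega⟩ ?_
      rw [hval _ _ _ _ (fun h => hq (h ▸ hxb'))]
      have : ¬ j < τ x x' := by
        intro hlt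
        have h3 : x' ∈ p2Cl τ j b x := by
          unfold p2Cl
          exact Finset.mem_filter.2 ⟨hxb', hlt⟩
        rw [hcl] at h3
        have h4 := p2_cl_eq htr (by omega) hc h3
        have h5 := p2_cl_eq htr (by omega) hc''.2 hx'
        exact hc''.1 (h5.symm.trans h4)
      omega

end Claimed.Agent.R286
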