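import Claimed.Agent.R286.Fd.P02Step

/-!
# Row 286 (S0533), P02 engine: proof of the leaf `p2_N_hasD` (derivative of the tested child integral)   (architect helper299; prover helper150; prefix `p2n_`)
Exit: `p2_N_hasD_pf` (statement of `p2_N_hasD` verbatim).   Cites `p2_OL`, `p2_F_hasD`, `p2U_abs_le`, `p2Row_repr`, `p2_att_tr`.
-/

set_option autoImplicit false

namespace Claimed.Agent.R286

open MeasureTheory ProbabilityTheory Filter Topology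

variable {S ι : Type} [Fintype S] [Fintype ι]

/-- bound of the accumulated covariance derivative -/
def p2Vb (hs : List (P2Lv S ι)) : ℝ := (hs.map fun h => ∑ s, ∑ t, |h.dK s t|).sum

theorem p2n_eqns_cite : True := by
  have := @p2Vb.eq_1
  trivial

theorem p2n_Vb_nonneg (hs : List (P2Lv S ι)) : 0 ≤ p2Vb hs := by
  unfold p2Vb
  apply List.sum_nonneg
  intro x hx
  simp only [List.mem_map] at hx
  obtain ⟨h, _, rfl⟩ := hx
  exact Finset.sum_nonneg fun _ _ => Finset.sum_nonneg fun _ _ => abs_nonneg _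

theorem p2n_V_abs_le : ∀ (hs : List (P2Lv S ι)) (r : ℕ) (s t : S), |p2V hs r s t| ≤ p2Vb hs
  | [], _, _, _ => by simp [p2V, p2Vb]
  | h :: hs, 0, s, t => by
      simp only [p2V, abs_zero]
      exact p2n_Vb_nonneg _
  | h :: hs, r + 1, s, t => by
      have e : p2Vb (h :: hs) = (∑ s, ∑ t, |h.dK s t|) + p2Vb hs := by simp [p2Vb]
      rw [e]
      simp only [p2V]
      refine (abs_add_le _ _).trans (add_le_add ?_ (p2n_V_abs_le hs r s t))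
      calc |h.dK s t| ≤ ∑ t, |h.dK s t| :=
            Finset.single_le_sum (f := fun t => |h.dK s t|) (fun _ _ => abs_nonneg _) (Finset.mem_univ t)
        _ ≤ ∑ s, ∑ t, |h.dK s t| :=
            Finset.single_le_sum (f := fun s => ∑ t, |h.dK s t|)
              (fun _ _ => Finset.sum_nonneg fun _ _ => abs_nonneg _) (Finset.mem_univ s)

/-- continuity of the unnormalised weights in the field (from the induction hypothesis) -/
theorem p2n_U_cont {B : GhB S} {hs : List (P2Lv S ι)} (IH : P2Main B hs) {N j : ℕ} (hN : j + hs.length = N)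
    {τ : ℕ → ℕ → ℕ} (σ : ℕ → S) {b : Finset ℕ} (μ : ℝ) (htr : P2Tr τ b j (N + 1)) {θ : ℝ} (hθ : θ ∈ Set.Ioo (0 : ℝ) 1) :
    Continuous fun y => p2U B τ σ (p2L hs θ) j b μ y := by
  obtain ⟨q, hq⟩ := Infinite.exists_notMem_finset b
  obtain ⟨q', hq'⟩ := Infinite.exists_notMem_finset (insert q b)
  have hq'b : q' ∉ b := fun h => hq' (Finset.mem_insert_of_mem h)
  have hqq : q ≠ q' := fun h => hq' (h ▸ Finset.mem_insert_self _ _)
  rw [continuous_iff_continuousAt]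
  intro y
  have h := (IH N j τ σ b μ q q' hN hq hq'b hqq htr θ hθ y).continuousAt
  have h2 : ContinuousAt (fun y : S → ℝ => (θ, y)) y := by fun_prop
  exact ContinuousAt.comp (f := fun y : S → ℝ => (θ, y))
    (g := fun p : ℝ × (S → ℝ) => p2U B τ σ (p2L hs p.1) j b μ p.2) h h2

theorem p2n_norm_le (l : GhLv S ι) (z : S → ℝ) (ξ : ι → ℝ) : ‖z + l.inc ξ‖ ≤ ‖z‖ + l.nrm * ∑ i, |ξ i| := by
  refine (norm_add_le _ _).trans (add_le_add le_rfl ?_)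
  refine (pi_norm_le_iff_of_nonneg (mul_nonneg (gh_b_nrm_nonneg l) (Finset.sum_nonneg fun _ _ => abs_nonneg _))).2 fun s => ?_
  rw [Real.norm_eq_abs]
  exact gh_b_inc_le l ξ s

/-- integrability of the unnormalised weights along a level -/
theorem p2n_U_int {B : GhB S} (hB : B.Ok) {hs : List (P2Lv S ι)} (hoks : ∀ h' ∈ hs, h'.Ok) (IH : P2Main B hs) {N j : ℕ}
    (hN : j + hs.length = N) {τ : ℕ → ℕ → ℕ} (σ : ℕ → S) {b : Finset ℕ} (μ : ℝ) (htr : P2Tr τ b j (N + 1)) {θ : ℝ}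
    (hθ : θ ∈ Set.Ioo (0 : ℝ) 1) (l : GhLv S ι) (z : S → ℝ) :
    Integrable (fun ξ => p2U B τ σ (p2L hs θ) j b μ (z + l.inc ξ)) (ghStd ι) := by
  have hc : Continuous fun ξ : ι → ℝ => p2U B τ σ (p2L hs θ) j b μ (z + l.inc ξ) :=
    (p2n_U_cont IH hN σ μ htr hθ).comp (continuous_const.add (gh_b_inc_continuous l))
  refine Integrable.mono' (g := fun ξ => (Real.exp (|μ| * |ghF B (p2L hs θ) 0|) * Real.exp (|μ| * ‖z‖))
    * Real.exp ((|μ| * l.nrm) * ∑ i, |ξ i|)) ((gh_b_exp_l1 _).const_mul _) hc.aestronglyMeasurable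
    (Eventually.of_forall fun ξ => ?_)
  rw [Real.norm_eq_abs]
  refine (p2U_abs_le hB τ σ (p2L_nn hoks θ) j b μ _).trans ?_
  rw [mul_assoc, ← Real.exp_add (|μ| * ‖z‖)]
  refine mul_le_mul_of_nonneg_left (Real.exp_le_exp.2 ?_) (Real.exp_pos _).le
  have := mul_le_mul_of_nonneg_left (p2n_norm_le l z ξ) (abs_nonneg μ)
  linarith

/-- local bound of `F_θ 0` -/
theorem p2n_F0_bdd {B : GhB S} (hB : B.Ok) (hs : List (P2Lv S ι)) (hoks : ∀ h' ∈ hs, h'.Ok) (IH : P2Main B hs) (σ : ℕ → S)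
    {θ : ℝ} (hθ : θ ∈ Set.Ioo (0 : ℝ) 1) : ∃ M0 : ℝ, ∀ᶠ θ' in 𝓝 θ, |ghF B (p2L hs θ') 0| ≤ M0 := by
  have h := (p2_F_hasD hB hs hoks IH (N := 0 + hs.length) (j := 0) rfl (fun _ _ => 0) σ (q := 0) (q' := 1) (by norm_num) hθ 0).continuousAt
  have h2 : ContinuousAt (fun x : ℝ => (x, (0 : S → ℝ))) θ := by fun_prop
  have h3 : ContinuousAt (fun x : ℝ => ghF B (p2L hs x) 0) θ :=
    ContinuousAt.comp (f := fun x : ℝ => (x, (0 : S → ℝ))) (g := fun p : ℝ × (S → ℝ) => ghF B (p2L hs p.1) p.2) h h2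
  refine ⟨|ghF B (p2L hs θ) 0| + 1, ?_⟩
  have h4 := h3.abs.eventually (gt_mem_nhds (lt_add_one (|ghF B (p2L hs θ) 0|)))
  exact h4.mono fun x hx => le_of_lt hx

/-- **flat form of a double row** -/
theorem p2n_drow_repr (a : ℝ) {τ : ℕ → ℕ → ℕ} (ms : List ℝ) (μ : ℝ) {j N q : ℕ} {c : Finset ℕ} (hN : j + ms.length = N)
    (htr : P2Tr τ c j (N + 1)) (hq : q ∉ c) :
    ∃ (s : Finset (Σ _ : ℕ × ℕ, ℕ × ℕ)) (w : (Σ _ : ℕ × ℕ, ℕ × ℕ) → ℝ),
      (∀ p ∈ s, P2Sup c j ms.length p.1.1 p.1.2 ∧ P2Sup (insert q c) j ms.length p.2.1 p.2.2) ∧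
      ∀ Θ : ℕ → ℕ → ℕ → ℕ → ℝ,
        (p2Row a τ ms μ j c fun x i => p2Row a (trAtt N q τ x i) ms μ j (insert q c) (Θ x i))
          = ∑ p ∈ s, w p * Θ p.1.1 p.1.2 p.2.1 p.2.2 := by
  subst hN
  obtain ⟨s₁, w₁, hs₁, hr₁⟩ := p2Row_repr a ms μ htr
  have hin : ∀ p : ℕ × ℕ, ∃ (s : Finset (ℕ × ℕ)) (w : ℕ × ℕ → ℝ), P2Sup c j ms.length p.1 p.2 →
      (∀ p' ∈ s, P2Sup (insert q c) j ms.length p'.1 p'.2) ∧
      ∀ Ψ : ℕ → ℕ → ℝ, p2Row a (trAtt (j + ms.length) q τ p.1 p.2) ms μ j (insert q c) Ψ = ∑ p' ∈ s, w p' * Ψ p'.1 p'.2 := by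
    intro p
    by_cases hp : P2Sup c j ms.length p.1 p.2
    · obtain ⟨s, w, h1, h2⟩ := p2Row_repr a ms μ (p2_att_tr htr hq hp.1 hp.2.1 hp.2.2)
      exact ⟨s, w, fun _ => ⟨h1, h2⟩⟩
    · exact ⟨∅, fun _ => 0, fun h => absurd h hp⟩
  choose s₂ w₂ h₂ using hin
  refine ⟨s₁.sigma s₂, fun p => w₁ p.1 * w₂ p.1 p.2, ?_, ?_⟩
  · intro p hp
    rw [Finset.mem_sigma] at hp
    exact ⟨hs₁ _ hp.1, (h₂ p.1 (hs₁ _ hp.1)).1 _ hp.2⟩
  · intro Θ
    rw [hr₁, Finset.sum_sigma]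
    refine Finset.sum_congr rfl fun p hp => ?_
    rw [(h₂ p (hs₁ _ hp)).2, Finset.mul_sum]
    exact Finset.sum_congr rfl fun p' _ => by ring

theorem p2n_wsum_le {κ : Type} (s : Finset κ) (w X : κ → ℝ) (M : ℝ) (h : ∀ a ∈ s, |X a| ≤ M) :
    |∑ a ∈ s, w a * X a| ≤ (∑ a ∈ s, |w a|) * M := by
  rw [Finset.sum_mul]
  refine (Finset.abs_sum_le_sum_abs _ _).trans (Finset.sum_le_sum fun a ha => ?_)
  rw [abs_mul]
  exact mul_le_mul_of_nonneg_left (h a ha) (abs_nonneg _)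

theorem p2n_dsum_le (V X : S → S → ℝ) (Vb M : ℝ) (hVb : 0 ≤ Vb) (hV : ∀ t t', |V t t'| ≤ Vb) (hX : ∀ t t', |X t t'| ≤ M) :
    |∑ t, ∑ t', V t t' * X t t'| ≤ (Fintype.card S : ℝ) * ((Fintype.card S : ℝ) * (Vb * M)) := by
  have h1 : ∀ t t', |V t t' * X t t'| ≤ Vb * M := fun t t' => by
    rw [abs_mul]
    exact mul_le_mul (hV t t') (hX t t') (abs_nonneg _) hVb
  have h2 : ∀ t, |∑ t', V t t' * X t t'| ≤ (Fintype.card S : ℝ) * (Vb * M) := fun t => by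
    refine (Finset.abs_sum_le_sum_abs _ _).trans ?_
    refine (Finset.sum_le_sum fun t' _ => h1 t t').trans ?_
    rw [Finset.sum_const, nsmul_eq_mul, Finset.card_univ]
  refine (Finset.abs_sum_le_sum_abs _ _).trans ?_
  refine (Finset.sum_le_sum fun t _ => h2 t).trans ?_
  rw [Finset.sum_const, nsmul_eq_mul, Finset.card_univ]

/-- **derivative of the tested child integral** (= `p2_N_hasD`) -/
theorem p2_N_hasD_pf {B : GhB S} (hB : B.Ok) (h : P2Lv S ι) (hok : h.Ok) (hs : List (P2Lv S ι)) (hoks : ∀ h' ∈ hs, h'.Ok)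
    (IH : P2Main B hs) {N j : ℕ} (hN : j + hs.length = N) {τ : ℕ → ℕ → ℕ} (σ : ℕ → S) {c : Finset ℕ} (μ : ℝ) {q q' : ℕ}
    (hq : q ∉ c) (hq' : q' ∉ c) (hqq : q ≠ q') (htr : P2Tr τ c j (N + 1)) {θ : ℝ} (hθ : θ ∈ Set.Ioo (0 : ℝ) 1) (z : S → ℝ) :
    P2HasD (fun p => ∫ ξ, p2U B τ σ (p2L hs p.1) j c μ (p.2 + (h.lv p.1).inc ξ) ∂ghStd ι)
      ((1 / 2) * p2Row B.a τ (hs.map P2Lv.m) μ j c fun x i =>
        p2Row B.a (trAtt N q τ x i) (hs.map P2Lv.m) μ j (insert q c) fun x' i' =>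
          ∑ t, ∑ t', (p2V hs (trAtt N q' (trAtt N q τ x i) x' i' q q' - j) t t' + h.dK t t') *
            ∫ ξ, p2U B (trAtt N q' (trAtt N q τ x i) x' i') (Function.update (Function.update σ q t) q' t') (p2L hs θ) j
              (insert q' (insert q c)) μ (z + (h.lv θ).inc ξ) ∂ghStd ι)
      (fun t => p2Row B.a τ (hs.map P2Lv.m) μ j c fun x i =>
        ∫ ξ, p2U B (trAtt N q τ x i) (Function.update σ q t) (p2L hs θ) j (insert q c) μ (z + (h.lv θ).inc ξ) ∂ghStd ι)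
      (θ, z) := by
  classical
  set ms := hs.map P2Lv.m with hms
  have hlen : ms.length = hs.length := by simp [hms]
  have hN' : j + ms.length = N := by rw [hlen]; exact hN
  have htr0 : P2Tr τ c j (j + ms.length + 1) := by rw [hN']; exact htr
  obtain ⟨s₁, w₁, hs₁, hr₁⟩ := p2Row_repr B.a ms μ htr0
  obtain ⟨s₂, w₂, hs₂, hr₂⟩ := p2n_drow_repr B.a ms μ hN' htr hq
  have hq'i : q' ∉ insert q c := by
    rw [Finset.mem_insert]; rintro (h1 | h1)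
    · exact hqq h1.symm
    · exact hq' h1
  have htr1 : ∀ x i, P2Sup c j ms.length x i → P2Tr (trAtt N q τ x i) (insert q c) j (N + 1) :=
    fun x i hp => p2_att_tr htr hq hp.1 hp.2.1 (by have := hp.2.2; omega)
  have htr2 : ∀ x i x' i', P2Sup c j ms.length x i → P2Sup (insert q c) j ms.length x' i' →
      P2Tr (trAtt N q' (trAtt N q τ x i) x' i') (insert q' (insert q c)) j (N + 1) :=
    fun x i x' i' hp hp' => p2_att_tr (htr1 x i hp) hq'i hp'.1 hp'.2.1 (by have := hp'.2.2; omega)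
  -- abbreviations
  let U1 : ℕ × ℕ → S → ℝ × (S → ℝ) → ℝ := fun a t p =>
    p2U B (trAtt N q τ a.1 a.2) (Function.update σ q t) (p2L hs p.1) j (insert q c) μ p.2
  let U2 : (Σ _ : ℕ × ℕ, ℕ × ℕ) → S → S → ℝ × (S → ℝ) → ℝ := fun d t t' p =>
    p2U B (trAtt N q' (trAtt N q τ d.1.1 d.1.2) d.2.1 d.2.2) (Function.update (Function.update σ q t) q' t') (p2L hs p.1) j
      (insert q' (insert q c)) μ p.2
  let V2 : (Σ _ : ℕ × ℕ, ℕ × ℕ) → S → S → ℝ := fun d t t' =>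
    p2V hs (trAtt N q' (trAtt N q τ d.1.1 d.1.2) d.2.1 d.2.2 q q' - j) t t'
  -- flat forms
  have eGz : ∀ (p : ℝ × (S → ℝ)) (t : S), p2Gz B N ms τ σ (p2L hs p.1) j c μ q p.2 t = ∑ a ∈ s₁, w₁ a * U1 a t p := by
    intro p t
    unfold p2Gz
    rw [hr₁]
  have eGzz : ∀ (θ' : ℝ) (y : S → ℝ) (t t' : S),
      p2Gzz B N ms τ σ (p2L hs θ') j c μ q q' y t t' = ∑ d ∈ s₂, w₂ d * U2 d t t' (θ', y) := by
    intro θ' y t t'
    unfold p2Gzz p2Gz
    exact hr₂ (fun x i x' i' => p2U B (trAtt N q' (trAtt N q τ x i) x' i') (Function.update (Function.update σ q t) q' t')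
      (p2L hs θ') j (insert q' (insert q c)) μ y)
  have eGt : ∀ p : ℝ × (S → ℝ), p2Gt B N ms τ σ hs p.1 j c μ q q' p.2
      = (1 / 2) * ∑ d ∈ s₂, w₂ d * ∑ t, ∑ t', V2 d t t' * U2 d t t' p := by
    intro p
    unfold p2Gt
    congr 1
    exact hr₂ (fun x i x' i' => ∑ t, ∑ t', p2V hs (trAtt N q' (trAtt N q τ x i) x' i' q q' - j) t t' *
      p2U B (trAtt N q' (trAtt N q τ x i) x' i') (Function.update (Function.update σ q t) q' t') (p2L hs p.1) j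
        (insert q' (insert q c)) μ p.2)
  -- bounds
  obtain ⟨M0, hM0⟩ := p2n_F0_bdd hB hs hoks IH σ hθ
  set E0 : ℝ := Real.exp (|μ| * M0) with hE0
  have hE0p : 0 < E0 := Real.exp_pos _
  have hU : ∀ᶠ θ' in 𝓝 θ, ∀ (τ' : ℕ → ℕ → ℕ) (σ' : ℕ → S) (b' : Finset ℕ) (y : S → ℝ),
      |p2U B τ' σ' (p2L hs θ') j b' μ y| ≤ E0 * Real.exp (|μ| * ‖y‖) :=
    hM0.mono fun θ' hθ' τ' σ' b' y => (p2U_abs_le hB τ' σ' (p2L_nn hoks θ') j b' μ y).trans
      (mul_le_mul_of_nonneg_right (Real.exp_le_exp.2 (mul_le_mul_of_nonneg_left hθ' (abs_nonneg μ))) (Real.exp_pos _).le)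
  set W1 : ℝ := ∑ a ∈ s₁, |w₁ a| with hW1
  set W2 : ℝ := ∑ d ∈ s₂, |w₂ d| with hW2
  have hW1n : 0 ≤ W1 := Finset.sum_nonneg fun _ _ => abs_nonneg _
  have hW2n : 0 ≤ W2 := Finset.sum_nonneg fun _ _ => abs_nonneg _
  set n : ℝ := (Fintype.card S : ℝ) with hn
  have hnn : 0 ≤ n := Nat.cast_nonneg _
  have hVbn := p2n_Vb_nonneg hs
  set C : ℝ := E0 + W1 * E0 + W2 * E0 + (1 / 2) * (W2 * (n * (n * (p2Vb hs * E0)))) with hC
  have t1 : 0 ≤ W1 * E0 := mul_nonneg hW1n hE0p.le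
  have t2 : 0 ≤ W2 * E0 := mul_nonneg hW2n hE0p.le
  have t3 : 0 ≤ (1 / 2) * (W2 * (n * (n * (p2Vb hs * E0)))) := by positivity
  have b0 : ∀ᶠ θ' in 𝓝 θ, ∀ y, |p2U B τ σ (p2L hs θ') j c μ y| ≤ C * Real.exp (|μ| * ‖y‖) :=
    hU.mono fun θ' hθ' y => (hθ' τ σ c y).trans
      (mul_le_mul_of_nonneg_right (by rw [hC]; linarith) (Real.exp_pos _).le)
  have b1 : ∀ᶠ θ' in 𝓝 θ, ∀ y, |p2Gt B N ms τ σ hs θ' j c μ q q' y| ≤ C * Real.exp (|μ| * ‖y‖) := by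
    refine hU.mono fun θ' hθ' y => ?_
    rw [eGt (θ', y), abs_mul, abs_of_pos (by norm_num : (0 : ℝ) < 1 / 2)]
    have h1 := p2n_wsum_le s₂ w₂ (fun d => ∑ t, ∑ t', V2 d t t' * U2 d t t' (θ', y))
      (n * (n * (p2Vb hs * (E0 * Real.exp (|μ| * ‖y‖)))))
      (fun d _ => p2n_dsum_le (V2 d) (fun t t' => U2 d t t' (θ', y)) _ _ hVbn (fun t t' => p2n_V_abs_le hs _ t t')
        (fun t t' => hθ' _ _ _ y))
    have e : (1 / 2 : ℝ) * (W2 * (n * (n * (p2Vb hs * (E0 * Real.exp (|μ| * ‖y‖))))))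
        = ((1 / 2) * (W2 * (n * (n * (p2Vb hs * E0))))) * Real.exp (|μ| * ‖y‖) := by ring
    refine (mul_le_mul_of_nonneg_left h1 (by norm_num)).trans ?_
    rw [e]
    exact mul_le_mul_of_nonneg_right (by rw [hC]; linarith) (Real.exp_pos _).le
  have b2 : ∀ᶠ θ' in 𝓝 θ, ∀ y t, |p2Gz B N ms τ σ (p2L hs θ') j c μ q y t| ≤ C * Real.exp (|μ| * ‖y‖) := by
    refine hU.mono fun θ' hθ' y t => ?_
    rw [eGz (θ', y) t]
    refine (p2n_wsum_le s₁ w₁ (fun a => U1 a t (θ', y)) _ (fun a _ => hθ' _ _ _ y)).trans ?_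
    rw [← mul_assoc]
    exact mul_le_mul_of_nonneg_right (by rw [hC]; linarith) (Real.exp_pos _).le
  have b3 : ∀ y t t', |p2Gzz B N ms τ σ (p2L hs θ) j c μ q q' y t t'| ≤ C * Real.exp (|μ| * ‖y‖) := by
    intro y t t'
    have hθ' := hU.self_of_nhds
    rw [eGzz θ y t t']
    refine (p2n_wsum_le s₂ w₂ (fun d => U2 d t t' (θ, y)) _ (fun d _ => hθ' _ _ _ y)).trans ?_
    rw [← mul_assoc]
    exact mul_le_mul_of_nonneg_right (by rw [hC]; linarith) (Real.exp_pos _).le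
  -- differentiability
  have hG : ∀ᶠ θ' in 𝓝 θ, ∀ y, P2HasD (fun p : ℝ × (S → ℝ) => p2U B τ σ (p2L hs p.1) j c μ p.2)
      (p2Gt B N ms τ σ hs θ' j c μ q q' y) (p2Gz B N ms τ σ (p2L hs θ') j c μ q y) (θ', y) := by
    filter_upwards [Ioo_mem_nhds hθ.1 hθ.2] with θ' hθ' y
    exact IH N j τ σ c μ q q' hN hq hq' hqq htr θ' hθ' y
  have hGz : ∀ y t, HasFDerivAt (fun y => p2Gz B N ms τ σ (p2L hs θ) j c μ q y t)
      (∑ t', p2Gzz B N ms τ σ (p2L hs θ) j c μ q q' y t t' • (ContinuousLinearMap.proj t' : (S → ℝ) →L[ℝ] ℝ)) y := by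
    intro y t
    obtain ⟨q'', hq''⟩ := Infinite.exists_notMem_finset (insert q' (insert q c))
    have hq''i : q'' ∉ insert q c := fun h1 => hq'' (Finset.mem_insert_of_mem h1)
    have hne : q' ≠ q'' := fun h1 => hq'' (h1 ▸ Finset.mem_insert_self _ _)
    have hrow := p2Row_hasD (a := B.a) (μ := μ) htr0
      (Ψ := fun x i p' => p2U B (trAtt N q τ x i) (Function.update σ q t) (p2L hs p'.1) j (insert q c) μ p'.2)
      (Ψθ := fun x i => p2Gt B N ms (trAtt N q τ x i) (Function.update σ q t) hs θ j (insert q c) μ q' q'' y)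
      (Ψz := fun x i => p2Gz B N ms (trAtt N q τ x i) (Function.update σ q t) (p2L hs θ) j (insert q c) μ q' y)
      (p := (θ, y)) (fun x i hp => IH N j _ _ (insert q c) μ q' q'' hN hq'i hq''i hne (htr1 x i hp) θ hθ y)
    exact hrow.snd
  have key := p2_OL h hok (fun p => p2U B τ σ (p2L hs p.1) j c μ p.2) (fun p => p2Gt B N ms τ σ hs p.1 j c μ q q' p.2)
    (fun p t => p2Gz B N ms τ σ (p2L hs p.1) j c μ q p.2 t) (fun y t t' => p2Gzz B N ms τ σ (p2L hs θ) j c μ q q' y t t')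
    θ hθ z C |μ| hG hGz b0 b1 b2 b3
  -- integrability
  have hI1 : ∀ a ∈ s₁, ∀ t, Integrable (fun ξ => U1 a t (θ, z + (h.lv θ).inc ξ)) (ghStd ι) :=
    fun a ha t => p2n_U_int hB hoks IH hN _ μ (htr1 a.1 a.2 (hs₁ a ha)) hθ (h.lv θ) z
  have hI2 : ∀ d ∈ s₂, ∀ t t', Integrable (fun ξ => U2 d t t' (θ, z + (h.lv θ).inc ξ)) (ghStd ι) :=
    fun d hd t t' => p2n_U_int hB hoks IH hN _ μ (htr2 _ _ _ _ (hs₂ d hd).1 (hs₂ d hd).2) hθ (h.lv θ) z
  refine key.congr ?_ ?_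
  · -- the `θ` coordinate
    have e1 : ∫ ξ, p2Gt B N ms τ σ hs θ j c μ q q' (z + (h.lv θ).inc ξ) ∂ghStd ι
        = (1 / 2) * ∑ d ∈ s₂, w₂ d * ∑ t, ∑ t', V2 d t t' * ∫ ξ, U2 d t t' (θ, z + (h.lv θ).inc ξ) ∂ghStd ι := by
      have : ∀ ξ, p2Gt B N ms τ σ hs θ j c μ q q' (z + (h.lv θ).inc ξ)
          = (1 / 2) * ∑ d ∈ s₂, w₂ d * ∑ t, ∑ t', V2 d t t' * U2 d t t' (θ, z + (h.lv θ).inc ξ) :=
        fun ξ => eGt (θ, z + (h.lv θ).inc ξ)
      simp only [this]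
      rw [integral_const_mul, integral_finsetSum _ (fun d hd => Integrable.const_mul
        (integrable_finsetSum _ fun t _ => integrable_finsetSum _ fun t' _ => (hI2 d hd t t').const_mul _) _)]
      congr 1
      refine Finset.sum_congr rfl fun d hd => ?_
      rw [integral_const_mul, integral_finsetSum _ (fun t _ => integrable_finsetSum _ fun t' _ => (hI2 d hd t t').const_mul _)]
      congr 1
      refine Finset.sum_congr rfl fun t _ => ?_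
      rw [integral_finsetSum _ (fun t' _ => (hI2 d hd t t').const_mul _)]
      exact Finset.sum_congr rfl fun t' _ => integral_const_mul _ _
    have e2 : ∀ t t', ∫ ξ, p2Gzz B N ms τ σ (p2L hs θ) j c μ q q' (z + (h.lv θ).inc ξ) t t' ∂ghStd ι
        = ∑ d ∈ s₂, w₂ d * ∫ ξ, U2 d t t' (θ, z + (h.lv θ).inc ξ) ∂ghStd ι := by
      intro t t'
      simp only [eGzz]
      rw [integral_finsetSum _ (fun d hd => (hI2 d hd t t').const_mul _)]
      exact Finset.sum_congr rfl fun d _ => integral_const_mul _ _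
    have e3 := hr₂ (fun x i x' i' => ∑ t, ∑ t', (p2V hs (trAtt N q' (trAtt N q τ x i) x' i' q q' - j) t t' + h.dK t t') *
            ∫ ξ, p2U B (trAtt N q' (trAtt N q τ x i) x' i') (Function.update (Function.update σ q t) q' t') (p2L hs θ) j
              (insert q' (insert q c)) μ (z + (h.lv θ).inc ξ) ∂ghStd ι)
    rw [e3]
    show (∫ ξ, p2Gt B N ms τ σ hs θ j c μ q q' (z + (h.lv θ).inc ξ) ∂ghStd ι)
      + (1 / 2) * ∑ t, ∑ t', h.dK t t' * ∫ ξ, p2Gzz B N ms τ σ (p2L hs θ) j c μ q q' (z + (h.lv θ).inc ξ) t t' ∂ghStd ι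
      = (1 / 2) * ∑ d ∈ s₂, w₂ d * ∑ t, ∑ t', (V2 d t t' + h.dK t t') * ∫ ξ, U2 d t t' (θ, z + (h.lv θ).inc ξ) ∂ghStd ι
    rw [e1]
    simp only [e2]
    rw [← mul_add]
    congr 1
    have e4 : ∑ t, ∑ t', h.dK t t' * ∑ d ∈ s₂, w₂ d * ∫ ξ, U2 d t t' (θ, z + (h.lv θ).inc ξ) ∂ghStd ι
        = ∑ d ∈ s₂, w₂ d * ∑ t, ∑ t', h.dK t t' * ∫ ξ, U2 d t t' (θ, z + (h.lv θ).inc ξ) ∂ghStd ι := by
      have h1 : ∀ t t', h.dK t t' * ∑ d ∈ s₂, w₂ d * ∫ ξ, U2 d t t' (θ, z + (h.lv θ).inc ξ) ∂ghStd ι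
          = ∑ d ∈ s₂, w₂ d * (h.dK t t' * ∫ ξ, U2 d t t' (θ, z + (h.lv θ).inc ξ) ∂ghStd ι) := fun t t' => by
        rw [Finset.mul_sum]; exact Finset.sum_congr rfl fun d _ => by ring
      simp only [h1]
      have h2 : ∀ t, ∑ t', ∑ d ∈ s₂, w₂ d * (h.dK t t' * ∫ ξ, U2 d t t' (θ, z + (h.lv θ).inc ξ) ∂ghStd ι)
          = ∑ d ∈ s₂, ∑ t', w₂ d * (h.dK t t' * ∫ ξ, U2 d t t' (θ, z + (h.lv θ).inc ξ) ∂ghStd ι) :=
        fun t => Finset.sum_comm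
      simp only [h2]
      rw [Finset.sum_comm]
      refine Finset.sum_congr rfl fun d _ => ?_
      rw [Finset.mul_sum]
      exact Finset.sum_congr rfl fun t _ => by rw [Finset.mul_sum]
    rw [e4, ← Finset.sum_add_distrib]
    refine Finset.sum_congr rfl fun d _ => ?_
    rw [← mul_add, ← Finset.sum_add_distrib]
    congr 1
    refine Finset.sum_congr rfl fun t _ => ?_
    rw [← Finset.sum_add_distrib]
    exact Finset.sum_congr rfl fun t' _ => by ring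
  · -- the `z` coordinates
    intro t
    rw [hr₁]
    show ∫ ξ, p2Gz B N ms τ σ (p2L hs θ) j c μ q (z + (h.lv θ).inc ξ) t ∂ghStd ι
      = ∑ a ∈ s₁, w₁ a * ∫ ξ, U1 a t (θ, z + (h.lv θ).inc ξ) ∂ghStd ι
    have : ∀ ξ, p2Gz B N ms τ σ (p2L hs θ) j c μ q (z + (h.lv θ).inc ξ) t = ∑ a ∈ s₁, w₁ a * U1 a t (θ, z + (h.lv θ).inc ξ) :=
      fun ξ => eGz (θ, z + (h.lv θ).inc ξ) t
    simp only [this]
    rw [integral_finsetSum _ (fun a ha => (hI1 a ha t).const_mul _)]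
    exact Finset.sum_congr rfl fun a _ => integral_const_mul _ _

end Claimed.Agent.R286
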