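import Claimed.Agent.R286.Fd.Obs

/-!
# Row 286 (S0533), Fd/PinDefs : vocabulary of the proof of PE Lemma 2.3 (pinned moments)      (owner helper278; defs `gh*`/`pin*`/`skFl*`, sorry-free)

* `ghDen`  product of all transition densities of one path (drivers, terminal spin);
* `ghR`    the telescoped potential `∑_j (m_j - m_{j-1}) F_j(G_j)`  (exit X1 for LL);
* `ghZx`  zero extension of FLAT drivers `Fin N × ι → ℝ` to a driver sequence;
* `ghPhi`  the pinned potential WITHOUT the Gaussian part: `Φ_s(x) = - a (z + G_N)(s) + ∑_j (m_j - m_{j-1}) F_j(G_j)`;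
           the law of the flat drivers given the terminal spin `s` is `(Measure.pi gaussianReal 0 1).tilted (-Φ_s)`;
* gauge action `skFl` (spins), `skFlD` (drivers), `skFlS` (driver sequences), `skFlZ` (fields).
-/

set_option autoImplicit false

namespace Claimed.Agent.R286

open MeasureTheory ProbabilityTheory

section generic
variable {S ι : Type} [Fintype S] [Fintype ι]

/-- product of all the transition densities along one path -/
noncomputable def ghDen (B : GhB S) : List (GhLv S ι) → (S → ℝ) → (ℕ → ι → ℝ) → S → ℝ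
  | [], z, _, s => ghGw B z s
  | l :: ls, z, ξ, s => ghD B l ls z (ξ 0) * ghDen B ls (z + l.inc (ξ 0)) (fun j => ξ (j + 1)) s

/-- the telescoped potential; `μ` = mass of the previous revelation (`0` at the root) -/
noncomputable def ghR (B : GhB S) : ℝ → List (GhLv S ι) → (S → ℝ) → (ℕ → ι → ℝ) → ℝ
  | μ, [], z, _ => (B.a - μ) * ghF0 B z
  | μ, l :: ls, z, ξ => (l.m - μ) * ghF B (l :: ls) z + ghR B l.m ls (z + l.inc (ξ 0)) (fun j => ξ (j + 1))

/-- zero extension of flat drivers -/
def ghZx (N : ℕ) (x : Fin N × ι → ℝ) : ℕ → ι → ℝ := fun t e => if h : t < N then x (⟨t, h⟩, e) else 0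

/-- the standard Gaussian on the flat drivers -/
noncomputable def ghFlat (ι : Type) [Fintype ι] (N : ℕ) : Measure (Fin N × ι → ℝ) :=
  Measure.pi fun _ => gaussianReal 0 1

/-- the pinned potential (without the Gaussian part) -/
noncomputable def ghPhi (B : GhB S) (ls : List (GhLv S ι)) (z : S → ℝ) (s : S) (x : Fin ls.length × ι → ℝ) : ℝ :=
  -(B.a * (z s + ghSum ls (ghZx ls.length x) s)) + ghR B 0 ls z (ghZx ls.length x)

end generic

section gauge
variable {n : ℕ}

/-- gauge action on spins: `sp (η·σ) = sp η * sp σ` -/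
def skFl (η σ : SkCfg n) : SkCfg n := fun i => η i == σ i

/-- the sign of a driver coordinate -/
noncomputable def skFlSg (η : SkCfg n) : SkDr n → ℝ :=
  Sum.elim (fun p => skSp η p.1 * skSp η p.2) (fun i => skSp η i)

/-- gauge action on one driver -/
noncomputable def skFlD (η : SkCfg n) (ξ : SkDr n → ℝ) : SkDr n → ℝ := fun e => skFlSg η e * ξ e

/-- gauge action on driver sequences -/
noncomputable def skFlS (η : SkCfg n) (ξ : ℕ → SkDr n → ℝ) : ℕ → SkDr n → ℝ := fun t => skFlD η (ξ t)

/-- gauge action on fields -/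
def skFlZ (η : SkCfg n) (z : SkCfg n → ℝ) : SkCfg n → ℝ := fun σ => z (skFl η σ)

/-- gauge invariant path tests -/
def PinInv (T : (ℕ → SkDr n → ℝ) → SkCfg n → ℝ) : Prop := ∀ η ξ σ, T (skFlS η ξ) (skFl η σ) = T ξ σ

/-- the reference spin (all `+1`) -/
def skUp (n : ℕ) : SkCfg n := fun _ => true

/-- the direction `d(τ) = (y(σ) - X)·y(τ)` of the proof of Lemma 2.3 (`W = H(d,d)`, `∇L = H(d, ·)`) -/
noncomputable def pinDir (n : ℕ) (a : ℝ) (P : SkStp) (j : ℕ) (ξ : ℕ → SkDr n → ℝ) (σ : SkCfg n) : SkCfg n → ℝ :=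
  fun τ => ∑ i, (skY σ i - obXp n a P 0 j ξ i) * skY τ i

/-- the centred observable of Lemma 2.3, general form (A2): deterministic weights `κ j`, deterministic functions `f j` on the cuts -/
noncomputable def pinA (n : ℕ) (a : ℝ) (P : SkStp) (κ : ℕ → ℝ) (f : ℕ → ℝ → ℝ)
    (ξ : ℕ → SkDr n → ℝ) (σ : SkCfg n) : ℝ :=
  ∑ j ∈ Finset.range (P.length + 1), skGap a P j * κ j *
    (f j (obL n a P 0 j ξ σ) - obE n a P 0 fun ξ' σ' => f j (obL n a P 0 j ξ' σ'))

/-- its energy (`f' j` = the derivative of `f j`) -/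
noncomputable def pinJ (n : ℕ) (a : ℝ) (P : SkStp) (κ : ℕ → ℝ) (f' : ℕ → ℝ → ℝ)
    (ξ : ℕ → SkDr n → ℝ) (σ : SkCfg n) : ℝ :=
  ∑ j ∈ Finset.range (P.length + 1), skGap a P j * κ j ^ 2 *
    (f' j (obL n a P 0 j ξ σ)) ^ 2 * obW n a P 0 j ξ σ

/-- flat drivers of the SK path -/
abbrev PinV (n : ℕ) (P : SkStp) : Type := Fin (skLvs n P).length × SkDr n → ℝ

/-- driver sequence of a flat point -/
noncomputable def pinX (n : ℕ) (P : SkStp) (x : PinV n P) : ℕ → SkDr n → ℝ := ghZx (skLvs n P).length x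

/-- the pinned potential of the SK path at zero root field -/
noncomputable def pinPhi (n : ℕ) (a : ℝ) (P : SkStp) (σ : SkCfg n) (x : PinV n P) : ℝ :=
  ghPhi (skBase n a) (skLvs n P) 0 σ x

/-- the pinned law of the flat drivers (terminal spin `skUp`) -/
noncomputable def pinMu (n : ℕ) (a : ℝ) (P : SkStp) : Measure (PinV n P) :=
  (Measure.pi fun _ => gaussianReal 0 1).tilted fun x => -pinPhi n a P (skUp n) x

/-- the field direction at the cut `j` produced by the flat direction `v` -/
noncomputable def pinG (n : ℕ) (P : SkStp) (j : ℕ) (v : PinV n P) : SkCfg n → ℝ := ghPre (skLvs n P) (pinX n P v) j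

end gauge

theorem pin_eqns_cite : True := by
  have := @ghDen.eq_1
  have := @ghDen.eq_2
  have := @ghDen.eq_def
  have := @ghDen.induct
  have := @ghR.eq_1
  have := @ghR.eq_2
  have := @ghR.eq_def
  have := @ghR.induct
  have := @ghZx.eq_1
  have := @ghFlat.eq_1
  have := @ghPhi.eq_1
  have := @skFl.eq_1
  have := @skFlSg.eq_1
  have := @skFlD.eq_1
  have := @skFlS.eq_1
  have := @skFlZ.eq_1
  have := @PinInv.eq_1
  have := @skUp.eq_1
  have := @pinDir.eq_1
  have := @pinA.eq_1
  have := @pinJ.eq_1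
  have := @pinX.eq_1
  have := @pinPhi.eq_1
  have := @pinMu.eq_1
  have := @pinG.eq_1
  trivial

end Claimed.Agent.R286
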