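import Claimed.Agent.R286.Gh.Reg
import Claimed.Agent.R286.Fd.RegA

/-!
# Row 286 (S0533), Fd/PrA : SEGMENTS OF HIERARCHIES, continuity in the parameter      (owner helper97; prefix `pd`, `pd_`)

Step 1 of the proof of `ob_pressure_deriv` (PE Lemma 2.2, eq. (1) line 1).
A segment = list of `PdLv` (mass, variances `p` at `s = 0`, variances `q` at `s = 1`), features `Φ`; the level at the parameter `s` has the
variances `(1 - s) p + s q`.   Everything here is continuous in `(s, z) ∈ ℝ × (S → ℝ)` (`Real.sqrt` is continuous on all of `ℝ`).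
-/

set_option autoImplicit false
set_option linter.unusedSectionVars false

namespace Claimed.Agent.R286

open MeasureTheory ProbabilityTheory Filter Topology

noncomputable section

variable {S ι : Type} [Fintype S] [Fintype ι]

/-- one revelation of a segment of hierarchies: its mass and its coordinate variances at the two ends -/
structure PdLv (ι : Type) where
  m : ℝ
  p : ι → ℝ
  q : ι → ℝ

/-- the variances at the parameter `s` -/
def PdLv.dv (d : PdLv ι) (s : ℝ) (i : ι) : ℝ := (1 - s) * d.p i + s * d.q i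

/-- the level at the parameter `s` -/
def PdLv.lv (Φ : S → ι → ℝ) (d : PdLv ι) (s : ℝ) : GhLv S ι := ghLvF Φ d.m (d.dv s)

/-- the hierarchy at the parameter `s` -/
def pdLs (Φ : S → ι → ℝ) (D : List (PdLv ι)) (s : ℝ) : List (GhLv S ι) := D.map fun d => d.lv Φ s

theorem pd_ls_cons (Φ : S → ι → ℝ) (d : PdLv ι) (D : List (PdLv ι)) (s : ℝ) :
    pdLs Φ (d :: D) s = d.lv Φ s :: pdLs Φ D s := rfl

theorem pd_ls_nil (Φ : S → ι → ℝ) (s : ℝ) : pdLs Φ ([] : List (PdLv ι)) s = [] := rfl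

theorem pd_lv_m (Φ : S → ι → ℝ) (d : PdLv ι) (s : ℝ) : (d.lv Φ s).m = d.m := rfl

theorem pd_lv_A (Φ : S → ι → ℝ) (d : PdLv ι) (s : ℝ) (σ : S) (i : ι) :
    (d.lv Φ s).A σ i = Real.sqrt (d.dv s i) * Φ σ i := rfl

/-! ### general tools -/

/-- continuity of a Gaussian integral depending on a parameter -/
theorem pd_cont_integral {X : Type*} [TopologicalSpace X] [FirstCountableTopology X]
    {u : X → (ι → ℝ) → ℝ} (hu : Continuous fun p : X × (ι → ℝ) => u p.1 p.2)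
    (hb : ∀ x₀, ∃ C c : ℝ, ∀ᶠ x in 𝓝 x₀, ∀ ξ, |u x ξ| ≤ C * Real.exp (c * ‖ξ‖)) :
    Continuous fun x => ∫ ξ, u x ξ ∂ghStd ι := by
  refine continuous_iff_continuousAt.2 fun x₀ => ?_
  obtain ⟨C, c, h⟩ := hb x₀
  refine continuousAt_of_dominated (bound := fun ξ => C * Real.exp (c * ‖ξ‖)) ?_ ?_ ?_ ?_
  · exact Eventually.of_forall fun x =>
      (hu.comp (Continuous.prodMk continuous_const continuous_id)).aestronglyMeasurable
  · exact h.mono fun x hx => Eventually.of_forall fun ξ => by simpa using hx ξ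
  · exact (gh_ra_int_exp_norm c).const_mul C
  · exact Eventually.of_forall fun ξ =>
      (hu.comp (Continuous.prodMk continuous_id continuous_const)).continuousAt

theorem pd_ev_abs_le {X : Type*} [TopologicalSpace X] {k : X → ℝ} (hk : Continuous k) (x₀ : X) :
    ∀ᶠ x in 𝓝 x₀, |k x| ≤ |k x₀| + 1 :=
  (hk.abs.tendsto x₀).eventually_le_const (by linarith)

theorem pd_lin_le_exp {a b x : ℝ} (ha : 0 ≤ a) (hb : 0 ≤ b) (hx : 0 ≤ x) :
    a + b * x ≤ (a + b) * Real.exp (1 * x) := by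
  have h1 := Real.add_one_le_exp x
  rw [one_mul]
  nlinarith [Real.exp_pos x]

/-! ### the increments -/

theorem pd_inc_cont (Φ : S → ι → ℝ) (d : PdLv ι) :
    Continuous fun p : ℝ × (ι → ℝ) => (d.lv Φ p.1).inc p.2 := by
  unfold GhLv.inc PdLv.lv ghLvF PdLv.dv
  fun_prop

theorem pd_K_cont (Φ : S → ι → ℝ) (d : PdLv ι) : Continuous fun s : ℝ => (d.lv Φ s).K := by
  unfold GhLv.K PdLv.lv ghLvF PdLv.dv
  fun_prop

variable {B : GhB S} (Φ : S → ι → ℝ)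

/-- local linear bound of a jointly continuous, equi-Lipschitz function of the next field -/
theorem pd_next_bound {G : ℝ → (S → ℝ) → ℝ} (hG : Continuous fun p : ℝ × (S → ℝ) => G p.1 p.2)
    (hL : ∀ s z z', |G s z - G s z'| ≤ ‖z - z'‖) (d : PdLv ι) (x₀ : ℝ × (S → ℝ)) :
    ∃ a b : ℝ, 0 ≤ a ∧ 0 ≤ b ∧ ∀ᶠ x in 𝓝 x₀, ∀ ξ, |G x.1 (x.2 + (d.lv Φ x.1).inc ξ)| ≤ a + b * ‖ξ‖ := by
  refine ⟨|G x₀.1 x₀.2| + 1, |(d.lv Φ x₀.1).K| + 1, by positivity, by positivity, ?_⟩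
  filter_upwards [pd_ev_abs_le hG x₀, pd_ev_abs_le ((pd_K_cont Φ d).comp continuous_fst) x₀] with x h1 h2 ξ
  have h3 := hL x.1 (x.2 + (d.lv Φ x.1).inc ξ) x.2
  rw [add_sub_cancel_left] at h3
  have h4 := gh_ra_inc_le (d.lv Φ x.1) ξ
  have h5 : (d.lv Φ x.1).K * ‖ξ‖ ≤ (|(d.lv Φ x₀.1).K| + 1) * ‖ξ‖ :=
    mul_le_mul_of_nonneg_right ((le_abs_self _).trans h2) (norm_nonneg _)
  have h6 := abs_sub_abs_le_abs_sub (G x.1 (x.2 + (d.lv Φ x.1).inc ξ)) (G x.1 x.2)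
  linarith

theorem pd_next_cont {G : ℝ → (S → ℝ) → ℝ} (hG : Continuous fun p : ℝ × (S → ℝ) => G p.1 p.2) (d : PdLv ι) :
    Continuous fun p : (ℝ × (S → ℝ)) × (ι → ℝ) => G p.1.1 (p.1.2 + (d.lv Φ p.1.1).inc p.2) := by
  have h1 : Continuous fun p : (ℝ × (S → ℝ)) × (ι → ℝ) => (d.lv Φ p.1.1).inc p.2 :=
    (pd_inc_cont Φ d).comp (Continuous.prodMk (continuous_fst.comp continuous_fst) continuous_snd)
  exact hG.comp (Continuous.prodMk (continuous_fst.comp continuous_fst)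
    ((continuous_snd.comp continuous_fst).add h1))

/-- **the continuations are jointly continuous in the parameter and the field** -/
theorem pd_F_cont (hB : B.Ok) (D : List (PdLv ι)) :
    Continuous fun p : ℝ × (S → ℝ) => ghF B (pdLs Φ D p.1) p.2 := by
  induction D with
  | nil => exact (gh_ra_F_cont hB ([] : List (GhLv S ι))).comp continuous_snd
  | cons d D ih =>
    have hL : ∀ s z z', |ghF B (pdLs Φ D s) z - ghF B (pdLs Φ D s) z'| ≤ ‖z - z'‖ :=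
      fun s z z' => gh_ra_F_lip hB _ z z'
    have hc := pd_next_cont Φ (G := fun s z => ghF B (pdLs Φ D s) z) ih d
    have e : (fun p : ℝ × (S → ℝ) => ghF B (pdLs Φ (d :: D) p.1) p.2) = fun p =>
        ghT (ghStd ι) d.m fun ξ => ghF B (pdLs Φ D p.1) (p.2 + (d.lv Φ p.1).inc ξ) := rfl
    rw [e]
    unfold ghT
    by_cases hm : d.m = 0
    · simp only [hm, if_true]
      refine pd_cont_integral hc fun x₀ => ?_
      obtain ⟨a, b, ha, hb, h⟩ := pd_next_bound Φ (G := fun s z => ghF B (pdLs Φ D s) z) ih hL d x₀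
      exact ⟨a + b, 1, h.mono fun x hx ξ => (hx ξ).trans (pd_lin_le_exp ha hb (norm_nonneg _))⟩
    · simp only [hm, if_false]
      have hI : Continuous fun x : ℝ × (S → ℝ) =>
          ∫ ξ, Real.exp (d.m * ghF B (pdLs Φ D x.1) (x.2 + (d.lv Φ x.1).inc ξ)) ∂ghStd ι := by
        refine pd_cont_integral (Real.continuous_exp.comp (continuous_const.mul hc)) fun x₀ => ?_
        obtain ⟨a, b, ha, hb, h⟩ := pd_next_bound Φ (G := fun s z => ghF B (pdLs Φ D s) z) ih hL d x₀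
        refine ⟨Real.exp (|d.m| * a), |d.m| * b, h.mono fun x hx ξ => ?_⟩
        rw [abs_of_pos (Real.exp_pos _), ← Real.exp_add]
        refine Real.exp_le_exp.2 ?_
        calc d.m * ghF B (pdLs Φ D x.1) (x.2 + (d.lv Φ x.1).inc ξ)
            ≤ |d.m * ghF B (pdLs Φ D x.1) (x.2 + (d.lv Φ x.1).inc ξ)| := le_abs_self _
          _ = |d.m| * |ghF B (pdLs Φ D x.1) (x.2 + (d.lv Φ x.1).inc ξ)| := abs_mul _ _
          _ ≤ |d.m| * (a + b * ‖ξ‖) := mul_le_mul_of_nonneg_left (hx ξ) (abs_nonneg _)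
          _ = _ := by ring
      refine continuous_const.mul (hI.log fun x => ?_)
      exact (integral_exp_pos (gh_ra_F_int_exp hB (d.lv Φ x.1) (pdLs Φ D x.1) x.2 d.m)).ne'

/-- the density of the planted transition is jointly continuous -/
theorem pd_D_cont (hB : B.Ok) (d : PdLv ι) (D : List (PdLv ι)) :
    Continuous fun p : (ℝ × (S → ℝ)) × (ι → ℝ) => ghD B (d.lv Φ p.1.1) (pdLs Φ D p.1.1) p.1.2 p.2 := by
  unfold ghD
  have h1 := pd_next_cont Φ (G := fun s z => ghF B (pdLs Φ D s) z) (pd_F_cont Φ hB D) d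
  have h2 : Continuous fun p : (ℝ × (S → ℝ)) × (ι → ℝ) => ghF B (d.lv Φ p.1.1 :: pdLs Φ D p.1.1) p.1.2 :=
    (pd_F_cont Φ hB (d :: D)).comp continuous_fst
  exact Real.continuous_exp.comp (continuous_const.mul (h1.sub h2))

/-- local bound of the density -/
theorem pd_D_bound (hB : B.Ok) (d : PdLv ι) (D : List (PdLv ι)) (x₀ : ℝ × (S → ℝ)) :
    ∃ C c : ℝ, 0 ≤ C ∧ 0 ≤ c ∧ ∀ᶠ x in 𝓝 x₀, ∀ ξ,
      ghD B (d.lv Φ x.1) (pdLs Φ D x.1) x.2 ξ ≤ C * Real.exp (c * ‖ξ‖) := by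
  obtain ⟨a, b, ha, hb, h⟩ := pd_next_bound Φ (G := fun s z => ghF B (pdLs Φ D s) z) (pd_F_cont Φ hB D) (fun s z z' => gh_ra_F_lip hB _ z z') d x₀
  refine ⟨Real.exp (|d.m| * (a + (|ghF B (pdLs Φ (d :: D) x₀.1) x₀.2| + 1))), |d.m| * b, (Real.exp_pos _).le,
    by positivity, ?_⟩
  filter_upwards [h, pd_ev_abs_le (pd_F_cont Φ hB (d :: D)) x₀] with x hx h2 ξ
  unfold ghD
  rw [← Real.exp_add]
  refine Real.exp_le_exp.2 ?_
  have h3 := hx ξ
  have h4 : |ghF B (pdLs Φ D x.1) (x.2 + (d.lv Φ x.1).inc ξ) - ghF B (d.lv Φ x.1 :: pdLs Φ D x.1) x.2|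
      ≤ (a + b * ‖ξ‖) + (|ghF B (pdLs Φ (d :: D) x₀.1) x₀.2| + 1) :=
    (abs_sub _ _).trans (add_le_add h3 h2)
  calc (d.lv Φ x.1).m * (ghF B (pdLs Φ D x.1) (x.2 + (d.lv Φ x.1).inc ξ) - ghF B (d.lv Φ x.1 :: pdLs Φ D x.1) x.2)
      ≤ |d.m * (ghF B (pdLs Φ D x.1) (x.2 + (d.lv Φ x.1).inc ξ) - ghF B (d.lv Φ x.1 :: pdLs Φ D x.1) x.2)| :=
        le_abs_self _
    _ = |d.m| * |ghF B (pdLs Φ D x.1) (x.2 + (d.lv Φ x.1).inc ξ) - ghF B (d.lv Φ x.1 :: pdLs Φ D x.1) x.2| :=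
        abs_mul _ _
    _ ≤ |d.m| * ((a + b * ‖ξ‖) + (|ghF B (pdLs Φ (d :: D) x₀.1) x₀.2| + 1)) :=
        mul_le_mul_of_nonneg_left h4 (abs_nonneg _)
    _ = _ := by ring

/-- the tilted average through the first level of the segment -/
def pdA (B : GhB S) (Φ : S → ι → ℝ) (d : PdLv ι) (D : List (PdLv ι)) (g : ℝ → (S → ℝ) → ℝ) (s : ℝ) (z : S → ℝ) : ℝ :=
  ∫ ξ, ghD B (d.lv Φ s) (pdLs Φ D s) z ξ * g s (z + (d.lv Φ s).inc ξ) ∂ghStd ι

/-- jointly continuous and bounded -/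
structure PdBC (g : ℝ → (S → ℝ) → ℝ) (M : ℝ) : Prop where
  cont : Continuous fun p : ℝ × (S → ℝ) => g p.1 p.2
  le : ∀ s z, |g s z| ≤ M

theorem PdBC.nonneg {g : ℝ → (S → ℝ) → ℝ} {M : ℝ} (h : PdBC g M) : 0 ≤ M := (abs_nonneg _).trans (h.le 0 0)

theorem PdBC.add {g g' : ℝ → (S → ℝ) → ℝ} {M M' : ℝ} (h : PdBC g M) (h' : PdBC g' M') :
    PdBC (fun s z => g s z + g' s z) (M + M') :=
  ⟨h.cont.add h'.cont, fun s z => (abs_add_le _ _).trans (add_le_add (h.le s z) (h'.le s z))⟩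

theorem PdBC.sub {g g' : ℝ → (S → ℝ) → ℝ} {M M' : ℝ} (h : PdBC g M) (h' : PdBC g' M') :
    PdBC (fun s z => g s z - g' s z) (M + M') :=
  ⟨h.cont.sub h'.cont, fun s z => (abs_sub _ _).trans (add_le_add (h.le s z) (h'.le s z))⟩

theorem PdBC.mul {g g' : ℝ → (S → ℝ) → ℝ} {M M' : ℝ} (h : PdBC g M) (h' : PdBC g' M') :
    PdBC (fun s z => g s z * g' s z) (M * M') :=
  ⟨h.cont.mul h'.cont, fun s z => by
    rw [abs_mul]; exact mul_le_mul (h.le s z) (h'.le s z) (abs_nonneg _) h.nonneg⟩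

theorem PdBC.const_mul {g : ℝ → (S → ℝ) → ℝ} {M : ℝ} (h : PdBC g M) (c : ℝ) :
    PdBC (fun s z => c * g s z) (|c| * M) :=
  ⟨continuous_const.mul h.cont, fun s z => by
    rw [abs_mul]; exact mul_le_mul_of_nonneg_left (h.le s z) (abs_nonneg _)⟩

theorem pd_bc_const (c : ℝ) : PdBC (fun _ (_ : S → ℝ) => c) |c| := ⟨continuous_const, fun _ _ => le_rfl⟩

theorem PdBC.ex_sum {κ : Type} (t : Finset κ) {g : κ → ℝ → (S → ℝ) → ℝ} (h : ∀ k ∈ t, ∃ M, PdBC (g k) M) :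
    ∃ M, PdBC (fun s z => ∑ k ∈ t, g k s z) M := by
  classical
  induction t using Finset.induction_on with
  | empty => exact ⟨_, by simpa using pd_bc_const (S := S) 0⟩
  | insert a t ha ih =>
    obtain ⟨M, hM⟩ := ih fun k hk => h k (Finset.mem_insert_of_mem hk)
    obtain ⟨M', hM'⟩ := h a (Finset.mem_insert_self a t)
    refine ⟨M' + M, ?_⟩
    have := hM'.add hM
    simpa [Finset.sum_insert ha] using this

/-- **the tilted average preserves joint continuity and the bound** -/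
theorem PdBC.avg {g : ℝ → (S → ℝ) → ℝ} {M : ℝ} (h : PdBC g M) (hB : B.Ok) (d : PdLv ι) (D : List (PdLv ι)) :
    PdBC (pdA B Φ d D g) M := by
  constructor
  · unfold pdA
    refine pd_cont_integral ((pd_D_cont Φ hB d D).mul (pd_next_cont Φ h.cont d)) fun x₀ => ?_
    obtain ⟨C, c, hC, hc, hb⟩ := pd_D_bound Φ hB d D x₀
    refine ⟨C * M, c, hb.mono fun x hx ξ => ?_⟩
    rw [abs_mul, abs_of_pos (gh_ra_D_pos _ _ _ _ _)]
    calc ghD B (d.lv Φ x.1) (pdLs Φ D x.1) x.2 ξ * |g x.1 (x.2 + (d.lv Φ x.1).inc ξ)|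
        ≤ (C * Real.exp (c * ‖ξ‖)) * M := mul_le_mul (hx ξ) (h.le _ _) (abs_nonneg _) (by positivity)
      _ = _ := by ring
  · intro s z
    exact gh_ra_avg_bdd hB (d.lv Φ s) (pdLs Φ D s) z fun ξ => h.le _ _

theorem pd_E_bc (hB : B.Ok) (D : List (PdLv ι)) (v : S → ℝ) : PdBC (fun s z => ghE B (pdLs Φ D s) v z) ‖v‖ := by
  induction D with
  | nil =>
    exact ⟨(gh_ra_E_cont hB ([] : List (GhLv S ι)) v).comp continuous_snd, fun s z => gh_ra_E_bdd hB _ v z⟩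
  | cons d D ih => exact ih.avg Φ hB d D

/-- bridge: the tilted expectation of `Tst/Step` is the average against the planted density -/
theorem pd_tstE_eq (hB : B.Ok) (l : GhLv S ι) (ls : List (GhLv S ι)) (g : (S → ℝ) → ℝ) (z : S → ℝ) :
    tstE (ghStd ι) l.inc l.m (ghF B ls) g z = ∫ ξ, ghD B l ls z ξ * g (z + l.inc ξ) ∂ghStd ι := by
  rw [tstE_eq_density (ghq_noise l) (ghF_regF hB ls)]
  simp only [ghD, ghF_cons, smul_eq_mul]

/-- the recursion of the Hessian, expanded -/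
theorem pd_H_cons (hB : B.Ok) (l : GhLv S ι) (ls : List (GhLv S ι)) (v w z : S → ℝ) :
    ghH B (l :: ls) v w z = (∫ ξ, ghD B l ls z ξ * ghH B ls v w (z + l.inc ξ) ∂ghStd ι)
      + l.m * ((∫ ξ, ghD B l ls z ξ * (ghE B ls v (z + l.inc ξ) * ghE B ls w (z + l.inc ξ)) ∂ghStd ι)
        - ghE B (l :: ls) v z * ghE B (l :: ls) w z) := by
  rw [ghH_cons hB, ghE_cons hB l ls v, ghE_cons hB l ls w,
    tstE_var (ghq_noise l) (ghF_regF hB ls) (ghE_bRegN hB ls v 0) (ghE_bRegN hB ls w 0),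
    pd_tstE_eq hB, pd_tstE_eq hB]

theorem pd_H_bc (hB : B.Ok) (D : List (PdLv ι)) (v w : S → ℝ) :
    ∃ M, PdBC (fun s z => ghH B (pdLs Φ D s) v w z) M := by
  induction D with
  | nil =>
    exact ⟨ghHK B ([] : List (GhLv S ι)) * (‖v‖ * ‖w‖),
      (gh_ra_H_cont hB ([] : List (GhLv S ι)) v w).comp continuous_snd,
      fun s z => gh_ra_H_bdd hB ([] : List (GhLv S ι)) v w z⟩
  | cons d D ih =>
    obtain ⟨M, hM⟩ := ih
    have h1 := hM.avg Φ hB d D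
    have h2 := ((pd_E_bc Φ hB D v).mul (pd_E_bc Φ hB D w)).avg Φ hB d D
    have h3 := (pd_E_bc Φ hB (d :: D) v).mul (pd_E_bc Φ hB (d :: D) w)
    have h4 := h1.add ((h2.sub h3).const_mul d.m)
    refine ⟨M + |d.m| * (‖v‖ * ‖w‖ + ‖v‖ * ‖w‖), ?_⟩
    have e : (fun s z => ghH B (pdLs Φ (d :: D) s) v w z) = fun s z =>
        pdA B Φ d D (fun s z => ghH B (pdLs Φ D s) v w z) s z + d.m *
          (pdA B Φ d D (fun s z => ghE B (pdLs Φ D s) v z * ghE B (pdLs Φ D s) w z) s z -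
            ghE B (pdLs Φ (d :: D) s) v z * ghE B (pdLs Φ (d :: D) s) w z) := by
      funext s z
      exact pd_H_cons hB (d.lv Φ s) (pdLs Φ D s) v w z
    rw [e]
    exact h4

/-- the feature `i` as a direction -/
def pdC (Φ : S → ι → ℝ) (i : ι) : S → ℝ := fun σ => Φ σ i

/-- the source term of the level `d`: `½ ∑ (q - p)_i (H(Φ_i,Φ_i) + m (E Φ_i)²)`, a function of the field after the level -/
def pdSrc (B : GhB S) (Φ : S → ι → ℝ) (d : PdLv ι) (D : List (PdLv ι)) (s : ℝ) (y : S → ℝ) : ℝ :=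
  (1 / 2) * ∑ i, (d.q i - d.p i) *
    (ghH B (pdLs Φ D s) (pdC Φ i) (pdC Φ i) y + d.m * ghE B (pdLs Φ D s) (pdC Φ i) y ^ 2)

/-- **the derivative of the continuation in the parameter**, by its recursion -/
def pdDer (B : GhB S) (Φ : S → ι → ℝ) : List (PdLv ι) → ℝ → (S → ℝ) → ℝ
  | [], _, _ => 0
  | d :: D, s, z => pdA B Φ d D (fun s y => pdDer B Φ D s y + pdSrc B Φ d D s y) s z

theorem pd_Src_bc (hB : B.Ok) (d : PdLv ι) (D : List (PdLv ι)) : ∃ M, PdBC (pdSrc B Φ d D) M := by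
  have h : ∀ i ∈ (Finset.univ : Finset ι), ∃ M, PdBC (fun s y => (d.q i - d.p i) *
      (ghH B (pdLs Φ D s) (pdC Φ i) (pdC Φ i) y + d.m * ghE B (pdLs Φ D s) (pdC Φ i) y ^ 2)) M := by
    intro i _
    obtain ⟨M, hM⟩ := pd_H_bc Φ hB D (pdC Φ i) (pdC Φ i)
    have h1 := pd_E_bc Φ hB D (pdC Φ i)
    have := (hM.add ((h1.mul h1).const_mul d.m)).const_mul (d.q i - d.p i)
    exact ⟨_, by simpa only [pow_two] using this⟩
  obtain ⟨M, hM⟩ := PdBC.ex_sum Finset.univ h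
  exact ⟨_, hM.const_mul (1 / 2)⟩

theorem pd_Der_bc (hB : B.Ok) (D : List (PdLv ι)) : ∃ M, PdBC (pdDer B Φ D) M := by
  induction D with
  | nil => exact ⟨_, pd_bc_const 0⟩
  | cons d D ih =>
    obtain ⟨M, hM⟩ := ih
    obtain ⟨M', hM'⟩ := pd_Src_bc Φ hB d D
    exact ⟨_, (hM.add hM').avg Φ hB d D⟩

end

end Claimed.Agent.R286
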