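import Claimed.Agent.R286.Fd.PrA
import Claimed.Agent.R286.Base.Kit

/-!
# Row 286 (S0533), Fd/PrB : the derivative of a continuation along a segment of hierarchies      (owner helper97; prefix `pd_`)

Step 2 of the proof of `ob_pressure_deriv` (PE Lemma 2.2): for `0 < s < 1`
`d/ds ghF B (pdLs Φ D s) z = pdDer B Φ D s z`  (heat equation through Gaussian integration by parts + tilted chain rule),
and, by continuity of both sides, the derivative within `[0,1]` at every point of `[0,1]`.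
-/

set_option autoImplicit false
set_option linter.unusedSectionVars false

namespace Claimed.Agent.R286

open MeasureTheory ProbabilityTheory Filter Topology Set

noncomputable section

variable {S ι : Type} [Fintype S] [Fintype ι]

/-! ### the standard deviations -/

/-- derivative of the standard deviation -/
def pdSd' (p q s : ℝ) : ℝ := (q - p) / (2 * Real.sqrt ((1 - s) * p + s * q))

theorem pd_dv_pos {p q s : ℝ} (hp : 0 ≤ p) (hq : 0 ≤ q) (hs : s ∈ Ioo (0 : ℝ) 1) (h : ¬ (p = 0 ∧ q = 0)) :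
    0 < (1 - s) * p + s * q := by
  have h1 : 0 < 1 - s := by linarith [hs.2]
  have h2 := hs.1
  rcases hp.eq_or_lt with h0 | h0
  · rcases hq.eq_or_lt with h0' | h0'
    · exact absurd ⟨h0.symm, h0'.symm⟩ h
    · have := mul_pos h2 h0'
      have := mul_nonneg h1.le hp
      linarith
  · have := mul_pos h1 h0
    have := mul_nonneg h2.le hq
    linarith

theorem pd_sd_hasDerivAt {p q s : ℝ} (hp : 0 ≤ p) (hq : 0 ≤ q) (hs : s ∈ Ioo (0 : ℝ) 1) :
    HasDerivAt (fun s => Real.sqrt ((1 - s) * p + s * q)) (pdSd' p q s) s := by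
  by_cases h : p = 0 ∧ q = 0
  · obtain ⟨rfl, rfl⟩ := h
    simpa [pdSd'] using hasDerivAt_const s (0 : ℝ)
  · have h1 : HasDerivAt (fun s : ℝ => (1 - s) * p + s * q) (q - p) s := by
      have := (((hasDerivAt_const s (1 : ℝ)).sub (hasDerivAt_id s)).mul_const p).add ((hasDerivAt_id s).mul_const q)
      refine this.congr_deriv ?_
      ring
    exact h1.sqrt (pd_dv_pos hp hq hs h).ne'

theorem pd_sd_continuousAt {p q s : ℝ} (hp : 0 ≤ p) (hq : 0 ≤ q) (hs : s ∈ Ioo (0 : ℝ) 1) :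
    ContinuousAt (pdSd' p q) s := by
  by_cases h : p = 0 ∧ q = 0
  · obtain ⟨rfl, rfl⟩ := h
    have : pdSd' 0 0 = fun _ => 0 := by funext s; simp [pdSd']
    rw [this]
    exact continuousAt_const
  · unfold pdSd'
    refine continuousAt_const.div (by fun_prop) ?_
    have := Real.sqrt_pos.2 (pd_dv_pos hp hq hs h)
    positivity

theorem pd_sd_mul {p q s : ℝ} (hp : 0 ≤ p) (hq : 0 ≤ q) (hs : s ∈ Ioo (0 : ℝ) 1) :
    Real.sqrt ((1 - s) * p + s * q) * pdSd' p q s = (q - p) / 2 := by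
  by_cases h : p = 0 ∧ q = 0
  · obtain ⟨rfl, rfl⟩ := h
    simp [pdSd']
  · have := Real.sqrt_pos.2 (pd_dv_pos hp hq hs h)
    unfold pdSd'
    field_simp

/-! ### one level: linearity and integration by parts -/

variable {B : GhB S}

theorem pd_H_smul_right (hB : B.Ok) (ls : List (GhLv S ι)) (v w z : S → ℝ) (c : ℝ) :
    ghH B ls v (c • w) z = c * ghH B ls v w z := by
  rw [← ghE_fderiv hB, ← ghE_fderiv hB, map_smul, smul_eq_mul]

/-- the column `i` of a level, as a direction -/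
def GhLv.col (l : GhLv S ι) (i : ι) : S → ℝ := fun σ => l.A σ i

theorem pd_inc_single [DecidableEq ι] (l : GhLv S ι) (i : ι) : l.inc (Pi.single i (1 : ℝ)) = l.col i := by
  funext σ
  simp [GhLv.inc, GhLv.col, Pi.single_apply]

/-- **Gaussian integration by parts through one planted transition** -/
theorem pd_ibp (hB : B.Ok) (l : GhLv S ι) (ls : List (GhLv S ι)) (v z : S → ℝ) (i : ι) :
    ∫ ξ, ξ i * (ghD B l ls z ξ * ghE B ls v (z + l.inc ξ)) ∂ghStd ι
      = ∫ ξ, ghD B l ls z ξ * (l.m * (ghE B ls (l.col i) (z + l.inc ξ) * ghE B ls v (z + l.inc ξ))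
          + ghH B ls v (l.col i) (z + l.inc ξ)) ∂ghStd ι := by
  classical
  obtain ⟨C, hC0, hC⟩ := gh_ra_D_le hB l ls
  have hy : Continuous fun ξ : ι → ℝ => z + l.inc ξ := continuous_const.add (gh_ra_inc_cont l)
  have hE : ∀ w : S → ℝ, Continuous fun ξ : ι → ℝ => ghE B ls w (z + l.inc ξ) :=
    fun w => (gh_ra_E_cont hB ls w).comp hy
  have hH : Continuous fun ξ : ι → ℝ => ghH B ls v (l.col i) (z + l.inc ξ) :=
    (gh_ra_H_cont hB ls v (l.col i)).comp hy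
  set M : ℝ := ‖v‖ + (|l.m| * (‖l.col i‖ * ‖v‖) + ghHK B ls * (‖v‖ * ‖l.col i‖)) with hM
  have hHK := gh_ra_HK_nonneg B ls
  have h := sk_b_ibp_pi (ι := ι) (V := ℝ) i
    (ψ := fun ξ => ghD B l ls z ξ * ghE B ls v (z + l.inc ξ))
    (ψ' := fun ξ => ghD B l ls z ξ * (l.m * (ghE B ls (l.col i) (z + l.inc ξ) * ghE B ls v (z + l.inc ξ))
          + ghH B ls v (l.col i) (z + l.inc ξ)))
    (A := C * M) (B := |l.m| * l.K)
    ((gh_ra_D_cont2 hB l ls z).mul (hE v))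
    ((gh_ra_D_cont2 hB l ls z).mul ((continuous_const.mul ((hE _).mul (hE v))).add hH))
    ?_ ?_ ?_
  · simpa only [smul_eq_mul, ghStd] using h
  · intro g
    have e : ∀ t : ℝ, z + l.inc (g + t • Pi.single i (1 : ℝ)) = (z + l.inc g) + t • l.col i := by
      intro t
      rw [gh_ra_inc_add, gh_ra_inc_smul, pd_inc_single, add_assoc]
    have h1 := ghF_hasDerivAt hB ls (z + l.inc g) (l.col i) 0
    have h2 := ghE_hasDerivAt hB ls v (z + l.inc g) (l.col i) 0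
    simp only [zero_smul, add_zero] at h1 h2
    have h3 : HasDerivAt (fun t : ℝ => ghD B l ls z (g + t • Pi.single i (1 : ℝ)))
        (ghD B l ls z g * (l.m * ghE B ls (l.col i) (z + l.inc g))) 0 := by
      unfold ghD
      simp only [e]
      have := ((h1.sub_const (ghF B (l :: ls) z)).const_mul l.m).exp
      simpa only [zero_smul, add_zero] using this
    have h4 : HasDerivAt (fun t : ℝ => ghE B ls v (z + l.inc (g + t • Pi.single i (1 : ℝ))))
        (ghH B ls v (l.col i) (z + l.inc g)) 0 := by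
      simp only [e]
      exact h2
    have h5 := h3.mul h4
    simp only [zero_smul, add_zero] at h5
    refine h5.congr_deriv ?_
    ring
  · intro g
    rw [Real.norm_eq_abs, abs_mul, abs_of_pos (gh_ra_D_pos _ _ _ _ _)]
    have h1 := gh_ra_E_bdd hB ls v (z + l.inc g)
    have h2 : ‖v‖ ≤ M := by
      rw [hM]
      have : 0 ≤ |l.m| * (‖l.col i‖ * ‖v‖) + ghHK B ls * (‖v‖ * ‖l.col i‖) := by positivity
      linarith
    calc ghD B l ls z g * |ghE B ls v (z + l.inc g)| ≤ (C * Real.exp (|l.m| * l.K * ‖g‖)) * M :=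
          mul_le_mul (hC z g) (h1.trans h2) (abs_nonneg _) (by positivity)
      _ = _ := by ring
  · intro g
    rw [Real.norm_eq_abs, abs_mul, abs_of_pos (gh_ra_D_pos _ _ _ _ _)]
    have h1 := gh_ra_E_bdd hB ls v (z + l.inc g)
    have h1' := gh_ra_E_bdd hB ls (l.col i) (z + l.inc g)
    have h3 := gh_ra_H_bdd hB ls v (l.col i) (z + l.inc g)
    have h4 : |l.m * (ghE B ls (l.col i) (z + l.inc g) * ghE B ls v (z + l.inc g))
        + ghH B ls v (l.col i) (z + l.inc g)| ≤ M := by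
      refine (abs_add_le _ _).trans ?_
      rw [abs_mul, abs_mul, hM]
      have : |l.m| * (|ghE B ls (l.col i) (z + l.inc g)| * |ghE B ls v (z + l.inc g)|)
          ≤ |l.m| * (‖l.col i‖ * ‖v‖) :=
        mul_le_mul_of_nonneg_left (mul_le_mul h1' h1 (abs_nonneg _) (norm_nonneg _)) (abs_nonneg _)
      have := norm_nonneg v
      linarith
    calc ghD B l ls z g * _ ≤ (C * Real.exp (|l.m| * l.K * ‖g‖)) * M :=
          mul_le_mul (hC z g) h4 (abs_nonneg _) (by positivity)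
      _ = _ := by ring

/-! ### the segment -/

variable (Φ : S → ι → ℝ)

/-- nonnegative variances at both ends -/
def PdOk (D : List (PdLv ι)) : Prop := ∀ d ∈ D, ∀ i, 0 ≤ d.p i ∧ 0 ≤ d.q i

theorem PdOk.head {d : PdLv ι} {D : List (PdLv ι)} (h : PdOk (d :: D)) : ∀ i, 0 ≤ d.p i ∧ 0 ≤ d.q i :=
  h d List.mem_cons_self

theorem PdOk.tail {d : PdLv ι} {D : List (PdLv ι)} (h : PdOk (d :: D)) : PdOk D :=
  fun d' hd' => h d' (List.mem_cons_of_mem _ hd')

/-- derivative in `s` of the increment -/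
def pdInc' (d : PdLv ι) (s : ℝ) (ξ : ι → ℝ) : S → ℝ := ∑ i, (ξ i * pdSd' (d.p i) (d.q i) s) • pdC Φ i

theorem pd_inc_hasDerivAt (d : PdLv ι) (hd : ∀ i, 0 ≤ d.p i ∧ 0 ≤ d.q i) {s : ℝ} (hs : s ∈ Ioo (0 : ℝ) 1)
    (ξ : ι → ℝ) : HasDerivAt (fun s => (d.lv Φ s).inc ξ) (pdInc' Φ d s ξ) s := by
  rw [hasDerivAt_pi]
  intro σ
  have e : pdInc' Φ d s ξ σ = ∑ i, pdSd' (d.p i) (d.q i) s * Φ σ i * ξ i := by
    simp only [pdInc', Finset.sum_apply, Pi.smul_apply, smul_eq_mul, pdC]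
    exact Finset.sum_congr rfl fun i _ => by ring
  rw [e]
  unfold GhLv.inc
  refine HasDerivAt.fun_sum fun i _ => ?_
  exact ((pd_sd_hasDerivAt (hd i).1 (hd i).2 hs).mul_const (Φ σ i)).mul_const (ξ i)

/-- the derivative of `s ↦ F_D (s, z + inc_s ξ)` -/
def pdR (B : GhB S) (d : PdLv ι) (D : List (PdLv ι)) (z : S → ℝ) (s : ℝ) (ξ : ι → ℝ) : ℝ :=
  pdDer B Φ D s (z + (d.lv Φ s).inc ξ)
    + ∑ i, ξ i * (pdSd' (d.p i) (d.q i) s * ghE B (pdLs Φ D s) (pdC Φ i) (z + (d.lv Φ s).inc ξ))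

/-- joint differentiability from the two partial derivatives -/
theorem pd_joint (hB : B.Ok) (D : List (PdLv ι))
    (ih : ∀ s ∈ Ioo (0 : ℝ) 1, ∀ y, HasDerivAt (fun s => ghF B (pdLs Φ D s) y) (pdDer B Φ D s y) s)
    {s : ℝ} (hs : s ∈ Ioo (0 : ℝ) 1) (y : S → ℝ) :
    HasFDerivAt (fun p : ℝ × (S → ℝ) => ghF B (pdLs Φ D p.1) p.2)
      ((ContinuousLinearMap.toSpanSingleton ℝ (pdDer B Φ D s y)).coprod (fderiv ℝ (ghF B (pdLs Φ D s)) y)) (s, y) := by
  obtain ⟨M, hM⟩ := pd_Der_bc Φ hB D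
  have h := hasStrictFDerivAt_uncurry_coprod (𝕜 := ℝ) (u := (s, y))
    (f := fun (s : ℝ) (y : S → ℝ) => ghF B (pdLs Φ D s) y)
    (f₁ := fun s y => ContinuousLinearMap.toSpanSingleton ℝ (pdDer B Φ D s y))
    (f₂ := fun s y => fderiv ℝ (ghF B (pdLs Φ D s)) y) ?_ ?_ ?_ ?_
  · exact h.hasFDerivAt
  · have : {v : ℝ × (S → ℝ) | v.1 ∈ Ioo (0 : ℝ) 1} ∈ 𝓝 (s, y) :=
      (isOpen_Ioo.preimage continuous_fst).mem_nhds hs
    filter_upwards [this] with v hv
    exact (ih v.1 hv v.2).hasFDerivAt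
  · exact Eventually.of_forall fun v => ghF_hasFDerivAt hB _ _
  · refine Continuous.continuousAt ?_
    refine continuous_clm_apply.2 fun t => ?_
    have : Continuous fun p : ℝ × (S → ℝ) => t • pdDer B Φ D p.1 p.2 := hM.cont.const_smul t
    exact this
  · refine Continuous.continuousAt ?_
    refine continuous_clm_apply.2 fun v => ?_
    have : Continuous fun p : ℝ × (S → ℝ) => ghE B (pdLs Φ D p.1) v p.2 := (pd_E_bc Φ hB D v).cont
    refine this.congr fun p => ?_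
    exact (ghF_fderiv hB _ _ _).symm

theorem pd_comp_hasDerivAt (hB : B.Ok) (d : PdLv ι) (D : List (PdLv ι)) (hd : ∀ i, 0 ≤ d.p i ∧ 0 ≤ d.q i)
    (ih : ∀ s ∈ Ioo (0 : ℝ) 1, ∀ y, HasDerivAt (fun s => ghF B (pdLs Φ D s) y) (pdDer B Φ D s y) s)
    {s : ℝ} (hs : s ∈ Ioo (0 : ℝ) 1) (z : S → ℝ) (ξ : ι → ℝ) :
    HasDerivAt (fun s => ghF B (pdLs Φ D s) (z + (d.lv Φ s).inc ξ)) (pdR Φ B d D z s ξ) s := by
  have h1 := pd_joint Φ hB D ih hs (z + (d.lv Φ s).inc ξ)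
  have h2 : HasDerivAt (fun s : ℝ => (s, z + (d.lv Φ s).inc ξ)) ((1 : ℝ), pdInc' Φ d s ξ) s :=
    (hasDerivAt_id s).prodMk ((pd_inc_hasDerivAt Φ d hd hs ξ).const_add z)
  have h3 := HasFDerivAt.comp_hasDerivAt s h1 h2
  refine h3.congr_deriv ?_
  rw [ContinuousLinearMap.coprod_apply, ContinuousLinearMap.toSpanSingleton_apply, one_smul, pdR, pdInc', map_sum]
  congr 1
  refine Finset.sum_congr rfl fun i _ => ?_
  rw [map_smul, ghF_fderiv hB, smul_eq_mul]
  ring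

theorem pd_int_D (hB : B.Ok) (l : GhLv S ι) (ls : List (GhLv S ι)) (z : S → ℝ) {u : (ι → ℝ) → ℝ}
    (hc : Continuous u) (hs : GhSubE u) : Integrable (fun ξ => ghD B l ls z ξ * u ξ) (ghStd ι) :=
  gh_ra_int_of_sub ((gh_ra_D_cont2 hB l ls z).mul hc).aestronglyMeasurable ((gh_ra_D_sub hB l ls z).mul hs)

theorem pd_sub_coord (i : ι) : GhSubE fun ξ : ι → ℝ => ξ i :=
  gh_ra_sub_norm.of_le fun ξ => by
    rw [abs_of_nonneg (norm_nonneg ξ)]
    simpa using norm_le_pi_norm ξ i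

theorem pd_col (d : PdLv ι) (s : ℝ) (i : ι) : (d.lv Φ s).col i = Real.sqrt (d.dv s i) • pdC Φ i := rfl

/-- **integration by parts: the chain rule form of the derivative is the heat form** -/
theorem pd_ibp_sum (hB : B.Ok) (d : PdLv ι) (D : List (PdLv ι)) (hd : ∀ i, 0 ≤ d.p i ∧ 0 ≤ d.q i)
    {s : ℝ} (hs : s ∈ Ioo (0 : ℝ) 1) (z : S → ℝ) :
    ∫ ξ, ghD B (d.lv Φ s) (pdLs Φ D s) z ξ * pdR Φ B d D z s ξ ∂ghStd ι = pdDer B Φ (d :: D) s z := by
  set l := d.lv Φ s with hl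
  set ls := pdLs Φ D s with hls
  obtain ⟨M, hM⟩ := pd_Der_bc Φ hB D
  have hy : Continuous fun ξ : ι → ℝ => z + l.inc ξ := continuous_const.add (gh_ra_inc_cont l)
  have hDer : Continuous fun ξ : ι → ℝ => pdDer B Φ D s (z + l.inc ξ) :=
    hM.cont.comp (Continuous.prodMk continuous_const hy)
  have hE : ∀ w : S → ℝ, Continuous fun ξ : ι → ℝ => ghE B ls w (z + l.inc ξ) :=
    fun w => (gh_ra_E_cont hB ls w).comp hy
  have hH : ∀ v w : S → ℝ, Continuous fun ξ : ι → ℝ => ghH B ls v w (z + l.inc ξ) :=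
    fun v w => (gh_ra_H_cont hB ls v w).comp hy
  have sE : ∀ w : S → ℝ, GhSubE fun ξ : ι → ℝ => ghE B ls w (z + l.inc ξ) :=
    fun w => gh_ra_sub_of_bdd fun ξ => gh_ra_E_bdd hB ls w _
  have sH : ∀ v w : S → ℝ, GhSubE fun ξ : ι → ℝ => ghH B ls v w (z + l.inc ξ) :=
    fun v w => gh_ra_sub_of_bdd fun ξ => gh_ra_H_bdd hB ls v w _
  have i1 : Integrable (fun ξ => ghD B l ls z ξ * pdDer B Φ D s (z + l.inc ξ)) (ghStd ι) :=
    pd_int_D hB l ls z hDer (gh_ra_sub_of_bdd fun ξ => hM.le _ _)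
  have i2 : ∀ i, Integrable (fun ξ => ghD B l ls z ξ *
      (ξ i * (pdSd' (d.p i) (d.q i) s * ghE B ls (pdC Φ i) (z + l.inc ξ)))) (ghStd ι) := fun i =>
    pd_int_D hB l ls z ((continuous_apply i).mul (continuous_const.mul (hE _)))
      ((pd_sub_coord i).mul ((gh_ra_sub_const _).mul (sE _)))
  have i3 : ∀ i, Integrable (fun ξ => ghD B l ls z ξ * ((d.q i - d.p i) *
      (ghH B ls (pdC Φ i) (pdC Φ i) (z + l.inc ξ) + d.m * ghE B ls (pdC Φ i) (z + l.inc ξ) ^ 2))) (ghStd ι) := fun i =>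
    pd_int_D hB l ls z (continuous_const.mul ((hH _ _).add (continuous_const.mul ((hE _).pow 2))))
      ((gh_ra_sub_const _).mul ((sH _ _).add ((gh_ra_sub_const _).mul ((sE _).pow 2))))
  -- left side
  have L : ∫ ξ, ghD B l ls z ξ * pdR Φ B d D z s ξ ∂ghStd ι
      = (∫ ξ, ghD B l ls z ξ * pdDer B Φ D s (z + l.inc ξ) ∂ghStd ι)
        + ∑ i, ∫ ξ, ghD B l ls z ξ * (ξ i * (pdSd' (d.p i) (d.q i) s * ghE B ls (pdC Φ i) (z + l.inc ξ))) ∂ghStd ι := by
    rw [← integral_finsetSum _ fun i _ => i2 i, ← integral_add i1 (integrable_finsetSum _ fun i _ => i2 i)]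
    refine integral_congr_ae (Eventually.of_forall fun ξ => ?_)
    simp only [pdR, mul_add, Finset.mul_sum, ← hl, ← hls]
  -- right side
  have R : pdDer B Φ (d :: D) s z
      = (∫ ξ, ghD B l ls z ξ * pdDer B Φ D s (z + l.inc ξ) ∂ghStd ι)
        + ∑ i, (1 / 2) * ∫ ξ, ghD B l ls z ξ * ((d.q i - d.p i) *
          (ghH B ls (pdC Φ i) (pdC Φ i) (z + l.inc ξ) + d.m * ghE B ls (pdC Φ i) (z + l.inc ξ) ^ 2)) ∂ghStd ι := by
    simp only [← integral_const_mul]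
    rw [← integral_finsetSum _ fun i _ => (i3 i).const_mul _,
      ← integral_add i1 (integrable_finsetSum _ fun i _ => (i3 i).const_mul _)]
    refine integral_congr_ae (Eventually.of_forall fun ξ => ?_)
    simp only [pdSrc, mul_add, Finset.mul_sum, ← hl, ← hls]
    congr 1
    refine Finset.sum_congr rfl fun i _ => by ring
  rw [L, R]
  congr 1
  refine Finset.sum_congr rfl fun i _ => ?_
  have h1 := pd_ibp hB l ls (pdC Φ i) z i
  have e1 : ∫ ξ, ghD B l ls z ξ * (ξ i * (pdSd' (d.p i) (d.q i) s * ghE B ls (pdC Φ i) (z + l.inc ξ))) ∂ghStd ι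
      = pdSd' (d.p i) (d.q i) s * ∫ ξ, ξ i * (ghD B l ls z ξ * ghE B ls (pdC Φ i) (z + l.inc ξ)) ∂ghStd ι := by
    rw [← integral_const_mul]
    refine integral_congr_ae (Eventually.of_forall fun ξ => ?_)
    simp only
    ring
  rw [e1, h1, ← integral_const_mul, ← integral_const_mul]
  refine integral_congr_ae (Eventually.of_forall fun ξ => ?_)
  have hcol : l.col i = Real.sqrt (d.dv s i) • pdC Φ i := pd_col Φ d s i
  have hmul := pd_sd_mul (hd i).1 (hd i).2 hs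
  have hm : l.m = d.m := rfl
  simp only [hcol, pd_H_smul_right hB, gh_ra_E_smul, hm]
  have hdv : d.dv s i = (1 - s) * d.p i + s * d.q i := rfl
  rw [hdv]
  set a := Real.sqrt ((1 - s) * d.p i + s * d.q i)
  set a' := pdSd' (d.p i) (d.q i) s
  have : (d.q i - d.p i) = 2 * (a * a') := by rw [hmul]; ring
  rw [this]
  ring

theorem pd_R_cont (hB : B.Ok) (d : PdLv ι) (D : List (PdLv ι)) (z : S → ℝ) (s : ℝ) :
    Continuous fun ξ => pdR Φ B d D z s ξ := by
  obtain ⟨M, hM⟩ := pd_Der_bc Φ hB D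
  have hy : Continuous fun ξ : ι → ℝ => z + (d.lv Φ s).inc ξ := continuous_const.add (gh_ra_inc_cont _)
  unfold pdR
  refine (hM.cont.comp (Continuous.prodMk continuous_const hy)).add ?_
  refine continuous_finsetSum _ fun i _ => ?_
  exact (continuous_apply i).mul (continuous_const.mul ((gh_ra_E_cont hB _ _).comp hy))

/-- local bounds along the segment at a fixed field -/
theorem pd_loc (hB : B.Ok) (d : PdLv ι) (D : List (PdLv ι)) (hd : ∀ i, 0 ≤ d.p i ∧ 0 ≤ d.q i)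
    {s₀ : ℝ} (hs : s₀ ∈ Ioo (0 : ℝ) 1) (z : S → ℝ) :
    ∃ a b M K : ℝ, 0 ≤ a ∧ 0 ≤ b ∧ 0 ≤ M ∧ 0 ≤ K ∧
      {s : ℝ | s ∈ Ioo (0 : ℝ) 1 ∧ (∀ ξ, |ghF B (pdLs Φ D s) (z + (d.lv Φ s).inc ξ)| ≤ a + b * ‖ξ‖) ∧
        ∀ ξ, |pdR Φ B d D z s ξ| ≤ M + K * ‖ξ‖} ∈ 𝓝 s₀ := by
  obtain ⟨a, b, ha, hb, h⟩ := pd_next_bound Φ (G := fun s z => ghF B (pdLs Φ D s) z) (pd_F_cont Φ hB D)
    (fun s z z' => gh_ra_F_lip hB _ z z') d (s₀, z)
  obtain ⟨M, hM⟩ := pd_Der_bc Φ hB D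
  have hK : ContinuousAt (fun s => ∑ i, |pdSd' (d.p i) (d.q i) s| * ‖pdC Φ i‖) s₀ :=
    tendsto_finsetSum _ fun i _ => ((pd_sd_continuousAt (hd i).1 (hd i).2 hs).abs.mul continuousAt_const)
  set K0 : ℝ := ∑ i, |pdSd' (d.p i) (d.q i) s₀| * ‖pdC Φ i‖ with hK0
  have hK0n : 0 ≤ K0 := Finset.sum_nonneg fun i _ => by positivity
  refine ⟨a, b, M, K0 + 1, ha, hb, hM.nonneg, by positivity, ?_⟩
  have h1 : ∀ᶠ s in 𝓝 s₀, ∀ ξ, |ghF B (pdLs Φ D s) (z + (d.lv Φ s).inc ξ)| ≤ a + b * ‖ξ‖ :=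
    ((Continuous.prodMk continuous_id continuous_const : Continuous fun s : ℝ => (s, z)).tendsto s₀).eventually h
  have h2 : ∀ᶠ s in 𝓝 s₀, ∑ i, |pdSd' (d.p i) (d.q i) s| * ‖pdC Φ i‖ ≤ K0 + 1 :=
    hK.tendsto.eventually_le_const (lt_add_one _)
  filter_upwards [isOpen_Ioo.mem_nhds hs, h1, h2] with s hs1 hs2 hs3
  refine ⟨hs1, hs2, fun ξ => ?_⟩
  unfold pdR
  refine (abs_add_le _ _).trans (add_le_add (hM.le _ _) ?_)
  refine (Finset.abs_sum_le_sum_abs _ _).trans ?_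
  calc ∑ i, |ξ i * (pdSd' (d.p i) (d.q i) s * ghE B (pdLs Φ D s) (pdC Φ i) (z + (d.lv Φ s).inc ξ))|
      ≤ ∑ i, (|pdSd' (d.p i) (d.q i) s| * ‖pdC Φ i‖) * ‖ξ‖ := by
        refine Finset.sum_le_sum fun i _ => ?_
        rw [abs_mul, abs_mul]
        have e1 : |ξ i| ≤ ‖ξ‖ := by simpa using norm_le_pi_norm ξ i
        have e2 := gh_ra_E_bdd hB (pdLs Φ D s) (pdC Φ i) (z + (d.lv Φ s).inc ξ)
        calc |ξ i| * (|pdSd' (d.p i) (d.q i) s| * |ghE B (pdLs Φ D s) (pdC Φ i) (z + (d.lv Φ s).inc ξ)|)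
            ≤ ‖ξ‖ * (|pdSd' (d.p i) (d.q i) s| * ‖pdC Φ i‖) :=
              mul_le_mul e1 (mul_le_mul_of_nonneg_left e2 (abs_nonneg _)) (by positivity) (norm_nonneg _)
          _ = _ := by ring
    _ = (∑ i, |pdSd' (d.p i) (d.q i) s| * ‖pdC Φ i‖) * ‖ξ‖ := by rw [Finset.sum_mul]
    _ ≤ (K0 + 1) * ‖ξ‖ := mul_le_mul_of_nonneg_right hs3 (norm_nonneg _)

theorem pd_D_eq (hB : B.Ok) (l : GhLv S ι) (ls : List (GhLv S ι)) (hm : l.m ≠ 0) (z : S → ℝ) (ξ : ι → ℝ) :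
    ghD B l ls z ξ = Real.exp (l.m * ghF B ls (z + l.inc ξ))
      / ∫ η, Real.exp (l.m * ghF B ls (z + l.inc η)) ∂ghStd ι := by
  have hpos := integral_exp_pos (gh_ra_F_int_exp hB l ls z l.m)
  have e : ghF B (l :: ls) z = l.m⁻¹ * Real.log (∫ η, Real.exp (l.m * ghF B ls (z + l.inc η)) ∂ghStd ι) := by
    change ghT (ghStd ι) l.m _ = _
    unfold ghT
    rw [if_neg hm]
  unfold ghD
  rw [e, mul_sub, ← mul_assoc, mul_inv_cancel₀ hm, one_mul, Real.exp_sub, Real.exp_log hpos]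

/-- **one step of the induction** -/
theorem pd_step (hB : B.Ok) (d : PdLv ι) (D : List (PdLv ι)) (hd : ∀ i, 0 ≤ d.p i ∧ 0 ≤ d.q i)
    (ih : ∀ s ∈ Ioo (0 : ℝ) 1, ∀ y, HasDerivAt (fun s => ghF B (pdLs Φ D s) y) (pdDer B Φ D s y) s)
    {s₀ : ℝ} (hs : s₀ ∈ Ioo (0 : ℝ) 1) (z : S → ℝ) :
    HasDerivAt (fun s => ghF B (pdLs Φ (d :: D) s) z) (pdDer B Φ (d :: D) s₀ z) s₀ := by
  obtain ⟨a, b, M, K, ha, hb, hM, hK, hU⟩ := pd_loc Φ hB d D hd hs z
  have hcG : ∀ s, Continuous fun ξ => ghF B (pdLs Φ D s) (z + (d.lv Φ s).inc ξ) :=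
    fun s => (gh_ra_F_cont hB _).comp (continuous_const.add (gh_ra_inc_cont _))
  have hcR := pd_R_cont Φ hB d D z s₀
  rw [← pd_ibp_sum Φ hB d D hd hs z]
  have e : (fun s => ghF B (pdLs Φ (d :: D) s) z) = fun s =>
      ghT (ghStd ι) d.m fun ξ => ghF B (pdLs Φ D s) (z + (d.lv Φ s).inc ξ) := rfl
  rw [e]
  unfold ghT
  by_cases hm : d.m = 0
  · simp only [hm, if_true]
    have h := hasDerivAt_integral_of_dominated_loc_of_deriv_le (μ := ghStd ι)
      (F := fun s ξ => ghF B (pdLs Φ D s) (z + (d.lv Φ s).inc ξ)) (F' := fun s ξ => pdR Φ B d D z s ξ)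
      (x₀ := s₀) (bound := fun ξ => (M + K) * Real.exp (1 * ‖ξ‖)) hU
      (Eventually.of_forall fun s => (hcG s).aestronglyMeasurable)
      (gh_ra_F_int hB _ _ z) hcR.aestronglyMeasurable
      (Eventually.of_forall fun ξ s hs' => by
        rw [Real.norm_eq_abs]
        exact (hs'.2.2 ξ).trans (pd_lin_le_exp hM hK (norm_nonneg _)))
      ((gh_ra_int_exp_norm 1).const_mul _)
      (Eventually.of_forall fun ξ s hs' => pd_comp_hasDerivAt Φ hB d D hd ih hs'.1 z ξ)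
    have h1 : ∀ ξ, ghD B (d.lv Φ s₀) (pdLs Φ D s₀) z ξ = 1 := by
      intro ξ
      simp [ghD, pd_lv_m, hm]
    simpa only [h1, one_mul] using h.2
  · simp only [hm, if_false]
    have h := hasDerivAt_integral_of_dominated_loc_of_deriv_le (μ := ghStd ι)
      (F := fun s ξ => Real.exp (d.m * ghF B (pdLs Φ D s) (z + (d.lv Φ s).inc ξ)))
      (F' := fun s ξ => Real.exp (d.m * ghF B (pdLs Φ D s) (z + (d.lv Φ s).inc ξ)) * (d.m * pdR Φ B d D z s ξ))
      (x₀ := s₀) (bound := fun ξ => Real.exp (|d.m| * a) * (|d.m| * (M + K)) * Real.exp ((|d.m| * b + 1) * ‖ξ‖)) hU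
      (Eventually.of_forall fun s => (Real.continuous_exp.comp (continuous_const.mul (hcG s))).aestronglyMeasurable)
      (gh_ra_F_int_exp hB _ _ z d.m)
      ((Real.continuous_exp.comp (continuous_const.mul (hcG s₀))).mul (continuous_const.mul hcR)).aestronglyMeasurable
      (Eventually.of_forall fun ξ s hs' => by
        rw [Real.norm_eq_abs, abs_mul, abs_of_pos (Real.exp_pos _), abs_mul]
        have h1 : Real.exp (d.m * ghF B (pdLs Φ D s) (z + (d.lv Φ s).inc ξ))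
            ≤ Real.exp (|d.m| * a) * Real.exp (|d.m| * b * ‖ξ‖) := by
          rw [← Real.exp_add]
          refine Real.exp_le_exp.2 ?_
          calc d.m * ghF B (pdLs Φ D s) (z + (d.lv Φ s).inc ξ)
              ≤ |d.m * ghF B (pdLs Φ D s) (z + (d.lv Φ s).inc ξ)| := le_abs_self _
            _ = |d.m| * |ghF B (pdLs Φ D s) (z + (d.lv Φ s).inc ξ)| := abs_mul _ _
            _ ≤ |d.m| * (a + b * ‖ξ‖) := mul_le_mul_of_nonneg_left (hs'.2.1 ξ) (abs_nonneg _)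
            _ = _ := by ring
        have h2 : |d.m| * |pdR Φ B d D z s ξ| ≤ |d.m| * ((M + K) * Real.exp (1 * ‖ξ‖)) :=
          mul_le_mul_of_nonneg_left ((hs'.2.2 ξ).trans (pd_lin_le_exp hM hK (norm_nonneg _))) (abs_nonneg _)
        calc _ ≤ (Real.exp (|d.m| * a) * Real.exp (|d.m| * b * ‖ξ‖)) * (|d.m| * ((M + K) * Real.exp (1 * ‖ξ‖))) :=
              mul_le_mul h1 h2 (by positivity) (by positivity)
          _ = Real.exp (|d.m| * a) * (|d.m| * (M + K)) * (Real.exp (|d.m| * b * ‖ξ‖) * Real.exp (1 * ‖ξ‖)) := by ring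
          _ = _ := by rw [← Real.exp_add]; congr 2; ring)
      ((gh_ra_int_exp_norm _).const_mul _)
      (Eventually.of_forall fun ξ s hs' => ((pd_comp_hasDerivAt Φ hB d D hd ih hs'.1 z ξ).const_mul d.m).exp)
    have hpos := integral_exp_pos (gh_ra_F_int_exp hB (d.lv Φ s₀) (pdLs Φ D s₀) z d.m)
    have h2 := (h.2.log hpos.ne').const_mul d.m⁻¹
    refine h2.congr_deriv ?_
    have h3 : ∀ ξ, ghD B (d.lv Φ s₀) (pdLs Φ D s₀) z ξ * pdR Φ B d D z s₀ ξ
        = (d.m * ∫ η, Real.exp (d.m * ghF B (pdLs Φ D s₀) (z + (d.lv Φ s₀).inc η)) ∂ghStd ι)⁻¹ *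
          (Real.exp (d.m * ghF B (pdLs Φ D s₀) (z + (d.lv Φ s₀).inc ξ)) * (d.m * pdR Φ B d D z s₀ ξ)) := by
      intro ξ
      rw [pd_D_eq hB (d.lv Φ s₀) (pdLs Φ D s₀) hm z ξ]
      simp only [pd_lv_m]
      field_simp
    simp only [h3]
    rw [integral_const_mul, mul_inv]
    ring

/-- **the derivative in the open interval** -/
theorem pd_hasDerivAt (hB : B.Ok) (D : List (PdLv ι)) (hD : PdOk D) :
    ∀ s ∈ Ioo (0 : ℝ) 1, ∀ z, HasDerivAt (fun s => ghF B (pdLs Φ D s) z) (pdDer B Φ D s z) s := by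
  induction D with
  | nil => exact fun s _ z => hasDerivAt_const s _
  | cons d D ih => exact fun s hs z => pd_step Φ hB d D hD.head (ih hD.tail) hs z

/-- **the derivative within `[0,1]`, endpoints included** -/
theorem pd_hasDerivWithinAt (hB : B.Ok) (D : List (PdLv ι)) (hD : PdOk D) {t : ℝ} (ht : t ∈ Icc (0 : ℝ) 1)
    (z : S → ℝ) : HasDerivWithinAt (fun s => ghF B (pdLs Φ D s) z) (pdDer B Φ D t z) (Icc 0 1) t := by
  obtain ⟨M, hM⟩ := pd_Der_bc Φ hB D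
  have hF : Continuous fun s => ghF B (pdLs Φ D s) z :=
    (pd_F_cont Φ hB D).comp (Continuous.prodMk continuous_id continuous_const)
  have hDc : Continuous fun s => pdDer B Φ D s z := hM.cont.comp (Continuous.prodMk continuous_id continuous_const)
  have hd := pd_hasDerivAt Φ hB D hD
  have hdiff : DifferentiableOn ℝ (fun s => ghF B (pdLs Φ D s) z) (Ioo 0 1) :=
    fun s hs => (hd s hs z).differentiableAt.differentiableWithinAt
  rcases ht.1.eq_or_lt with h0 | h0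
  · subst h0
    have h := hasDerivWithinAt_Ici_of_tendsto_deriv (e := pdDer B Φ D 0 z) hdiff hF.continuousWithinAt
      (Ioo_mem_nhdsGT one_pos) ?_
    · exact h.mono Icc_subset_Ici_self
    · have h1 : Tendsto (fun s => pdDer B Φ D s z) (𝓝[>] 0) (𝓝 (pdDer B Φ D 0 z)) :=
        (hDc.tendsto 0).mono_left nhdsWithin_le_nhds
      refine h1.congr' ?_
      filter_upwards [Ioo_mem_nhdsGT (one_pos : (0 : ℝ) < 1)] with s hs
      exact (hd s hs z).deriv.symm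
  · rcases ht.2.eq_or_lt with h1 | h1
    · subst h1
      have h := hasDerivWithinAt_Iic_of_tendsto_deriv (e := pdDer B Φ D 1 z) hdiff hF.continuousWithinAt
        (Ioo_mem_nhdsLT one_pos) ?_
      · exact h.mono Icc_subset_Iic_self
      · have h1 : Tendsto (fun s => pdDer B Φ D s z) (𝓝[<] 1) (𝓝 (pdDer B Φ D 1 z)) :=
          (hDc.tendsto 1).mono_left nhdsWithin_le_nhds
        refine h1.congr' ?_
        filter_upwards [Ioo_mem_nhdsLT (one_pos : (0 : ℝ) < 1)] with s hs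
        exact (hd s hs z).deriv.symm
    · exact (hd t ⟨h0, h1⟩ z).hasDerivWithinAt

end

end Claimed.Agent.R286
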