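import Claimed.Agent.R286.Fd.PrB
import Claimed.Agent.R286.Fd.ObsU

/-!
# Row 286 (S0533), Fd/PrC : closed form of the derivative recursion `pdDer`      (owner helper97; prefix `pc_`)      0 sorry

Step 3 of the proof of `ob_pressure_deriv` (PE Lemma 2.2, eq. (1) line 1): pure algebra on a FIXED hierarchy.

* `pcMs B ls j`      mass of the level `j` (`B.a` after the last one)
* `pcCut B ls v j z` = planted average of `(E[v | cut j])²`  (`= ghPath ..` by `obu_path_field`)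
* `pcSm B ls v w z`  = `∑_{j < length} (ms (j+1) - ms j) * w j * pcCut (j+1)`
* `pc_H_eq`  : `H(v,v) = a E[v²] - pcSm 1 - ms 0 * (E v)²`      (telescoped Hessian)
* `pc_der`   : `pdDer = ½ ∑_i (a tot_i E[Φ_i²] - pcSm Φ_i cum_i)`      (Abel summation)
-/

set_option autoImplicit false
set_option linter.unusedSectionVars false

namespace Claimed.Agent.R286

open MeasureTheory ProbabilityTheory Set

variable {S ι : Type} [Fintype S] [Fintype ι] {B : GhB S}

/-- linearity of the planted average over a finite sum -/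
theorem pc_A_sum (hB : B.Ok) {l : GhLv S ι} {ls : List (GhLv S ι)} (h : GhNn (l :: ls)) {κ : Type}
    (K : Finset κ) (c : κ → ℝ) {g : κ → (S → ℝ) → ℝ} (hg : ∀ k ∈ K, ObuBC (g k)) (z : S → ℝ) :
    ghA B l ls (fun y => ∑ k ∈ K, c k * g k y) z = ∑ k ∈ K, c k * ghA B l ls (g k) z := by
  classical
  induction K using Finset.induction_on with
  | empty => simpa using gh_b_A_const hB h 0 z
  | insert a K ha ih =>
    simp only [Finset.sum_insert ha]
    obtain ⟨M, hM⟩ := (hg a (Finset.mem_insert_self a K)).const_mul (c a)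
    obtain ⟨M', hM'⟩ := ObuBC.sum K (g := fun k y => c k * g k y)
      (fun k hk => (hg k (Finset.mem_insert_of_mem hk)).const_mul (c k))
    rw [gh_b_A_add hB h hM hM', gh_b_A_const_mul, ih fun k hk => hg k (Finset.mem_insert_of_mem hk)]

theorem pc_A_add (hB : B.Ok) {l : GhLv S ι} {ls : List (GhLv S ι)} (h : GhNn (l :: ls))
    {g g' : (S → ℝ) → ℝ} (hg : ObuBC g) (hg' : ObuBC g') (z : S → ℝ) :
    ghA B l ls (fun y => g y + g' y) z = ghA B l ls g z + ghA B l ls g' z := by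
  obtain ⟨M, hM⟩ := hg; obtain ⟨M', hM'⟩ := hg'
  exact gh_b_A_add hB h hM hM' z

theorem pc_A_sub (hB : B.Ok) {l : GhLv S ι} {ls : List (GhLv S ι)} (h : GhNn (l :: ls))
    {g g' : (S → ℝ) → ℝ} (hg : ObuBC g) (hg' : ObuBC g') (z : S → ℝ) :
    ghA B l ls (fun y => g y - g' y) z = ghA B l ls g z - ghA B l ls g' z := by
  obtain ⟨M, hM⟩ := hg; obtain ⟨M', hM'⟩ := hg'
  exact gh_b_A_sub hB h hM hM' z

theorem ObuBC.sub' {g g' : (S → ℝ) → ℝ} (h : ObuBC g) (h' : ObuBC g') :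
    ObuBC (fun z => g z - g' z) := by
  obtain ⟨M, hM⟩ := h; obtain ⟨M', hM'⟩ := h'; exact ⟨_, hM.sub hM'⟩

/-- mass of the level number `j`; the terminal mass after the last one -/
def pcMs (B : GhB S) (ls : List (GhLv S ι)) (j : ℕ) : ℝ := (ls.map GhLv.m).getD j B.a

theorem pc_ms_zero (l : GhLv S ι) (ls : List (GhLv S ι)) : pcMs B (l :: ls) 0 = l.m := rfl

theorem pc_ms_succ (l : GhLv S ι) (ls : List (GhLv S ι)) (j : ℕ) :
    pcMs B (l :: ls) (j + 1) = pcMs B ls j := by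
  simp [pcMs]

theorem pc_ms_nil (j : ℕ) : pcMs B ([] : List (GhLv S ι)) j = B.a := by
  simp [pcMs]

/-- planted average of the square of the conditional mean of `v` at the cut `j` -/
noncomputable def pcCut (B : GhB S) (ls : List (GhLv S ι)) (v : S → ℝ) (j : ℕ) (z : S → ℝ) : ℝ :=
  obuIt B ls j (fun y => ghE B (ls.drop j) v y ^ 2) z

theorem pc_cut_zero (ls : List (GhLv S ι)) (v z : S → ℝ) : pcCut B ls v 0 z = ghE B ls v z ^ 2 := by
  unfold pcCut
  rw [obu_it_zero]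
  rfl

theorem pc_cut_succ (l : GhLv S ι) (ls : List (GhLv S ι)) (v : S → ℝ) (j : ℕ) :
    pcCut B (l :: ls) v (j + 1) = ghA B l ls (pcCut B ls v j) := rfl

theorem pc_nn_drop {ls : List (GhLv S ι)} (h : GhNn ls) (j : ℕ) : GhNn (ls.drop j) :=
  fun l hl => h l (List.mem_of_mem_drop hl)

theorem pc_E_bc (hB : B.Ok) {ls : List (GhLv S ι)} (h : GhNn ls) (v : S → ℝ) : ObuBC (ghE B ls v) :=
  ⟨_, gh_b_E_bc' hB v h⟩

theorem pc_cut_bc (hB : B.Ok) {ls : List (GhLv S ι)} (h : GhNn ls) (v : S → ℝ) (j : ℕ) :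
    ObuBC (pcCut B ls v j) := by
  obtain ⟨M, hM⟩ := (pc_E_bc hB (pc_nn_drop h j) v).sq
  exact ⟨M, obu_it_bc hB h j hM⟩

/-- the weighted sum over the cuts -/
noncomputable def pcSm (B : GhB S) (ls : List (GhLv S ι)) (v : S → ℝ) (w : ℕ → ℝ) (z : S → ℝ) : ℝ :=
  ∑ j ∈ Finset.range ls.length, (pcMs B ls (j + 1) - pcMs B ls j) * w j * pcCut B ls v (j + 1) z

theorem pc_sm_bc (hB : B.Ok) {ls : List (GhLv S ι)} (h : GhNn ls) (v : S → ℝ) (w : ℕ → ℝ) :
    ObuBC (pcSm B ls v w) :=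
  ObuBC.sum _ fun j _ => (pc_cut_bc hB h v (j + 1)).const_mul _

theorem pc_sm_cons (hB : B.Ok) {l : GhLv S ι} {ls : List (GhLv S ι)} (h : GhNn (l :: ls)) (v : S → ℝ)
    (w : ℕ → ℝ) (z : S → ℝ) :
    pcSm B (l :: ls) v w z = (pcMs B ls 0 - l.m) * w 0 * ghA B l ls (fun y => ghE B ls v y ^ 2) z
      + ghA B l ls (pcSm B ls v fun j => w (j + 1)) z := by
  have e0 : pcCut B ls v 0 = fun y => ghE B ls v y ^ 2 := funext fun y => pc_cut_zero ls v y
  have e1 : ghA B l ls (pcSm B ls v fun j => w (j + 1)) z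
      = ∑ j ∈ Finset.range ls.length, ((pcMs B ls (j + 1) - pcMs B ls j) * w (j + 1))
          * ghA B l ls (pcCut B ls v (j + 1)) z :=
    pc_A_sum hB h _ _ (fun j _ => pc_cut_bc hB h.tail v (j + 1)) z
  rw [e1]
  unfold pcSm
  rw [List.length_cons, Finset.sum_range_succ']
  simp only [pc_ms_succ, pc_ms_zero, pc_cut_succ, e0]
  ring

theorem pc_sm_add_const (ls : List (GhLv S ι)) (v : S → ℝ) (c : ℝ) (w : ℕ → ℝ) (z : S → ℝ) :
    pcSm B ls v (fun j => c + w j) z = c * pcSm B ls v (fun _ => 1) z + pcSm B ls v w z := by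
  unfold pcSm
  rw [Finset.mul_sum, ← Finset.sum_add_distrib]
  exact Finset.sum_congr rfl fun j _ => by ring

theorem pc_sm_cons_add (hB : B.Ok) {l : GhLv S ι} {ls : List (GhLv S ι)} (h : GhNn (l :: ls)) (v : S → ℝ)
    (c : ℝ) (w w' : ℕ → ℝ) (h0 : w' 0 = c) (hs : ∀ j, w' (j + 1) = c + w j) (z : S → ℝ) :
    pcSm B (l :: ls) v w' z = c * pcSm B (l :: ls) v (fun _ => 1) z + ghA B l ls (pcSm B ls v w) z := by
  rw [pc_sm_cons hB h, pc_sm_cons hB h, h0]
  have e : (pcSm B ls v fun j => w' (j + 1))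
      = fun y => c * pcSm B ls v (fun _ => 1) y + pcSm B ls v w y := by
    funext y
    simp only [hs]
    exact pc_sm_add_const ls v c w y
  rw [e, pc_A_add hB h ((pc_sm_bc hB h.tail v _).const_mul c) (pc_sm_bc hB h.tail v w),
    gh_b_A_const_mul]
  ring

theorem pc_H_cons (hB : B.Ok) (l : GhLv S ι) (ls : List (GhLv S ι)) (v z : S → ℝ) :
    ghH B (l :: ls) v v z = ghA B l ls (ghH B ls v v) z
      + l.m * (ghA B l ls (fun y => ghE B ls v y ^ 2) z - ghE B (l :: ls) v z ^ 2) := by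
  simp only [pow_two]
  exact pd_H_cons hB l ls v v z

/-- the telescoped Hessian -/
theorem pc_H_eq (hB : B.Ok) : ∀ {ls : List (GhLv S ι)}, GhNn ls → ∀ v z : S → ℝ,
    ghH B ls v v z = B.a * ghE B ls (fun s => v s * v s) z - pcSm B ls v (fun _ => 1) z
      - pcMs B ls 0 * ghE B ls v z ^ 2
  | [], _, v, z => by
    rw [gh_b_H_nil, pc_ms_nil]
    unfold ghC pcSm
    simp only [List.length_nil, Finset.range_zero, Finset.sum_empty]
    ring
  | l :: ls, h, v, z => by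
    have ih : ghH B ls v v = fun y => (B.a * ghE B ls (fun s => v s * v s) y
        - pcSm B ls v (fun _ => 1) y) - pcMs B ls 0 * ghE B ls v y ^ 2 :=
      funext fun y => pc_H_eq hB h.tail v y
    have b1 : ObuBC fun y => B.a * ghE B ls (fun s => v s * v s) y :=
      (pc_E_bc hB h.tail _).const_mul _
    have b2 : ObuBC (pcSm B ls v fun _ => 1) := pc_sm_bc hB h.tail v _
    have b3 : ObuBC fun y => pcMs B ls 0 * ghE B ls v y ^ 2 :=
      ((pc_E_bc hB h.tail v).sq).const_mul _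
    rw [pc_H_cons hB, pc_sm_cons hB h, ih, pc_A_sub hB h (b1.sub' b2) b3, pc_A_sub hB h b1 b2,
      gh_b_A_const_mul, gh_b_A_const_mul, pc_ms_zero, gh_b_E_cons B l ls fun s => v s * v s]
    ring

/-- planted average of the source term of one direction -/
theorem pc_src (hB : B.Ok) {l : GhLv S ι} {ls : List (GhLv S ι)} (h : GhNn (l :: ls)) (v z : S → ℝ) :
    ghA B l ls (fun y => ghH B ls v v y + l.m * ghE B ls v y ^ 2) z
      = B.a * ghE B (l :: ls) (fun s => v s * v s) z - pcSm B (l :: ls) v (fun _ => 1) z := by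
  have b1 : ObuBC (ghH B ls v v) := gh_b_H_bc hB v v h.tail
  have b2 : ObuBC fun y => l.m * ghE B ls v y ^ 2 := ((pc_E_bc hB h.tail v).sq).const_mul _
  rw [pc_A_add hB h b1 b2, gh_b_A_const_mul]
  have h1 := pc_H_cons hB l ls v z
  have h2 := pc_H_eq hB h v z
  rw [pc_ms_zero] at h2
  linarith

/-! ### the derivative recursion -/

/-- total increment of the variance of the coordinate `i` -/
def pcTot (D : List (PdLv ι)) (i : ι) : ℝ := (D.map fun d => d.q i - d.p i).sum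

/-- cumulative increment of the variance of the coordinate `i` through the level `j` -/
def pcCum (D : List (PdLv ι)) (i : ι) (j : ℕ) : ℝ := ((D.take (j + 1)).map fun d => d.q i - d.p i).sum

theorem pc_nn (Φ : S → ι → ℝ) {D : List (PdLv ι)} (hD : ∀ d ∈ D, 0 ≤ d.m) (s : ℝ) : GhNn (pdLs Φ D s) := by
  intro l hl
  simp only [pdLs, List.mem_map] at hl
  obtain ⟨d, hd, rfl⟩ := hl
  exact hD d hd

theorem pc_der (hB : B.Ok) (Φ : S → ι → ℝ) (s : ℝ) : ∀ (D : List (PdLv ι)), (∀ d ∈ D, 0 ≤ d.m) → ∀ z,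
    pdDer B Φ D s z = (1 / 2) * ∑ i, (B.a * pcTot D i * ghE B (pdLs Φ D s) (fun σ => pdC Φ i σ * pdC Φ i σ) z
        - pcSm B (pdLs Φ D s) (pdC Φ i) (pcCum D i) z)
  | [], _, z => by
    simp [pdDer, pcTot, pcSm, pdLs]
  | d :: D, hD, z => by
    have hD' : ∀ d ∈ D, 0 ≤ d.m := fun e he => hD e (List.mem_cons_of_mem _ he)
    have h : GhNn (d.lv Φ s :: pdLs Φ D s) := pc_nn Φ hD s
    have ih : pdDer B Φ D s = fun y => ∑ i, (1 / 2 : ℝ) *
        (B.a * pcTot D i * ghE B (pdLs Φ D s) (fun σ => pdC Φ i σ * pdC Φ i σ) y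
          - pcSm B (pdLs Φ D s) (pdC Φ i) (pcCum D i) y) := by
      funext y
      rw [pc_der hB Φ s D hD' y, Finset.mul_sum]
    have es : pdSrc B Φ d D s = fun y => ∑ i, ((1 / 2 : ℝ) * (d.q i - d.p i)) *
        (ghH B (pdLs Φ D s) (pdC Φ i) (pdC Φ i) y
          + (d.lv Φ s).m * ghE B (pdLs Φ D s) (pdC Φ i) y ^ 2) := by
      funext y
      unfold pdSrc
      rw [Finset.mul_sum]
      exact Finset.sum_congr rfl fun i _ => by rw [pd_lv_m]; ring
    have b1 : ∀ i ∈ (Finset.univ : Finset ι), ObuBC fun y =>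
        (B.a * pcTot D i * ghE B (pdLs Φ D s) (fun σ => pdC Φ i σ * pdC Φ i σ) y
          - pcSm B (pdLs Φ D s) (pdC Φ i) (pcCum D i) y) := fun i _ =>
      ((pc_E_bc hB h.tail _).const_mul _).sub' (pc_sm_bc hB h.tail _ _)
    have b2 : ∀ i ∈ (Finset.univ : Finset ι), ObuBC fun y =>
        (ghH B (pdLs Φ D s) (pdC Φ i) (pdC Φ i) y
          + (d.lv Φ s).m * ghE B (pdLs Φ D s) (pdC Φ i) y ^ 2) := fun i _ =>
      ObuBC.add (gh_b_H_bc hB _ _ h.tail) (((pc_E_bc hB h.tail _).sq).const_mul _)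
    have e0 : pdDer B Φ (d :: D) s z = ghA B (d.lv Φ s) (pdLs Φ D s)
        (fun y => pdDer B Φ D s y + pdSrc B Φ d D s y) z := rfl
    rw [e0, ih, es, pc_A_add hB h (ObuBC.sum _ fun i hi => (b1 i hi).const_mul _)
      (ObuBC.sum _ fun i hi => (b2 i hi).const_mul _), pc_A_sum hB h _ _ b1, pc_A_sum hB h _ _ b2,
      ← Finset.sum_add_distrib, Finset.mul_sum]
    refine Finset.sum_congr rfl fun i _ => ?_
    rw [pc_src hB h, pc_A_sub hB h ((pc_E_bc hB h.tail _).const_mul _) (pc_sm_bc hB h.tail _ _),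
      gh_b_A_const_mul, pd_ls_cons,
      pc_sm_cons_add hB h (pdC Φ i) (d.q i - d.p i) (pcCum D i) (pcCum (d :: D) i)
        (by simp [pcCum]) (fun j => by simp [pcCum]),
      gh_b_E_cons B (d.lv Φ s) (pdLs Φ D s) fun σ => pdC Φ i σ * pdC Φ i σ]
    have et : pcTot (d :: D) i = (d.q i - d.p i) + pcTot D i := by simp [pcTot]
    rw [et]
    ring

end Claimed.Agent.R286
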