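import Claimed.Agent.R286.Gh.Reg
import Claimed.Agent.R286.Defs.SkLem
import Claimed.Agent.R286.Fd.Obs

/-!
# Row 286 (S0533), Fd/PressA : the Gaussian SEMIGROUP at equal mass      (owner helper273; prefix `fpr_`)      0 sorry

* `fpr_T_law`        `tstT` depends on the noise only through its law
* `fpr_T_T`          two steps of the same mass = one step with the product noise
* `fpr_semigroup`    `ghF B (l₁ :: l₂ :: ls) = ghF B (l :: ls)` if the three masses agree and `cov l₁ + cov l₂ = cov l`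
* `fpr_cov_congr`    `ghF B (l :: ls) = ghF B (l' :: ls)` if mass and covariance agree (any two driver realisations on the same `ι`)
* `fpr_zero`         a level with zero covariance can be deleted
* `fpr_split_F`      = `ob_split_F` of `Fd/ObsC.lean`  TEX[PE:lem:found-pressure] (filled increment)
-/

set_option autoImplicit false
set_option linter.unusedSectionVars false

namespace Claimed.Agent.R286

open MeasureTheory ProbabilityTheory

variable {S ι ι' : Type} [Fintype S] [Fintype ι] [Fintype ι']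

section abstract

variable {E : Type} [NormedAddCommGroup E] [NormedSpace ℝ E] [MeasurableSpace E] [BorelSpace E]
variable {Ω Ω' : Type} [MeasurableSpace Ω] [MeasurableSpace Ω']

/-- `tstP` depends on the noise only through its law -/
theorem fpr_P_law {μ : Measure Ω} {μ' : Measure Ω'} {A : Ω → E} {A' : Ω' → E} (hA : AEMeasurable A μ) (hA' : AEMeasurable A' μ')
    (h : μ.map A = μ'.map A') {g : E → ℝ} (hg : Continuous g) (x : E) : tstP μ A g x = tstP μ' A' g x := by
  unfold tstP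
  have hm : Measurable fun y : E => g (x + y) := (hg.comp (continuous_const.add continuous_id)).measurable
  rw [← integral_map hA hm.aestronglyMeasurable, ← integral_map hA' hm.aestronglyMeasurable, h]

/-- `tstT` depends on the noise only through its law -/
theorem fpr_T_law {μ : Measure Ω} {μ' : Measure Ω'} {A : Ω → E} {A' : Ω' → E} (hA : AEMeasurable A μ) (hA' : AEMeasurable A' μ')
    (h : μ.map A = μ'.map A') (m : ℝ) {F : E → ℝ} (hF : Continuous F) (x : E) : tstT μ A m F x = tstT μ' A' m F x := by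
  unfold tstT tstZ
  rw [fpr_P_law hA hA' h hF x, fpr_P_law hA hA' h (g := fun y => Real.exp (m * F y)) (by fun_prop) x]

end abstract

/-- the concatenation of two levels (drivers `ι ⊕ ι'`) -/
def fprCat (l₁ : GhLv S ι) (l₂ : GhLv S ι') : GhLv S (ι ⊕ ι') := ⟨l₁.m, fun s => Sum.elim (l₁.A s) (l₂.A s)⟩

theorem fpr_cat_inc (l₁ : GhLv S ι) (l₂ : GhLv S ι') (ζ : ι ⊕ ι' → ℝ) :
    (fprCat l₁ l₂).inc ζ = l₁.inc (fun i => ζ (Sum.inl i)) + l₂.inc fun i => ζ (Sum.inr i) := by
  funext s
  simp [fprCat, GhLv.inc, Fintype.sum_sum_type]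

theorem fpr_cat_cov (l₁ : GhLv S ι) (l₂ : GhLv S ι') (s t : S) : (fprCat l₁ l₂).cov s t = l₁.cov s t + l₂.cov s t := by
  simp [fprCat, GhLv.cov, Fintype.sum_sum_type]

/-- an integral over the drivers `ι ⊕ ι'` is an iterated integral -/
theorem fpr_cat_integral {g : (ι → ℝ) × (ι' → ℝ) → ℝ} (hg : Integrable g ((ghStd ι).prod (ghStd ι'))) :
    ∫ ζ, g (fun i => ζ (Sum.inl i), fun i => ζ (Sum.inr i)) ∂ghStd (ι ⊕ ι') = ∫ ξ, ∫ η, g (ξ, η) ∂ghStd ι' ∂ghStd ι := by
  have h1 := measurePreserving_sumPiEquivProdPi (fun _ : ι ⊕ ι' => gaussianReal 0 1)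
  rw [← integral_prod g hg]
  exact (h1.integral_comp (MeasurableEquiv.measurableEmbedding _) g)

theorem fpr_cat_integrable {g : (ι → ℝ) × (ι' → ℝ) → ℝ}
    (hg : Integrable (fun ζ : ι ⊕ ι' → ℝ => g (fun i => ζ (Sum.inl i), fun i => ζ (Sum.inr i))) (ghStd (ι ⊕ ι'))) :
    Integrable g ((ghStd ι).prod (ghStd ι')) := by
  have h1 := measurePreserving_sumPiEquivProdPi (fun _ : ι ⊕ ι' => gaussianReal 0 1)
  exact (h1.integrable_comp_emb (MeasurableEquiv.measurableEmbedding _)).1 hg

/-- two steps of the same mass = one step with the concatenated drivers -/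
theorem fpr_T_T {F : (S → ℝ) → ℝ} (hF : RegF F) (l₁ : GhLv S ι) (l₂ : GhLv S ι') (hm : l₂.m = l₁.m) (z : S → ℝ) :
    tstT (ghStd ι) l₁.inc l₁.m (tstT (ghStd ι') l₂.inc l₂.m F) z = tstT (ghStd (ι ⊕ ι')) (fprCat l₁ l₂).inc l₁.m F z := by
  rw [hm]
  by_cases h0 : l₁.m = 0
  · simp only [tstT, if_pos h0, tstP]
    have hi : Integrable (fun ζ : ι ⊕ ι' → ℝ => F (z + (fprCat l₁ l₂).inc ζ)) (ghStd (ι ⊕ ι')) :=
      (ghq_noise (fprCat l₁ l₂)).integrable hF.1.continuous hF.expGr z
    simp only [fpr_cat_inc] at hi ⊢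
    rw [fpr_cat_integral (g := fun p => F (z + (l₁.inc p.1 + l₂.inc p.2))) (fpr_cat_integrable hi)]
    simp only [add_assoc]
  · simp only [tstT, if_neg h0, tstZ, tstP]
    have hi : Integrable (fun ζ : ι ⊕ ι' → ℝ => Real.exp (l₁.m * F (z + (fprCat l₁ l₂).inc ζ))) (ghStd (ι ⊕ ι')) :=
      tstZ_integrable (ghq_noise (fprCat l₁ l₂)) hF l₁.m z
    simp only [fpr_cat_inc] at hi ⊢
    rw [fpr_cat_integral (g := fun p => Real.exp (l₁.m * F (z + (l₁.inc p.1 + l₂.inc p.2)))) (fpr_cat_integrable hi)]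
    congr 2
    refine integral_congr_ae (Filter.Eventually.of_forall fun ξ => ?_)
    simp only []
    have hpos : 0 < ∫ η, Real.exp (l₁.m * F (z + l₁.inc ξ + l₂.inc η)) ∂ghStd ι' := tstZ_pos (ghq_noise l₂) hF l₁.m (z + l₁.inc ξ)
    rw [← mul_assoc, mul_inv_cancel₀ h0, one_mul, Real.exp_log hpos]
    simp only [add_assoc]

variable {B : GhB S}

/-- mass and covariance determine the continuation -/
theorem fpr_cov_congr (hB : B.Ok) (l : GhLv S ι) (l' : GhLv S ι) (hm : l.m = l'.m) (hc : ∀ s t, l.cov s t = l'.cov s t)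
    (ls : List (GhLv S ι)) (z : S → ℝ) : ghF B (l :: ls) z = ghF B (l' :: ls) z := by
  rw [ghF_cons, ghF_cons, hm]
  exact fpr_T_law (gh_l_inc_meas l).aemeasurable (gh_l_inc_meas l').aemeasurable (gh_l_inc_congr l l' hc) _ (ghF_regF hB ls).1.continuous z

/-- **the Gaussian semigroup at equal mass** -/
theorem fpr_semigroup (hB : B.Ok) (l₁ l₂ l : GhLv S ι) (h₁ : l₁.m = l.m) (h₂ : l₂.m = l.m)
    (hc : ∀ s t, l₁.cov s t + l₂.cov s t = l.cov s t) (ls : List (GhLv S ι)) (z : S → ℝ) :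
    ghF B (l₁ :: l₂ :: ls) z = ghF B (l :: ls) z := by
  rw [ghF_cons, ghF_cons, ghF_cons, fpr_T_T (ghF_regF hB ls) l₁ l₂ (h₂.trans h₁.symm), h₁]
  exact fpr_T_law (gh_l_inc_meas _).aemeasurable (gh_l_inc_meas l).aemeasurable
    (gh_l_inc_congr _ l fun s t => by rw [fpr_cat_cov, hc]) _ (ghF_regF hB ls).1.continuous z

/-- a level without covariance can be deleted -/
theorem fpr_zero (l : GhLv S ι) (hc : ∀ s, l.cov s s = 0) (ls : List (GhLv S ι)) (z : S → ℝ) :
    ghF B (l :: ls) z = ghF B ls z := by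
  have hA : ∀ s i, l.A s i = 0 := by
    intro s i
    have h := hc s
    unfold GhLv.cov at h
    have := (Finset.sum_eq_zero_iff_of_nonneg (fun i _ => mul_self_nonneg (l.A s i))).1 h i (Finset.mem_univ i)
    exact mul_self_eq_zero.1 this
  have hinc : ∀ ξ, l.inc ξ = 0 := by
    intro ξ; funext s; simp [GhLv.inc, hA]
  simp only [ghF, ghT, hinc, add_zero, integral_const, probReal_univ, one_smul]
  split_ifs with h0
  · rfl
  · rw [Real.log_exp, ← mul_assoc, inv_mul_cancel₀ h0, one_mul]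

/-- `ob_split_F` : an intermediate cut does not change the continuation -/
theorem fpr_split_F {n : ℕ} (hn : 0 < n) {a : ℝ} (ha : 0 < a) (e : SkInc) (P₂ : SkStp) (hb : 0 ≤ e.db) (hh : 0 ≤ e.dh)
    {t : ℝ} (ht : t ∈ Set.Icc (0 : ℝ) 1) (z : SkCfg n → ℝ) :
    skF n a (obPart t e :: obPart (1 - t) e :: P₂) z = skF n a (e :: P₂) z := by
  have hB : (skBase n a).Ok := by
    refine ⟨fun s => by simp [skBase, ghUnif], ?_, ha⟩
    simp [skBase, ghUnif]
  unfold skF skLvs
  simp only [List.map_cons]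
  refine fpr_semigroup hB ((obPart t e).lv n) ((obPart (1 - t) e).lv n) (e.lv n) rfl rfl (fun σ τ => ?_) _ z
  rw [sk_d_cov n hn _ (by simpa [obPart] using mul_nonneg ht.1 hb) (by simpa [obPart] using mul_nonneg ht.1 hh),
    sk_d_cov n hn _ (by simpa [obPart] using mul_nonneg (sub_nonneg.2 ht.2) hb) (by simpa [obPart] using mul_nonneg (sub_nonneg.2 ht.2) hh),
    sk_d_cov n hn _ hb hh]
  simp only [obPart]
  ring

theorem fpr_a_eqns_cite : True := by
  have := @fprCat.eq_1
  trivial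

end Claimed.Agent.R286
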