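import Claimed.Agent.R286.Fd.Reg

/-!
# Row 286 (S0533), Fd/RegH : THE HESSIAN OF THE CONTINUATIONS ON `Defs/Gh`      (owner helper251; prefix `ghr_`, 0 sorry)

TEX[PE:lem:source] (Lemma 2.1): proofs of the generic contracts G1-G6 (+ symmetry, additivity, homogeneity) of `Fd/ObsC.lean`.
* `ghr_H_G`, `ghr_C_G`          `ghH`, `ghC` are observables of every order
* `ghr_H_cons`, `ghr_C_cons`    `H' = P H + m Var_P(E)`,  `C' = P C + Var_P(E)`
* `ghr_C_eq`, `ghr_C_nonneg`    (G5)
* `ghr_H_lower` (G3) `u C ≼ H`,  `ghr_H_upper` (G4) `H ≼ a C`,  `ghr_H_nonneg`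
* `ghr_H_symm`, `ghr_H_add`, `ghr_H_smul`,  `ghr_H_cs` (G6)
* `ghr_F_line` (G1), `ghr_E_line` (G2): derivatives along a line, at every point of the line
-/

set_option autoImplicit false

namespace Claimed.Agent.R286

open MeasureTheory ProbabilityTheory

section hess

variable {S ι : Type} [Fintype S] [Fintype ι]

theorem ghr_H_G {B : GhB S} (hB : B.Ok) (ls : List (GhLv S ι)) (v w : S → ℝ) (n : ℕ) : SkaG n (ghH B ls v w) := by
  have hH : ghH B ls v w = fun x => fderiv ℝ (ghE B ls v) x w := funext fun x => (ghr_E_fderiv hB ls v w x).symm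
  rw [hH]
  exact ska_G_apply (ska_G_fderiv (ghr_E_G hB ls v (n + 1))) w

theorem ghr_C_G {B : GhB S} (hB : B.Ok) (ls : List (GhLv S ι)) (v w : S → ℝ) (n : ℕ) : SkaG n (ghC B ls v w) :=
  ska_G_sub (ghr_E_G hB ls _ n) (ska_G_mul (ghr_E_G hB ls v n) (ghr_E_G hB ls w n))

/-- the recursion of the Hessian -/
theorem ghr_H_cons {B : GhB S} (hB : B.Ok) (l : GhLv S ι) (ls : List (GhLv S ι)) (v w z : S → ℝ) :
    ghH B (l :: ls) v w z = skaP (ghStd ι) l.inc l.m (ghF B ls) (ghH B ls v w) z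
      + l.m * (skaP (ghStd ι) l.inc l.m (ghF B ls) (fun x => ghE B ls v x * ghE B ls w x) z
        - skaP (ghStd ι) l.inc l.m (ghF B ls) (ghE B ls v) z * skaP (ghStd ι) l.inc l.m (ghF B ls) (ghE B ls w) z) := by
  obtain ⟨C, h⟩ := ghr_F_reg hB ls 0
  have hv := ghr_E_G hB ls v 0
  have hw := ghr_E_G hB ls w 0
  have e : ghH B (l :: ls) v w z = skaP (ghStd ι) l.inc l.m (ghF B ls) (fun x => ghH B ls v w x
      + l.m • ((ghE B ls v x - ghE B (l :: ls) v z) * (ghE B ls w x - ghE B (l :: ls) w z))) z := by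
    simp only [ghH, ghD, skaP, ghr_F_cons, smul_eq_mul]
  rw [e, ska_P_add (ghr_inc l) le_rfl h l.m (ghr_H_G hB ls v w 0) (ska_G_const_smul _ (ska_G_mul (ska_G_sub hv (ska_G_const 0 _)) (ska_G_sub hw (ska_G_const 0 _)))),
    ska_P_const_smul, ska_P_cov (ghr_inc l) le_rfl h l.m hv hw, ghr_E_cons, ghr_E_cons]
  simp only [smul_eq_mul]
  ring

/-- the recursion of the conditional covariance (law of the total covariance) -/
theorem ghr_C_cons {B : GhB S} (hB : B.Ok) (l : GhLv S ι) (ls : List (GhLv S ι)) (v w z : S → ℝ) :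
    ghC B (l :: ls) v w z = skaP (ghStd ι) l.inc l.m (ghF B ls) (ghC B ls v w) z
      + (skaP (ghStd ι) l.inc l.m (ghF B ls) (fun x => ghE B ls v x * ghE B ls w x) z
        - skaP (ghStd ι) l.inc l.m (ghF B ls) (ghE B ls v) z * skaP (ghStd ι) l.inc l.m (ghF B ls) (ghE B ls w) z) := by
  obtain ⟨C, h⟩ := ghr_F_reg hB ls 0
  have hv := ghr_E_G hB ls v 0
  have hw := ghr_E_G hB ls w 0
  have e : ghC B ls v w = fun x => ghE B ls (fun s => v s * w s) x - ghE B ls v x * ghE B ls w x := rfl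
  rw [e, ska_P_sub (ghr_inc l) le_rfl h l.m (ghr_E_G hB ls _ 0) (ska_G_mul hv hw)]
  simp only [ghC, ghr_E_cons]
  ring

/-- **G5**: the conditional covariance is a variance -/
theorem ghr_C_eq {B : GhB S} (hB : B.Ok) (ls : List (GhLv S ι)) (v w z : S → ℝ) :
    ghC B ls v w z = ghE B ls (fun s => (v s - ghE B ls v z) * (w s - ghE B ls w z)) z := by
  have e : (fun s => (v s - ghE B ls v z) * (w s - ghE B ls w z))
      = fun s => ((v s * w s - ghE B ls w z * v s) - ghE B ls v z * w s) + ghE B ls v z * ghE B ls w z := by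
    funext s
    ring
  rw [e, ghr_E_add hB, ghr_E_sub hB, ghr_E_sub hB, ghr_E_smul, ghr_E_smul, ghr_E_const hB, ghC]
  ring

theorem ghr_C_nonneg {B : GhB S} (hB : B.Ok) (ls : List (GhLv S ι)) (v z : S → ℝ) : 0 ≤ ghC B ls v v z := by
  rw [ghr_C_eq hB]
  exact ghr_E_nonneg hB ls (fun s => mul_self_nonneg _) z

theorem ghr_adm_tail {B : GhB S} {u : ℝ} {l : GhLv S ι} {ls : List (GhLv S ι)} (h : GhAdm B u (l :: ls)) : GhAdm B u ls :=
  ⟨(List.pairwise_cons.1 h.1).2, fun l' hl' => h.2 l' (List.mem_cons_of_mem _ hl')⟩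

/-- **G3**: `u C ≼ H` seen from a cut of mass `u` -/
theorem ghr_H_lower {B : GhB S} (hB : B.Ok) {u : ℝ} (ls : List (GhLv S ι)) (hls : GhAdm B u ls) (hua : u ≤ B.a) (v z : S → ℝ) :
    u * ghC B ls v v z ≤ ghH B ls v v z := by
  induction ls generalizing z with
  | nil =>
    simp only [ghH]
    exact mul_le_mul_of_nonneg_right hua (ghr_C_nonneg hB _ v z)
  | cons l ls ih =>
    obtain ⟨C, h⟩ := ghr_F_reg hB ls 0
    have ih' := ih (ghr_adm_tail hls)
    have hm : u ≤ l.m := (hls.2 l (List.mem_cons_self ..)).1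
    have hvar := ska_P_var_nonneg (ghr_inc l) le_rfl h l.m (ghr_E_G hB ls v 0) z
    have hmono := ska_P_mono (ghr_inc l) le_rfl h l.m (ska_G_const_smul u (ghr_C_G hB ls v v 0)) (ghr_H_G hB ls v v 0) (fun x => by simpa using ih' x) z
    rw [ska_P_const_smul, smul_eq_mul] at hmono
    rw [ghr_H_cons hB, ghr_C_cons hB]
    nlinarith

/-- **G4**: `H ≼ a C` -/
theorem ghr_H_upper {B : GhB S} (hB : B.Ok) {u : ℝ} (ls : List (GhLv S ι)) (hls : GhAdm B u ls) (v z : S → ℝ) :
    ghH B ls v v z ≤ B.a * ghC B ls v v z := by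
  induction ls generalizing z with
  | nil =>
    simp only [ghH]
    exact le_rfl
  | cons l ls ih =>
    obtain ⟨C, h⟩ := ghr_F_reg hB ls 0
    have ih' := ih (ghr_adm_tail hls)
    have hm : l.m ≤ B.a := (hls.2 l (List.mem_cons_self ..)).2
    have hvar := ska_P_var_nonneg (ghr_inc l) le_rfl h l.m (ghr_E_G hB ls v 0) z
    have hmono := ska_P_mono (ghr_inc l) le_rfl h l.m (ghr_H_G hB ls v v 0) (ska_G_const_smul B.a (ghr_C_G hB ls v v 0)) (fun x => by simpa using ih' x) z
    rw [ska_P_const_smul, smul_eq_mul] at hmono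
    rw [ghr_H_cons hB, ghr_C_cons hB]
    nlinarith

theorem ghr_H_nonneg {B : GhB S} (hB : B.Ok) (ls : List (GhLv S ι)) (hls : GhAdm B 0 ls) (v z : S → ℝ) : 0 ≤ ghH B ls v v z := by
  have := ghr_H_lower hB ls hls hB.pos.le v z
  linarith

theorem ghr_H_symm (B : GhB S) (ls : List (GhLv S ι)) (v w z : S → ℝ) : ghH B ls v w z = ghH B ls w v z := by
  induction ls generalizing z with
  | nil =>
    simp only [ghH, ghC]
    rw [show (fun s => v s * w s) = fun s => w s * v s from funext fun s => mul_comm _ _, mul_comm (ghE B [] v z)]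
  | cons l ls ih =>
    simp only [ghH]
    refine integral_congr_ae (Filter.Eventually.of_forall fun ξ => ?_)
    simp only
    rw [ih]
    ring

theorem ghr_H_add {B : GhB S} (hB : B.Ok) (ls : List (GhLv S ι)) (v v' w z : S → ℝ) :
    ghH B ls (v + v') w z = ghH B ls v w z + ghH B ls v' w z := by
  rw [← ghr_E_fderiv hB, ← ghr_E_fderiv hB, ← ghr_E_fderiv hB]
  have e : ghE B ls (v + v') = ghE B ls v + ghE B ls v' := funext fun x => ghr_E_add hB ls v v' x
  rw [e, fderiv_add (ghr_E_hasFDerivAt hB ls v z).differentiableAt (ghr_E_hasFDerivAt hB ls v' z).differentiableAt]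
  rfl

theorem ghr_H_smul (B : GhB S) (ls : List (GhLv S ι)) (c : ℝ) (v w z : S → ℝ) : ghH B ls (c • v) w z = c * ghH B ls v w z := by
  have e1 : (c • v) = fun s => c * v s := rfl
  induction ls generalizing z with
  | nil =>
    simp only [ghH, ghC]
    rw [show (fun s => (c • v) s * w s) = fun s => c * (v s * w s) from funext fun s => by simp [mul_assoc], e1, ghr_E_smul, ghr_E_smul]
    ring
  | cons l ls ih =>
    simp only [ghH]
    rw [← integral_const_mul]
    refine integral_congr_ae (Filter.Eventually.of_forall fun ξ => ?_)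
    simp only
    rw [ih, e1, ghr_E_smul, ghr_E_smul]
    ring

/-- **G6**: Cauchy-Schwarz for the Hessian -/
theorem ghr_H_cs {B : GhB S} (hB : B.Ok) (ls : List (GhLv S ι)) (hls : GhAdm B 0 ls) (v w z : S → ℝ) :
    ghH B ls v w z ^ 2 ≤ ghH B ls v v z * ghH B ls w w z := by
  have h : ∀ t : ℝ, 0 ≤ ghH B ls w w z * (t * t) + (2 * ghH B ls v w z) * t + ghH B ls v v z := fun t => by
    have h0 := ghr_H_nonneg hB ls hls (v + t • w) z
    rw [ghr_H_add hB, ghr_H_smul, ghr_H_symm B ls v (v + t • w), ghr_H_symm B ls w (v + t • w), ghr_H_add hB, ghr_H_add hB, ghr_H_smul, ghr_H_smul,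
      ghr_H_symm B ls w v] at h0
    linarith
  have := discrim_le_zero h
  rw [discrim] at this
  nlinarith

/-- G1 along a line -/
theorem ghr_F_line {B : GhB S} (hB : B.Ok) (ls : List (GhLv S ι)) (v z : S → ℝ) (t : ℝ) :
    HasDerivAt (fun t : ℝ => ghF B ls (z + t • v)) (ghE B ls v (z + t • v)) t := by
  have hf : HasDerivAt (fun t : ℝ => z + t • v) v t := by simpa using ((hasDerivAt_id t).smul_const v).const_add z
  have := (ghr_F_hasFDerivAt hB ls (z + t • v)).comp_hasDerivAt t hf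
  rwa [ghr_F_fderiv hB] at this

/-- G2 along a line -/
theorem ghr_E_line {B : GhB S} (hB : B.Ok) (ls : List (GhLv S ι)) (v w z : S → ℝ) (t : ℝ) :
    HasDerivAt (fun t : ℝ => ghE B ls v (z + t • w)) (ghH B ls v w (z + t • w)) t := by
  have hf : HasDerivAt (fun t : ℝ => z + t • w) w t := by simpa using ((hasDerivAt_id t).smul_const w).const_add z
  have := (ghr_E_hasFDerivAt hB ls v (z + t • w)).comp_hasDerivAt t hf
  rwa [ghr_E_fderiv hB] at this

end hess

end Claimed.Agent.R286
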