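import Claimed.Agent.R286.Defs.GhDeriv
import Claimed.Agent.R286.Defs.Plc

/-!
# Row 286 (S0533), Fd/SlotA : ONE-SLOT SOURCE FORMULA, raw forest form, part A      (owner helper134; prefix `ghs_`; sorry free)

Tools for `Fd/SlotB` (`ghs_slot`): bounds / continuity of `ghNu` on spin tests, extension of a forest by one label
(`ghRepX`, `ghSn`, `ghTen`), the dummy-driver lemma, factorisation of a fresh label.
-/

set_option autoImplicit false
set_option linter.unusedSectionVars false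

namespace Claimed.Agent.R286

open MeasureTheory ProbabilityTheory

variable {S ι : Type} [Fintype S] [Fintype ι]


/-! ### the facts on `ghF, ghD, ghE` which are used (from `Defs/GhBasic`, `Defs/GhDeriv` of helper71) -/

theorem ghs_F_line {B : GhB S} (hB : B.Ok) {ls : List (GhLv S ι)} (h : GhNn ls) (z v : S → ℝ) :
    HasDerivAt (fun x : ℝ => ghF B ls (z + x • v)) (ghE B ls v z) 0 := gh_v_grad hB v h z

theorem ghs_F_cont {B : GhB S} (hB : B.Ok) {ls : List (GhLv S ι)} (h : GhNn ls) :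
    Continuous (ghF B ls) := gh_b_continuous hB h

theorem ghs_D_int {B : GhB S} (hB : B.Ok) {l : GhLv S ι} {ls : List (GhLv S ι)} (h : GhNn (l :: ls))
    (z : S → ℝ) : Integrable (ghD B l ls z) (ghStd ι) := gh_b_D_integrable hB h.tail l z

theorem ghs_D_one {B : GhB S} (hB : B.Ok) {l : GhLv S ι} {ls : List (GhLv S ι)} (h : GhNn (l :: ls))
    (z : S → ℝ) : ∫ ξ, ghD B l ls z ξ ∂ghStd ι = 1 := gh_b_D_integral hB h.tail l z

/-- a bound of the planted density which is uniform in the root field -/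
theorem ghs_D_bound {B : GhB S} (hB : B.Ok) {l : GhLv S ι} {ls : List (GhLv S ι)} (h : GhNn (l :: ls)) :
    ∃ b : (ι → ℝ) → ℝ, Integrable b (ghStd ι) ∧ ∀ z ξ, ghD B l ls z ξ ≤ b ξ := by
  have hm : 0 ≤ l.m := h.head
  have hN := gh_b_nice hB h.tail
  have hJi : Integrable (fun ξ : ι → ℝ => Real.exp (-(l.m * l.nrm) * ∑ i, |ξ i|)) (ghStd ι) := gh_b_exp_l1 _
  have hJ : 0 < ∫ ξ : ι → ℝ, Real.exp (-(l.m * l.nrm) * ∑ i, |ξ i|) ∂ghStd ι := integral_exp_pos hJi
  set J := ∫ ξ : ι → ℝ, Real.exp (-(l.m * l.nrm) * ∑ i, |ξ i|) ∂ghStd ι with hJdef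
  refine ⟨fun ξ => Real.exp ((l.m * l.nrm) * ∑ i, |ξ i|) / J, (gh_b_exp_l1 _).div_const _, fun z ξ => ?_⟩
  rw [gh_b_D_eq hB h.tail l z ξ]
  have hI : Real.exp (l.m * ghF B ls z) * J ≤ ghI B l ls z := by
    unfold ghI
    rw [hJdef, ← integral_const_mul]
    refine integral_mono (hJi.const_mul _) (hN.integrable_exp l l.m z) fun ξ' => ?_
    simp only
    rw [← Real.exp_add]
    apply Real.exp_le_exp.2
    have h1 := (abs_le.1 (hN.abs_inc_le l z ξ')).1
    nlinarith [mul_le_mul_of_nonneg_left h1 hm]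
  have hnum : Real.exp (l.m * ghF B ls (z + l.inc ξ))
      ≤ Real.exp (l.m * ghF B ls z) * Real.exp ((l.m * l.nrm) * ∑ i, |ξ i|) := by
    rw [← Real.exp_add]
    apply Real.exp_le_exp.2
    have h1 := (abs_le.1 (hN.abs_inc_le l z ξ)).2
    nlinarith [mul_le_mul_of_nonneg_left h1 hm]
  have hE := Real.exp_pos (l.m * ghF B ls z)
  rw [div_le_div_iff₀ (gh_b_I_pos hB h.tail l z) hJ]
  calc Real.exp (l.m * ghF B ls (z + l.inc ξ)) * J
      ≤ (Real.exp (l.m * ghF B ls z) * Real.exp ((l.m * l.nrm) * ∑ i, |ξ i|)) * J :=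
        mul_le_mul_of_nonneg_right hnum hJ.le
    _ = Real.exp ((l.m * l.nrm) * ∑ i, |ξ i|) * (Real.exp (l.m * ghF B ls z) * J) := by ring
    _ ≤ Real.exp ((l.m * l.nrm) * ∑ i, |ξ i|) * ghI B l ls z :=
        mul_le_mul_of_nonneg_left hI (Real.exp_pos _).le

theorem ghs_E_bound {B : GhB S} (hB : B.Ok) {ls : List (GhLv S ι)} (h : GhNn ls) (v z : S → ℝ) :
    |ghE B ls v z| ≤ ‖v‖ := (gh_b_E_bc' hB v h).le z

theorem ghs_E_cont {B : GhB S} (hB : B.Ok) {ls : List (GhLv S ι)} (h : GhNn ls) (v : S → ℝ) :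
    Continuous (ghE B ls v) := gh_b_E_continuous hB v h

/-! ### elementary facts -/

theorem ghs_inc_cont (l : GhLv S ι) : Continuous (l.inc) := by
  unfold GhLv.inc
  fun_prop

theorem ghs_D_pos (B : GhB S) (l : GhLv S ι) (ls : List (GhLv S ι)) (z : S → ℝ) (ξ : ι → ℝ) :
    0 < ghD B l ls z ξ := Real.exp_pos _

theorem ghs_D_cont {B : GhB S} (hB : B.Ok) {l : GhLv S ι} {ls : List (GhLv S ι)} (h : GhNn (l :: ls)) :
    Continuous (fun p : (S → ℝ) × (ι → ℝ) => ghD B l ls p.1 p.2) := by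
  unfold ghD
  have h1 := ghs_F_cont hB h
  have h2 := ghs_F_cont hB h.tail
  have h3 := ghs_inc_cont l
  fun_prop

/-- the Gibbs weights -/
theorem ghs_Z_pos {B : GhB S} (hB : B.Ok) (z : S → ℝ) : 0 < ∑ t, B.w t * Real.exp (B.a * z t) := by
  have h0 : ∀ t ∈ Finset.univ, 0 ≤ B.w t * Real.exp (B.a * z t) :=
    fun t _ => mul_nonneg (hB.nonneg t) (Real.exp_pos _).le
  rcases (Finset.sum_nonneg h0).lt_or_eq with h | h
  · exact h
  · exfalso
    have h1 := (Finset.sum_eq_zero_iff_of_nonneg h0).1 h.symm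
    have h2 : ∑ s, B.w s = 0 := Finset.sum_eq_zero fun t ht => by
      have := h1 t ht
      rcases mul_eq_zero.1 this with h3 | h3
      · exact h3
      · exact absurd h3 (Real.exp_pos _).ne'
    rw [hB.sum] at h2
    exact one_ne_zero h2

theorem ghs_Gw_nonneg {B : GhB S} (hB : B.Ok) (z : S → ℝ) (s : S) : 0 ≤ ghGw B z s :=
  div_nonneg (mul_nonneg (hB.nonneg s) (Real.exp_pos _).le) (ghs_Z_pos hB z).le

theorem ghs_Gw_sum {B : GhB S} (hB : B.Ok) (z : S → ℝ) : ∑ s, ghGw B z s = 1 := by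
  unfold ghGw
  rw [← Finset.sum_div]
  exact div_self (ghs_Z_pos hB z).ne'

theorem ghs_Gw_cont {B : GhB S} (hB : B.Ok) (s : S) : Continuous (fun z : S → ℝ => ghGw B z s) := by
  unfold ghGw
  refine Continuous.div (by fun_prop) (by fun_prop) fun z => (ghs_Z_pos hB z).ne'


/-! ### the product of the transition densities -/

theorem ghs_DT_pos (B : GhB S) {q : ℕ} (l : GhLv S ι) (ls : List (GhLv S ι)) (r : Fin q → Fin q)
    (G : Fin q → S → ℝ) (W : Fin q → ι → ℝ) : 0 < ghDT B l ls r G W := by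
  unfold ghDT
  refine Finset.prod_pos fun a _ => ?_
  split_ifs
  · exact ghs_D_pos _ _ _ _ _
  · exact one_pos

theorem ghs_DT_int {B : GhB S} (hB : B.Ok) {l : GhLv S ι} {ls : List (GhLv S ι)} (h : GhNn (l :: ls))
    {q : ℕ} (r : Fin q → Fin q) (G : Fin q → S → ℝ) :
    Integrable (ghDT B l ls r G) (Measure.pi fun _ : Fin q => ghStd ι) := by
  have := Integrable.fintype_prod (μ := fun _ : Fin q => ghStd ι)
    (f := fun a ξ => if r a = a then ghD B l ls (G a) ξ else (1 : ℝ)) (fun a => by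
      by_cases ha : r a = a
      · simpa [ha] using ghs_D_int hB h (G a)
      · simpa [ha] using integrable_const (1 : ℝ))
  exact this

theorem ghs_DT_one {B : GhB S} (hB : B.Ok) {l : GhLv S ι} {ls : List (GhLv S ι)} (h : GhNn (l :: ls))
    {q : ℕ} (r : Fin q → Fin q) (G : Fin q → S → ℝ) :
    ∫ W, ghDT B l ls r G W ∂(Measure.pi fun _ : Fin q => ghStd ι) = 1 := by
  have := integral_fintype_prod_eq_prod (μ := fun _ : Fin q => ghStd ι)
    (f := fun a ξ => if r a = a then ghD B l ls (G a) ξ else (1 : ℝ))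
  unfold ghDT
  rw [this]
  refine Finset.prod_eq_one fun a _ => ?_
  by_cases ha : r a = a
  · simpa [ha] using ghs_D_one hB h (G a)
  · simp [ha]

theorem ghs_DT_bound {B : GhB S} (hB : B.Ok) {l : GhLv S ι} {ls : List (GhLv S ι)} (h : GhNn (l :: ls))
    {q : ℕ} (r : Fin q → Fin q) :
    ∃ bT : (Fin q → ι → ℝ) → ℝ, Integrable bT (Measure.pi fun _ : Fin q => ghStd ι) ∧
      ∀ G W, ghDT B l ls r G W ≤ bT W := by
  obtain ⟨b, hb, hle⟩ := ghs_D_bound hB h
  refine ⟨fun W => ∏ a, if r a = a then b (W a) else (1 : ℝ), ?_, ?_⟩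
  · exact Integrable.fintype_prod (μ := fun _ : Fin q => ghStd ι)
      (f := fun a ξ => if r a = a then b ξ else (1 : ℝ)) (fun a => by
        by_cases ha : r a = a
        · simpa [ha] using hb
        · simpa [ha] using integrable_const (1 : ℝ))
  · intro G W
    unfold ghDT
    refine Finset.prod_le_prod (fun a _ => ?_) (fun a _ => ?_)
    · split_ifs
      · exact (ghs_D_pos _ _ _ _ _).le
      · exact zero_le_one
    · split_ifs
      · exact hle _ _
      · exact le_rfl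

theorem ghs_DT_cont {B : GhB S} (hB : B.Ok) {l : GhLv S ι} {ls : List (GhLv S ι)} (h : GhNn (l :: ls))
    {q : ℕ} (r : Fin q → Fin q) :
    Continuous (fun p : (Fin q → S → ℝ) × (Fin q → ι → ℝ) => ghDT B l ls r p.1 p.2) := by
  unfold ghDT
  refine continuous_finsetProd _ fun a _ => ?_
  by_cases ha : r a = a
  · simp only [ha, if_true]
    exact (ghs_D_cont hB h).comp (by fun_prop : Continuous fun p : (Fin q → S → ℝ) × (Fin q → ι → ℝ) => (p.1 a, p.2 a))
  · simp only [ha, if_false]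
    exact continuous_const

/-- integrability of the density times a bounded continuous function -/
theorem ghs_DT_mul_int {B : GhB S} (hB : B.Ok) {l : GhLv S ι} {ls : List (GhLv S ι)} (h : GhNn (l :: ls))
    {q : ℕ} (r : Fin q → Fin q) (G : Fin q → S → ℝ) {Ψ : (Fin q → ι → ℝ) → ℝ} (hc : Continuous Ψ) {C : ℝ}
    (hb : ∀ W, |Ψ W| ≤ C) :
    Integrable (fun W => ghDT B l ls r G W * Ψ W) (Measure.pi fun _ : Fin q => ghStd ι) :=
  (ghs_DT_int hB h r G).mul_bdd (c := C) hc.aestronglyMeasurable (Filter.Eventually.of_forall fun W => by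
    simpa using hb W)


/-! ### tree expectations of spin tests: unfolding, bound, continuity -/

theorem ghs_nu_nil (B : GhB S) {q : ℕ} (rep : ℕ → Fin q → Fin q) (G : Fin q → S → ℝ) (P : (Fin q → S) → ℝ) :
    ghNu (ι := ι) B [] rep G (ghSp P) = ∑ σ : Fin q → S, (∏ a, ghGw B (G a) (σ a)) * P fun a => σ (rep 0 a) := by
  rw [ghNu]; rfl

theorem ghs_nu_cons (B : GhB S) {q : ℕ} (l : GhLv S ι) (ls : List (GhLv S ι)) (rep : ℕ → Fin q → Fin q)
    (G : Fin q → S → ℝ) (P : (Fin q → S) → ℝ) :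
    ghNu B (l :: ls) rep G (ghSp P) = ∫ W : Fin q → ι → ℝ, ghDT B l ls (rep 0) G W *
      ghNu B ls (fun t => rep (t + 1)) (fun a => G a + l.inc (W (rep 0 a))) (ghSp P)
        ∂(Measure.pi fun _ : Fin q => ghStd ι) := by
  rw [ghNu]; rfl

theorem ghs_Gw_prod_sum {B : GhB S} (hB : B.Ok) {q : ℕ} (G : Fin q → S → ℝ) :
    ∑ σ : Fin q → S, ∏ a, ghGw B (G a) (σ a) = 1 := by
  have := (Finset.prod_univ_sum (fun _ : Fin q => (Finset.univ : Finset S)) (fun a s => ghGw B (G a) s)).symm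
  rw [Fintype.piFinset_univ] at this
  rw [this]
  exact Finset.prod_eq_one fun a _ => ghs_Gw_sum hB (G a)

theorem ghs_nu_bound {B : GhB S} (hB : B.Ok) {q : ℕ} {P : (Fin q → S) → ℝ} {C : ℝ} (hP : ∀ σ, |P σ| ≤ C) :
    ∀ {ls : List (GhLv S ι)}, GhNn ls → ∀ (rep : ℕ → Fin q → Fin q) (G : Fin q → S → ℝ),
      |ghNu B ls rep G (ghSp P)| ≤ C := by
  intro ls
  induction ls with
  | nil =>
    intro _ rep G
    rw [ghs_nu_nil]
    calc |∑ σ : Fin q → S, (∏ a, ghGw B (G a) (σ a)) * P fun a => σ (rep 0 a)|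
        ≤ ∑ σ : Fin q → S, |(∏ a, ghGw B (G a) (σ a)) * P fun a => σ (rep 0 a)| :=
          Finset.abs_sum_le_sum_abs _ _
      _ ≤ ∑ σ : Fin q → S, (∏ a, ghGw B (G a) (σ a)) * C := by
          refine Finset.sum_le_sum fun σ _ => ?_
          have h0 : 0 ≤ ∏ a, ghGw B (G a) (σ a) := Finset.prod_nonneg fun a _ => ghs_Gw_nonneg hB _ _
          rw [abs_mul, abs_of_nonneg h0]
          exact mul_le_mul_of_nonneg_left (hP _) h0
      _ = C := by rw [← Finset.sum_mul, ghs_Gw_prod_sum hB, one_mul]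
  | cons l ls ih =>
    intro h rep G
    rw [ghs_nu_cons]
    have h1 := norm_integral_le_of_norm_le (μ := Measure.pi fun _ : Fin q => ghStd ι)
      (f := fun W => ghDT B l ls (rep 0) G W *
        ghNu B ls (fun t => rep (t + 1)) (fun a => G a + l.inc (W (rep 0 a))) (ghSp P))
      ((ghs_DT_int hB h (rep 0) G).mul_const C) (Filter.Eventually.of_forall fun W => by
        rw [Real.norm_eq_abs, abs_mul, abs_of_pos (ghs_DT_pos _ _ _ _ _ _)]
        exact mul_le_mul_of_nonneg_left (ih h.tail _ _) (ghs_DT_pos _ _ _ _ _ _).le)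
    rw [integral_mul_const, ghs_DT_one hB h, one_mul] at h1
    simpa using h1

theorem ghs_nu_cont {B : GhB S} (hB : B.Ok) {q : ℕ} (P : (Fin q → S) → ℝ) :
    ∀ {ls : List (GhLv S ι)}, GhNn ls → ∀ (rep : ℕ → Fin q → Fin q),
      Continuous (fun G : Fin q → S → ℝ => ghNu B ls rep G (ghSp P)) := by
  intro ls
  induction ls with
  | nil =>
    intro _ rep
    simp only [ghs_nu_nil]
    refine continuous_finsetSum _ fun σ _ => Continuous.mul ?_ continuous_const
    refine continuous_finsetProd _ fun a _ => ?_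
    exact (ghs_Gw_cont hB (σ a)).comp (continuous_apply a)
  | cons l ls ih =>
    intro h rep
    simp only [ghs_nu_cons]
    obtain ⟨C, hC⟩ : ∃ C, ∀ σ, |P σ| ≤ C :=
      ⟨∑ σ, |P σ|, fun σ => Finset.single_le_sum (f := fun σ => |P σ|) (fun _ _ => abs_nonneg _) (Finset.mem_univ σ)⟩
    obtain ⟨bT, hbT, hle⟩ := ghs_DT_bound hB h (rep 0)
    have hjoint : Continuous (fun p : (Fin q → S → ℝ) × (Fin q → ι → ℝ) => ghDT B l ls (rep 0) p.1 p.2 *
        ghNu B ls (fun t => rep (t + 1)) (fun a => p.1 a + l.inc (p.2 (rep 0 a))) (ghSp P)) := by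
      refine (ghs_DT_cont hB h (rep 0)).mul ((ih h.tail _).comp ?_)
      have := ghs_inc_cont l
      fun_prop
    refine continuous_of_dominated (bound := fun W => bT W * C) (fun G => ?_) (fun G => ?_) (hbT.mul_const C) ?_
    · exact (hjoint.comp (by fun_prop : Continuous fun W : Fin q → ι → ℝ => (G, W))).aestronglyMeasurable
    · refine Filter.Eventually.of_forall fun W => ?_
      rw [Real.norm_eq_abs, abs_mul, abs_of_pos (ghs_DT_pos _ _ _ _ _ _)]
      have hC0 : 0 ≤ C := (abs_nonneg _).trans (ghs_nu_bound hB hC h.tail (fun t => rep (t + 1))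
        (fun a => G a + l.inc (W (rep 0 a))))
      exact mul_le_mul (hle _ _) (ghs_nu_bound hB hC h.tail _ _) (abs_nonneg _)
        ((ghs_DT_pos B l ls (rep 0) G W).le.trans (hle _ _))
    · refine Filter.Eventually.of_forall fun W => ?_
      exact hjoint.comp (by fun_prop : Continuous fun G : Fin q → S → ℝ => (G, W))


/-! ### extension of a forest by one label -/

/-- representative maps of the forest extended by a new label (`Fin.last q`) which follows `c` through `l` revelations -/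
def ghRepX {q : ℕ} (rep : ℕ → Fin q → Fin q) (l : ℕ) (c : Fin q) (t : ℕ) : Fin (q + 1) → Fin (q + 1) :=
  Fin.lastCases (motive := fun _ => Fin (q + 1)) (if t < l then (rep t c).castSucc else Fin.last q)
    fun b => (rep t b).castSucc

/-- extension of a family by an entry for the new label -/
def ghSn {α : Type} {q : ℕ} (G : Fin q → α) (g : α) : Fin (q + 1) → α :=
  Fin.lastCases (motive := fun _ => α) g G

/-- old test times a one-slot test of the new label -/
def ghTen {S : Type} {q : ℕ} (P : (Fin q → S) → ℝ) (v : S → ℝ) : (Fin (q + 1) → S) → ℝ :=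
  fun σ => P (fun a => σ a.castSucc) * v (σ (Fin.last q))

@[simp] theorem ghRepX_cast {q : ℕ} (rep : ℕ → Fin q → Fin q) (l : ℕ) (c : Fin q) (t : ℕ) (b : Fin q) :
    ghRepX rep l c t b.castSucc = (rep t b).castSucc := by simp [ghRepX]

theorem ghRepX_last_lt {q : ℕ} (rep : ℕ → Fin q → Fin q) {l : ℕ} (c : Fin q) {t : ℕ} (h : t < l) :
    ghRepX rep l c t (Fin.last q) = (rep t c).castSucc := by simp [ghRepX, h]

theorem ghRepX_last_ge {q : ℕ} (rep : ℕ → Fin q → Fin q) {l : ℕ} (c : Fin q) {t : ℕ} (h : l ≤ t) :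
    ghRepX rep l c t (Fin.last q) = Fin.last q := by simp [ghRepX, not_lt.2 h]

@[simp] theorem ghSn_cast {α : Type} {q : ℕ} (G : Fin q → α) (g : α) (a : Fin q) : ghSn G g a.castSucc = G a := by
  simp [ghSn]

@[simp] theorem ghSn_last {α : Type} {q : ℕ} (G : Fin q → α) (g : α) : ghSn G g (Fin.last q) = g := by
  simp [ghSn]

theorem ghRepX_shift_succ {q : ℕ} (rep : ℕ → Fin q → Fin q) (k : ℕ) (c : Fin q) :
    (fun t => ghRepX rep (k + 1) c (t + 1)) = ghRepX (fun t => rep (t + 1)) k c := by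
  funext t x
  induction x using Fin.lastCases with
  | last => by_cases h : t < k
            · rw [ghRepX_last_lt _ _ h, ghRepX_last_lt _ _ (Nat.succ_lt_succ h)]
            · rw [ghRepX_last_ge _ _ (not_lt.1 h), ghRepX_last_ge _ _ (Nat.succ_le_succ (not_lt.1 h))]
  | cast b => simp

theorem ghRepX_shift_zero {q : ℕ} (rep : ℕ → Fin q → Fin q) (c : Fin q) :
    (fun t => ghRepX rep 0 c (t + 1)) = ghRepX (fun t => rep (t + 1)) 0 c := by
  funext t x
  induction x using Fin.lastCases with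
  | last => rw [ghRepX_last_ge _ _ (Nat.zero_le _), ghRepX_last_ge _ _ (Nat.zero_le _)]
  | cast b => simp

/-! ### splitting the last coordinate -/

theorem ghs_pi_split {X : Type} [MeasurableSpace X] (μ : Measure X) [IsProbabilityMeasure μ] {q : ℕ}
    (g : X → (Fin q → X) → ℝ) :
    ∫ W' : Fin (q + 1) → X, g (W' (Fin.last q)) (fun a => W' a.castSucc) ∂(Measure.pi fun _ => μ)
      = ∫ p : X × (Fin q → X), g p.1 p.2 ∂(μ.prod (Measure.pi fun _ => μ)) := by
  have := (measurePreserving_piFinSuccAbove (fun _ : Fin (q + 1) => μ) (Fin.last q)).integral_comp'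
    (g := fun p : X × (Fin q → X) => g p.1 p.2)
  rw [← this]
  refine integral_congr_ae (Filter.Eventually.of_forall fun W' => ?_)
  simp [MeasurableEquiv.piFinSuccAbove, Fin.insertNthEquiv]
  rfl

theorem ghs_pi_dummy {X : Type} [MeasurableSpace X] (μ : Measure X) [IsProbabilityMeasure μ] {q : ℕ}
    (f : (Fin q → X) → ℝ) :
    ∫ W' : Fin (q + 1) → X, f (fun a => W' a.castSucc) ∂(Measure.pi fun _ => μ)
      = ∫ W, f W ∂(Measure.pi fun _ : Fin q => μ) := by
  rw [ghs_pi_split μ (fun _ W => f W), integral_fun_snd]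
  simp

theorem ghs_pi_mul {X : Type} [MeasurableSpace X] (μ : Measure X) [IsProbabilityMeasure μ] {q : ℕ}
    (f : (Fin q → X) → ℝ) (g : X → ℝ) :
    ∫ W' : Fin (q + 1) → X, f (fun a => W' a.castSucc) * g (W' (Fin.last q)) ∂(Measure.pi fun _ => μ)
      = (∫ W, f W ∂(Measure.pi fun _ : Fin q => μ)) * ∫ ξ, g ξ ∂μ := by
  rw [ghs_pi_split μ (fun ξ W => f W * g ξ)]
  have := integral_prod_mul (μ := μ) (ν := Measure.pi fun _ : Fin q => μ) g f
  rw [mul_comm, ← this]
  refine integral_congr_ae (Filter.Eventually.of_forall fun p => ?_)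
  exact mul_comm _ _

theorem ghs_sum_split {S : Type} [Fintype S] {q : ℕ} (g : S → (Fin q → S) → ℝ) :
    ∑ σ' : Fin (q + 1) → S, g (σ' (Fin.last q)) (fun a => σ' a.castSucc) = ∑ σ : Fin q → S, ∑ s, g s σ := by
  rw [Finset.sum_comm, ← Fintype.sum_prod_type']
  exact Fintype.sum_equiv (Fin.snocEquiv (fun _ => S)).symm _ _ fun σ' => rfl


/-! ### unfolding the extended forests -/

theorem ghs_DT_ext_lt (B : GhB S) {q : ℕ} (l : GhLv S ι) (ls : List (GhLv S ι)) (rep : ℕ → Fin q → Fin q)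
    (k : ℕ) (c : Fin q) (G : Fin q → S → ℝ) (g : S → ℝ) (W' : Fin (q + 1) → ι → ℝ) :
    ghDT B l ls (ghRepX rep (k + 1) c 0) (ghSn G g) W' = ghDT B l ls (rep 0) G fun a => W' a.castSucc := by
  unfold ghDT
  rw [Fin.prod_univ_castSucc, ghRepX_last_lt _ _ (Nat.succ_pos k),
    if_neg (Fin.castSucc_lt_last _).ne, mul_one]
  refine Finset.prod_congr rfl fun a _ => ?_
  simp only [ghRepX_cast, ghSn_cast, Fin.castSucc_inj]

theorem ghs_DT_ext_zero (B : GhB S) {q : ℕ} (l : GhLv S ι) (ls : List (GhLv S ι)) (rep : ℕ → Fin q → Fin q)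
    (c : Fin q) (G : Fin q → S → ℝ) (g : S → ℝ) (W' : Fin (q + 1) → ι → ℝ) :
    ghDT B l ls (ghRepX rep 0 c 0) (ghSn G g) W'
      = ghDT B l ls (rep 0) G (fun a => W' a.castSucc) * ghD B l ls g (W' (Fin.last q)) := by
  unfold ghDT
  rw [Fin.prod_univ_castSucc, ghRepX_last_ge _ _ le_rfl, if_pos rfl, ghSn_last]
  congr 1
  refine Finset.prod_congr rfl fun a _ => ?_
  simp only [ghRepX_cast, ghSn_cast, Fin.castSucc_inj]

/-- the new label shares the next revelation -/
theorem ghs_nu_ext_succ (B : GhB S) {q : ℕ} (l : GhLv S ι) (ls : List (GhLv S ι)) (rep : ℕ → Fin q → Fin q)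
    (k : ℕ) (c : Fin q) (G : Fin q → S → ℝ) (g : S → ℝ) (Q : (Fin (q + 1) → S) → ℝ) :
    ghNu B (l :: ls) (ghRepX rep (k + 1) c) (ghSn G g) (ghSp Q)
      = ∫ W : Fin q → ι → ℝ, ghDT B l ls (rep 0) G W *
          ghNu B ls (ghRepX (fun t => rep (t + 1)) k c)
            (ghSn (fun a => G a + l.inc (W (rep 0 a))) (g + l.inc (W (rep 0 c)))) (ghSp Q)
          ∂(Measure.pi fun _ : Fin q => ghStd ι) := by
  rw [ghs_nu_cons, ← ghs_pi_dummy (ghStd ι) (fun W : Fin q → ι → ℝ => ghDT B l ls (rep 0) G W *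
          ghNu B ls (ghRepX (fun t => rep (t + 1)) k c)
            (ghSn (fun a => G a + l.inc (W (rep 0 a))) (g + l.inc (W (rep 0 c)))) (ghSp Q))]
  refine integral_congr_ae (Filter.Eventually.of_forall fun W' => ?_)
  simp only
  rw [ghs_DT_ext_lt, ghRepX_shift_succ]
  congr 2
  funext x
  induction x using Fin.lastCases with
  | last => rw [ghSn_last, ghSn_last, ghRepX_last_lt _ _ (Nat.succ_pos k)]
  | cast b => simp

/-- a label which is fresh from the start factorises -/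
theorem ghs_nu_ext_zero (B : GhB S) {q : ℕ} (P : (Fin q → S) → ℝ) (v : S → ℝ) (c : Fin q) :
    ∀ (ls : List (GhLv S ι)) (rep : ℕ → Fin q → Fin q) (G : Fin q → S → ℝ) (g : S → ℝ),
    ghNu B ls (ghRepX rep 0 c) (ghSn G g) (ghSp (ghTen P v)) = ghNu B ls rep G (ghSp P) * ghE B ls v g := by
  intro ls
  induction ls with
  | nil =>
    intro rep G g
    rw [ghs_nu_nil, ghs_nu_nil, ghE]
    have := ghs_sum_split (q := q) (fun s σ => ((∏ a, ghGw B (G a) (σ a)) * ghGw B g s) *
      (P (fun a => σ (rep 0 a)) * v s))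
    rw [Finset.sum_mul_sum]
    refine Eq.trans ?_ (this.trans ?_)
    · refine Finset.sum_congr rfl fun σ' _ => ?_
      rw [Fin.prod_univ_castSucc]
      simp only [ghSn_cast, ghSn_last, ghTen, ghRepX_cast, ghRepX_last_ge _ _ le_rfl]
    · refine Finset.sum_congr rfl fun σ _ => Finset.sum_congr rfl fun s _ => ?_
      ring
  | cons l ls ih =>
    intro rep G g
    rw [ghs_nu_cons, ghs_nu_cons, ghE, ← ghs_pi_mul (ghStd ι)
      (fun W : Fin q → ι → ℝ => ghDT B l ls (rep 0) G W *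
        ghNu B ls (fun t => rep (t + 1)) (fun a => G a + l.inc (W (rep 0 a))) (ghSp P))
      (fun ξ => ghD B l ls g ξ * ghE B ls v (g + l.inc ξ))]
    refine integral_congr_ae (Filter.Eventually.of_forall fun W' => ?_)
    simp only
    rw [ghs_DT_ext_zero, ghRepX_shift_zero]
    have hf : (fun a => ghSn G g a + l.inc (W' (ghRepX rep 0 c 0 a)))
        = ghSn (fun a => G a + l.inc (W' (rep 0 a).castSucc)) (g + l.inc (W' (Fin.last q))) := by
      funext x
      induction x using Fin.lastCases with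
      | last => rw [ghSn_last, ghSn_last, ghRepX_last_ge _ _ le_rfl]
      | cast b => simp
    rw [hf, ih]
    ring

theorem ghs_a_eqns_cite : True := by
  have := @ghRepX.eq_1
  have := @ghSn.eq_1
  have := @ghTen.eq_1
  trivial

end Claimed.Agent.R286
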