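import Claimed.Agent.R286.Fd.SlotA

/-!
# Row 286 (S0533), Fd/SlotB : ONE-SLOT SOURCE FORMULA, raw forest form, part B      (owner helper134; prefix `ghs_`; sorry free)

`ghs_slot` : for every family of idempotent representative maps `rep`, all root fields `G`, every spin test `P` and direction `v`,
`d/dx ghNu B ls rep (G + x v) P = ghSlot B ls rep G P v`, where `ghSlot` is the EDGE (Abel) form of the signed attachment:
`∑_{t ≤ N} ∑_{c, rep t c = c} m_t (ν[new label shares the stages < t+1 with c] - ν[new label shares the stages < t with c])`.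
TEX[PE:prop:found-replica] (one derivative slot).
-/

set_option autoImplicit false
set_option linter.unusedSectionVars false

namespace Claimed.Agent.R286

open MeasureTheory ProbabilityTheory

variable {S ι : Type} [Fintype S] [Fintype ι]


/-! ### calculus helpers -/

theorem ghs_prod_deriv {κ : Type} [Fintype κ] {f : κ → ℝ → ℝ} {lam : κ → ℝ} {x : ℝ}
    (hf : ∀ i, HasDerivAt (f i) (f i x * lam i) x) :
    HasDerivAt (fun y => ∏ i, f i y) ((∏ i, f i x) * ∑ i, lam i) x := by
  classical
  have h := HasDerivAt.fun_finsetProd (u := Finset.univ) (fun i _ => hf i)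
  refine h.congr_deriv ?_
  rw [Finset.mul_sum]
  refine Finset.sum_congr rfl fun i hi => ?_
  rw [smul_eq_mul, ← mul_assoc, Finset.prod_erase_mul _ _ hi]

theorem ghs_line_shift {q : ℕ} {Φ D : (Fin q → S → ℝ) → ℝ} {v : S → ℝ}
    (h : ∀ G, HasDerivAt (fun y : ℝ => Φ fun a => G a + y • v) (D G) 0) (G : Fin q → S → ℝ) (x : ℝ) :
    HasDerivAt (fun y : ℝ => Φ fun a => G a + y • v) (D fun a => G a + x • v) x := by
  have h1 := h (fun a => G a + x • v)
  have h2 : HasDerivAt (fun y : ℝ => Φ fun a => G a + x • v + y • v) (D fun a => G a + x • v) (x + -x) := by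
    simpa using h1
  have h3 := h2.comp_add_const x (-x)
  have e : (fun y : ℝ => Φ fun a => G a + y • v) = fun y : ℝ => Φ fun a => G a + x • v + (y + -x) • v := by
    funext y
    congr 1
    funext a
    rw [add_assoc, ← add_smul]
    congr 2
    ring
  rw [e]
  exact h3

/-! ### the terminal level -/

theorem ghs_Gw_line {B : GhB S} (hB : B.Ok) (z v : S → ℝ) (s : S) :
    HasDerivAt (fun x : ℝ => ghGw B (z + x • v) s)
      (ghGw B z s * (B.a * (v s - ghE (ι := ι) B [] v z))) 0 := by
  unfold ghGw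
  have hnum : ∀ t : S, HasDerivAt (fun x : ℝ => B.w t * Real.exp (B.a * (z + x • v) t))
      (B.w t * Real.exp (B.a * z t) * (B.a * v t)) 0 := by
    intro t
    have h1 : HasDerivAt (fun x : ℝ => B.a * (z t + x * v t)) (B.a * v t) 0 := by
      have := ((hasDerivAt_id (0 : ℝ)).mul_const (v t)).const_add (z t) |>.const_mul B.a
      simpa using this
    have h2 := (h1.exp).const_mul (B.w t)
    simp only [zero_mul, add_zero] at h2
    refine h2.congr_deriv ?_
    ring
  have hden : HasDerivAt (fun x : ℝ => ∑ t, B.w t * Real.exp (B.a * (z + x • v) t))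
      (∑ t, B.w t * Real.exp (B.a * z t) * (B.a * v t)) 0 := HasDerivAt.fun_sum fun t _ => hnum t
  have hZ : (∑ t, B.w t * Real.exp (B.a * (z + (0 : ℝ) • v) t)) ≠ 0 := (ghs_Z_pos hB _).ne'
  have h := (hnum s).div hden hZ
  refine h.congr_deriv ?_
  simp only [zero_smul, add_zero]
  have hZ' : (∑ t, B.w t * Real.exp (B.a * z t)) ≠ 0 := (ghs_Z_pos hB _).ne'
  rw [ghE]
  unfold ghGw
  simp only [div_mul_eq_mul_div]
  rw [← Finset.sum_div]
  field_simp
  have e : ∑ x, B.a * B.w x * Real.exp (B.a * z x) * v x = B.a * ∑ x, B.w x * Real.exp (B.a * z x) * v x := by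
    rw [Finset.mul_sum]
    exact Finset.sum_congr rfl fun t _ => by ring
  rw [e]
  ring


theorem ghs_prod_update {S : Type} {q : ℕ} (w : Fin q → S → ℝ) (c : Fin q) (σ : Fin q → S) (s : S) :
    (∏ a, w a (Function.update σ c s a)) * w c (σ c) = (∏ a, w a (σ a)) * w c s := by
  rw [← Finset.mul_prod_erase Finset.univ (fun a => w a (σ a)) (Finset.mem_univ c),
    ← Finset.mul_prod_erase Finset.univ (fun a => w a (Function.update σ c s a)) (Finset.mem_univ c)]
  have : ∏ a ∈ Finset.univ.erase c, w a (Function.update σ c s a) = ∏ a ∈ Finset.univ.erase c, w a (σ a) :=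
    Finset.prod_congr rfl fun a ha => by rw [Function.update_of_ne (Finset.ne_of_mem_erase ha)]
  rw [this, Function.update_self]
  ring

/-- independence of one coordinate under a product weight -/
theorem ghs_indep {S : Type} [Fintype S] {q : ℕ} (w : Fin q → S → ℝ) (c : Fin q) (u : S → ℝ)
    (R : (Fin q → S) → ℝ) (hR : ∀ σ s, R (Function.update σ c s) = R σ) (hw : ∑ s, w c s = 1) :
    ∑ σ : Fin q → S, (∏ a, w a (σ a)) * (u (σ c) * R σ)
      = (∑ s, w c s * u s) * ∑ σ : Fin q → S, (∏ a, w a (σ a)) * R σ := by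
  have hinv : Function.Involutive (fun p : (Fin q → S) × S => (Function.update p.1 c p.2, p.1 c)) := by
    rintro ⟨σ, s⟩
    simp
  have h1 : ∑ σ : Fin q → S, (∏ a, w a (σ a)) * (u (σ c) * R σ)
      = ∑ p : (Fin q → S) × S, (∏ a, w a (p.1 a)) * w c p.2 * (u (p.1 c) * R p.1) := by
    rw [Fintype.sum_prod_type]
    refine Finset.sum_congr rfl fun σ _ => ?_
    simp only
    rw [← Finset.sum_mul, ← Finset.mul_sum, hw, mul_one]
  have h2 : (∑ s, w c s * u s) * ∑ σ : Fin q → S, (∏ a, w a (σ a)) * R σ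
      = ∑ p : (Fin q → S) × S, (∏ a, w a (p.1 a)) * w c p.2 * (u p.2 * R p.1) := by
    rw [Fintype.sum_prod_type, mul_comm, Finset.sum_mul_sum]
    refine Finset.sum_congr rfl fun σ _ => Finset.sum_congr rfl fun s _ => ?_
    ring
  rw [h1, h2]
  refine Fintype.sum_equiv hinv.toPerm _ _ fun p => ?_
  obtain ⟨σ, s⟩ := p
  simp only [Function.Involutive.coe_toPerm]
  rw [ghs_prod_update, hR]

/-- the new label coincides with `c` (terminal level) -/
theorem ghs_nu_nil_ext_one {B : GhB S} (hB : B.Ok) {q : ℕ} (rep : ℕ → Fin q → Fin q) (c : Fin q)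
    (G : Fin q → S → ℝ) (g : S → ℝ) (P : (Fin q → S) → ℝ) (v : S → ℝ) :
    ghNu (ι := ι) B [] (ghRepX rep 1 c) (ghSn G g) (ghSp (ghTen P v))
      = ∑ σ : Fin q → S, (∏ a, ghGw B (G a) (σ a)) * (v (σ (rep 0 c)) * P fun a => σ (rep 0 a)) := by
  rw [ghs_nu_nil]
  have := ghs_sum_split (q := q) (fun s σ => ((∏ a, ghGw B (G a) (σ a)) * ghGw B g s) *
      (P (fun a => σ (rep 0 a)) * v (σ (rep 0 c))))
  refine Eq.trans ?_ (this.trans ?_)
  · refine Finset.sum_congr rfl fun σ' _ => ?_
    rw [Fin.prod_univ_castSucc]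
    simp only [ghSn_cast, ghSn_last, ghTen, ghRepX_cast, ghRepX_last_lt _ _ Nat.one_pos]
  · refine Finset.sum_congr rfl fun σ _ => ?_
    rw [← Finset.sum_mul, ← Finset.mul_sum, ghs_Gw_sum hB, mul_one]
    ring


/-! ### the one-slot functional (Abel form) -/

/-- the signed sum of the one-slot formula, in Abel form: every class `c` of every revelation `t` contributes its mass times
(the new label shares the revelation `t` with `c`) minus (the new label leaves `c` just before the revelation `t`) -/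
noncomputable def ghSlot (B : GhB S) {q : ℕ} (ls : List (GhLv S ι)) (rep : ℕ → Fin q → Fin q) (G : Fin q → S → ℝ)
    (P : (Fin q → S) → ℝ) (v : S → ℝ) : ℝ :=
  ∑ t ∈ Finset.range (ls.length + 1), ∑ c : Fin q, if rep t c = c then
    ghM 0 ls B.a (t + 1) * (ghNu B ls (ghRepX rep (t + 1) c) (ghSn G (G c)) (ghSp (ghTen P v))
      - ghNu B ls (ghRepX rep t c) (ghSn G (G c)) (ghSp (ghTen P v))) else 0

theorem ghs_slot_nil {B : GhB S} (hB : B.Ok) {q : ℕ} (rep : ℕ → Fin q → Fin q)
    (hid : ∀ a, rep 0 (rep 0 a) = rep 0 a) (G : Fin q → S → ℝ) (P : (Fin q → S) → ℝ) (v : S → ℝ) :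
    HasDerivAt (fun x : ℝ => ghNu (ι := ι) B [] rep (fun a => G a + x • v) (ghSp P))
      (ghSlot B ([] : List (GhLv S ι)) rep G P v) 0 := by
  simp only [ghs_nu_nil]
  have hσ : ∀ σ : Fin q → S, HasDerivAt
      (fun x : ℝ => (∏ a, ghGw B (G a + x • v) (σ a)) * P fun a => σ (rep 0 a))
      ((∏ a, ghGw B (G a) (σ a)) * (∑ c, B.a * (v (σ c) - ghE (ι := ι) B [] v (G c))) * P fun a => σ (rep 0 a)) 0 := by
    intro σ
    have h := ghs_prod_deriv (f := fun a (x : ℝ) => ghGw B (G a + x • v) (σ a))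
      (lam := fun c => B.a * (v (σ c) - ghE (ι := ι) B [] v (G c))) (x := 0)
      (fun a => by simpa using ghs_Gw_line (ι := ι) hB (G a) v (σ a))
    simp only [zero_smul, add_zero] at h
    exact h.mul_const _
  refine (HasDerivAt.fun_sum fun σ _ => hσ σ).congr_deriv ?_
  unfold ghSlot
  simp only [List.length_nil, zero_add, Finset.sum_range_one]
  have hM : ghM (S := S) (ι := ι) 0 [] B.a 1 = B.a := by simp [ghM]
  rw [hM]
  have e1 : ∀ σ : Fin q → S, (∏ a, ghGw B (G a) (σ a)) * (∑ c, B.a * (v (σ c) - ghE (ι := ι) B [] v (G c)))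
      * (P fun a => σ (rep 0 a))
      = ∑ c, B.a * ((∏ a, ghGw B (G a) (σ a)) * (v (σ c) * P fun a => σ (rep 0 a))
        - ghE (ι := ι) B [] v (G c) * ((∏ a, ghGw B (G a) (σ a)) * P fun a => σ (rep 0 a))) := by
    intro σ
    rw [Finset.mul_sum, Finset.sum_mul]
    exact Finset.sum_congr rfl fun c _ => by ring
  simp only [e1]
  rw [Finset.sum_comm]
  refine Finset.sum_congr rfl fun c _ => ?_
  rw [← Finset.mul_sum, Finset.sum_sub_distrib, ← Finset.mul_sum]
  by_cases hc : rep 0 c = c
  · rw [if_pos hc, ghs_nu_nil_ext_one hB, ghs_nu_ext_zero, ghs_nu_nil, hc]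
    ring
  · rw [if_neg hc]
    have hR : ∀ (σ : Fin q → S) (s : S), (P fun a => Function.update σ c s (rep 0 a)) = P fun a => σ (rep 0 a) := by
      intro σ s
      congr 1
      funext a
      refine Function.update_of_ne ?_ _ _
      intro h
      exact hc (by rw [← h, hid])
    rw [ghs_indep (fun a => ghGw B (G a)) c v (fun σ => P fun a => σ (rep 0 a)) hR (ghs_Gw_sum hB _), ghE]
    ring


theorem ghs_ten_bound {q : ℕ} {P : (Fin q → S) → ℝ} {C : ℝ} (hP : ∀ σ, |P σ| ≤ C) (v : S → ℝ)
    (σ : Fin (q + 1) → S) : |ghTen P v σ| ≤ C * ‖v‖ := by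
  unfold ghTen
  rw [abs_mul]
  exact mul_le_mul (hP _) (by simpa using norm_le_pi_norm v (σ (Fin.last q))) (abs_nonneg _)
    ((abs_nonneg _).trans (hP fun a => σ a.castSucc))

theorem ghs_slot_bound {B : GhB S} (hB : B.Ok) {q : ℕ} {P : (Fin q → S) → ℝ} {C : ℝ} (hP : ∀ σ, |P σ| ≤ C)
    {ls : List (GhLv S ι)} (h : GhNn ls) (rep : ℕ → Fin q → Fin q) (G : Fin q → S → ℝ) (v : S → ℝ) :
    |ghSlot B ls rep G P v| ≤ ∑ t ∈ Finset.range (ls.length + 1), ∑ _c : Fin q,
      |ghM 0 ls B.a (t + 1)| * (2 * (C * ‖v‖)) := by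
  unfold ghSlot
  refine (Finset.abs_sum_le_sum_abs _ _).trans (Finset.sum_le_sum fun t _ => ?_)
  refine (Finset.abs_sum_le_sum_abs _ _).trans (Finset.sum_le_sum fun c _ => ?_)
  have h1 := ghs_nu_bound hB (ghs_ten_bound hP v) h (ghRepX rep (t + 1) c) (ghSn G (G c))
  have h2 := ghs_nu_bound hB (ghs_ten_bound hP v) h (ghRepX rep t c) (ghSn G (G c))
  have h0 : 0 ≤ C * ‖v‖ := (abs_nonneg _).trans h1
  split_ifs
  · rw [abs_mul]
    refine mul_le_mul_of_nonneg_left ?_ (abs_nonneg _)
    refine (abs_sub _ _).trans ?_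
    linarith
  · rw [abs_zero]
    positivity

theorem ghs_sn_cont {q : ℕ} (c : Fin q) : Continuous (fun G : Fin q → S → ℝ => ghSn G (G c)) := by
  refine continuous_pi fun x => ?_
  induction x using Fin.lastCases with
  | last => simpa using continuous_apply c
  | cast a => simpa using continuous_apply a

theorem ghs_slot_cont {B : GhB S} (hB : B.Ok) {q : ℕ} (P : (Fin q → S) → ℝ)
    {ls : List (GhLv S ι)} (h : GhNn ls) (rep : ℕ → Fin q → Fin q) (v : S → ℝ) :
    Continuous (fun G : Fin q → S → ℝ => ghSlot B ls rep G P v) := by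
  unfold ghSlot
  refine continuous_finsetSum _ fun t _ => continuous_finsetSum _ fun c _ => ?_
  split_ifs
  · refine continuous_const.mul (Continuous.sub ?_ ?_)
    · exact (ghs_nu_cont hB _ h _).comp (ghs_sn_cont c)
    · exact (ghs_nu_cont hB _ h _).comp (ghs_sn_cont c)
  · exact continuous_const

theorem ghs_D_line {B : GhB S} (hB : B.Ok) {l : GhLv S ι} {ls : List (GhLv S ι)} (h : GhNn (l :: ls))
    (z v : S → ℝ) (ξ : ι → ℝ) :
    HasDerivAt (fun x : ℝ => ghD B l ls (z + x • v) ξ)
      (ghD B l ls z ξ * (l.m * (ghE B ls v (z + l.inc ξ) - ghE B (l :: ls) v z))) 0 := by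
  unfold ghD
  have h1 := ghs_F_line hB h.tail (z + l.inc ξ) v
  have h2 := ghs_F_line hB h z v
  have h3 := ((h1.fun_sub h2).const_mul l.m).exp
  simp only [zero_smul, add_zero] at h3
  have e : (fun x : ℝ => Real.exp (l.m * (ghF B ls (z + x • v + l.inc ξ) - ghF B (l :: ls) (z + x • v))))
      = fun x : ℝ => Real.exp (l.m * (ghF B ls (z + l.inc ξ + x • v) - ghF B (l :: ls) (z + x • v))) := by
    funext x; rw [add_right_comm]
  rw [e]
  exact h3

theorem ghs_DT_line {B : GhB S} (hB : B.Ok) {l : GhLv S ι} {ls : List (GhLv S ι)} (h : GhNn (l :: ls))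
    {q : ℕ} (r : Fin q → Fin q) (G : Fin q → S → ℝ) (v : S → ℝ) (W : Fin q → ι → ℝ) :
    HasDerivAt (fun x : ℝ => ghDT B l ls r (fun a => G a + x • v) W)
      (ghDT B l ls r G W * ∑ c, if r c = c then
        l.m * (ghE B ls v (G c + l.inc (W c)) - ghE B (l :: ls) v (G c)) else 0) 0 := by
  unfold ghDT
  have := ghs_prod_deriv (f := fun a (x : ℝ) => if r a = a then ghD B l ls (G a + x • v) (W a) else 1)
    (lam := fun c => if r c = c then l.m * (ghE B ls v (G c + l.inc (W c)) - ghE B (l :: ls) v (G c)) else 0)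
    (x := 0) (fun a => by
      by_cases ha : r a = a
      · simpa [ha] using ghs_D_line hB h (G a) v (W a)
      · simpa [ha] using hasDerivAt_const (0 : ℝ) (1 : ℝ))
  simpa using this


theorem ghs_int_ite_sum {α κ : Type} [MeasurableSpace α] {μ : Measure α} (s : Finset κ) (p : κ → Prop)
    [DecidablePred p] (f : κ → α → ℝ) (hf : ∀ i ∈ s, p i → Integrable (f i) μ) :
    Integrable (fun x => ∑ i ∈ s, if p i then f i x else 0) μ ∧
    ∫ x, ∑ i ∈ s, (if p i then f i x else 0) ∂μ = ∑ i ∈ s, if p i then ∫ x, f i x ∂μ else 0 := by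
  have hi : ∀ i ∈ s, Integrable (fun x => if p i then f i x else 0) μ := by
    intro i hi
    by_cases h : p i
    · simpa [h] using hf i hi h
    · simp [h]
  refine ⟨integrable_finsetSum _ hi, ?_⟩
  rw [integral_finsetSum _ hi]
  refine Finset.sum_congr rfl fun i _ => ?_
  by_cases h : p i
  · simp [h]
  · simp [h]

theorem ghs_M_cons_one (l : GhLv S ι) (ls : List (GhLv S ι)) (a : ℝ) : ghM 0 (l :: ls) a 1 = l.m := by
  simp [ghM]

theorem ghs_M_cons_succ (l : GhLv S ι) (ls : List (GhLv S ι)) (a : ℝ) (t : ℕ) :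
    ghM 0 (l :: ls) a (t + 1 + 1) = ghM 0 ls a (t + 1) := by
  simp [ghM]

theorem ghs_field_cont (l : GhLv S ι) {q : ℕ} (r : Fin q → Fin q) (G : Fin q → S → ℝ) :
    Continuous (fun W : Fin q → ι → ℝ => fun a => G a + l.inc (W (r a))) := by
  have := ghs_inc_cont l
  fun_prop

theorem ghs_slot_cons_eq {B : GhB S} (hB : B.Ok) {l : GhLv S ι} {ls : List (GhLv S ι)} (h : GhNn (l :: ls))
    {q : ℕ} (rep : ℕ → Fin q → Fin q) (G : Fin q → S → ℝ) (P : (Fin q → S) → ℝ) (v : S → ℝ) :
    ∫ W : Fin q → ι → ℝ, (ghDT B l ls (rep 0) G W * (∑ c, if rep 0 c = c then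
        l.m * (ghE B ls v (G c + l.inc (W c)) - ghE B (l :: ls) v (G c)) else 0)
        * ghNu B ls (fun t => rep (t + 1)) (fun a => G a + l.inc (W (rep 0 a))) (ghSp P)
      + ghDT B l ls (rep 0) G W * ghSlot B ls (fun t => rep (t + 1)) (fun a => G a + l.inc (W (rep 0 a))) P v)
      ∂(Measure.pi fun _ : Fin q => ghStd ι) = ghSlot B (l :: ls) rep G P v := by
  obtain ⟨C, hC⟩ : ∃ C, ∀ σ, |P σ| ≤ C :=
    ⟨∑ σ, |P σ|, fun σ => Finset.single_le_sum (f := fun σ => |P σ|) (fun _ _ => abs_nonneg _) (Finset.mem_univ σ)⟩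
  set μ := Measure.pi fun _ : Fin q => ghStd ι with hμ
  set DT : (Fin q → ι → ℝ) → ℝ := fun W => ghDT B l ls (rep 0) G W with hDT
  set N : (Fin q → ι → ℝ) → ℝ :=
    fun W => ghNu B ls (fun t => rep (t + 1)) (fun a => G a + l.inc (W (rep 0 a))) (ghSp P) with hN
  have hNc : Continuous N := (ghs_nu_cont hB P h.tail _).comp (ghs_field_cont l (rep 0) G)
  have hNb : ∀ W, |N W| ≤ C := fun W => ghs_nu_bound hB hC h.tail _ _
  have hC0 : 0 ≤ C := (abs_nonneg _).trans (hNb 0)
  -- the extended expectations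
  set X : ℕ → Fin q → (Fin q → ι → ℝ) → ℝ := fun k c W =>
    ghNu B ls (ghRepX (fun t => rep (t + 1)) k c)
      (ghSn (fun a => G a + l.inc (W (rep 0 a))) (G c + l.inc (W (rep 0 c)))) (ghSp (ghTen P v)) with hX
  have hXc : ∀ k c, Continuous (X k c) := by
    intro k c
    exact ((ghs_nu_cont hB _ h.tail _).comp (ghs_sn_cont c)).comp (ghs_field_cont l (rep 0) G)
  have hXb : ∀ k c W, |X k c W| ≤ C * ‖v‖ := fun k c W => ghs_nu_bound hB (ghs_ten_bound hC v) h.tail _ _
  have hXi : ∀ k c, Integrable (fun W => DT W * X k c W) μ :=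
    fun k c => ghs_DT_mul_int hB h (rep 0) G (hXc k c) (hXb k c)
  have hNi : Integrable (fun W => DT W * N W) μ := ghs_DT_mul_int hB h (rep 0) G hNc hNb
  have hXe : ∀ k c, ghNu B (l :: ls) (ghRepX rep (k + 1) c) (ghSn G (G c)) (ghSp (ghTen P v))
      = ∫ W, DT W * X k c W ∂μ := fun k c => ghs_nu_ext_succ B l ls rep k c G (G c) _
  have hX0 : ∀ c W, X 0 c W = N W * ghE B ls v (G c + l.inc (W (rep 0 c))) :=
    fun c W => ghs_nu_ext_zero B P v c ls _ _ _
  have hN0 : ∀ c, ghNu B (l :: ls) (ghRepX rep 0 c) (ghSn G (G c)) (ghSp (ghTen P v))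
      = (∫ W, DT W * N W ∂μ) * ghE B (l :: ls) v (G c) := by
    intro c
    rw [ghs_nu_ext_zero, ghs_nu_cons]
  -- part A
  have hA := ghs_int_ite_sum (μ := μ) Finset.univ (fun c : Fin q => rep 0 c = c)
    (fun c W => l.m * (DT W * X 0 c W - ghE B (l :: ls) v (G c) * (DT W * N W)))
    (fun c _ _ => ((hXi 0 c).sub (hNi.const_mul _)).const_mul _)
  -- part B
  have hBt : ∀ t : ℕ, _ := fun t => ghs_int_ite_sum (μ := μ) Finset.univ (fun c : Fin q => rep (t + 1) c = c)
    (fun c W => ghM 0 ls B.a (t + 1) * (DT W * X (t + 1) c W - DT W * X t c W))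
    (fun c _ _ => ((hXi (t + 1) c).sub (hXi t c)).const_mul _)
  have hBs := integral_finsetSum (μ := μ) (Finset.range (ls.length + 1)) (fun t _ => (hBt t).1)
  have hBi := integrable_finsetSum (μ := μ) (Finset.range (ls.length + 1)) (fun t _ => (hBt t).1)
  have hsplit : ∀ W, DT W * (∑ c, if rep 0 c = c then
        l.m * (ghE B ls v (G c + l.inc (W c)) - ghE B (l :: ls) v (G c)) else 0) * N W
      + DT W * ghSlot B ls (fun t => rep (t + 1)) (fun a => G a + l.inc (W (rep 0 a))) P v
      = (∑ c, if rep 0 c = c then l.m * (DT W * X 0 c W - ghE B (l :: ls) v (G c) * (DT W * N W)) else 0)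
        + ∑ t ∈ Finset.range (ls.length + 1), ∑ c, if rep (t + 1) c = c then
            ghM 0 ls B.a (t + 1) * (DT W * X (t + 1) c W - DT W * X t c W) else 0 := by
    intro W
    congr 1
    · rw [Finset.mul_sum, Finset.sum_mul]
      refine Finset.sum_congr rfl fun c _ => ?_
      by_cases hc : rep 0 c = c
      · rw [if_pos hc, if_pos hc, hX0, hc]; ring
      · rw [if_neg hc, if_neg hc]; ring
    · unfold ghSlot
      rw [Finset.mul_sum]
      refine Finset.sum_congr rfl fun t _ => ?_
      rw [Finset.mul_sum]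
      refine Finset.sum_congr rfl fun c _ => ?_
      by_cases hc : rep (t + 1) c = c
      · rw [if_pos hc, if_pos hc]; ring
      · rw [if_neg hc, if_neg hc]; ring
  refine (integral_congr_ae (μ := μ) (Filter.Eventually.of_forall hsplit)).trans ?_
  rw [integral_add hA.1 hBi, hA.2, hBs]
  unfold ghSlot
  rw [List.length_cons]
  conv_rhs => rw [Finset.sum_range_succ', add_comm]
  congr 1
  · refine Finset.sum_congr rfl fun c _ => ?_
    by_cases hc : rep 0 c = c
    · rw [if_pos hc, if_pos hc, ghs_M_cons_one, hXe, hN0, integral_const_mul,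
        integral_sub (hXi 0 c) (hNi.const_mul _), integral_const_mul]
      ring
    · rw [if_neg hc, if_neg hc]
  · refine Finset.sum_congr rfl fun t _ => ?_
    rw [(hBt t).2]
    refine Finset.sum_congr rfl fun c _ => ?_
    by_cases hc : rep (t + 1) c = c
    · rw [if_pos hc, if_pos hc, ghs_M_cons_succ, hXe, hXe, integral_const_mul,
        integral_sub (hXi (t + 1) c) (hXi t c)]
    · rw [if_neg hc, if_neg hc]


/-- **One-slot source formula, forest form** (PE Prop 2.5, one derivative slot): derivative of a tree expectation in a common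
source `v`, as the signed sum (Abel form) of the expectations on the forests extended by one label. -/
theorem ghs_slot {B : GhB S} (hB : B.Ok) {q : ℕ} (P : (Fin q → S) → ℝ) (v : S → ℝ) :
    ∀ {ls : List (GhLv S ι)}, GhNn ls → ∀ (rep : ℕ → Fin q → Fin q), (∀ t a, rep t (rep t a) = rep t a) →
      ∀ G : Fin q → S → ℝ,
      HasDerivAt (fun x : ℝ => ghNu B ls rep (fun a => G a + x • v) (ghSp P)) (ghSlot B ls rep G P v) 0 := by
  intro ls
  induction ls with
  | nil =>
    intro _ rep hid G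
    exact ghs_slot_nil hB rep (hid 0) G P v
  | cons l ls ih =>
    intro h rep hid G
    obtain ⟨C, hC⟩ : ∃ C, ∀ σ, |P σ| ≤ C :=
      ⟨∑ σ, |P σ|, fun σ => Finset.single_le_sum (f := fun σ => |P σ|) (fun _ _ => abs_nonneg _) (Finset.mem_univ σ)⟩
    obtain ⟨bT, hbT, hle⟩ := ghs_DT_bound hB h (rep 0)
    set μ := Measure.pi fun _ : Fin q => ghStd ι with hμ
    let Lam : (Fin q → ι → ℝ) → (Fin q → S → ℝ) → ℝ := fun W G => ∑ c, if rep 0 c = c then
        l.m * (ghE B ls v (G c + l.inc (W c)) - ghE B (l :: ls) v (G c)) else 0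
    let Φ : (Fin q → ι → ℝ) → (Fin q → S → ℝ) → ℝ := fun W G => ghDT B l ls (rep 0) G W *
        ghNu B ls (fun t => rep (t + 1)) (fun a => G a + l.inc (W (rep 0 a))) (ghSp P)
    let D : (Fin q → ι → ℝ) → (Fin q → S → ℝ) → ℝ := fun W G => ghDT B l ls (rep 0) G W * Lam W G
        * ghNu B ls (fun t => rep (t + 1)) (fun a => G a + l.inc (W (rep 0 a))) (ghSp P)
      + ghDT B l ls (rep 0) G W * ghSlot B ls (fun t => rep (t + 1)) (fun a => G a + l.inc (W (rep 0 a))) P v
    have hpt : ∀ W G, HasDerivAt (fun y : ℝ => Φ W fun a => G a + y • v) (D W G) 0 := by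
      intro W G
      have h1 := ghs_DT_line hB h (rep 0) G v W
      have h2 := ih h.tail (fun t => rep (t + 1)) (fun t a => hid (t + 1) a) (fun a => G a + l.inc (W (rep 0 a)))
      have e : (fun y : ℝ => ghNu B ls (fun t => rep (t + 1)) (fun a => G a + y • v + l.inc (W (rep 0 a))) (ghSp P))
          = fun y : ℝ => ghNu B ls (fun t => rep (t + 1)) (fun a => G a + l.inc (W (rep 0 a)) + y • v) (ghSp P) := by
        funext y; congr 1; funext a; rw [add_right_comm]
      rw [← e] at h2
      have h3 := h1.fun_mul h2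
      simp only [zero_smul, add_zero] at h3
      exact h3
    have hpt' : ∀ W (x : ℝ), HasDerivAt (fun y : ℝ => Φ W fun a => G a + y • v) (D W fun a => G a + x • v) x :=
      fun W x => ghs_line_shift (hpt W) G x
    -- continuity in the drivers
    have hNc : ∀ G : Fin q → S → ℝ, Continuous fun W : Fin q → ι → ℝ =>
        ghNu B ls (fun t => rep (t + 1)) (fun a => G a + l.inc (W (rep 0 a))) (ghSp P) :=
      fun G => (ghs_nu_cont hB P h.tail _).comp (ghs_field_cont l (rep 0) G)
    have hDc : ∀ G : Fin q → S → ℝ, Continuous fun W : Fin q → ι → ℝ => ghDT B l ls (rep 0) G W :=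
      fun G => (ghs_DT_cont hB h (rep 0)).comp (by fun_prop : Continuous fun W : Fin q → ι → ℝ => (G, W))
    have hΦc : ∀ G, Continuous fun W => Φ W G := fun G => (hDc G).mul (hNc G)
    have hLc : ∀ G, Continuous fun W => Lam W G := by
      intro G
      refine continuous_finsetSum _ fun c _ => ?_
      split_ifs
      · refine continuous_const.mul (Continuous.sub ?_ continuous_const)
        refine (ghs_E_cont hB h.tail v).comp ?_
        have := ghs_inc_cont l
        fun_prop
      · exact continuous_const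
    have hSc : ∀ G : Fin q → S → ℝ, Continuous fun W : Fin q → ι → ℝ =>
        ghSlot B ls (fun t => rep (t + 1)) (fun a => G a + l.inc (W (rep 0 a))) P v :=
      fun G => (ghs_slot_cont hB P h.tail _ v).comp (ghs_field_cont l (rep 0) G)
    have hDDc : ∀ G, Continuous fun W => D W G :=
      fun G => (((hDc G).mul (hLc G)).mul (hNc G)).add ((hDc G).mul (hSc G))
    -- bounds
    have hNb : ∀ (G : Fin q → S → ℝ) (W : Fin q → ι → ℝ),
        |ghNu B ls (fun t => rep (t + 1)) (fun a => G a + l.inc (W (rep 0 a))) (ghSp P)| ≤ C :=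
      fun G W => ghs_nu_bound hB hC h.tail _ _
    have hC0 : 0 ≤ C := (abs_nonneg _).trans (hNb G 0)
    set KL : ℝ := ∑ _c : Fin q, |l.m| * (2 * ‖v‖) with hKL
    have hLb : ∀ W G, |Lam W G| ≤ KL := by
      intro W G
      refine (Finset.abs_sum_le_sum_abs _ _).trans (Finset.sum_le_sum fun c _ => ?_)
      split_ifs
      · rw [abs_mul]
        refine mul_le_mul_of_nonneg_left ?_ (abs_nonneg _)
        refine (abs_sub _ _).trans ?_
        have h1 := ghs_E_bound hB h.tail v (G c + l.inc (W c))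
        have h2 := ghs_E_bound hB h v (G c)
        linarith
      · rw [abs_zero]; positivity
    have hKL0 : 0 ≤ KL := (abs_nonneg _).trans (hLb 0 G)
    set KS : ℝ := ∑ t ∈ Finset.range (ls.length + 1), ∑ _c : Fin q, |ghM 0 ls B.a (t + 1)| * (2 * (C * ‖v‖)) with hKS
    have hSb : ∀ (G : Fin q → S → ℝ) (W : Fin q → ι → ℝ),
        |ghSlot B ls (fun t => rep (t + 1)) (fun a => G a + l.inc (W (rep 0 a))) P v| ≤ KS :=
      fun G W => ghs_slot_bound hB hC h.tail _ _ v
    have hDb : ∀ W G, |D W G| ≤ bT W * (KL * C + KS) := by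
      intro W G
      have hp := ghs_DT_pos B l ls (rep 0) G W
      have e : D W G = ghDT B l ls (rep 0) G W * (Lam W G
          * ghNu B ls (fun t => rep (t + 1)) (fun a => G a + l.inc (W (rep 0 a))) (ghSp P)
          + ghSlot B ls (fun t => rep (t + 1)) (fun a => G a + l.inc (W (rep 0 a))) P v) := by
        simp only [D]; ring
      rw [e, abs_mul, abs_of_pos hp]
      refine mul_le_mul (hle _ _) ?_ (abs_nonneg _) (hp.le.trans (hle _ _))
      refine (abs_add_le _ _).trans (add_le_add ?_ (hSb G W))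
      rw [abs_mul]
      exact mul_le_mul (hLb W G) (hNb G W) (abs_nonneg _) hKL0
    have key := hasDerivAt_integral_of_dominated_loc_of_deriv_le (μ := μ)
      (F := fun (x : ℝ) W => Φ W fun a => G a + x • v) (F' := fun (x : ℝ) W => D W fun a => G a + x • v)
      (x₀ := 0) (s := Set.univ) Filter.univ_mem (bound := fun W => bT W * (KL * C + KS))
      (Filter.Eventually.of_forall fun x => (hΦc _).aestronglyMeasurable)
      (by
        simp only [zero_smul, add_zero]
        exact ghs_DT_mul_int hB h (rep 0) G (hNc G) (hNb G))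
      (hDDc _).aestronglyMeasurable
      (Filter.Eventually.of_forall fun W x _ => by simpa using hDb W _)
      (hbT.mul_const _)
      (Filter.Eventually.of_forall fun W x _ => hpt' W x)
    have hfin := key.2
    simp only [zero_smul, add_zero] at hfin
    have e1 : (fun x : ℝ => ghNu B (l :: ls) rep (fun a => G a + x • v) (ghSp P))
        = fun x : ℝ => ∫ W, Φ W (fun a => G a + x • v) ∂μ := by
      funext x; rw [ghs_nu_cons]
    rw [e1, ← ghs_slot_cons_eq hB h rep G P v]
    exact hfin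

theorem ghs_b_eqns_cite : True := by
  have := @ghSlot.eq_1
  trivial

end Claimed.Agent.R286
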