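import Claimed.Agent.R286.Fd.SlotB
import Claimed.Agent.R286.Fd.TrKit9
import Claimed.Agent.R286.Fd.TrA4
import Claimed.Agent.R286.Fd.NuApiC
import Claimed.Agent.R286.Fd.TrBe

/-!
# Row 286 (S0533), Fd/SlotC : ONE-SLOT SOURCE FORMULA for the tree numbers `trNu`      (owner helper134; prefix `ghs_`; sorry free)

Bridge from the raw forest form `ghs_slot` (Fd/SlotB) to the vocabulary of `Defs/Tr`:
`trRep` is characterised (`ghs_trRep_eq_of`, `ghs_trRep_spec`), the representative maps of `trAtt` are the maps `ghRepX`,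
edge form = node form is `tk9_sum_edge` of helper9.   Exit: `ghs_tr_src_deriv` (= statement `tr_src_deriv` of Fd/TrC1).
-/

set_option autoImplicit false
set_option linter.unusedSectionVars false

namespace Claimed.Agent.R286

open MeasureTheory ProbabilityTheory

/-! ### the representative maps `trRep` -/

theorem ghs_trRep_eq_of {q : ℕ} {τ : ℕ → ℕ → ℕ} {j : ℕ} {a b : Fin q} (h1 : j < τ a.1 b.1)
    (h2 : ∀ b' : Fin q, b' < b → ¬ j < τ a.1 b'.1) : trRep q τ j a = b := by
  unfold trRep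
  have : (List.finRange q).find? (fun b : Fin q => decide (j < τ a.1 b.1)) = some b := by
    rw [List.find?_eq_some_iff_getElem]
    refine ⟨by simpa using h1, b.1, by simp, by simp, fun i hi => ?_⟩
    have := h2 ⟨i, hi.trans b.2⟩ hi
    simpa using this
  rw [this]; rfl

theorem ghs_trRep_none {q : ℕ} {τ : ℕ → ℕ → ℕ} {j : ℕ} {a : Fin q} (h : ∀ b : Fin q, ¬ j < τ a.1 b.1) :
    trRep q τ j a = a := by
  unfold trRep
  have : (List.finRange q).find? (fun b : Fin q => decide (j < τ a.1 b.1)) = none := by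
    rw [List.find?_eq_none]
    intro x _
    simpa using h x
  rw [this]; rfl

theorem ghs_trRep_spec {q : ℕ} {τ : ℕ → ℕ → ℕ} {j : ℕ} {a : Fin q} (hex : ∃ b : Fin q, j < τ a.1 b.1) :
    j < τ a.1 (trRep q τ j a).1 ∧ ∀ b' : Fin q, b' < trRep q τ j a → ¬ j < τ a.1 b'.1 := by
  unfold trRep
  cases hf : (List.finRange q).find? (fun b : Fin q => decide (j < τ a.1 b.1)) with
  | none =>
    exfalso
    rw [List.find?_eq_none] at hf
    obtain ⟨b, hb⟩ := hex
    exact hf b (List.mem_finRange b) (by simpa using hb)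
  | some r =>
    rw [List.find?_eq_some_iff_getElem] at hf
    obtain ⟨h1, i, hi, hir, hmin⟩ := hf
    simp only [Option.getD_some]
    refine ⟨by simpa using h1, fun b' hb' => ?_⟩
    have hri : r.1 = i := by rw [← hir]; simp
    have := hmin b'.1 (by rw [← hri]; exact hb')
    simpa using this

theorem ghs_trRep_idem {N q : ℕ} {τ : ℕ → ℕ → ℕ} (hτ : IsTr N q τ) (t : ℕ) (a : Fin q) :
    trRep q τ t (trRep q τ t a) = trRep q τ t a := by
  by_cases ht : t ≤ N
  · have hs := ghs_trRep_spec (q := q) (τ := τ) (j := t) (a := a) ⟨a, by rw [hτ.diag a.1 a.2]; omega⟩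
    set r := trRep q τ t a with hr
    refine ghs_trRep_eq_of (by rw [hτ.diag r.1 r.2]; omega) fun b' hb' hlt => hs.2 b' hb' ?_
    have := hτ.ultra a.1 r.1 b'.1 a.2 r.2 b'.2
    exact lt_of_lt_of_le (lt_min hs.1 hlt) this
  · have hn : ∀ x : Fin q, trRep q τ t x = x := fun x => ghs_trRep_none fun b => by
      have := hτ.le x.1 b.1 x.2 b.2
      omega
    rw [hn, hn]

theorem ghs_trRep_fix_iff {N q : ℕ} {τ : ℕ → ℕ → ℕ} (hτ : IsTr N q τ) {t : ℕ} (ht : t ≤ N) (c : Fin q) :
    trRep q τ t c = c ↔ trIsMin τ (t + 1) c.1 := by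
  constructor
  · intro h y hy
    have hs := ghs_trRep_spec (q := q) (τ := τ) (j := t) (a := c) ⟨c, by rw [hτ.diag c.1 c.2]; omega⟩
    rw [h] at hs
    have := hs.2 ⟨y, hy.trans c.2⟩ hy
    simp only at this
    omega
  · intro h
    refine ghs_trRep_eq_of (by rw [hτ.diag c.1 c.2]; omega) fun b' hb' => ?_
    have := h b'.1 hb'
    omega

theorem ghs_trRep_att {N q : ℕ} {τ : ℕ → ℕ → ℕ} (hτ : IsTr N q τ) (c : Fin q) (j : ℕ) {t : ℕ} (ht : t ≤ N) :
    trRep (q + 1) (trAtt N q τ c.1 j) t = ghRepX (fun t => trRep q τ t) j c t := by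
  funext x
  induction x using Fin.lastCases with
  | last =>
    by_cases hj : t < j
    · rw [ghRepX_last_lt _ _ hj]
      have hs := ghs_trRep_spec (q := q) (τ := τ) (j := t) (a := c) ⟨c, by rw [hτ.diag c.1 c.2]; omega⟩
      refine ghs_trRep_eq_of ?_ fun b' hb' => ?_
      · simp only [Fin.val_last, Fin.val_castSucc]
        rw [trw_att_nl (trRep q τ t c).2]
        exact lt_min hj hs.1
      · have hb : b'.1 < (trRep q τ t c).1 := hb'
        have hbq : b'.1 < q := hb.trans (trRep q τ t c).2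
        simp only [Fin.val_last]
        rw [trw_att_nl hbq]
        intro hlt
        exact hs.2 ⟨b'.1, hbq⟩ hb (lt_of_lt_of_le hlt (min_le_right _ _))
    · rw [ghRepX_last_ge _ _ (not_lt.1 hj)]
      refine ghs_trRep_eq_of ?_ fun b' hb' => ?_
      · simp only [Fin.val_last]
        rw [trw_att_nn]; omega
      · have hbq : b'.1 < q := hb'
        simp only [Fin.val_last]
        rw [trw_att_nl hbq]
        have := min_le_left j (τ c.1 b'.1)
        omega
  | cast b =>
    rw [ghRepX_cast]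
    have hs := ghs_trRep_spec (q := q) (τ := τ) (j := t) (a := b) ⟨b, by rw [hτ.diag b.1 b.2]; omega⟩
    refine ghs_trRep_eq_of ?_ fun b' hb' => ?_
    · simp only [Fin.val_castSucc]
      rw [trw_att_old b.2 (trRep q τ t b).2]
      exact hs.1
    · have hb : b'.1 < (trRep q τ t b).1 := hb'
      have hbq : b'.1 < q := hb.trans (trRep q τ t b).2
      simp only [Fin.val_castSucc]
      rw [trw_att_old b.2 hbq]
      exact hs.2 ⟨b'.1, hbq⟩ hb

/-! ### masses -/

theorem ghs_M_eq_trMs {S ι : Type} (B : GhB S) : ∀ (ls : List (GhLv S ι)) (t : ℕ), t ≤ ls.length →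
    ghM 0 ls B.a (t + 1) = trMs B ls t
  | [], t, ht => by
      have : t = 0 := by simpa using ht
      subst this
      simp [ghM, trMs]
  | l :: ls, 0, _ => by simp [ghM, trMs]
  | l :: ls, t + 1, ht => by
      have := ghs_M_eq_trMs B ls t (by simpa using ht)
      simp only [ghM, trMs] at this ⊢
      simpa using this


/-! ### the tree numbers -/

section
variable {S ι : Type} [Fintype S] [Fintype ι] [Inhabited S]

theorem ghs_tr_loc (B : GhB S) (ls : List (GhLv S ι)) (q : ℕ) (z : S → ℝ) (Q : (ℕ → S) → ℝ) :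
    TrLoc q fun τ₁ => trNu B ls q τ₁ z Q := by
  intro τ₁ τ₂ h
  unfold trNu
  beta_reduce
  have : (fun t => trRep q τ₁ t) = fun t => trRep q τ₂ t := by
    funext t
    exact tr_e_rep_congr fun a b => by rw [h a.1 b.1 a.2 b.2]
  rw [this]

/-- the tree number of the enlarged tree `trAtt` is the raw expectation on the extended forest -/
theorem ghs_tr_att (B : GhB S) (ls : List (GhLv S ι)) {q : ℕ} {τ : ℕ → ℕ → ℕ} (hτ : IsTr ls.length q τ) (c : Fin q) (j : ℕ)
    (z φ : S → ℝ) (P : (ℕ → S) → ℝ) (hP : TrUses q P) :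
    trNu B ls (q + 1) (trAtt ls.length q τ c.1 j) z (fun σ => P σ * φ (σ q))
      = ghNu B ls (ghRepX (fun t => trRep q τ t) j c) (ghSn (fun _ => z) z)
          (ghSp (ghTen (fun σ : Fin q → S => P (trExt σ)) φ)) := by
  unfold trNu
  rw [gh_n_congr_rep B ls _ (ghRepX (fun t => trRep q τ t) j c) fun t ht => ghs_trRep_att hτ c j ht]
  have hG : (fun _ : Fin (q + 1) => z) = ghSn (fun _ : Fin q => z) z := by
    funext x
    induction x using Fin.lastCases with
    | last => simp
    | cast a => simp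
  rw [hG]
  congr 1
  funext _ σ
  unfold ghSp ghTen
  beta_reduce
  congr 1
  · refine hP _ _ fun i hi => ?_
    simp [trExt, hi, Nat.lt_succ_of_lt hi]
  · simp [trExt]
    rfl

/-- **one derivative slot** (statement of `tr_src_deriv`, Fd/TrC1) -/
theorem ghs_tr_src_deriv {B : GhB S} (hB : B.Ok) {ls : List (GhLv S ι)} (hls : GhAdm B 0 ls) {q : ℕ} {τ : ℕ → ℕ → ℕ}
    (hτ : IsTr ls.length q τ) (z φ : S → ℝ) (P : (ℕ → S) → ℝ) (hP : TrUses q P) :
    HasDerivAt (fun ε : ℝ => trNu B ls q τ (z + ε • φ) P)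
      (trSum (trMs B ls) ls.length q τ fun τ₁ => trNu B ls (q + 1) τ₁ z fun σ => P σ * φ (σ q)) 0 := by
  have h := ghs_slot hB (fun σ : Fin q → S => P (trExt σ)) φ (hls.ghNn le_rfl) (fun t => trRep q τ t)
    (fun t a => ghs_trRep_idem hτ t a) (fun _ => z)
  have e : ghSlot B ls (fun t => trRep q τ t) (fun _ => z) (fun σ : Fin q → S => P (trExt σ)) φ
      = trSum (trMs B ls) ls.length q τ fun τ₁ => trNu B ls (q + 1) τ₁ z fun σ => P σ * φ (σ q) := by
    rw [tk9_sum_edge hτ _ (ghs_tr_loc B ls (q + 1) z _)]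
    unfold ghSlot trEd
    rw [Finset.sum_comm, Finset.sum_range]
    refine Finset.sum_congr rfl fun c _ => Finset.sum_congr rfl fun t ht => ?_
    have ht' : t ≤ ls.length := Nat.lt_succ_iff.1 (Finset.mem_range.1 ht)
    beta_reduce
    rw [ghs_tr_att B ls hτ c (t + 1) z φ P hP, ghs_tr_att B ls hτ c t z φ P hP, ghs_M_eq_trMs B ls t ht']
    by_cases hc : trRep q τ t c = c
    · rw [if_pos hc, if_pos ((ghs_trRep_fix_iff hτ ht' c).1 hc)]
    · rw [if_neg hc, if_neg fun h' => hc ((ghs_trRep_fix_iff hτ ht' c).2 h'), zero_mul]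
  rw [← e]
  exact h

end

end Claimed.Agent.R286
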