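import Claimed.Agent.R286.Fd.SrcSym
import Claimed.Agent.R286.Fd.TrA2
import Claimed.Agent.R286.Fd.TrB1
import Claimed.Agent.R286.Gh.Reg

/-!
# Row 286 (S0533), Fd/SrcIt : all the consumers of the ONE-SLOT source formula      (helper156)

Input: `SitOne B ls` = the statement of `tr_src_deriv` (Fd/TrC1) for all trees and tests.
Output (statements of Fd/TrC1, verbatim up to the hypothesis `SitOne`):
`sit_src_deriv_iter`, `sit_F_src_iter`, `sit_src_bounds`, `sit_nu_src_bounds`;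
tools: `sit_hasFDerivAt` (Frechet form of one slot), `sit_contDiff`, `sit_iter` (mixed derivatives of a tree number, any directions).
-/

set_option autoImplicit false

namespace Claimed.Agent.R286

open MeasureTheory ProbabilityTheory

section
variable {S ι : Type} [Fintype S] [Fintype ι] [Inhabited S]

/-- the one-slot source formula for all trees and tests -/
def SitOne (B : GhB S) (ls : List (GhLv S ι)) : Prop :=
  ∀ (q : ℕ) (τ : ℕ → ℕ → ℕ), IsTr ls.length q τ → ∀ (z φ : S → ℝ) (P : (ℕ → S) → ℝ), TrUses q P →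
    HasDerivAt (fun ε : ℝ => trNu B ls q τ (z + ε • φ) P)
      (trSum (trMs B ls) ls.length q τ fun τ₁ => trNu B ls (q + 1) τ₁ z fun σ => P σ * φ (σ q)) 0

/-! ### tests -/

theorem sit_uses_mul {q : ℕ} {P : (ℕ → S) → ℝ} (hP : TrUses q P) (φ : S → ℝ) :
    TrUses (q + 1) fun σ => P σ * φ (σ q) := by
  intro σ σ' h
  show P σ * φ (σ q) = P σ' * φ (σ' q)
  rw [hP σ σ' fun i hi => h i (by omega), h q (by omega)]

theorem sit_uses_prod {q : ℕ} {P : (ℕ → S) → ℝ} (hP : TrUses q P) (φ : S → ℝ) (k : ℕ) :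
    TrUses (q + k) fun σ => P σ * ∏ i ∈ Finset.range k, φ (σ (q + i)) := by
  intro σ σ' h
  show P σ * _ = P σ' * _
  rw [hP σ σ' fun i hi => h i (by omega)]
  congr 1
  refine Finset.prod_congr rfl fun i hi => ?_
  rw [Finset.mem_range] at hi
  rw [h (q + i) (by omega)]

theorem sit_bdd {q : ℕ} {P : (ℕ → S) → ℝ} (hP : TrUses q P) : ∃ M : ℝ, 0 ≤ M ∧ ∀ σ, |P σ| ≤ M := by
  refine ⟨∑ σ₀ : Fin q → S, |P (trExt σ₀)|, Finset.sum_nonneg fun _ _ => abs_nonneg _, fun σ => ?_⟩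
  have h : P σ = P (trExt fun a : Fin q => σ a.1) := by
    refine hP _ _ fun i hi => ?_
    simp [trExt, hi]
  rw [h]
  exact Finset.single_le_sum (f := fun σ₀ : Fin q → S => |P (trExt σ₀)|) (fun _ _ => abs_nonneg _) (Finset.mem_univ _)

/-! ### a tree number is an average -/

theorem sit_nu_abs_le {B : GhB S} (hB : B.Ok) {ls : List (GhLv S ι)} (hls : GhAdm B 0 ls) (q : ℕ) (τ : ℕ → ℕ → ℕ)
    (z : S → ℝ) (P : (ℕ → S) → ℝ) (M : ℝ) (hM : ∀ σ, |P σ| ≤ M) : |trNu B ls q τ z P| ≤ M := by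
  classical
  rw [tr_nu_eq_sum hB hls]
  calc |∑ σ₀ : Fin q → S, trPr B ls q τ z σ₀ * P (trExt σ₀)|
      ≤ ∑ σ₀ : Fin q → S, |trPr B ls q τ z σ₀ * P (trExt σ₀)| := Finset.abs_sum_le_sum_abs _ _
    _ ≤ ∑ σ₀ : Fin q → S, trPr B ls q τ z σ₀ * M := by
        refine Finset.sum_le_sum fun σ₀ _ => ?_
        rw [abs_mul, abs_of_nonneg (tr_pr_nonneg hB hls q τ z σ₀)]
        exact mul_le_mul_of_nonneg_left (hM _) (tr_pr_nonneg hB hls q τ z σ₀)
    _ = M := by rw [← Finset.sum_mul, tr_pr_sum hB hls, one_mul]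

theorem sit_sumK_abs_le {B : GhB S} (hB : B.Ok) {ls : List (GhLv S ι)} (hls : GhAdm B 0 ls) {q : ℕ} {τ : ℕ → ℕ → ℕ}
    (hτ : IsTr ls.length q τ) (k : ℕ) (z : S → ℝ) (Q : (ℕ → S) → ℝ) (M : ℝ) (hM : ∀ σ, |Q σ| ≤ M) :
    |trSumK (trMs B ls) ls.length k q τ fun τ' => trNu B ls (q + k) τ' z Q|
      ≤ (2 * B.a) ^ k * (∏ i ∈ Finset.range k, ((q : ℝ) + i)) * M := by
  obtain ⟨hms, ha⟩ := tr_ms_isMs hB hls
  refine le_trans (tr_sumK_le k _) ?_
  have := tr_absK_le hτ hms k (fun τ' => trNu B ls (q + k) τ' z Q) M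
    (fun τ' _ => sit_nu_abs_le hB hls _ _ _ _ _ hM)
  rwa [ha] at this

/-! ### one slot, Frechet form -/

open Classical in
/-- the derivative of a tree number in the source, as a continuous linear form -/
noncomputable def sitL (B : GhB S) (ls : List (GhLv S ι)) (q : ℕ) (τ : ℕ → ℕ → ℕ) (P : (ℕ → S) → ℝ) (z : S → ℝ) :
    (S → ℝ) →L[ℝ] ℝ :=
  ∑ x ∈ Finset.range q, ∑ j ∈ Finset.range (ls.length + 2), trWt (trMs B ls) ls.length q τ x j •
    ∑ σ₀ : Fin (q + 1) → S, (trPr B ls (q + 1) (trAtt ls.length q τ x j) z σ₀ * P (trExt σ₀)) •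
      (ContinuousLinearMap.proj (trExt σ₀ q) : (S → ℝ) →L[ℝ] ℝ)

theorem sitL_apply {B : GhB S} (hB : B.Ok) {ls : List (GhLv S ι)} (hls : GhAdm B 0 ls) (q : ℕ) (τ : ℕ → ℕ → ℕ)
    (P : (ℕ → S) → ℝ) (z φ : S → ℝ) :
    sitL B ls q τ P z φ
      = trSum (trMs B ls) ls.length q τ fun τ₁ => trNu B ls (q + 1) τ₁ z fun σ => P σ * φ (σ q) := by
  classical
  unfold sitL trSum
  simp only [sum_apply, smul_apply, ContinuousLinearMap.proj_apply, smul_eq_mul]
  refine Finset.sum_congr rfl fun x _ => Finset.sum_congr rfl fun j _ => ?_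
  rw [tr_nu_eq_sum hB hls]
  congr 1
  refine Finset.sum_congr rfl fun σ₀ _ => ?_
  ring

theorem sitL_norm_le {B : GhB S} (hB : B.Ok) {ls : List (GhLv S ι)} (hls : GhAdm B 0 ls) {q : ℕ} {τ : ℕ → ℕ → ℕ}
    (hτ : IsTr ls.length q τ) (P : (ℕ → S) → ℝ) (M : ℝ) (hM0 : 0 ≤ M) (hM : ∀ σ, |P σ| ≤ M) (z : S → ℝ) :
    ‖sitL B ls q τ P z‖ ≤ 2 * B.a * q * M := by
  have ha := hB.pos
  refine ContinuousLinearMap.opNorm_le_bound _ (by positivity) fun φ => ?_
  rw [sitL_apply hB hls]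
  have h := sit_sumK_abs_le hB hls hτ 1 z (fun σ => P σ * φ (σ q)) (M * ‖φ‖) (fun σ => by
    rw [abs_mul]
    exact mul_le_mul (hM σ) (norm_le_pi_norm φ (σ q)) (abs_nonneg _) hM0)
  simp only [trSumK, pow_one, Finset.prod_range_one, Nat.cast_zero, add_zero] at h
  rw [Real.norm_eq_abs]
  calc _ ≤ 2 * B.a * q * (M * ‖φ‖) := h
    _ = 2 * B.a * q * M * ‖φ‖ := by ring

theorem sit_hasFDerivAt {B : GhB S} (hB : B.Ok) {ls : List (GhLv S ι)} (hls : GhAdm B 0 ls) (H : SitOne B ls)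
    {q : ℕ} {τ : ℕ → ℕ → ℕ} (hτ : IsTr ls.length q τ) (P : (ℕ → S) → ℝ) (hP : TrUses q P) (z : S → ℝ) :
    HasFDerivAt (fun z => trNu B ls q τ z P) (sitL B ls q τ P z) z := by
  obtain ⟨M, hM0, hM⟩ := sit_bdd hP
  have ha := hB.pos
  have hC0 : 0 ≤ 2 * B.a * q * M := by positivity
  refine sit_frechet (f := fun z => trNu B ls q τ z P) (L := sitL B ls q τ P) (C := ⟨2 * B.a * q * M, hC0⟩)
    (fun z v => ?_) (fun z => sitL_norm_le hB hls hτ P M hM0 hM z) z
  rw [sitL_apply hB hls]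
  exact H q τ hτ z v P hP

theorem sit_contDiff_nat {B : GhB S} (hB : B.Ok) {ls : List (GhLv S ι)} (hls : GhAdm B 0 ls) (H : SitOne B ls) (n : ℕ) :
    ∀ (q : ℕ) (τ : ℕ → ℕ → ℕ), IsTr ls.length q τ → ∀ P : (ℕ → S) → ℝ, TrUses q P →
      ContDiff ℝ n fun z => trNu B ls q τ z P := by
  induction n with
  | zero =>
    intro q τ hτ P hP
    rw [Nat.cast_zero, contDiff_zero]
    exact continuous_iff_continuousAt.mpr fun z => (sit_hasFDerivAt hB hls H hτ P hP z).continuousAt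
  | succ n ih =>
    intro q τ hτ P hP
    have hfd : fderiv ℝ (fun z => trNu B ls q τ z P) = sitL B ls q τ P :=
      funext fun z => (sit_hasFDerivAt hB hls H hτ P hP z).fderiv
    rw [Nat.cast_add, Nat.cast_one, contDiff_succ_iff_fderiv]
    refine ⟨fun z => (sit_hasFDerivAt hB hls H hτ P hP z).differentiableAt, fun h => ?_, ?_⟩
    · exact absurd h (by simp)
    · rw [hfd, contDiff_clm_apply_iff]
      intro φ
      simp only [sitL_apply hB hls]
      unfold trSum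
      refine ContDiff.sum fun x hx => ContDiff.sum fun j hj => contDiff_const.mul ?_
      rw [Finset.mem_range] at hx hj
      exact ih (q + 1) _ (tr_att_isTr hτ hx (by omega)) _ (sit_uses_mul hP φ)

theorem sit_contDiff {B : GhB S} (hB : B.Ok) {ls : List (GhLv S ι)} (hls : GhAdm B 0 ls) (H : SitOne B ls)
    {q : ℕ} {τ : ℕ → ℕ → ℕ} (hτ : IsTr ls.length q τ) (P : (ℕ → S) → ℝ) (hP : TrUses q P) :
    ContDiff ℝ (⊤ : ℕ∞) fun z => trNu B ls q τ z P :=
  contDiff_infty.mpr fun n => sit_contDiff_nat hB hls H n q τ hτ P hP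

/-! ### mixed derivatives of a tree number -/

theorem sit_fderiv_apply {B : GhB S} (hB : B.Ok) {ls : List (GhLv S ι)} (hls : GhAdm B 0 ls) (H : SitOne B ls)
    {q : ℕ} {τ : ℕ → ℕ → ℕ} (hτ : IsTr ls.length q τ) (P : (ℕ → S) → ℝ) (hP : TrUses q P) (z φ : S → ℝ) :
    fderiv ℝ (fun z => trNu B ls q τ z P) z φ
      = trSum (trMs B ls) ls.length q τ fun τ₁ => trNu B ls (q + 1) τ₁ z fun σ => P σ * φ (σ q) := by
  rw [(sit_hasFDerivAt hB hls H hτ P hP z).fderiv, sitL_apply hB hls]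

/-- a signed sum of smooth functions is differentiated term by term -/
theorem sit_iter_trSum {E : Type*} [NormedAddCommGroup E] [NormedSpace ℝ E] (ms : ℕ → ℝ) (N q : ℕ) (τ : ℕ → ℕ → ℕ)
    (g : (ℕ → ℕ → ℕ) → E → ℝ)
    (hg : ∀ x j, x < q → j < N + 2 → ContDiff ℝ (⊤ : ℕ∞) (g (trAtt N q τ x j))) (k : ℕ) (z : E) (φ : Fin k → E) :
    iteratedFDeriv ℝ k (fun y => trSum ms N q τ fun τ₁ => g τ₁ y) z φ
      = trSum ms N q τ fun τ₁ => iteratedFDeriv ℝ k (g τ₁) z φ := by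
  unfold trSum
  have hk : ((k : ℕ∞) : WithTop ℕ∞) ≤ ((⊤ : ℕ∞) : WithTop ℕ∞) := WithTop.coe_le_coe.mpr le_top
  have h1 : ∀ x ∈ Finset.range q, ∀ j ∈ Finset.range (N + 2),
      ContDiffAt ℝ k (fun y => trWt ms N q τ x j * g (trAtt N q τ x j) y) z := by
    intro x hx j hj
    rw [Finset.mem_range] at hx hj
    exact (contDiff_const.mul ((hg x j hx hj).of_le hk)).contDiffAt
  rw [iteratedFDeriv_fun_sum_apply (fun x hx => ContDiffAt.sum fun j hj => h1 x hx j hj)]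
  rw [sum_apply]
  refine Finset.sum_congr rfl fun x hx => ?_
  rw [iteratedFDeriv_fun_sum_apply (fun j hj => h1 x hx j hj), sum_apply]
  refine Finset.sum_congr rfl fun j hj => ?_
  rw [Finset.mem_range] at hx hj
  have := iteratedFDeriv_const_smul_apply' (𝕜 := ℝ) (i := k) (a := trWt ms N q τ x j) (f := g (trAtt N q τ x j)) (x := z)
    ((hg x j hx hj).of_le hk).contDiffAt
  simp only [smul_eq_mul] at this
  rw [this]
  rfl

/-- **mixed source derivatives of a tree number**: the direction `φ i` is carried by the attached label `q + i` -/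
theorem sit_iter {B : GhB S} (hB : B.Ok) {ls : List (GhLv S ι)} (hls : GhAdm B 0 ls) (H : SitOne B ls) (k : ℕ) :
    ∀ (q : ℕ) (τ : ℕ → ℕ → ℕ), IsTr ls.length q τ → ∀ P : (ℕ → S) → ℝ, TrUses q P → ∀ (z : S → ℝ) (φ : Fin k → S → ℝ),
      iteratedFDeriv ℝ k (fun z => trNu B ls q τ z P) z φ
        = trSumK (trMs B ls) ls.length k q τ fun τ' => trNu B ls (q + k) τ' z fun σ =>
            P σ * ∏ i : Fin k, φ i (σ (q + i.1)) := by
  induction k with
  | zero =>
    intro q τ hτ P hP z φ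
    simp [trSumK]
  | succ k ih =>
    intro q τ hτ P hP z φ
    rw [sit_succ_nat (sit_contDiff hB hls H hτ P hP) k z φ]
    have h1 : (fun y => fderiv ℝ (fun z => trNu B ls q τ z P) y (φ 0))
        = fun y => trSum (trMs B ls) ls.length q τ fun τ₁ => trNu B ls (q + 1) τ₁ y fun σ => P σ * φ 0 (σ q) :=
      funext fun y => sit_fderiv_apply hB hls H hτ P hP y (φ 0)
    rw [h1, sit_iter_trSum (trMs B ls) ls.length q τ
      (fun τ₁ y => trNu B ls (q + 1) τ₁ y fun σ => P σ * φ 0 (σ q))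
      (fun x j hx hj => sit_contDiff hB hls H (tr_att_isTr hτ hx (by omega)) _ (sit_uses_mul hP (φ 0)))]
    show _ = trSum (trMs B ls) ls.length q τ fun τ₁ => trSumK (trMs B ls) ls.length k (q + 1) τ₁ _
    unfold trSum
    refine Finset.sum_congr rfl fun x hx => Finset.sum_congr rfl fun j hj => ?_
    rw [Finset.mem_range] at hx hj
    beta_reduce
    rw [ih (q + 1) (trAtt ls.length q τ x j) (tr_att_isTr hτ hx (by omega)) _ (sit_uses_mul hP (φ 0)) z (Fin.tail φ)]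
    congr 2
    funext τ'
    rw [show q + 1 + k = q + (k + 1) by omega]
    congr 1
    funext σ
    rw [Fin.prod_univ_succ, mul_assoc]
    congr 2
    refine Finset.prod_congr rfl fun i _ => ?_
    simp only [Fin.tail, Fin.val_succ]
    rw [show q + 1 + i.1 = q + (i.1 + 1) by omega]

/-! ### the statements of Fd/TrC1 -/

/-- the tree numbers are smooth in the source, with bounds free of the hierarchy -/
theorem sit_nu_src_bounds {B : GhB S} (hB : B.Ok) {ls : List (GhLv S ι)} (hls : GhAdm B 0 ls) (H : SitOne B ls)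
    {q : ℕ} {τ : ℕ → ℕ → ℕ} (hτ : IsTr ls.length q τ) (P : (ℕ → S) → ℝ) (hP : TrUses q P) (M : ℝ) (hM : ∀ σ, |P σ| ≤ M) :
    ContDiff ℝ (⊤ : ℕ∞) (fun z => trNu B ls q τ z P) ∧ ∀ (k : ℕ) (z : S → ℝ),
      ‖iteratedFDeriv ℝ k (fun z => trNu B ls q τ z P) z‖ ≤ (2 * B.a) ^ k * (∏ i ∈ Finset.range k, ((q : ℝ) + i)) * M := by
  have ha := hB.pos
  have hM0 : 0 ≤ M := le_trans (abs_nonneg _) (hM fun _ => default)
  refine ⟨sit_contDiff hB hls H hτ P hP, fun k z => ?_⟩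
  refine ContinuousMultilinearMap.opNorm_le_bound (by positivity) fun φ => ?_
  rw [sit_iter hB hls H k q τ hτ P hP z φ, Real.norm_eq_abs]
  refine le_trans (sit_sumK_abs_le hB hls hτ k z _ (M * ∏ i, ‖φ i‖) fun σ => ?_) (le_of_eq (by ring))
  rw [abs_mul, Finset.abs_prod]
  exact mul_le_mul (hM σ) (Finset.prod_le_prod (fun _ _ => abs_nonneg _) fun i _ => norm_le_pi_norm (φ i) _)
    (Finset.prod_nonneg fun _ _ => abs_nonneg _) hM0

theorem sit_one_isTr (N : ℕ) : IsTr N 1 fun _ _ => N + 1 :=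
  ⟨fun _ _ _ _ => le_rfl, fun _ _ => rfl, fun _ _ _ _ => rfl, fun _ _ _ _ _ _ => by simp⟩

/-- mixed source derivatives of the continuation -/
theorem sit_F_src_iter {B : GhB S} (hB : B.Ok) {ls : List (GhLv S ι)} (hls : GhAdm B 0 ls) (H : SitOne B ls)
    (z : S → ℝ) (k : ℕ) (φ : Fin (k + 1) → S → ℝ) :
    iteratedFDeriv ℝ (k + 1) (ghF B ls) z φ
      = trSumK (trMs B ls) ls.length k 1 (fun _ _ => ls.length + 1) fun τ' => trNu B ls (1 + k) τ' z fun σ =>
          ∏ i : Fin (k + 1), φ i (σ i.1) := by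
  rw [sit_succ_nat (ghF_contDiff hB ls) k z φ]
  have h1 : (fun y => fderiv ℝ (ghF B ls) y (φ 0))
      = fun y => trNu B ls 1 (fun _ _ => ls.length + 1) y fun σ => φ 0 (σ 0) := by
    funext y
    rw [ghF_fderiv hB ls y (φ 0), tr_nu_one_leaf hB hls]
  have hU : TrUses 1 fun σ : ℕ → S => φ 0 (σ 0) := fun σ σ' h => by
    show φ 0 (σ 0) = φ 0 (σ' 0)
    rw [h 0 (by omega)]
  rw [h1, sit_iter hB hls H k 1 _ (sit_one_isTr ls.length) _ hU z (Fin.tail φ)]
  congr 1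
  funext τ'
  congr 1
  funext σ
  rw [Fin.prod_univ_succ]
  congr 1
  refine Finset.prod_congr rfl fun i _ => ?_
  simp only [Fin.tail, Fin.val_succ]
  rw [Nat.add_comm 1 i.1]

/-- Cor 2.10 -/
theorem sit_src_bounds {B : GhB S} (hB : B.Ok) {ls : List (GhLv S ι)} (hls : GhAdm B 0 ls) (H : SitOne B ls) :
    ContDiff ℝ (⊤ : ℕ∞) (ghF B ls) ∧ ∀ (k : ℕ) (z : S → ℝ), ‖iteratedFDeriv ℝ (k + 1) (ghF B ls) z‖ ≤ (2 * B.a) ^ k * k.factorial := by
  have ha := hB.pos
  refine ⟨ghF_contDiff hB ls, fun k z => ?_⟩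
  refine ContinuousMultilinearMap.opNorm_le_bound (by positivity) fun φ => ?_
  rw [sit_F_src_iter hB hls H z k φ, Real.norm_eq_abs]
  have hfac : (∏ i ∈ Finset.range k, (((1 : ℕ) : ℝ) + i)) = k.factorial := by
    rw [← Finset.prod_range_add_one_eq_factorial]
    push_cast
    exact Finset.prod_congr rfl fun i _ => add_comm _ _
  refine le_trans (sit_sumK_abs_le hB hls (sit_one_isTr ls.length) k z _ (∏ i, ‖φ i‖) fun σ => ?_) (le_of_eq (by rw [hfac]))
  rw [Finset.abs_prod]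
  exact Finset.prod_le_prod (fun _ _ => abs_nonneg _) fun i _ => norm_le_pi_norm (φ i) _

/-- a signed sum over `k` labels is differentiated term by term -/
theorem sit_sumK_hasDerivAt (ms : ℕ → ℝ) (N : ℕ) (k : ℕ) :
    ∀ (q : ℕ) (τ : ℕ → ℕ → ℕ), IsTr N q τ → ∀ (h : (ℕ → ℕ → ℕ) → ℝ → ℝ) (h' : (ℕ → ℕ → ℕ) → ℝ) (ε : ℝ),
      (∀ τ', IsTr N (q + k) τ' → HasDerivAt (h τ') (h' τ') ε) →
      HasDerivAt (fun ε => trSumK ms N k q τ fun τ' => h τ' ε) (trSumK ms N k q τ h') ε := by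
  induction k with
  | zero => intro q τ hτ h h' ε hh; exact hh τ hτ
  | succ k ih =>
    intro q τ hτ h h' ε hh
    simp only [trSumK, trSum]
    refine HasDerivAt.fun_sum fun x hx => HasDerivAt.fun_sum fun j hj => HasDerivAt.const_mul _ ?_
    rw [Finset.mem_range] at hx hj
    refine ih (q + 1) _ (tr_att_isTr hτ hx (by omega)) h h' ε fun τ' hτ' => hh τ' ?_
    rwa [show q + (k + 1) = q + 1 + k by omega]

/-- `k` source slots in the same direction -/
theorem sit_src_deriv_iter {B : GhB S} {ls : List (GhLv S ι)} (H : SitOne B ls) {q : ℕ} {τ : ℕ → ℕ → ℕ}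
    (hτ : IsTr ls.length q τ) (z φ : S → ℝ) (P : (ℕ → S) → ℝ) (hP : TrUses q P) (k : ℕ) (ε : ℝ) :
    iteratedDeriv k (fun ε : ℝ => trNu B ls q τ (z + ε • φ) P) ε
      = trSumK (trMs B ls) ls.length k q τ fun τ' => trNu B ls (q + k) τ' (z + ε • φ) fun σ =>
          P σ * ∏ i ∈ Finset.range k, φ (σ (q + i)) := by
  induction k generalizing ε with
  | zero => simp [trSumK]
  | succ k ih =>
    rw [iteratedDeriv_succ, funext ih]
    have hd := sit_sumK_hasDerivAt (trMs B ls) ls.length k q τ hτ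
      (fun τ' ε => trNu B ls (q + k) τ' (z + ε • φ) fun σ => P σ * ∏ i ∈ Finset.range k, φ (σ (q + i)))
      (fun τ' => trSum (trMs B ls) ls.length (q + k) τ' fun τ₁ => trNu B ls (q + k + 1) τ₁ (z + ε • φ) fun σ =>
        (P σ * ∏ i ∈ Finset.range k, φ (σ (q + i))) * φ (σ (q + k))) ε
      (fun τ' hτ' => sit_line_shift
        (f := fun z => trNu B ls (q + k) τ' z fun σ => P σ * ∏ i ∈ Finset.range k, φ (σ (q + i)))
        (L := fun z v => trSum (trMs B ls) ls.length (q + k) τ' fun τ₁ => trNu B ls (q + k + 1) τ₁ z fun σ =>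
          (P σ * ∏ i ∈ Finset.range k, φ (σ (q + i))) * v (σ (q + k)))
        (fun z v => H (q + k) τ' hτ' z v _ (sit_uses_prod hP φ k)) z φ ε)
    rw [hd.deriv, tr_sumK_add k 1]
    congr 1
    funext τ'
    show _ = trSum (trMs B ls) ls.length (q + k) τ' _
    congr 1
    funext τ₁
    simp only [trSumK]
    show _ = trNu B ls (q + k + 1) τ₁ (z + ε • φ) _
    congr 1
    funext σ
    rw [Finset.prod_range_succ, mul_assoc]

end

end Claimed.Agent.R286
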