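import Mathlib

/-!
# Row 286 (S0533), Fd/SrcSym : two tools of pure calculus      (helper156)

* `sit_symm`      : the iterated Frechet derivative of a smooth function is symmetric (Mathlib has it for analytic functions only);
* `sit_succ_nat`  : `D^{k+1} f [φ 0, .., φ k] = D^k (D f [φ 0]) [φ 1, .., φ k]`;
* `sit_frechet`   : line derivatives which are linear in the direction and uniformly bounded are Frechet derivatives (finite dimension).
-/

set_option autoImplicit false

namespace Claimed.Agent.R286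

section
variable {E F : Type*} [NormedAddCommGroup E] [NormedSpace ℝ E] [NormedAddCommGroup F] [NormedSpace ℝ F]

theorem sit_iter_contDiff {f : E → F} (hf : ContDiff ℝ (⊤ : ℕ∞) f) (n : ℕ) :
    ContDiff ℝ (⊤ : ℕ∞) (iteratedFDeriv ℝ n f) := by
  refine hf.iteratedFDeriv_right (m := (⊤ : ℕ∞)) ?_
  exact_mod_cast le_top

theorem sit_iter_apply_contDiff {f : E → F} (hf : ContDiff ℝ (⊤ : ℕ∞) f) (n : ℕ) (w : Fin n → E) :
    ContDiff ℝ (⊤ : ℕ∞) (fun y => iteratedFDeriv ℝ n f y w) :=
  (ContinuousMultilinearMap.apply ℝ (fun _ : Fin n => E) F w).contDiff.comp (sit_iter_contDiff hf n)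

theorem sit_left {f : E → F} (hf : ContDiff ℝ (⊤ : ℕ∞) f) (n : ℕ) (x : E) (v : Fin (n + 1) → E) :
    iteratedFDeriv ℝ (n + 1) f x v = fderiv ℝ (fun y => iteratedFDeriv ℝ n f y (Fin.tail v)) x (v 0) := by
  rw [iteratedFDeriv_succ_apply_left]
  have hd : DifferentiableAt ℝ (iteratedFDeriv ℝ n f) x :=
    ((sit_iter_contDiff hf n).differentiable (by simp)).differentiableAt
  exact (fderiv_continuousMultilinear_apply_const_apply hd (Fin.tail v) (v 0)).symm

theorem sit_two {f : E → F} (hf : ContDiff ℝ (⊤ : ℕ∞) f) (n : ℕ) (x : E) (v : Fin (n + 2) → E) :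
    iteratedFDeriv ℝ (n + 2) f x v
      = fderiv ℝ (fderiv ℝ fun y => iteratedFDeriv ℝ n f y (Fin.tail (Fin.tail v))) x (v 0) (v 1) := by
  rw [sit_left hf (n + 1) x v]
  have h1 : (fun y => iteratedFDeriv ℝ (n + 1) f y (Fin.tail v))
      = fun y => fderiv ℝ (fun y' => iteratedFDeriv ℝ n f y' (Fin.tail (Fin.tail v))) y (v 1) := by
    funext y
    rw [sit_left hf n y (Fin.tail v)]
    rfl
  rw [h1]
  have hg : ContDiff ℝ (⊤ : ℕ∞) (fun y' => iteratedFDeriv ℝ n f y' (Fin.tail (Fin.tail v))) :=
    sit_iter_apply_contDiff hf n _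
  have hd : DifferentiableAt ℝ (fderiv ℝ fun y' => iteratedFDeriv ℝ n f y' (Fin.tail (Fin.tail v))) x := by
    have : ContDiff ℝ (⊤ : ℕ∞) (fderiv ℝ fun y' => iteratedFDeriv ℝ n f y' (Fin.tail (Fin.tail v))) :=
      hg.fderiv_right (m := (⊤ : ℕ∞)) (by exact_mod_cast le_top)
    exact (this.differentiable (by simp)).differentiableAt
  have := (hd.hasFDerivAt.clm_apply (hasFDerivAt_const (v 1) x)).fderiv
  rw [this]
  simp

theorem sit_adj {f : E → F} (hf : ContDiff ℝ (⊤ : ℕ∞) f) (n : ℕ) :
    ∀ (x : E) (v : Fin (n + 1) → E) (i : Fin n),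
      iteratedFDeriv ℝ (n + 1) f x (v ∘ Equiv.swap i.castSucc i.succ) = iteratedFDeriv ℝ (n + 1) f x v := by
  induction n with
  | zero => intro x v i; exact i.elim0
  | succ m ih =>
    intro x v i
    refine Fin.cases ?_ (fun i' => ?_) i
    · -- swap 0 1
      rw [sit_two hf m x, sit_two hf m x]
      have e0 : (v ∘ Equiv.swap (Fin.castSucc (0 : Fin (m + 1))) (Fin.succ 0)) 0 = v 1 := by
        simp [Function.comp]
      have e1 : (v ∘ Equiv.swap (Fin.castSucc (0 : Fin (m + 1))) (Fin.succ 0)) 1 = v 0 := by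
        simp [Function.comp]
      have e2 : Fin.tail (Fin.tail (v ∘ Equiv.swap (Fin.castSucc (0 : Fin (m + 1))) (Fin.succ 0)))
          = Fin.tail (Fin.tail v) := by
        funext j
        simp only [Fin.tail, Function.comp]
        rw [Equiv.swap_apply_of_ne_of_ne (by simp [Fin.ext_iff]) (by simp [Fin.ext_iff])]
      rw [e0, e1, e2]
      have hg : ContDiff ℝ (⊤ : ℕ∞) (fun y' => iteratedFDeriv ℝ m f y' (Fin.tail (Fin.tail v))) :=
        sit_iter_apply_contDiff hf m _
      have hs : IsSymmSndFDerivAt ℝ (fun y' => iteratedFDeriv ℝ m f y' (Fin.tail (Fin.tail v))) x :=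
        hg.contDiffAt.isSymmSndFDerivAt (by
          rw [minSmoothness_of_isRCLikeNormedField]
          have : ((2 : ℕ∞) : WithTop ℕ∞) ≤ ((⊤ : ℕ∞) : WithTop ℕ∞) := WithTop.coe_le_coe.mpr le_top
          exact this)
      exact hs.eq _ _
    · rw [sit_left hf (m + 1) x, sit_left hf (m + 1) x]
      have e0 : (v ∘ Equiv.swap (Fin.castSucc i'.succ) (Fin.succ i'.succ)) 0 = v 0 := by
        simp only [Function.comp]
        rw [Equiv.swap_apply_of_ne_of_ne (by simp [Fin.ext_iff]) (by simp [Fin.ext_iff])]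
      have e1 : Fin.tail (v ∘ Equiv.swap (Fin.castSucc i'.succ) (Fin.succ i'.succ))
          = Fin.tail v ∘ Equiv.swap i'.castSucc i'.succ := by
        funext j
        simp only [Fin.tail, Function.comp]
        congr 1
        have : Fin.castSucc i'.succ = Fin.succ i'.castSucc := rfl
        rw [this]
        exact (Fin.succ_injective _).swap_apply _ _ _
      rw [e0, e1]
      have e2 : (fun y => iteratedFDeriv ℝ (m + 1) f y (Fin.tail v ∘ Equiv.swap i'.castSucc i'.succ))
          = fun y => iteratedFDeriv ℝ (m + 1) f y (Fin.tail v) := by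
        funext y
        exact ih y (Fin.tail v) i'
      rw [e2]

/-- the iterated derivative of a smooth function is symmetric -/
theorem sit_symm {f : E → F} (hf : ContDiff ℝ (⊤ : ℕ∞) f) (n : ℕ) (x : E) (v : Fin n → E) (σ : Equiv.Perm (Fin n)) :
    iteratedFDeriv ℝ n f x (v ∘ σ) = iteratedFDeriv ℝ n f x v := by
  cases n with
  | zero =>
    congr 1
    funext i
    exact i.elim0
  | succ n =>
    have hmem : σ ∈ Submonoid.closure (Set.range fun i : Fin n => Equiv.swap i.castSucc i.succ) := by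
      rw [Equiv.Perm.mclosure_swap_castSucc_succ]; trivial
    revert v
    induction hmem using Submonoid.closure_induction with
    | mem s hs =>
      obtain ⟨i, rfl⟩ := hs
      intro v
      exact sit_adj hf n x v i
    | one => intro v; rfl
    | mul a b _ _ iha ihb =>
      intro v
      have : v ∘ ⇑(a * b) = (v ∘ a) ∘ b := by
        funext j; simp [Function.comp]
      rw [this, ihb, iha]

/-- natural recursion: the first direction is differentiated first -/
theorem sit_succ_nat {f : E → F} (hf : ContDiff ℝ (⊤ : ℕ∞) f) (k : ℕ) (x : E) (φ : Fin (k + 1) → E) :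
    iteratedFDeriv ℝ (k + 1) f x φ = iteratedFDeriv ℝ k (fun y => fderiv ℝ f y (φ 0)) x (Fin.tail φ) := by
  rw [← sit_symm hf (k + 1) x φ (finRotate (k + 1)), iteratedFDeriv_succ_apply_right]
  have hc : ContDiff ℝ (⊤ : ℕ∞) (fun y => fderiv ℝ f y) := hf.fderiv_right (m := (⊤ : ℕ∞)) (by exact_mod_cast le_top)
  have e0 : (φ ∘ finRotate (k + 1)) (Fin.last k) = φ 0 := by
    simp [Function.comp]
  have e1 : Fin.init (φ ∘ finRotate (k + 1)) = Fin.tail φ := by
    funext i
    simp only [Fin.init, Fin.tail, Function.comp]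
    congr 1
    rw [finRotate_apply]
    exact Fin.coeSucc_eq_succ
  rw [e0, e1]
  exact (iteratedFDeriv_clm_apply_const_apply hc (i := k) (by exact_mod_cast le_top)).symm

end

section
variable {E : Type*} [NormedAddCommGroup E] [NormedSpace ℝ E]

theorem sit_line_shift {f : E → ℝ} {L : E → E → ℝ}
    (hL : ∀ z v, HasDerivAt (fun ε : ℝ => f (z + ε • v)) (L z v) 0) (z v : E) (t : ℝ) :
    HasDerivAt (fun ε : ℝ => f (z + ε • v)) (L (z + t • v) v) t := by
  have h := hL (z + t • v) v
  have h2 : HasDerivAt (fun s : ℝ => f (z + t • v + (s - t) • v)) (L (z + t • v) v) t := by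
    have h' : HasDerivAt (fun ε : ℝ => f (z + t • v + ε • v)) (L (z + t • v) v) (t - t) := by
      rw [sub_self]; exact h
    exact h'.comp_sub_const t t
  refine h2.congr_of_eventuallyEq (Filter.Eventually.of_forall fun s => ?_)
  show f (z + s • v) = f (z + t • v + (s - t) • v)
  congr 1
  rw [sub_smul]; abel

theorem sit_lip {f : E → ℝ} {L : E → E →L[ℝ] ℝ} {C : NNReal}
    (hL : ∀ z v, HasDerivAt (fun ε : ℝ => f (z + ε • v)) (L z v) 0) (hC : ∀ z, ‖L z‖ ≤ C) : LipschitzWith C f := by
  refine LipschitzWith.of_dist_le_mul fun y x => ?_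
  rw [dist_eq_norm, dist_eq_norm]
  have h := norm_image_sub_le_of_norm_deriv_le_segment_01' (f := fun t : ℝ => f (x + t • (y - x)))
    (f' := fun t => L (x + t • (y - x)) (y - x)) (C := C * ‖y - x‖)
    (fun t _ => (sit_line_shift (L := fun z v => L z v) hL x (y - x) t).hasDerivWithinAt)
    (fun t _ => le_trans ((L _).le_opNorm _) (mul_le_mul_of_nonneg_right (hC _) (norm_nonneg _)))
  simpa using h

/-- line derivatives, linear in the direction and uniformly bounded: Frechet derivative -/
theorem sit_frechet [FiniteDimensional ℝ E] {f : E → ℝ} {L : E → E →L[ℝ] ℝ} {C : NNReal}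
    (hL : ∀ z v, HasDerivAt (fun ε : ℝ => f (z + ε • v)) (L z v) 0) (hC : ∀ z, ‖L z‖ ≤ C) (z : E) :
    HasFDerivAt f (L z) z := by
  have : ProperSpace E := FiniteDimensional.proper ℝ E
  exact (sit_lip hL hC).hasFDerivAt_of_hasLineDerivAt_of_closure (s := Set.univ) (by simp) fun v _ => hL z v

end

end Claimed.Agent.R286
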