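import Claimed.Agent.R286.Fd.TrB3
import Claimed.Agent.R286.Fd.TrA2
import Claimed.Agent.R286.Fd.SrcIt
import Claimed.Agent.R286.Fd.SlotC

/-!
# Row 286 (S0533), Fd/TrC1 : SOURCE SLOTS: derivative in a common source = signed attachment of one label; Cor 2.10
architect helper150;  OWNER / PROVER of this file: helper134 (replace the `sorry`s in place, keep the statements, add imports as needed; a false statement = one line to helper150).
A leaf claimed by somebody else in claim286: he sends the proof to the owner or lands it here himself.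
-/

set_option autoImplicit false

namespace Claimed.Agent.R286

open MeasureTheory ProbabilityTheory

section
variable {S ι : Type} [Fintype S] [Fintype ι] [Inhabited S]

/-- one derivative slot: derivative in a common deterministic source = signed attachment of one label which carries the direction -/
theorem tr_src_deriv {B : GhB S} (hB : B.Ok) {ls : List (GhLv S ι)} (hls : GhAdm B 0 ls) {q : ℕ} {τ : ℕ → ℕ → ℕ}
    (hτ : IsTr ls.length q τ) (z φ : S → ℝ) (P : (ℕ → S) → ℝ) (hP : TrUses q P) :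
    HasDerivAt (fun ε : ℝ => trNu B ls q τ (z + ε • φ) P)
      (trSum (trMs B ls) ls.length q τ fun τ₁ => trNu B ls (q + 1) τ₁ z fun σ => P σ * φ (σ q)) 0 :=
  ghs_tr_src_deriv hB hls hτ z φ P hP

/-- `k` source slots in the same direction -/
theorem tr_src_deriv_iter {B : GhB S} (hB : B.Ok) {ls : List (GhLv S ι)} (hls : GhAdm B 0 ls) {q : ℕ} {τ : ℕ → ℕ → ℕ}
    (hτ : IsTr ls.length q τ) (z φ : S → ℝ) (P : (ℕ → S) → ℝ) (hP : TrUses q P) (k : ℕ) (ε : ℝ) :
    iteratedDeriv k (fun ε : ℝ => trNu B ls q τ (z + ε • φ) P) ε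
      = trSumK (trMs B ls) ls.length k q τ fun τ' => trNu B ls (q + k) τ' (z + ε • φ) fun σ =>
          P σ * ∏ i ∈ Finset.range k, φ (σ (q + i)) := by
  exact sit_src_deriv_iter (fun _ _ hτ z φ P hP => tr_src_deriv hB hls hτ z φ P hP) hτ z φ P hP k ε

/-- mixed source derivatives of the continuation: `D^{k+1} F [φ 0, .., φ k]` = signed sum over `k` labels attached to one leaf -/
theorem gh_F_src_iter {B : GhB S} (hB : B.Ok) {ls : List (GhLv S ι)} (hls : GhAdm B 0 ls) (z : S → ℝ) (k : ℕ)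
    (φ : Fin (k + 1) → S → ℝ) :
    iteratedFDeriv ℝ (k + 1) (ghF B ls) z φ
      = trSumK (trMs B ls) ls.length k 1 (fun _ _ => ls.length + 1) fun τ' => trNu B ls (1 + k) τ' z fun σ =>
          ∏ i : Fin (k + 1), φ i (σ i.1) := by
  exact sit_F_src_iter hB hls (fun _ _ hτ z φ P hP => tr_src_deriv hB hls hτ z φ P hP) z k φ

/-- TEX[PE:cor:found-source-bounds] Cor 2.10: source derivatives of the continuations, bounds free of the hierarchy (`S → ℝ` carries the sup norm) -/
theorem gh_src_bounds {B : GhB S} (hB : B.Ok) {ls : List (GhLv S ι)} (hls : GhAdm B 0 ls) :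
    ContDiff ℝ (⊤ : ℕ∞) (ghF B ls) ∧ ∀ (k : ℕ) (z : S → ℝ), ‖iteratedFDeriv ℝ (k + 1) (ghF B ls) z‖ ≤ (2 * B.a) ^ k * k.factorial := by
  exact sit_src_bounds hB hls (fun _ _ hτ z φ P hP => tr_src_deriv hB hls hτ z φ P hP)

/-- the tree numbers are smooth in the source, with bounds free of the hierarchy -/
theorem tr_nu_src_bounds {B : GhB S} (hB : B.Ok) {ls : List (GhLv S ι)} (hls : GhAdm B 0 ls) {q : ℕ} {τ : ℕ → ℕ → ℕ}
    (hτ : IsTr ls.length q τ) (P : (ℕ → S) → ℝ) (hP : TrUses q P) (M : ℝ) (hM : ∀ σ, |P σ| ≤ M) :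
    ContDiff ℝ (⊤ : ℕ∞) (fun z => trNu B ls q τ z P) ∧ ∀ (k : ℕ) (z : S → ℝ),
      ‖iteratedFDeriv ℝ k (fun z => trNu B ls q τ z P) z‖ ≤ (2 * B.a) ^ k * (∏ i ∈ Finset.range k, ((q : ℝ) + i)) * M := by
  exact sit_nu_src_bounds hB hls (fun _ _ hτ z φ P hP => tr_src_deriv hB hls hτ z φ P hP) hτ P hP M hM

end

end Claimed.Agent.R286
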