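import Claimed.Agent.R286.Fd.TrB4
import Claimed.Agent.R286.Gk.SplitNu

/-!
# Row 286 (S0533), Fd/TrC4 : semigroup: merging of two consecutive levels of equal mass
architect helper150;  OWNER / PROVER of this file: helper135.      PROVED (0 sorry); the raw forms (`ghs_F_merge_deep`, `ghs_eq_merge`, `ghs_N_merge`) are in `Gk/Split.lean`, `Gk/SplitNu.lean`.
-/

set_option autoImplicit false
set_option linter.unusedSectionVars false
set_option linter.unusedVariables false

namespace Claimed.Agent.R286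

open MeasureTheory ProbabilityTheory

section
variable {S Φ ι : Type} [Fintype S] [Fintype Φ] [Fintype ι] [Inhabited S]

omit [Fintype S] [Inhabited S] in
/-- covariance increment of a clocked level -/
theorem tr_c4_cov (feat : Φ → S → ι → ℝ) (m : ℝ) {v : Φ → ℝ} (hv : ∀ r, 0 ≤ v r) (s t : S) :
    (gcLv feat m v).cov s t = ∑ r, v r * gcKer feat r s t := by
  simp only [GhLv.cov, gcLv, gcKer]
  rw [Fintype.sum_prod_type]
  refine Finset.sum_congr rfl fun r _ => ?_
  rw [Finset.mul_sum]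
  refine Finset.sum_congr rfl fun i _ => ?_
  have := Real.mul_self_sqrt (hv r)
  calc Real.sqrt (v r) * feat r s i * (Real.sqrt (v r) * feat r t i)
      = (Real.sqrt (v r) * Real.sqrt (v r)) * (feat r s i * feat r t i) := by ring
    _ = _ := by rw [this]

omit [Fintype S] [Inhabited S] in
theorem tr_c4_cov_add (feat : Φ → S → ι → ℝ) (m : ℝ) {v w : Φ → ℝ} (hv : ∀ r, 0 ≤ v r) (hw : ∀ r, 0 ≤ w r) (s t : S) :
    (gcLv feat m fun r => v r + w r).cov s t = (gcLv feat m v).cov s t + (gcLv feat m w).cov s t := by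
  rw [tr_c4_cov feat m hv, tr_c4_cov feat m hw, tr_c4_cov feat m (fun r => add_nonneg (hv r) (hw r)),
    ← Finset.sum_add_distrib]
  exact Finset.sum_congr rfl fun r _ => by ring

omit [Fintype S] [Fintype Φ] [Fintype ι] [Inhabited S] in
theorem tr_c4_ls2 (feat : Φ → S → ι → ℝ) (h₁ h₂ : List (ℝ × (Φ → ℝ))) (m : ℝ) (v w : Φ → ℝ) :
    gcLs feat (h₁ ++ (m, v) :: (m, w) :: h₂) = gcLs feat h₁ ++ gcLv feat m v :: gcLv feat m w :: gcLs feat h₂ := by
  simp [gcLs]

omit [Fintype S] [Fintype Φ] [Fintype ι] [Inhabited S] in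
theorem tr_c4_ls1 (feat : Φ → S → ι → ℝ) (h₁ h₂ : List (ℝ × (Φ → ℝ))) (m : ℝ) (v : Φ → ℝ) :
    gcLs feat (h₁ ++ (m, v) :: h₂) = gcLs feat h₁ ++ gcLv feat m v :: gcLs feat h₂ := by
  simp [gcLs]

/-- the representatives of the tree with the depth `t` doubled -/
theorem tr_c4_rep (q : ℕ) (τ : ℕ → ℕ → ℕ) (t : ℕ) :
    (fun j => trRep q (fun x y => if t < τ x y then τ x y + 1 else τ x y) j) = ghsDbl t fun j => trRep q τ j := by
  funext j a
  unfold ghsDbl trRep
  by_cases hj : j ≤ t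
  · rw [if_pos hj]
    congr 2
    funext b
    congr 1
    apply propext
    simp only
    split_ifs with hb <;> omega
  · rw [if_neg hj]
    congr 2
    funext b
    congr 1
    apply propext
    simp only
    split_ifs with hb <;> omega

/-- semigroup: two consecutive levels of EQUAL mass may be merged into one if no pair of leaves splits between them -/
theorem tr_nu_merge {B : GhB S} (hB : B.Ok) (feat : Φ → S → ι → ℝ) {h₁ h₂ : List (ℝ × (Φ → ℝ))} {m : ℝ} {v w : Φ → ℝ}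
    (hv : ∀ r, 0 ≤ v r) (hw : ∀ r, 0 ≤ w r) (hadm : GhAdm B 0 (gcLs feat (h₁ ++ (m, v) :: (m, w) :: h₂)))
    {q : ℕ} {τ : ℕ → ℕ → ℕ} (hτ : IsTr (h₁.length + h₂.length + 1) q τ)
    (z : S → ℝ) (P : (ℕ → S) → ℝ) :
    trNu B (gcLs feat (h₁ ++ (m, v) :: (m, w) :: h₂)) q (fun x y => if h₁.length < τ x y then τ x y + 1 else τ x y) z P
      = trNu B (gcLs feat (h₁ ++ (m, fun r => v r + w r) :: h₂)) q τ z P := by
  have hnn : GhNn (gcLv feat m (fun r => v r + w r) :: gcLs feat h₂) := by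
    have h0 := hadm.ghNn le_rfl
    rw [tr_c4_ls2] at h0
    intro x hx
    rcases List.mem_cons.1 hx with rfl | hx
    · exact h0 (gcLv feat m v) (by simp)
    · exact h0 x (by simp [hx])
  have key := ghs_N_merge hB (gcLv feat m v) (gcLv feat m w) (gcLv feat m fun r => v r + w r) (gcLs feat h₂) hnn rfl rfl
    (tr_c4_cov_add feat m hv hw) (fun σ : Fin q → S => P (trExt σ)) (gcLs feat h₁) (fun j => trRep q τ j)
  have hlen : (gcLs feat h₁).length = h₁.length := by simp [gcLs]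
  unfold trNu
  rw [tr_c4_ls2, tr_c4_ls1, tr_c4_rep, ← hlen]
  exact congrFun key fun _ => z

theorem gh_F_merge {B : GhB S} (hB : B.Ok) (feat : Φ → S → ι → ℝ) {h₁ h₂ : List (ℝ × (Φ → ℝ))} {m : ℝ} {v w : Φ → ℝ}
    (hv : ∀ r, 0 ≤ v r) (hw : ∀ r, 0 ≤ w r) (z : S → ℝ) :
    ghF B (gcLs feat (h₁ ++ (m, v) :: (m, w) :: h₂)) z = ghF B (gcLs feat (h₁ ++ (m, fun r => v r + w r) :: h₂)) z := by
  rw [tr_c4_ls2, tr_c4_ls1]
  exact congrFun (ghs_F_merge_deep hB (gcLs feat h₁) (gcLv feat m v) (gcLv feat m w) (gcLv feat m fun r => v r + w r)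
    (gcLs feat h₂) rfl rfl (tr_c4_cov_add feat m hv hw)) z

end

end Claimed.Agent.R286
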