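import Mathlib

/-!
# Row 286 (S0533), Fd/TrCx : extension of a derivative to the end points of `[0,1]`      (owner helper150; Mathlib only)
-/

set_option autoImplicit false

namespace Claimed.Agent.R286

open Set Filter Topology

/-- `f` continuous on `[0,1]`, differentiable in `(0,1)` with derivative `g`, `g` continuous on `[0,1]`: then `g` is the derivative within `[0,1]` at every point. -/
theorem tr_deriv_extend {f g : ℝ → ℝ} (hf : ContinuousOn f (Icc 0 1)) (hg : ContinuousOn g (Icc 0 1))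
    (hd : ∀ θ ∈ Ioo (0 : ℝ) 1, HasDerivAt f (g θ) θ) {θ : ℝ} (hθ : θ ∈ Icc (0 : ℝ) 1) :
    HasDerivWithinAt f (g θ) (Icc 0 1) θ := by
  have hdiff : DifferentiableOn ℝ f (Ioo 0 1) := fun x hx => (hd x hx).differentiableAt.differentiableWithinAt
  have hsub : Ioo (0 : ℝ) 1 ⊆ Icc 0 1 := Ioo_subset_Icc_self
  rcases eq_or_lt_of_le hθ.1 with h0 | h0
  · subst h0
    have h1 : HasDerivWithinAt f (g 0) (Ici 0) 0 := by
      refine hasDerivWithinAt_Ici_of_tendsto_deriv hdiff ((hf 0 hθ).mono hsub) (Ioo_mem_nhdsGT one_pos) ?_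
      have h2 : Tendsto g (𝓝[Ioo 0 1] 0) (𝓝 (g 0)) := (hg 0 hθ).mono hsub
      have h3 : 𝓝[>] (0 : ℝ) = 𝓝[Ioo 0 1] 0 := (nhdsWithin_Ioo_eq_nhdsGT one_pos).symm
      rw [h3]
      refine h2.congr' ?_
      filter_upwards [self_mem_nhdsWithin] with x hx
      exact (hd x hx).deriv.symm
    exact h1.mono Icc_subset_Ici_self
  · rcases eq_or_lt_of_le hθ.2 with h1 | h1
    · subst h1
      have h1 : HasDerivWithinAt f (g 1) (Iic 1) 1 := by
        refine hasDerivWithinAt_Iic_of_tendsto_deriv hdiff ((hf 1 hθ).mono hsub) (Ioo_mem_nhdsLT one_pos) ?_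
        have h2 : Tendsto g (𝓝[Ioo 0 1] 1) (𝓝 (g 1)) := (hg 1 hθ).mono hsub
        have h3 : 𝓝[<] (1 : ℝ) = 𝓝[Ioo 0 1] 1 := (nhdsWithin_Ioo_eq_nhdsLT one_pos).symm
        rw [h3]
        refine h2.congr' ?_
        filter_upwards [self_mem_nhdsWithin] with x hx
        exact (hd x hx).deriv.symm
      exact h1.mono Icc_subset_Iic_self
    · exact (hd θ ⟨h0, h1⟩).hasDerivWithinAt

end Claimed.Agent.R286
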