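import Claimed.Agent.R286.Gh.Reg

/-!
# Row 286, Fd/TrD1 : one level of `ghNu` on spin tests IS an abstract tilted step on `Fin q → S → ℝ`      (owner helper131; prefix `trd_`, defs `nu*`; 0 sorry)

* closure: `BRegN.comp_clm`, `RegF.comp_clm`, `regF_const`, `RegF.add`, `regF_sum`, `bRegN_sum`, `bRegN_prod`, `tstE_sum`
* `nuS B ls rep G Q` = `ghNu` on the spin test `Q`;  `ghStdQ q ι` drivers of `q` labels;  `nuA l r` noise of one level on the fields of the `q` labels;
  `nuFh B ls r` the tilt (sum of the continuations over the classes);  `nuT B l ls r` = `tstE` of that step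
* `nuT_eq` (density form), **`nuS_cons_nuT`**, **`nuS_bRegN`** (smooth, all derivatives bounded, in the fields of the labels), `nuFh_fderiv`, `trd_marg`, `nuT_marg`,
  **`nuS_fderiv_cons`** (derivative of one level in the fields)
-/

set_option autoImplicit false
set_option linter.unusedSectionVars false

namespace Claimed.Agent.R286

open MeasureTheory ProbabilityTheory Filter Topology

noncomputable section

/-! ### more closure properties of `BRegN`, `RegF` -/

section closure

universe u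
variable {E : Type u} [NormedAddCommGroup E] [NormedSpace ℝ E]
variable {E' : Type u} [NormedAddCommGroup E'] [NormedSpace ℝ E']

theorem BRegN.comp_clm (L : E' →L[ℝ] E) (k : ℕ) :
    ∀ {G : Type u} [NormedAddCommGroup G] [NormedSpace ℝ G] {g : E → G}, BRegN k g → BRegN k (fun x => g (L x)) := by
  induction k with
  | zero =>
    intro G _ _ g hg
    obtain ⟨C, hC⟩ := hg.bdd
    exact bRegN_zero_iff.2 ⟨hg.continuous.comp L.continuous, C, fun x => hC _⟩
  | succ k ih =>
    intro G _ _ g hg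
    obtain ⟨⟨C, hC⟩, hd, hk⟩ := bRegN_succ_iff.1 hg
    have hd' : ∀ x, HasFDerivAt (fun x => g (L x)) ((fderiv ℝ g (L x)).comp L) x := fun x =>
      (hd (L x)).hasFDerivAt.comp x L.hasFDerivAt
    refine bRegN_succ_iff.2 ⟨⟨C, fun x => hC _⟩, fun x => (hd' x).differentiableAt, ?_⟩
    have he : fderiv ℝ (fun x => g (L x)) = fun x => (fderiv ℝ g (L x)).comp L := by
      funext x; exact (hd' x).fderiv
    rw [he]
    exact (ih hk).clm ((ContinuousLinearMap.compL ℝ E' E G).flip L)

theorem RegF.comp_clm {F : E → ℝ} (hF : RegF F) (L : E' →L[ℝ] E) : RegF (fun x => F (L x)) := by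
  have hd' : ∀ x, HasFDerivAt (fun x => F (L x)) ((fderiv ℝ F (L x)).comp L) x := fun x =>
    (hF.1 (L x)).hasFDerivAt.comp x L.hasFDerivAt
  refine ⟨fun x => (hd' x).differentiableAt, fun k => ?_⟩
  have he : fderiv ℝ (fun x => F (L x)) = fun x => (fderiv ℝ F (L x)).comp L := by
    funext x; exact (hd' x).fderiv
  rw [he]
  exact (BRegN.comp_clm L k (hF.2 k)).clm ((ContinuousLinearMap.compL ℝ E' E ℝ).flip L)

theorem regF_const (c : ℝ) : RegF (fun _ : E => c) := by
  refine ⟨differentiable_const c, fun k => ?_⟩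
  have : fderiv ℝ (fun _ : E => c) = fun _ => 0 := by funext x; simp
  rw [this]; exact bRegN_const k 0

theorem RegF.add {F₁ F₂ : E → ℝ} (h₁ : RegF F₁) (h₂ : RegF F₂) : RegF (fun x => F₁ x + F₂ x) := by
  refine ⟨h₁.1.add h₂.1, fun k => ?_⟩
  have : fderiv ℝ (fun x => F₁ x + F₂ x) = fun x => fderiv ℝ F₁ x + fderiv ℝ F₂ x := by
    funext x; exact fderiv_fun_add (h₁.1 x) (h₂.1 x)
  rw [this]; exact (h₁.2 k).add (h₂.2 k)

theorem regF_sum {κ : Type*} (s : Finset κ) {F : κ → E → ℝ} (h : ∀ i ∈ s, RegF (F i)) :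
    RegF (fun x => ∑ i ∈ s, F i x) := by
  classical
  induction s using Finset.induction_on with
  | empty => simpa using regF_const (E := E) 0
  | insert a s ha ih =>
    simp only [Finset.sum_insert ha]
    exact (h a (Finset.mem_insert_self a s)).add (ih fun i hi => h i (Finset.mem_insert_of_mem hi))

theorem bRegN_sum {G : Type*} [NormedAddCommGroup G] [NormedSpace ℝ G] {κ : Type*} (s : Finset κ) {k : ℕ}
    {g : κ → E → G} (h : ∀ i ∈ s, BRegN k (g i)) : BRegN k (fun x => ∑ i ∈ s, g i x) := by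
  classical
  induction s using Finset.induction_on with
  | empty => simpa using bRegN_const (E := E) k (0 : G)
  | insert a s ha ih =>
    simp only [Finset.sum_insert ha]
    exact (h a (Finset.mem_insert_self a s)).add (ih fun i hi => h i (Finset.mem_insert_of_mem hi))

theorem bRegN_prod {κ : Type*} (s : Finset κ) {k : ℕ}
    {g : κ → E → ℝ} (h : ∀ i ∈ s, BRegN k (g i)) : BRegN k (fun x => ∏ i ∈ s, g i x) := by
  classical
  induction s using Finset.induction_on with
  | empty => simpa using bRegN_const (E := E) k (1 : ℝ)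
  | insert a s ha ih =>
    simp only [Finset.prod_insert ha]
    exact (h a (Finset.mem_insert_self a s)).mul (ih fun i hi => h i (Finset.mem_insert_of_mem hi))

theorem tstE_sum {G : Type*} [NormedAddCommGroup G] [NormedSpace ℝ G] {Ω : Type*} [MeasurableSpace Ω]
    {μ : Measure Ω} {A : Ω → E} {m : ℝ} {F : E → ℝ} (hN : TstNoise μ A) (hF : RegF F) {κ : Type*}
    (s : Finset κ) {g : κ → E → G} (h : ∀ i ∈ s, BRegN 0 (g i)) (x : E) :
    tstE μ A m F (fun y => ∑ i ∈ s, g i y) x = ∑ i ∈ s, tstE μ A m F (g i) x := by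
  classical
  induction s using Finset.induction_on with
  | empty => simp [tstE, tstN, tstP]
  | insert a s ha ih =>
    simp only [Finset.sum_insert ha]
    rw [tstE_add hN hF (h a (Finset.mem_insert_self a s))
      (bRegN_sum s fun i hi => h i (Finset.mem_insert_of_mem hi)),
      ih fun i hi => h i (Finset.mem_insert_of_mem hi)]

end closure

variable {S ι : Type} [Fintype S] [Fintype ι]

/-! ### definitions -/

/-- tree number of a spin test -/
def nuS (B : GhB S) (ls : List (GhLv S ι)) {q : ℕ} (rep : ℕ → Fin q → Fin q) (G : Fin q → S → ℝ)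
    (Q : (Fin q → S) → ℝ) : ℝ := ghNu B ls rep G fun _ σ => Q σ

/-- drivers of `q` labels -/
def ghStdQ (q : ℕ) (ι : Type) [Fintype ι] : Measure (Fin q → ι → ℝ) := Measure.pi fun _ : Fin q => ghStd ι

instance ghStdQ_prob (q : ℕ) : IsProbabilityMeasure (ghStdQ q ι) := by unfold ghStdQ; infer_instance

/-- the noise of one level on the fields of `q` labels with classes `r` -/
def nuA (l : GhLv S ι) {q : ℕ} (r : Fin q → Fin q) (W : Fin q → ι → ℝ) : Fin q → S → ℝ := fun a => l.inc (W (r a))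

/-- the tilt: sum of the continuations over the classes -/
def nuFh (B : GhB S) (ls : List (GhLv S ι)) {q : ℕ} (r : Fin q → Fin q) (G : Fin q → S → ℝ) : ℝ :=
  ∑ a, if r a = a then ghF B ls (G a) else 0

/-- evaluation of the field of the label `a` -/
def nuEv (S : Type) [Fintype S] {q : ℕ} (a : Fin q) : (Fin q → S → ℝ) →L[ℝ] (S → ℝ) := ContinuousLinearMap.proj a

theorem nuS_nil (B : GhB S) {q : ℕ} (rep : ℕ → Fin q → Fin q) (G : Fin q → S → ℝ) (Q : (Fin q → S) → ℝ) :
    nuS (ι := ι) B [] rep G Q = ∑ σ : Fin q → S, (∏ a, ghGw B (G a) (σ a)) * Q fun a => σ (rep 0 a) := by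
  simp [nuS, ghNu]

theorem nuS_cons (B : GhB S) (l : GhLv S ι) (ls : List (GhLv S ι)) {q : ℕ} (rep : ℕ → Fin q → Fin q)
    (G : Fin q → S → ℝ) (Q : (Fin q → S) → ℝ) :
    nuS B (l :: ls) rep G Q = ∫ W, ghDT B l ls (rep 0) G W *
      nuS B ls (fun t => rep (t + 1)) (G + nuA l (rep 0) W) Q ∂ghStdQ q ι := by
  simp only [nuS, ghNu, ghStdQ]
  rfl

variable {B : GhB S}

theorem nuFh_regF (hB : B.Ok) (ls : List (GhLv S ι)) {q : ℕ} (r : Fin q → Fin q) : RegF (nuFh B ls r) := by
  unfold nuFh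
  refine regF_sum _ fun a _ => ?_
  by_cases h : r a = a
  · simp only [h, if_true]
    exact (ghF_regF hB ls).comp_clm (nuEv S a)
  · simp only [h, if_false]
    exact regF_const 0

theorem nuA_continuous (l : GhLv S ι) {q : ℕ} (r : Fin q → Fin q) : Continuous (nuA l r) :=
  continuous_pi fun a => l.inc_continuous.comp (continuous_apply (r a))

theorem trd_exp_l1 (q : ℕ) (s : ℝ) :
    Integrable (fun W : Fin q → ι → ℝ => Real.exp (s * ∑ a, ∑ p, |W a p|)) (ghStdQ q ι) := by
  have h := Integrable.fintype_prod (ι := Fin q) (f := fun _ (x : ι → ℝ) => Real.exp (s * ∑ p, |x p|))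
    (μ := fun _ => ghStd ι) (fun _ => ghq_exp_l1 s)
  refine h.congr (Eventually.of_forall fun g => ?_)
  simp only
  rw [← Real.exp_sum, Finset.mul_sum]

theorem nuA_norm_le (l : GhLv S ι) {q : ℕ} (r : Fin q → Fin q) (W : Fin q → ι → ℝ) :
    ‖nuA l r W‖ ≤ (∑ s, ∑ i, |l.A s i|) * ∑ a, ∑ i, |W a i| := by
  have hK : 0 ≤ ∑ s, ∑ i, |l.A s i| := Finset.sum_nonneg fun s _ => Finset.sum_nonneg fun i _ => abs_nonneg _
  have h0 : 0 ≤ (∑ s, ∑ i, |l.A s i|) * ∑ a, ∑ i, |W a i| :=
    mul_nonneg hK (Finset.sum_nonneg fun s _ => Finset.sum_nonneg fun i _ => abs_nonneg _)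
  refine (pi_norm_le_iff_of_nonneg h0).2 fun a => ?_
  refine (l.inc_norm_le (W (r a))).trans (mul_le_mul_of_nonneg_left ?_ hK)
  exact Finset.single_le_sum (f := fun a => ∑ i, |W a i|)
    (fun j _ => Finset.sum_nonneg fun i _ => abs_nonneg _) (Finset.mem_univ (r a))

theorem nuA_noise (l : GhLv S ι) {q : ℕ} (r : Fin q → Fin q) : TstNoise (ghStdQ q ι) (nuA l r) := by
  refine ⟨(nuA_continuous l r).aestronglyMeasurable, fun c => ?_⟩
  refine (trd_exp_l1 (ι := ι) q (|c| * ∑ s, ∑ i, |l.A s i|)).mono'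
    ((Real.continuous_exp.comp (continuous_const.mul (nuA_continuous l r).norm)).aestronglyMeasurable)
    (Eventually.of_forall fun ξ => ?_)
  rw [Real.norm_eq_abs, abs_of_pos (Real.exp_pos _)]
  refine Real.exp_le_exp.2 ?_
  calc c * ‖nuA l r ξ‖ ≤ |c| * ‖nuA l r ξ‖ := mul_le_mul_of_nonneg_right (le_abs_self c) (norm_nonneg _)
    _ ≤ |c| * ((∑ s, ∑ i, |l.A s i|) * ∑ a, ∑ i, |ξ a i|) :=
        mul_le_mul_of_nonneg_left (nuA_norm_le l r ξ) (abs_nonneg c)
    _ = _ := by ring

/-- the product of the transition densities is normalised -/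
theorem ghDT_integral (hB : B.Ok) (l : GhLv S ι) (ls : List (GhLv S ι)) {q : ℕ} (r : Fin q → Fin q)
    (G : Fin q → S → ℝ) : ∫ W, ghDT B l ls r G W ∂ghStdQ q ι = 1 := by
  unfold ghDT ghStdQ
  rw [integral_fintype_prod_eq_prod (fun a (w : ι → ℝ) => if r a = a then ghD B l ls (G a) w else 1)]
  refine Finset.prod_eq_one fun a _ => ?_
  by_cases h : r a = a
  · simp only [h, if_true]; exact ghD_integral hB l ls (G a)
  · simp [h]

theorem ghDT_eq (B : GhB S) (l : GhLv S ι) (ls : List (GhLv S ι)) {q : ℕ} (r : Fin q → Fin q)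
    (G : Fin q → S → ℝ) (W : Fin q → ι → ℝ) :
    ghDT B l ls r G W = Real.exp (l.m * nuFh B ls r (G + nuA l r W)) * Real.exp (-(l.m * nuFh B (l :: ls) r G)) := by
  unfold ghDT nuFh
  rw [← Real.exp_add, Finset.mul_sum, Finset.mul_sum, ← Finset.sum_neg_distrib, ← Finset.sum_add_distrib,
    Real.exp_sum]
  refine Finset.prod_congr rfl fun a _ => ?_
  by_cases h : r a = a
  · simp only [h, if_true, ghD, Pi.add_apply, nuA]
    congr 1; ring
  · simp [h]

/-- the tilted step of one level on the fields of the `q` labels -/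
def nuT (B : GhB S) (l : GhLv S ι) (ls : List (GhLv S ι)) {q : ℕ} (r : Fin q → Fin q)
    (g : (Fin q → S → ℝ) → ℝ) (G : Fin q → S → ℝ) : ℝ :=
  tstE (ghStdQ q ι) (nuA l r) l.m (nuFh B ls r) g G

theorem nuT_eq (hB : B.Ok) (l : GhLv S ι) (ls : List (GhLv S ι)) {q : ℕ} (r : Fin q → Fin q)
    (g : (Fin q → S → ℝ) → ℝ) (G : Fin q → S → ℝ) :
    nuT B l ls r g G = ∫ W, ghDT B l ls r G W * g (G + nuA l r W) ∂ghStdQ q ι := by
  have h1 := ghDT_integral hB l ls r G
  simp only [ghDT_eq] at h1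
  rw [integral_mul_const] at h1
  have hZ : (tstZ (ghStdQ q ι) (nuA l r) l.m (nuFh B ls r) G)⁻¹
      = Real.exp (-(l.m * nuFh B (l :: ls) r G)) := inv_eq_of_mul_eq_one_right h1
  rw [nuT, tstE, hZ, tstN, tstP, ← integral_smul]
  congr 1; funext W
  rw [ghDT_eq]
  simp only [smul_eq_mul]; ring

/-- **one level of the tree law on spin tests is a tilted step on the fields of the `q` labels** -/
theorem nuS_cons_nuT (hB : B.Ok) (l : GhLv S ι) (ls : List (GhLv S ι)) {q : ℕ} (rep : ℕ → Fin q → Fin q)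
    (Q : (Fin q → S) → ℝ) :
    (fun G => nuS B (l :: ls) rep G Q) = nuT B l ls (rep 0) (fun G' => nuS B ls (fun t => rep (t + 1)) G' Q) := by
  funext G
  rw [nuT_eq hB, nuS_cons]

theorem ghGw_bRegN (hB : B.Ok) (s : S) (k : ℕ) : BRegN k (fun z => ghGw B z s) := by
  classical
  have h := ghGav_bRegN hB k (fun t : S => if t = s then (1 : ℝ) else 0)
  have e : ghGav B (fun t : S => if t = s then (1 : ℝ) else 0) = fun z => ghGw B z s := by
    funext z; simp [ghGav]
  rwa [e] at h

/-- **the tree numbers of spin tests are smooth with bounded derivatives in the fields of the labels** -/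
theorem nuS_bRegN (hB : B.Ok) (ls : List (GhLv S ι)) {q : ℕ} (Q : (Fin q → S) → ℝ) (k : ℕ) :
    ∀ rep : ℕ → Fin q → Fin q, BRegN k (fun G => nuS B ls rep G Q) := by
  induction ls with
  | nil =>
    intro rep
    simp only [nuS_nil]
    refine bRegN_sum _ fun σ _ => BRegN.mul (bRegN_prod _ fun a _ => ?_) (bRegN_const k _)
    exact BRegN.comp_clm (nuEv S a) k (ghGw_bRegN hB (σ a) k)
  | cons l ls ih =>
    intro rep
    rw [nuS_cons_nuT hB]
    exact tstE_bRegN (nuA_noise l (rep 0)) (nuFh_regF hB ls (rep 0)) l.m k (ih _)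

theorem nuFh_fderiv (hB : B.Ok) (ls : List (GhLv S ι)) {q : ℕ} (r : Fin q → Fin q) (G V : Fin q → S → ℝ) :
    fderiv ℝ (nuFh B ls r) G V = ∑ a, if r a = a then ghE B ls (V a) (G a) else 0 := by
  have h : HasFDerivAt (nuFh B ls r)
      (∑ a, if r a = a then (fderiv ℝ (ghF B ls) (G a)).comp (nuEv S a) else 0) G := by
    unfold nuFh
    refine HasFDerivAt.fun_sum fun a _ => ?_
    by_cases h : r a = a
    · simp only [h, if_true]
      exact (ghF_hasFDerivAt hB ls (G a)).comp G (nuEv S a).hasFDerivAt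
    · simp only [h, if_false]
      exact hasFDerivAt_const _ _
  rw [h.fderiv, sum_apply]
  refine Finset.sum_congr rfl fun a _ => ?_
  by_cases h : r a = a
  · simp only [h, if_true, ContinuousLinearMap.comp_apply, ghF_fderiv hB]
    rfl
  · simp [h]

/-- marginal of the product of the transition densities on the driver of one class -/
theorem trd_marg (hB : B.Ok) (l : GhLv S ι) (ls : List (GhLv S ι)) {q : ℕ} (r : Fin q → Fin q)
    (G : Fin q → S → ℝ) (a : Fin q) (ha : r a = a) (g : (ι → ℝ) → ℝ) :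
    ∫ W, ghDT B l ls r G W * g (W a) ∂ghStdQ q ι = ∫ w, ghD B l ls (G a) w * g w ∂ghStd ι := by
  have e : ∀ W : Fin q → ι → ℝ, ghDT B l ls r G W * g (W a)
      = ∏ b, ((if r b = b then ghD B l ls (G b) (W b) else 1) * (if b = a then g (W b) else 1)) := by
    intro W
    rw [Finset.prod_mul_distrib, Finset.prod_ite_eq' Finset.univ a (fun b => g (W b))]
    simp [ghDT]
  simp only [e]
  unfold ghStdQ
  rw [integral_fintype_prod_eq_prod (fun b (w : ι → ℝ) =>
    (if r b = b then ghD B l ls (G b) w else 1) * (if b = a then g w else 1))]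
  rw [Finset.prod_eq_single a]
  · simp [ha]
  · intro b _ hb
    by_cases h : r b = b
    · simp only [h, hb, if_true, if_false, mul_one]; exact ghD_integral hB l ls (G b)
    · simp [h, hb]
  · intro h; exact absurd (Finset.mem_univ a) h

theorem nuT_marg (hB : B.Ok) (l : GhLv S ι) (ls : List (GhLv S ι)) {q : ℕ} (r : Fin q → Fin q)
    (G : Fin q → S → ℝ) (a : Fin q) (ha : r a = a) (Φ : S → ℝ) :
    nuT B l ls r (fun G' => ghE B ls Φ (G' a)) G = ghE B (l :: ls) Φ (G a) := by
  rw [nuT_eq hB]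
  have := trd_marg hB l ls r G a ha (fun w => ghE B ls Φ (G a + l.inc w))
  simp only [Pi.add_apply, nuA, ha]
  rw [this]
  simp [ghE]

/-- **derivative of one level in the fields** -/
theorem nuS_fderiv_cons (hB : B.Ok) (l : GhLv S ι) (ls : List (GhLv S ι)) {q : ℕ} (rep : ℕ → Fin q → Fin q)
    (Q : (Fin q → S) → ℝ) (G V : Fin q → S → ℝ) :
    fderiv ℝ (fun G => nuS B (l :: ls) rep G Q) G V =
      nuT B l ls (rep 0) (fun G' => fderiv ℝ (fun G => nuS B ls (fun t => rep (t + 1)) G Q) G' V) G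
      + l.m * ∑ a, (if rep 0 a = a then
          nuT B l ls (rep 0) (fun G' => ghE B ls (V a) (G' a) * nuS B ls (fun t => rep (t + 1)) G' Q) G
            - ghE B (l :: ls) (V a) (G a) * nuS B (l :: ls) rep G Q else 0) := by
  have hN := nuA_noise l (rep 0)
  have hF := nuFh_regF hB ls (rep 0)
  have hf := nuS_bRegN hB ls Q
  have hE : ∀ a : Fin q, BRegN 0 (fun G' : Fin q → S → ℝ => ghE B ls (V a) (G' a)) := fun a =>
    BRegN.comp_clm (nuEv S a) 0 (ghE_bRegN hB ls (V a) 0)
  have e0 : nuS B (l :: ls) rep G Q = nuT B l ls (rep 0) (fun G' => nuS B ls (fun t => rep (t + 1)) G' Q) G :=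
    congrFun (nuS_cons_nuT hB l ls rep Q) G
  rw [nuS_cons_nuT hB]
  unfold nuT
  rw [(tstE_hasFDerivAt hN hF l.m (hf 1 _) G).fderiv]
  simp only [add_apply, smul_apply, sub_apply, ContinuousLinearMap.smulRight_apply, smul_eq_mul]
  rw [tstE_apply hN hF (hf 1 _).fderiv_zero, tstE_apply hN hF ((hF.2 0).smulRight (hf 0 _)),
    tstE_apply hN hF (hF.2 0)]
  simp only [ContinuousLinearMap.smulRight_apply, smul_eq_mul, nuFh_fderiv hB]
  congr 2
  have hc : ∀ a : Fin q, BRegN 0 (fun y : Fin q → S → ℝ => if rep 0 a = a then ghE B ls (V a) (y a) else 0) := by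
    intro a
    by_cases h : rep 0 a = a
    · simp only [h, if_true]; exact hE a
    · simp only [h, if_false]; exact bRegN_const 0 0
  simp only [Finset.sum_mul]
  rw [tstE_sum hN hF _ (fun a _ => (hc a).mul (hf 0 _)), tstE_sum hN hF _ (fun a _ => hc a), Finset.sum_mul,
    ← Finset.sum_sub_distrib]
  refine Finset.sum_congr rfl fun a _ => ?_
  by_cases h : rep 0 a = a
  · simp only [h, if_true]
    have h2 := nuT_marg hB l ls (rep 0) G a h (V a)
    unfold nuT at h2 e0
    rw [h2, e0]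
  · simp [h, tstE, tstN, tstP]

end

end Claimed.Agent.R286
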